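import Crest.Agent.R083.Defs

/-!
Row 83 (S0111): Fubini on boxes of `E3` and the fundamental theorem of calculus for Lipschitz
functions in the third variable.
-/

set_option autoImplicit false

namespace Crest.Agent.R083

open MeasureTheory Set Filter
open scoped Gradient ENNReal NNReal Topology

@[simp] theorem pt_zero (a b c : ℝ) : pt a b c 0 = a := rfl
@[simp] theorem pt_one (a b c : ℝ) : pt a b c 1 = b := rfl
@[simp] theorem pt_two (a b c : ℝ) : pt a b c 2 = c := rfl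

theorem pt_eta (p : E3) : pt (p 0) (p 1) (p 2) = p := by
  ext i; fin_cases i <;> rfl

/-- The measurable equivalence between triples and points. -/
noncomputable def ptE : ℝ × ℝ × ℝ ≃ᵐ E3 :=
  ((MeasurableEquiv.refl ℝ).prodCongr (MeasurableEquiv.finTwoArrow (α := ℝ)).symm).trans
    ((MeasurableEquiv.piFinSuccAbove (fun _ : Fin 3 => ℝ) 0).symm.trans
      (MeasurableEquiv.toLp 2 (Fin 3 → ℝ)))

theorem ptE_apply (q : ℝ × ℝ × ℝ) : ptE q = pt q.1 q.2.1 q.2.2 := by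
  ext i; fin_cases i <;> rfl

theorem ptE_mp : MeasurePreserving ptE volume volume := by
  have h1 : MeasurePreserving
      ((MeasurableEquiv.refl ℝ).prodCongr (MeasurableEquiv.finTwoArrow (α := ℝ)).symm)
      (volume : Measure (ℝ × ℝ × ℝ)) (volume : Measure (ℝ × (Fin 2 → ℝ))) :=
    (MeasurePreserving.id volume).prod (volume_preserving_finTwoArrow ℝ).symm
  have h2 : MeasurePreserving (MeasurableEquiv.piFinSuccAbove (fun _ : Fin 3 => ℝ) 0).symm
      (volume : Measure (ℝ × (Fin 2 → ℝ))) (volume : Measure (Fin 3 → ℝ)) :=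
    (volume_preserving_piFinSuccAbove (fun _ : Fin 3 => ℝ) 0).symm
  have h3 : MeasurePreserving (MeasurableEquiv.toLp 2 (Fin 3 → ℝ))
      (volume : Measure (Fin 3 → ℝ)) (volume : Measure E3) :=
    PiLp.volume_preserving_toLp (Fin 3)
  exact h1.trans (h2.trans h3)

/-- A general closed box. -/
def cbox (a₀ b₀ a₁ b₁ a₂ b₂ : ℝ) : Set E3 :=
  {p | p 0 ∈ Icc a₀ b₀ ∧ p 1 ∈ Icc a₁ b₁ ∧ p 2 ∈ Icc a₂ b₂}

theorem ptE_preimage_cbox (a₀ b₀ a₁ b₁ a₂ b₂ : ℝ) :
    ptE ⁻¹' (cbox a₀ b₀ a₁ b₁ a₂ b₂) = Icc a₀ b₀ ×ˢ (Icc a₁ b₁ ×ˢ Icc a₂ b₂) := by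
  ext q; simp only [mem_preimage, ptE_apply, cbox, mem_ofPred_eq, mem_prod, pt_zero, pt_one, pt_two]

theorem measurableSet_cbox (a₀ b₀ a₁ b₁ a₂ b₂ : ℝ) :
    MeasurableSet (cbox a₀ b₀ a₁ b₁ a₂ b₂) := by
  rw [← ptE.measurableSet_preimage, ptE_preimage_cbox]
  exact measurableSet_Icc.prod (measurableSet_Icc.prod measurableSet_Icc)

theorem volume_cbox_lt_top (a₀ b₀ a₁ b₁ a₂ b₂ : ℝ) :
    volume (cbox a₀ b₀ a₁ b₁ a₂ b₂) < ∞ := by
  rw [← ptE_mp.measure_preimage_equiv, ptE_preimage_cbox]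
  exact (isCompact_Icc.prod (isCompact_Icc.prod isCompact_Icc)).measure_lt_top

/-- Fubini on a box. -/
theorem integral_cbox (a₀ b₀ a₁ b₁ a₂ b₂ : ℝ) (h0 : a₀ ≤ b₀) (h1 : a₁ ≤ b₁) (h2 : a₂ ≤ b₂)
    (f : E3 → ℝ) (hf : IntegrableOn f (cbox a₀ b₀ a₁ b₁ a₂ b₂)) :
    ∫ x in cbox a₀ b₀ a₁ b₁ a₂ b₂, f x =
      ∫ X in a₀..b₀, ∫ Y in a₁..b₁, ∫ t in a₂..b₂, f (pt X Y t) := by
  have hf' : IntegrableOn (fun q : ℝ × ℝ × ℝ => f (pt q.1 q.2.1 q.2.2))
      (Icc a₀ b₀ ×ˢ (Icc a₁ b₁ ×ˢ Icc a₂ b₂)) := by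
    have := (ptE_mp.integrableOn_comp_preimage ptE.measurableEmbedding
      (f := f) (s := cbox a₀ b₀ a₁ b₁ a₂ b₂)).2 hf
    rw [ptE_preimage_cbox] at this
    refine this.congr_fun (fun q _ => ?_)
      (measurableSet_Icc.prod (measurableSet_Icc.prod measurableSet_Icc))
    simp only [Function.comp_apply, ptE_apply]
  rw [← ptE_mp.setIntegral_preimage_emb ptE.measurableEmbedding, ptE_preimage_cbox]
  simp only [ptE_apply]
  rw [Measure.volume_eq_prod, setIntegral_prod _ (by rw [← Measure.volume_eq_prod]; exact hf')]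
  rw [intervalIntegral.integral_of_le h0, integral_Icc_eq_integral_Ioc]
  have hae : ∀ᵐ X ∂(volume.restrict (Ioc a₀ b₀)),
      IntegrableOn (fun q : ℝ × ℝ => f (pt X q.1 q.2)) (Icc a₁ b₁ ×ˢ Icc a₂ b₂) := by
    have h3 : Integrable (fun q : ℝ × ℝ × ℝ => f (pt q.1 q.2.1 q.2.2))
        ((volume.restrict (Icc a₀ b₀)).prod (volume.restrict (Icc a₁ b₁ ×ˢ Icc a₂ b₂))) := by
      rw [Measure.prod_restrict, ← Measure.volume_eq_prod]; exact hf'
    have h4 := h3.prod_right_ae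
    exact ae_restrict_of_ae_restrict_of_subset Ioc_subset_Icc_self h4
  refine integral_congr_ae ?_
  filter_upwards [hae] with X hX
  rw [Measure.volume_eq_prod, setIntegral_prod _ (by rw [← Measure.volume_eq_prod]; exact hX)]
  rw [intervalIntegral.integral_of_le h1, integral_Icc_eq_integral_Ioc]
  refine integral_congr_ae ?_
  filter_upwards with Y
  rw [intervalIntegral.integral_of_le h2, integral_Icc_eq_integral_Ioc]

/-- The line in the third direction. -/
theorem hasDerivAt_pt_two (f : E3 → ℝ) (X Y t : ℝ) (hf : DifferentiableAt ℝ f (pt X Y t)) :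
    HasDerivAt (fun s => f (pt X Y s)) (fderiv ℝ f (pt X Y t) (ee 2)) t := by
  have h1 : HasDerivAt (fun s : ℝ => pt X Y s) (ee 2) t := by
    have h2 : (fun s : ℝ => pt X Y s) = fun s => pt X Y 0 + s • ee 2 := by
      funext s
      ext i
      fin_cases i <;> simp [pt, ee]
    rw [h2]
    simpa using ((hasDerivAt_id t).smul_const (ee 2)).const_add (pt X Y 0)
  exact hf.hasFDerivAt.comp_hasDerivAt t h1

theorem lipschitz_pt_two (f : E3 → ℝ) (K : ℝ≥0) (hf : LipschitzWith K f) (X Y : ℝ) :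
    LipschitzWith K (fun s => f (pt X Y s)) := by
  have h1 : LipschitzWith 1 (fun s : ℝ => pt X Y s) := by
    refine LipschitzWith.of_dist_le_mul fun s t => ?_
    rw [EuclideanSpace.dist_eq]
    simp [Fin.sum_univ_three, Real.sqrt_sq_eq_abs, Real.dist_eq]
  have h2 := hf.comp h1
  rw [mul_one] at h2
  exact h2

theorem inner_gradient (f : E3 → ℝ) (x y : E3) : inner ℝ y (∇ f x) = fderiv ℝ f x y := by
  rw [real_inner_comm]
  simp [gradient]

theorem measurable_gradient (f : E3 → ℝ) : Measurable (∇ f) := by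
  unfold gradient
  exact (LinearIsometryEquiv.continuous _).measurable.comp (measurable_fderiv ℝ f)

theorem norm_gradient (f : E3 → ℝ) (x : E3) : ‖∇ f x‖ = ‖fderiv ℝ f x‖ := by
  simp [gradient]

theorem norm_gradient_le (f : E3 → ℝ) (K : ℝ≥0) (hf : LipschitzWith K f) (x : E3) :
    ‖∇ f x‖ ≤ K := by
  rw [norm_gradient]; exact norm_fderiv_le_of_lipschitz ℝ hf

/-- Integral of the third partial derivative over a box. -/
theorem ftc_cbox (a₀ b₀ a₁ b₁ a₂ b₂ : ℝ) (h0 : a₀ ≤ b₀) (h1 : a₁ ≤ b₁) (h2 : a₂ ≤ b₂)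
    (f : E3 → ℝ) (K : ℝ≥0) (hf : LipschitzWith K f) :
    ∫ x in cbox a₀ b₀ a₁ b₁ a₂ b₂, inner ℝ (ee 2) (∇ f x) =
      ∫ X in a₀..b₀, ∫ Y in a₁..b₁, (f (pt X Y b₂) - f (pt X Y a₂)) := by
  have hint : IntegrableOn (fun x => inner ℝ (ee 2) (∇ f x)) (cbox a₀ b₀ a₁ b₁ a₂ b₂) := by
    refine Measure.integrableOn_of_bounded (M := ‖ee 2‖ * K) (volume_cbox_lt_top _ _ _ _ _ _).ne ?_ ?_
    · exact (Measurable.inner measurable_const (measurable_gradient f)).aestronglyMeasurable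
    · filter_upwards with x
      exact (norm_inner_le_norm _ _).trans
        (mul_le_mul_of_nonneg_left (norm_gradient_le f K hf x) (norm_nonneg _))
  rw [integral_cbox _ _ _ _ _ _ h0 h1 h2 _ hint]
  have hae : ∀ᵐ q : ℝ × ℝ × ℝ, DifferentiableAt ℝ f (pt q.1 q.2.1 q.2.2) := by
    have h3 : ∀ᵐ x : E3, DifferentiableAt ℝ f x := hf.ae_differentiableAt
    have h4 := ptE_mp.quasiMeasurePreserving.ae h3
    filter_upwards [h4] with q hq
    rwa [ptE_apply] at hq
  have hae2 : ∀ᵐ X : ℝ, ∀ᵐ Y : ℝ, ∀ᵐ t : ℝ, DifferentiableAt ℝ f (pt X Y t) := by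
    rw [Measure.volume_eq_prod] at hae
    have h5 := Measure.ae_ae_of_ae_prod hae
    filter_upwards [h5] with X hX
    rw [Measure.volume_eq_prod] at hX
    exact Measure.ae_ae_of_ae_prod hX
  refine intervalIntegral.integral_congr_ae ?_
  filter_upwards [hae2] with X hX _
  refine intervalIntegral.integral_congr_ae ?_
  filter_upwards [hX] with Y hY _
  have hac : AbsolutelyContinuousOnInterval (fun s => f (pt X Y s)) a₂ b₂ :=
    ((lipschitz_pt_two f K hf X Y).lipschitzOnWith).absolutelyContinuousOnInterval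
  rw [← hac.integral_deriv_eq_sub]
  refine intervalIntegral.integral_congr_ae ?_
  filter_upwards [hY] with t ht _
  rw [(hasDerivAt_pt_two f X Y t ht).deriv, inner_gradient]

end Crest.Agent.R083
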