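import Crest.Agent.R083.TMDefs
import Crest.Agent.R083.BoxFubini

/-!
Row 83 (S0111), TM group: integrability at the tip and null sets.
-/

set_option autoImplicit false

namespace Crest.Agent.R083

open MeasureTheory Set Filter
open scoped Gradient ENNReal NNReal Topology

theorem tip_hyper_null (i : Fin 3) (c : ℝ) : volume {p : E3 | p i = c} = 0 := by
  have h1 : {p : E3 | p i = c} = ((fun p : E3 => p.ofLp) ⁻¹' {q : Fin 3 → ℝ | q i = c}) := rfl
  have h2 : MeasurableSet {q : Fin 3 → ℝ | q i = c} :=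
    measurableSet_eq_fun (measurable_pi_apply i) measurable_const
  have h3 := (PiLp.volume_preserving_ofLp (Fin 3)).measure_preimage h2.nullMeasurableSet
  rw [h1]
  refine h3.trans ?_
  have h4 : {q : Fin 3 → ℝ | q i = c} = Set.pi univ (fun j => if j = i then {c} else univ) := by
    ext q
    simp only [mem_ofPred_eq, Set.mem_pi, mem_univ, true_implies]
    constructor
    · intro h j
      by_cases hj : j = i
      · subst hj; simpa using h
      · simp [hj]
    · intro h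
      simpa using h i
  rw [h4, volume_pi_pi]
  exact Finset.prod_eq_zero (Finset.mem_univ i) (by simp)

/-- File `TipInt.lean`. -/
theorem volume_sin_zero (i : Fin 3) (k : ℕ) (l c : ℝ) (hl : l ≠ 0) :
    volume {p : E3 | Real.sin (Real.pi * 8 ^ k * (l * p i + c)) = 0} = 0 := by
  refine measure_mono_null (t := ⋃ n : ℤ, {p : E3 | p i = ((n : ℝ) / 8 ^ k - c) / l}) ?_
    (measure_iUnion_null fun n => tip_hyper_null i _)
  intro p hp
  rw [mem_ofPred_eq, Real.sin_eq_zero_iff] at hp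
  obtain ⟨n, hn⟩ := hp
  rw [mem_iUnion]
  refine ⟨n, ?_⟩
  have h8 : (8 : ℝ) ^ k ≠ 0 := by positivity
  have h1 : (n : ℝ) = 8 ^ k * (l * p i + c) := by
    have := Real.pi_ne_zero
    apply mul_right_cancel₀ this
    rw [hn]; ring
  rw [mem_ofPred_eq, h1]
  field_simp
  ring

theorem rsqrt_pos_int (b : ℝ) (hb : 0 ≤ b) :
    IntervalIntegrable (fun x : ℝ => (√|x|)⁻¹) volume 0 b := by
  have h := intervalIntegral.intervalIntegrable_rpow' (a := 0) (b := b) (r := -(1/2))
    (by norm_num)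
  refine h.congr ?_
  intro x hx
  rw [uIoc_of_le hb] at hx
  beta_reduce
  rw [abs_of_pos hx.1, Real.rpow_neg hx.1.le, Real.sqrt_eq_rpow]

/-- File `TipInt.lean`. The integrand of the horizontal bound of `green_box`. -/
theorem integrable_rsqrt (a b : ℝ) :
    IntervalIntegrable (fun x : ℝ => (√|x|)⁻¹) volume a b := by
  have h0 : ∀ b : ℝ, IntervalIntegrable (fun x : ℝ => (√|x|)⁻¹) volume 0 b := by
    intro b
    rcases le_total 0 b with hb | hb
    · exact rsqrt_pos_int b hb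
    · have h1 := rsqrt_pos_int (-b) (by linarith)
      rw [IntervalIntegrable.iff_comp_neg] at h1
      simpa using h1
  exact (h0 a).symm.trans (h0 b)

theorem integrable_rsqrt_shift (a b c : ℝ) :
    IntervalIntegrable (fun x : ℝ => (√|x - c|)⁻¹) volume a b := by
  have h := (integrable_rsqrt (a - c) (b - c)).comp_sub_right c
  simpa using h

theorem integrableOn_rsqrt_shift (a b c : ℝ) :
    IntegrableOn (fun x : ℝ => (√|x - c|)⁻¹) (Icc a b) volume := by
  rcases le_total a b with h | h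
  · rw [← intervalIntegrable_iff_integrableOn_Icc_of_le h]
    exact integrable_rsqrt_shift a b c
  · rcases h.eq_or_lt with h1 | h1
    · subst h1
      simp
    · rw [Icc_eq_empty (by linarith)]
      exact integrableOn_empty

/-- File `TipInt.lean`. -/
theorem integrable_tip (a₀ b₀ a₁ b₁ a₂ b₂ : ℝ) :
    IntegrableOn (fun p : E3 => (√(tip2 p))⁻¹) (cbox a₀ b₀ a₁ b₁ a₂ b₂) volume := by
  rw [← ptE_mp.integrableOn_comp_preimage ptE.measurableEmbedding, ptE_preimage_cbox]
  have h1 : Integrable (fun q : ℝ × ℝ × ℝ => (√|q.1 - 0|)⁻¹ * ((1 : ℝ) * (√|q.2.2 - 7/10|)⁻¹))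
      ((volume.restrict (Icc a₀ b₀)).prod ((volume.restrict (Icc a₁ b₁)).prod
        (volume.restrict (Icc a₂ b₂)))) := by
    have h2 : Integrable (fun _ : ℝ => (1 : ℝ)) (volume.restrict (Icc a₁ b₁)) := by
      exact integrable_const _
    have h3 := h2.mul_prod (integrableOn_rsqrt_shift a₂ b₂ (7/10))
    exact (integrableOn_rsqrt_shift a₀ b₀ 0).mul_prod h3
  rw [Measure.prod_restrict, Measure.prod_restrict, ← Measure.volume_eq_prod,
    ← Measure.volume_eq_prod] at h1
  refine Integrable.mono' h1 ?_ ?_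
  · refine Measurable.aestronglyMeasurable ?_
    have : Measurable (fun p : E3 => (√(tip2 p))⁻¹) := by
      unfold tip2
      have h0 : Measurable (fun p : E3 => p 0) := by fun_prop
      have h2 : Measurable (fun p : E3 => p 2) := by fun_prop
      fun_prop
    exact this.comp ptE.measurable
  · have hn0 : ∀ᵐ q : ℝ × ℝ × ℝ, q.1 ≠ 0 ∧ q.2.2 ≠ 7/10 := by
      have e0 : ∀ᵐ p : E3, p 0 ≠ 0 := measure_eq_zero_iff_ae_notMem.1 (tip_hyper_null 0 0)
      have e2 : ∀ᵐ p : E3, p 2 ≠ 7/10 := measure_eq_zero_iff_ae_notMem.1 (tip_hyper_null 2 (7/10))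
      have e3 := ptE_mp.quasiMeasurePreserving.ae (e0.and e2)
      filter_upwards [e3] with q hq
      rw [ptE_apply, pt_zero, pt_two] at hq
      exact hq
    refine ae_restrict_of_ae ?_
    filter_upwards [hn0] with q hq
    simp only [Function.comp_apply, ptE_apply, tip2, pt_zero, pt_two, sub_zero, one_mul]
    rw [Real.norm_of_nonneg (by positivity)]
    have p0 : 0 < |q.1| := abs_pos.2 hq.1
    have p2 : 0 < |q.2.2 - 7/10| := abs_pos.2 (sub_ne_zero.2 hq.2)
    rw [← mul_inv, ← Real.sqrt_mul p0.le]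
    refine inv_anti₀ (Real.sqrt_pos.2 (mul_pos p0 p2)) (Real.sqrt_le_sqrt ?_)
    have e1 : q.1 ^ 2 = |q.1| ^ 2 := (sq_abs _).symm
    have e2 : (q.2.2 - 7/10) ^ 2 = |q.2.2 - 7/10| ^ 2 := (sq_abs _).symm
    rw [e1, e2]
    nlinarith [sq_nonneg (|q.1| - |q.2.2 - 7/10|), mul_pos p0 p2]

/-- File `TipInt.lean`. -/
theorem volume_bx_diff (b : Box) : volume (bx b \ bxo b) = 0 := by
  have h : bx b \ bxo b ⊆ ⋃ i : Fin 3, ⋃ c ∈ ({0, 32/25, -(32/25), 22/25, -(22/25), 7/10, 3/5, 1} :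
      Finset ℝ), {p : E3 | p i = c} := by
    intro p hp
    by_contra hne
    simp only [mem_iUnion, not_exists, mem_ofPred_eq] at hne
    have hc : ∀ i : Fin 3, ∀ c ∈ ({0, 32/25, -(32/25), 22/25, -(22/25), 7/10, 3/5, 1} :
      Finset ℝ), p i ≠ c := fun i c hc h => hne i c hc h
    apply hp.2
    have hp1 := hp.1
    have h1 : ∀ c ∈ ({0, 32/25, -(32/25), 22/25, -(22/25), 7/10, 3/5, 1} : Finset ℝ),
      p 0 ≠ c ∧ p 1 ≠ c ∧ p 2 ≠ c := fun c hcm => ⟨hc 0 c hcm, hc 1 c hcm, hc 2 c hcm⟩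
    have a1 := h1 0 (by simp)
    have a2 := h1 (32/25) (by simp)
    have a3 := h1 (-(32/25)) (by simp)
    have a4 := h1 (22/25) (by simp)
    have a5 := h1 (-(22/25)) (by simp)
    have a6 := h1 (7/10) (by simp)
    have a7 := h1 (3/5) (by simp)
    have a8 := h1 1 (by simp)
    cases b
    · obtain ⟨b1, b2, b3, b4⟩ := hp1
      rw [abs_le] at b1 b2
      refine ⟨abs_lt.2 ⟨?_, ?_⟩, abs_lt.2 ⟨?_, ?_⟩, ?_, ?_⟩
      · exact lt_of_le_of_ne b1.1 (Ne.symm a3.1)
      · exact lt_of_le_of_ne b1.2 a2.1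
      · exact lt_of_le_of_ne b2.1 (Ne.symm a5.2.1)
      · exact lt_of_le_of_ne b2.2 a4.2.1
      · exact lt_of_le_of_ne b3 (Ne.symm a6.2.2)
      · exact lt_of_le_of_ne b4 a8.2.2
    · obtain ⟨b1, b1', b2, b3, b4⟩ := hp1
      rw [abs_le] at b2
      refine ⟨?_, ?_, abs_lt.2 ⟨?_, ?_⟩, ?_, ?_⟩
      · exact lt_of_le_of_ne b1 (Ne.symm a1.1)
      · exact lt_of_le_of_ne b1' a2.1
      · exact lt_of_le_of_ne b2.1 (Ne.symm a5.2.1)
      · exact lt_of_le_of_ne b2.2 a4.2.1
      · exact lt_of_le_of_ne b3 (Ne.symm a7.2.2)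
      · exact lt_of_le_of_ne b4 a6.2.2
    · obtain ⟨b1, b1', b2, b3, b4⟩ := hp1
      rw [abs_le] at b2
      refine ⟨?_, ?_, abs_lt.2 ⟨?_, ?_⟩, ?_, ?_⟩
      · exact lt_of_le_of_ne b1 (Ne.symm a3.1)
      · exact lt_of_le_of_ne b1' a1.1
      · exact lt_of_le_of_ne b2.1 (Ne.symm a5.2.1)
      · exact lt_of_le_of_ne b2.2 a4.2.1
      · exact lt_of_le_of_ne b3 (Ne.symm a7.2.2)
      · exact lt_of_le_of_ne b4 a6.2.2
  refine measure_mono_null h ?_
  refine measure_iUnion_null fun i => ?_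
  refine (measure_biUnion_null_iff (Finset.countable_toSet _)).2 fun c _ => ?_
  exact tip_hyper_null i c

end Crest.Agent.R083
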