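import Crest.Agent.R083.TMDefs
import Crest.Agent.R083.BoxFubini
import Crest.Agent.R083.TipInt

/-!
Row 83 (S0111), TM group: Lipschitz approximants near the tip (`approx_box`), helper286.
-/

set_option autoImplicit false

namespace Crest.Agent.R083

open MeasureTheory Set Filter
open scoped Gradient ENNReal NNReal Topology ContDiff

/-! ### the smooth transition -/

theorem apx_deriv_left {x : ℝ} (hx : x ≤ 0) : deriv Real.smoothTransition x = 0 := by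
  have h : IsLocalMin Real.smoothTransition x := by
    refine Eventually.of_forall fun y => ?_
    rw [Real.smoothTransition.zero_of_nonpos hx]
    exact Real.smoothTransition.nonneg y
  exact h.deriv_eq_zero

theorem apx_deriv_right {x : ℝ} (hx : 1 ≤ x) : deriv Real.smoothTransition x = 0 := by
  have h : IsLocalMax Real.smoothTransition x := by
    refine Eventually.of_forall fun y => ?_
    rw [Real.smoothTransition.one_of_one_le hx]
    exact Real.smoothTransition.le_one y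
  exact h.deriv_eq_zero

theorem apx_deriv_bound : ∃ T : ℝ, 0 ≤ T ∧ ∀ x, |deriv Real.smoothTransition x| ≤ T := by
  have hc : Continuous (deriv Real.smoothTransition) :=
    (Real.smoothTransition.contDiff (n := 1)).continuous_deriv (by norm_num)
  obtain ⟨B, hB⟩ := (isCompact_Icc (a := (0:ℝ)) (b := 1)).exists_bound_of_continuousOn
    hc.continuousOn
  refine ⟨max B 0, le_max_right _ _, fun x => ?_⟩
  rcases le_total x 0 with h | h
  · rw [apx_deriv_left h, abs_zero]; exact le_max_right _ _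
  rcases le_total 1 x with h' | h'
  · rw [apx_deriv_right h', abs_zero]; exact le_max_right _ _
  · exact (hB x ⟨h, h'⟩).trans (le_max_left _ _)

/-! ### the distance to the tip -/

theorem apx_norm_sq (x : E3) : ‖x‖ ^ 2 = x 0 ^ 2 + x 1 ^ 2 + x 2 ^ 2 := by
  rw [EuclideanSpace.norm_sq_eq, Fin.sum_univ_three]
  simp [Real.norm_eq_abs, sq_abs]

theorem tip2_nonneg (p : E3) : 0 ≤ tip2 p := by unfold tip2; positivity

/-- derivative of `tip2` -/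
noncomputable def tipD (p : E3) : E3 →L[ℝ] ℝ :=
  (2 * p 0) • (EuclideanSpace.proj (𝕜 := ℝ) 0 : E3 →L[ℝ] ℝ) +
    (2 * (p 2 - 7/10)) • (EuclideanSpace.proj (𝕜 := ℝ) 2 : E3 →L[ℝ] ℝ)

theorem tipD_apply (p v : E3) : tipD p v = 2 * p 0 * v 0 + 2 * (p 2 - 7/10) * v 2 := rfl

theorem hasFDerivAt_tip2 (p : E3) : HasFDerivAt tip2 (tipD p) p := by
  have h0 : HasFDerivAt (fun p : E3 => p 0) (EuclideanSpace.proj (𝕜 := ℝ) 0 : E3 →L[ℝ] ℝ) p :=
    (EuclideanSpace.proj (𝕜 := ℝ) 0 : E3 →L[ℝ] ℝ).hasFDerivAt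
  have h2 : HasFDerivAt (fun p : E3 => p 2 - 7/10)
      (EuclideanSpace.proj (𝕜 := ℝ) 2 : E3 →L[ℝ] ℝ) p :=
    ((EuclideanSpace.proj (𝕜 := ℝ) 2 : E3 →L[ℝ] ℝ).hasFDerivAt).sub_const _
  have h := (h0.pow 2).add (h2.pow 2)
  refine h.congr_fderiv ?_
  ext v
  simp [tipD]

theorem norm_tipD_le (p : E3) : ‖tipD p‖ ≤ 2 * √(tip2 p) := by
  refine ContinuousLinearMap.opNorm_le_bound _ (by positivity) fun v => ?_
  rw [tipD_apply, Real.norm_eq_abs]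
  refine abs_le_of_sq_le_sq ?_ (by positivity)
  rw [mul_pow, mul_pow, Real.sq_sqrt (tip2_nonneg p), apx_norm_sq]
  unfold tip2
  nlinarith [sq_nonneg (p 0 * v 2 - (p 2 - 7/10) * v 0), sq_nonneg (p 0 * v 1),
    sq_nonneg ((p 2 - 7/10) * v 1), sq_nonneg (v 1), sq_nonneg (p 0), sq_nonneg (p 2 - 7/10)]

/-- derivative of the cutoff -/
noncomputable def cutD (j : ℕ) (p : E3) : E3 →L[ℝ] ℝ :=
  (deriv Real.smoothTransition ((j : ℝ) * tip2 p - 1) * (j : ℝ)) • tipD p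

theorem hasFDerivAt_cut (j : ℕ) (p : E3) : HasFDerivAt (cut j) (cutD j p) p := by
  have h1 : HasFDerivAt (fun p : E3 => (j : ℝ) * tip2 p - 1) ((j : ℝ) • tipD p) p :=
    ((hasFDerivAt_tip2 p).const_mul (j : ℝ)).sub_const 1
  have h2 : HasDerivAt Real.smoothTransition (deriv Real.smoothTransition ((j : ℝ) * tip2 p - 1))
      ((j : ℝ) * tip2 p - 1) :=
    ((Real.smoothTransition.contDiff (n := 1)).differentiable (by norm_num) _).hasDerivAt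
  have h3 := h2.comp_hasFDerivAt p h1
  refine h3.congr_fderiv ?_
  unfold cutD
  rw [smul_smul]

theorem cut_eq_zero {j : ℕ} {p : E3} (h : (j : ℝ) * tip2 p ≤ 1) : cut j p = 0 :=
  Real.smoothTransition.zero_of_nonpos (by linarith)

theorem cut_eq_one {j : ℕ} {p : E3} (h : 2 ≤ (j : ℝ) * tip2 p) : cut j p = 1 :=
  Real.smoothTransition.one_of_one_le (by linarith)

theorem cut_nonneg (j : ℕ) (p : E3) : 0 ≤ cut j p := Real.smoothTransition.nonneg _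

theorem cut_le_one (j : ℕ) (p : E3) : cut j p ≤ 1 := Real.smoothTransition.le_one _

theorem cutD_zero_left {j : ℕ} {p : E3} (h : (j : ℝ) * tip2 p ≤ 1) : cutD j p = 0 := by
  unfold cutD
  rw [apx_deriv_left (by linarith), zero_mul, zero_smul]

theorem cutD_zero_right {j : ℕ} {p : E3} (h : 2 ≤ (j : ℝ) * tip2 p) : cutD j p = 0 := by
  unfold cutD
  rw [apx_deriv_right (by linarith), zero_mul, zero_smul]

theorem norm_cutD_le {T : ℝ} (hT : ∀ x, |deriv Real.smoothTransition x| ≤ T) {j : ℕ} {p : E3}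
    (hp : 0 < tip2 p) : ‖cutD j p‖ ≤ 4 * T / √(tip2 p) := by
  have hT0 : 0 ≤ T := (abs_nonneg _).trans (hT 0)
  have hs : 0 < √(tip2 p) := Real.sqrt_pos.mpr hp
  have hsq : √(tip2 p) * √(tip2 p) = tip2 p := Real.mul_self_sqrt hp.le
  rcases le_or_gt 2 ((j : ℝ) * tip2 p) with h | h
  · rw [cutD_zero_right h, norm_zero]; positivity
  · unfold cutD
    rw [norm_smul, Real.norm_eq_abs, abs_mul, Nat.abs_cast]
    have hj : (j : ℝ) ≤ 2 / tip2 p := by rw [le_div_iff₀ hp]; exact h.le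
    calc |deriv Real.smoothTransition ((j : ℝ) * tip2 p - 1)| * (j : ℝ) * ‖tipD p‖
        ≤ T * (2 / tip2 p) * (2 * √(tip2 p)) := by
          refine mul_le_mul (mul_le_mul (hT _) hj (by positivity) hT0) (norm_tipD_le p)
            (norm_nonneg _) (by positivity)
      _ = 4 * T / √(tip2 p) := by
          have e : 2 / tip2 p = 2 / (√(tip2 p) * √(tip2 p)) := by rw [hsq]
          rw [e]
          field_simp
          ring

/-! ### gradients and derivatives -/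

theorem apx_grad_sub (f g : E3 → ℝ) (x : E3) :
    ‖∇ f x - ∇ g x‖ = ‖fderiv ℝ f x - fderiv ℝ g x‖ := by
  unfold gradient
  rw [← map_sub, LinearIsometryEquiv.norm_map]

theorem apx_hyperplane (i : Fin 3) (c : ℝ) : volume {p : E3 | p i = c} = 0 := by
  have h3 : MeasurePreserving (MeasurableEquiv.toLp 2 (Fin 3 → ℝ))
      (volume : Measure (Fin 3 → ℝ)) (volume : Measure E3) :=
    PiLp.volume_preserving_toLp (Fin 3)
  rw [← h3.measure_preimage_equiv]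
  have : (MeasurableEquiv.toLp 2 (Fin 3 → ℝ)) ⁻¹' {p : E3 | p i = c} = {f | f i = c} := rfl
  rw [this]
  exact Measure.pi_hyperplane (α := fun _ : Fin 3 => ℝ) (fun _ => volume) i c

/-- the open box -/
def obox (a₀ b₀ a₁ b₁ a₂ b₂ : ℝ) : Set E3 :=
  {p | p 0 ∈ Ioo a₀ b₀ ∧ p 1 ∈ Ioo a₁ b₁ ∧ p 2 ∈ Ioo a₂ b₂}

theorem isOpen_obox (a₀ b₀ a₁ b₁ a₂ b₂ : ℝ) : IsOpen (obox a₀ b₀ a₁ b₁ a₂ b₂) := by
  have h : ∀ i : Fin 3, Continuous (fun p : E3 => p i) := fun i => by fun_prop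
  exact ((isOpen_Ioo.preimage (h 0))).inter ((isOpen_Ioo.preimage (h 1)).inter
    (isOpen_Ioo.preimage (h 2)))

theorem ae_obox (a₀ b₀ a₁ b₁ a₂ b₂ : ℝ) :
    ∀ᵐ p ∂(volume.restrict (cbox a₀ b₀ a₁ b₁ a₂ b₂)), p ∈ obox a₀ b₀ a₁ b₁ a₂ b₂ := by
  have hn : ∀ (i : Fin 3) (c : ℝ), ∀ᵐ p : E3, p i ≠ c := fun i c => by
    have := apx_hyperplane i c
    exact measure_eq_zero_iff_ae_notMem.mp this
  rw [ae_restrict_iff' (measurableSet_cbox _ _ _ _ _ _)]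
  filter_upwards [hn 0 a₀, hn 0 b₀, hn 1 a₁, hn 1 b₁, hn 2 a₂, hn 2 b₂] with p h1 h2 h3 h4 h5 h6 hp
  obtain ⟨k0, k1, k2⟩ := hp
  exact ⟨⟨lt_of_le_of_ne k0.1 h1.symm, lt_of_le_of_ne k0.2 h2⟩,
    ⟨lt_of_le_of_ne k1.1 h3.symm, lt_of_le_of_ne k1.2 h4⟩,
    ⟨lt_of_le_of_ne k2.1 h5.symm, lt_of_le_of_ne k2.2 h6⟩⟩

/-! ### the main statement, with the integrability of the weight as a hypothesis -/

theorem approx_box_aux (a₀ b₀ a₁ b₁ a₂ b₂ : ℝ) (h0 : a₀ < b₀) (h1 : a₁ < b₁) (h2 : a₂ < b₂)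
    (htip : 7 / 10 ∉ Ioo a₂ b₂) (w : E3 → ℝ) (N0 : ℝ)
    (hw : ContDiffOn ℝ ∞ w {p | a₂ < p 2 ∧ p 2 < b₂})
    (hgr : ∀ p : E3, p 0 ∈ Icc a₀ b₀ → p 1 ∈ Icc a₁ b₁ → a₂ < p 2 → p 2 < b₂ →
      ‖∇ w p‖ ^ 2 * √(tip2 p) ≤ N0)
    (hval : ∀ p : E3, p 0 ∈ Icc a₀ b₀ → p 1 ∈ Icc a₁ b₁ → a₂ < p 2 → p 2 < b₂ →
      (w p) ^ 2 ≤ N0 * √(tip2 p))
    (hint : IntegrableOn (fun p : E3 => (√(tip2 p))⁻¹) (cbox a₀ b₀ a₁ b₁ a₂ b₂) volume) :
    IntegrableOn (fun x => ‖∇ w x‖ ^ 2) (cbox a₀ b₀ a₁ b₁ a₂ b₂) volume ∧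
    ∃ wj : ℕ → E3 → ℝ, (∀ j, ∃ K : ℝ≥0, LipschitzWith K (wj j)) ∧
      (∀ (j : ℕ) (p : E3), p 0 ∈ Icc a₀ b₀ → p 1 ∈ Icc a₁ b₁ → a₂ < p 2 → p 2 < b₂ →
        wj j p = cut j p * w p) ∧
      Tendsto (fun j => ∫ x in cbox a₀ b₀ a₁ b₁ a₂ b₂, ‖∇ (wj j) x - ∇ w x‖ ^ 2) atTop (𝓝 0) := by
  obtain ⟨T, hT0, hT⟩ := apx_deriv_bound
  -- the sets
  set S : Set E3 := {p | p 0 ∈ Icc a₀ b₀ ∧ p 1 ∈ Icc a₁ b₁ ∧ p 2 ∈ Ioo a₂ b₂} with hS
  have hslab : IsOpen {p : E3 | a₂ < p 2 ∧ p 2 < b₂} := by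
    have h : Continuous (fun p : E3 => p 2) := by fun_prop
    exact isOpen_Ioo.preimage h
  have htp : ∀ p ∈ S, 0 < tip2 p := by
    intro p hp
    have hne : p 2 - 7/10 ≠ 0 := by
      intro h
      apply htip
      have h' : (7/10 : ℝ) = p 2 := by linarith
      rw [h']; exact hp.2.2
    unfold tip2
    have := sq_pos_of_ne_zero hne
    nlinarith [sq_nonneg (p 0)]
  have hwd : ∀ p ∈ S, HasFDerivAt w (fderiv ℝ w p) p := fun p hp =>
    ((hw.contDiffAt (hslab.mem_nhds hp.2.2)).differentiableAt (by simp)).hasFDerivAt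
  have hgrS : ∀ p ∈ S, ‖fderiv ℝ w p‖ ^ 2 ≤ N0 / √(tip2 p) := by
    intro p hp
    have := hgr p hp.1 hp.2.1 hp.2.2.1 hp.2.2.2
    rw [norm_gradient] at this
    rwa [le_div_iff₀ (Real.sqrt_pos.mpr (htp p hp))]
  have hvalS : ∀ p ∈ S, w p ^ 2 ≤ N0 * √(tip2 p) := fun p hp =>
    hval p hp.1 hp.2.1 hp.2.2.1 hp.2.2.2
  have hN : 0 ≤ N0 := by
    set q : E3 := pt ((a₀ + b₀) / 2) ((a₁ + b₁) / 2) ((a₂ + b₂) / 2) with hq
    have hqS : q ∈ S := by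
      refine ⟨⟨?_, ?_⟩, ⟨?_, ?_⟩, ⟨?_, ?_⟩⟩ <;> simp only [hq, pt_zero, pt_one, pt_two] <;> linarith
    have h3 := hvalS q hqS
    have h4 := Real.sqrt_pos.mpr (htp q hqS)
    by_contra hneg
    push Not at hneg
    nlinarith [sq_nonneg (w q)]
  -- derivative of the cut function
  have hprod : ∀ (j : ℕ), ∀ p ∈ S, HasFDerivAt (fun p => cut j p * w p)
      (cut j p • fderiv ℝ w p + w p • cutD j p) p := fun j p hp =>
    (hasFDerivAt_cut j p).mul (hwd p hp)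
  set A := 2 * (1 + 16 * T ^ 2) * N0 with hA
  have hA0 : 0 ≤ A := by positivity
  -- pointwise bounds
  have hwc : ∀ (j : ℕ), ∀ p ∈ S, ‖w p • cutD j p‖ ^ 2 ≤ 16 * T ^ 2 * N0 / √(tip2 p) := by
    intro j p hp
    have hs : 0 < √(tip2 p) := Real.sqrt_pos.mpr (htp p hp)
    rw [norm_smul, mul_pow, Real.norm_eq_abs, sq_abs]
    have hc := norm_cutD_le hT (j := j) (htp p hp)
    have hc2 : ‖cutD j p‖ ^ 2 ≤ (4 * T / √(tip2 p)) ^ 2 := pow_le_pow_left₀ (norm_nonneg _) hc 2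
    calc w p ^ 2 * ‖cutD j p‖ ^ 2 ≤ (N0 * √(tip2 p)) * (4 * T / √(tip2 p)) ^ 2 :=
          mul_le_mul (hvalS p hp) hc2 (sq_nonneg _) (by positivity)
      _ = 16 * T ^ 2 * N0 / √(tip2 p) := by field_simp; ring
  have hsum : ∀ (a b : E3 →L[ℝ] ℝ), ‖a + b‖ ^ 2 ≤ 2 * (‖a‖ ^ 2 + ‖b‖ ^ 2) := by
    intro a b
    have h3 := norm_add_le a b
    have h4 : ‖a + b‖ ^ 2 ≤ (‖a‖ + ‖b‖) ^ 2 := pow_le_pow_left₀ (norm_nonneg _) h3 2
    nlinarith [sq_nonneg (‖a‖ - ‖b‖)]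
  have hb1 : ∀ (j : ℕ), ∀ p ∈ S, ‖cut j p • fderiv ℝ w p + w p • cutD j p‖ ^ 2 ≤
      A / √(tip2 p) := by
    intro j p hp
    have hs : 0 < √(tip2 p) := Real.sqrt_pos.mpr (htp p hp)
    have e1 : ‖cut j p • fderiv ℝ w p‖ ^ 2 ≤ N0 / √(tip2 p) := by
      refine le_trans ?_ (hgrS p hp)
      rw [norm_smul, Real.norm_eq_abs, abs_of_nonneg (cut_nonneg j p), mul_pow]
      have : cut j p ^ 2 ≤ 1 := pow_le_one₀ (cut_nonneg j p) (cut_le_one j p)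
      nlinarith [sq_nonneg ‖fderiv ℝ w p‖]
    refine (hsum _ _).trans ?_
    have e2 := hwc j p hp
    have e3 : A / √(tip2 p) = 2 * (N0 / √(tip2 p) + 16 * T ^ 2 * N0 / √(tip2 p)) := by
      rw [hA]; ring
    rw [e3]; linarith
  have hb2 : ∀ (j : ℕ), ∀ p ∈ S,
      ‖(cut j p • fderiv ℝ w p + w p • cutD j p) - fderiv ℝ w p‖ ^ 2 ≤ A / √(tip2 p) := by
    intro j p hp
    have hs : 0 < √(tip2 p) := Real.sqrt_pos.mpr (htp p hp)
    have e0 : (cut j p • fderiv ℝ w p + w p • cutD j p) - fderiv ℝ w p =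
        (cut j p - 1) • fderiv ℝ w p + w p • cutD j p := by
      rw [sub_smul, one_smul]; abel
    rw [e0]
    have e1 : ‖(cut j p - 1) • fderiv ℝ w p‖ ^ 2 ≤ N0 / √(tip2 p) := by
      refine le_trans ?_ (hgrS p hp)
      rw [norm_smul, Real.norm_eq_abs, mul_pow, sq_abs]
      have : (cut j p - 1) ^ 2 ≤ 1 := by
        nlinarith [cut_nonneg j p, cut_le_one j p]
      nlinarith [sq_nonneg ‖fderiv ℝ w p‖]
    refine (hsum _ _).trans ?_
    have e2 := hwc j p hp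
    have e3 : A / √(tip2 p) = 2 * (N0 / √(tip2 p) + 16 * T ^ 2 * N0 / √(tip2 p)) := by
      rw [hA]; ring
    rw [e3]; linarith
  -- Lipschitz bound on `S`
  have hSc : Convex ℝ S := by
    intro p hp q hq s t hs ht hst
    have e : ∀ i : Fin 3, (s • p + t • q) i = s * p i + t * q i := fun i => by simp
    refine ⟨?_, ?_, ?_⟩
    · show (s • p + t • q) 0 ∈ Icc a₀ b₀
      rw [e 0]; exact (convex_Icc a₀ b₀) hp.1 hq.1 hs ht hst
    · show (s • p + t • q) 1 ∈ Icc a₁ b₁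
      rw [e 1]; exact (convex_Icc a₁ b₁) hp.2.1 hq.2.1 hs ht hst
    · show (s • p + t • q) 2 ∈ Ioo a₂ b₂
      rw [e 2]; exact (convex_Ioo a₂ b₂) hp.2.2 hq.2.2 hs ht hst
  have hlip : ∀ j : ℕ, ∃ K : ℝ≥0, LipschitzOnWith K (fun p => cut j p * w p) S := by
    intro j
    refine ⟨Real.toNNReal (√(A * √j)), hSc.lipschitzOnWith_of_nnnorm_fderiv_le
      (fun p hp => (hprod j p hp).differentiableAt) fun p hp => ?_⟩
    rw [(hprod j p hp).fderiv, ← NNReal.coe_le_coe, coe_nnnorm,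
      Real.coe_toNNReal _ (Real.sqrt_nonneg _)]
    rcases le_or_gt ((j : ℝ) * tip2 p) 1 with h | h
    · rw [cut_eq_zero h, cutD_zero_left h, zero_smul, smul_zero, add_zero, norm_zero]
      exact Real.sqrt_nonneg _
    · refine Real.le_sqrt_of_sq_le ((hb1 j p hp).trans ?_)
      have hs : 0 < √(tip2 p) := Real.sqrt_pos.mpr (htp p hp)
      rw [div_le_iff₀ hs, mul_assoc, ← Real.sqrt_mul (by positivity)]
      have : 1 ≤ √((j : ℝ) * tip2 p) := by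
        rw [Real.one_le_sqrt]; exact h.le
      nlinarith
  choose K hK using hlip
  choose wj hwj using fun j => (hK j).extend_real
  have hae := ae_obox a₀ b₀ a₁ b₁ a₂ b₂
  have hOS : obox a₀ b₀ a₁ b₁ a₂ b₂ ⊆ S := fun p hp =>
    ⟨⟨hp.1.1.le, hp.1.2.le⟩, ⟨hp.2.1.1.le, hp.2.1.2.le⟩, hp.2.2⟩
  refine ⟨?_, wj, fun j => ⟨K j, (hwj j).1⟩, ?_, ?_⟩
  · -- integrability of the gradient
    refine Integrable.mono' (hint.const_mul N0)
      ((measurable_gradient w).norm.pow_const 2).aestronglyMeasurable ?_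
    filter_upwards [hae] with p hp
    rw [Real.norm_eq_abs, abs_of_nonneg (sq_nonneg _), norm_gradient]
    have := hgrS p (hOS hp)
    rwa [div_eq_mul_inv] at this
  · intro j p hp0 hp1 hp2 hp3
    exact ((hwj j).2 ⟨hp0, hp1, hp2, hp3⟩).symm
  · have hder : ∀ (j : ℕ), ∀ p ∈ obox a₀ b₀ a₁ b₁ a₂ b₂,
        fderiv ℝ (wj j) p = cut j p • fderiv ℝ w p + w p • cutD j p := by
      intro j p hp
      have he : wj j =ᶠ[𝓝 p] fun p => cut j p * w p := by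
        filter_upwards [(isOpen_obox a₀ b₀ a₁ b₁ a₂ b₂).mem_nhds hp] with q hq
        exact ((hwj j).2 (hOS hq)).symm
      rw [he.fderiv_eq, (hprod j p (hOS hp)).fderiv]
    have hdom := tendsto_integral_of_dominated_convergence
      (μ := volume.restrict (cbox a₀ b₀ a₁ b₁ a₂ b₂))
      (F := fun j x => ‖∇ (wj j) x - ∇ w x‖ ^ 2) (f := fun _ => (0 : ℝ))
      (fun x => A * (√(tip2 x))⁻¹) ?_ ?_ ?_ ?_
    · simpa using hdom
    · intro j
      exact (((measurable_gradient (wj j)).sub (measurable_gradient w)).norm.pow_const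
        2).aestronglyMeasurable
    · exact hint.const_mul A
    · intro j
      filter_upwards [hae] with p hp
      rw [Real.norm_eq_abs, abs_of_nonneg (sq_nonneg _), apx_grad_sub, hder j p hp]
      have := hb2 j p (hOS hp)
      rwa [div_eq_mul_inv] at this
    · filter_upwards [hae] with p hp
      have hpos := htp p (hOS hp)
      refine tendsto_const_nhds.congr' ?_
      obtain ⟨j0, hj0⟩ := exists_nat_ge (2 / tip2 p)
      filter_upwards [eventually_ge_atTop j0] with j hj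
      have hj2 : 2 ≤ (j : ℝ) * tip2 p := by
        rw [div_le_iff₀ hpos] at hj0
        have : (j0 : ℝ) ≤ j := by exact_mod_cast hj
        nlinarith
      rw [apx_grad_sub, hder j p hp, cut_eq_one hj2, cutD_zero_right hj2, one_smul, smul_zero,
        add_zero, sub_self, norm_zero]
      norm_num

/-- Lipschitz approximants on a box whose open slab does not meet the level of the tip. -/
theorem approx_box (a₀ b₀ a₁ b₁ a₂ b₂ : ℝ) (h0 : a₀ < b₀) (h1 : a₁ < b₁) (h2 : a₂ < b₂)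
    (htip : 7 / 10 ∉ Ioo a₂ b₂) (w : E3 → ℝ) (N0 : ℝ)
    (hw : ContDiffOn ℝ ∞ w {p | a₂ < p 2 ∧ p 2 < b₂})
    (hgr : ∀ p : E3, p 0 ∈ Icc a₀ b₀ → p 1 ∈ Icc a₁ b₁ → a₂ < p 2 → p 2 < b₂ →
      ‖∇ w p‖ ^ 2 * √(tip2 p) ≤ N0)
    (hval : ∀ p : E3, p 0 ∈ Icc a₀ b₀ → p 1 ∈ Icc a₁ b₁ → a₂ < p 2 → p 2 < b₂ →
      (w p) ^ 2 ≤ N0 * √(tip2 p)) :
    IntegrableOn (fun x => ‖∇ w x‖ ^ 2) (cbox a₀ b₀ a₁ b₁ a₂ b₂) volume ∧
    ∃ wj : ℕ → E3 → ℝ, (∀ j, ∃ K : ℝ≥0, LipschitzWith K (wj j)) ∧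
      (∀ (j : ℕ) (p : E3), p 0 ∈ Icc a₀ b₀ → p 1 ∈ Icc a₁ b₁ → a₂ < p 2 → p 2 < b₂ →
        wj j p = cut j p * w p) ∧
      Tendsto (fun j => ∫ x in cbox a₀ b₀ a₁ b₁ a₂ b₂, ‖∇ (wj j) x - ∇ w x‖ ^ 2) atTop (𝓝 0) :=
  approx_box_aux a₀ b₀ a₁ b₁ a₂ b₂ h0 h1 h2 htip w N0 hw hgr hval
    (integrable_tip a₀ b₀ a₁ b₁ a₂ b₂)

end Crest.Agent.R083
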