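import Crest.Agent.R083.TreeGeom

/-!
Row 83 (S0111): congruence, monotonicity and linearity of the averages `pavg`, `avgn`.
-/

set_option autoImplicit false

namespace Crest.Agent.R083

open MeasureTheory Set Filter intervalIntegral
open scoped Gradient ENNReal NNReal Topology

theorem av_roof_cont : Continuous (fun p : ℝ × ℝ => roof p.1 p.2) := by
  unfold roof; fun_prop

theorem av_pt_cont {X : Type*} [TopologicalSpace X] {f g h : X → ℝ} (hf : Continuous f)
    (hg : Continuous g) (hh : Continuous h) : Continuous (fun p => pt (f p) (g p) (h p)) := by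
  unfold pt
  refine (PiLp.continuous_toLp 2 _).comp ?_
  refine continuous_pi fun i => ?_
  fin_cases i
  · simpa using hf
  · simpa using hg
  · simpa using hh

theorem av_roof_nonneg {x y : ℝ} (hx : |x| ≤ 7/5) (hy : |y| ≤ 1) : 0 ≤ roof x y := by
  unfold roof
  have h : max 0 (max (|x| - 1) (|y| - 3/5)) ≤ 2/5 := by
    refine max_le (by norm_num) (max_le (by linarith) (by linarith))
  linarith

theorem av_mem_top {x y : ℝ} (hx : |x| ≤ 7/5) (hy : |y| ≤ 1) : pt x y (roof x y) ∈ cellBc := by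
  have := av_roof_nonneg hx hy
  change |(pt x y (roof x y)) 2| ≤ roof ((pt x y (roof x y)) 0) ((pt x y (roof x y)) 1)
  simp only [tg_pt_zero, tg_pt_one, tg_pt_two]
  rw [abs_of_nonneg this]

theorem av_mem_bot {x y : ℝ} (hx : |x| ≤ 7/5) (hy : |y| ≤ 1) : pt x y (-roof x y) ∈ cellBc := by
  have := av_roof_nonneg hx hy
  change |(pt x y (-roof x y)) 2| ≤ roof ((pt x y (-roof x y)) 0) ((pt x y (-roof x y)) 1)
  simp only [tg_pt_zero, tg_pt_one, tg_pt_two]
  rw [abs_neg, abs_of_nonneg this]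

theorem pavg_congr {ψ ψ' : E3 → ℝ} (h : ∀ x ∈ cellBc, ψ x = ψ' x) : pavg ψ = pavg ψ' := by
  unfold pavg
  congr 1
  refine intervalIntegral.integral_congr fun x hx => ?_
  refine intervalIntegral.integral_congr fun y hy => ?_
  rw [uIcc_of_le (by norm_num)] at hx hy
  have hx' : |x| ≤ 7/5 := abs_le.2 ⟨by linarith [hx.1], hx.2⟩
  have hy' : |y| ≤ 1 := abs_le.2 ⟨by linarith [hy.1], hy.2⟩
  change ψ (pt x y (roof x y)) + ψ (pt x y (-roof x y)) =
    ψ' (pt x y (roof x y)) + ψ' (pt x y (-roof x y))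
  rw [h _ (av_mem_top hx' hy'), h _ (av_mem_bot hx' hy')]

theorem pavg_const (c : ℝ) : pavg (fun _ => c) = c := by
  unfold pavg
  simp only [intervalIntegral.integral_const, smul_eq_mul]
  ring

theorem pavg_const_mul (c : ℝ) (ψ : E3 → ℝ) : pavg (fun x => c * ψ x) = c * pavg ψ := by
  unfold pavg
  simp only [← mul_add, intervalIntegral.integral_const_mul, mul_div_assoc]

theorem av_inner_cont {ψ : E3 → ℝ} (hψ : Continuous ψ) :
    Continuous (fun p : ℝ × ℝ => ψ (pt p.1 p.2 (roof p.1 p.2)) + ψ (pt p.1 p.2 (-roof p.1 p.2))) := by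
  refine Continuous.add (hψ.comp ?_) (hψ.comp ?_)
  · exact av_pt_cont continuous_fst continuous_snd av_roof_cont
  · exact av_pt_cont continuous_fst continuous_snd av_roof_cont.neg

theorem av_int_inner {ψ : E3 → ℝ} (hψ : Continuous ψ) (x : ℝ) :
    IntervalIntegrable (fun y => ψ (pt x y (roof x y)) + ψ (pt x y (-roof x y))) volume (-1) 1 := by
  have h := (av_inner_cont hψ).comp (Continuous.prodMk (continuous_const (y := x)) continuous_id)
  exact Continuous.intervalIntegrable h _ _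

theorem av_int_outer {ψ : E3 → ℝ} (hψ : Continuous ψ) :
    IntervalIntegrable (fun x => ∫ y in (-1:ℝ)..1,
      (ψ (pt x y (roof x y)) + ψ (pt x y (-roof x y)))) volume (-(7/5)) (7/5) := by
  refine Continuous.intervalIntegrable ?_ _ _
  exact intervalIntegral.continuous_parametric_intervalIntegral_of_continuous'
    (f := fun x y => ψ (pt x y (roof x y)) + ψ (pt x y (-roof x y))) (av_inner_cont hψ) _ _

theorem pavg_add {ψ ψ' : E3 → ℝ} (hψ : Continuous ψ) (hψ' : Continuous ψ') :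
    pavg (fun x => ψ x + ψ' x) = pavg ψ + pavg ψ' := by
  unfold pavg
  rw [← add_div, ← intervalIntegral.integral_add (av_int_outer hψ) (av_int_outer hψ')]
  congr 1
  refine intervalIntegral.integral_congr fun x _ => ?_
  change _ = (∫ y in (-1:ℝ)..1, (ψ (pt x y (roof x y)) + ψ (pt x y (-roof x y)))) +
    ∫ y in (-1:ℝ)..1, (ψ' (pt x y (roof x y)) + ψ' (pt x y (-roof x y)))
  rw [← intervalIntegral.integral_add (av_int_inner hψ x) (av_int_inner hψ' x)]
  refine intervalIntegral.integral_congr fun y _ => ?_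

  ring

theorem pavg_mono {ψ ψ' : E3 → ℝ} (hψ : Continuous ψ) (hψ' : Continuous ψ')
    (h : ∀ x ∈ cellBc, ψ x ≤ ψ' x) : pavg ψ ≤ pavg ψ' := by
  unfold pavg
  refine div_le_div_of_nonneg_right ?_ (by norm_num)
  refine intervalIntegral.integral_mono_on (by norm_num) (av_int_outer hψ) (av_int_outer hψ')
    fun x hx => ?_
  refine intervalIntegral.integral_mono_on (by norm_num) (av_int_inner hψ x) (av_int_inner hψ' x)
    fun y hy => ?_
  have hx' : |x| ≤ 7/5 := abs_le.2 ⟨by linarith [hx.1], hx.2⟩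
  have hy' : |y| ≤ 1 := abs_le.2 ⟨by linarith [hy.1], hy.2⟩
  exact add_le_add (h _ (av_mem_top hx' hy')) (h _ (av_mem_bot hx' hy'))

theorem avgn_congr (n : ℕ) {ψ ψ' : E3 → ℝ} (h : ∀ x ∈ Kc n, ψ x = ψ' x) :
    avgn n ψ = avgn n ψ' := by
  induction n generalizing ψ ψ' with
  | zero => exact pavg_congr h
  | succ n ih =>
    change (avgn n (ψ ∘ sim true) + avgn n (ψ ∘ sim false)) / 2 =
      (avgn n (ψ' ∘ sim true) + avgn n (ψ' ∘ sim false)) / 2
    rw [ih (ψ := ψ ∘ sim true) (ψ' := ψ' ∘ sim true)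
        fun x hx => h _ (Or.inl (mem_image_of_mem _ hx)),
      ih (ψ := ψ ∘ sim false) (ψ' := ψ' ∘ sim false)
        fun x hx => h _ (Or.inr (mem_image_of_mem _ hx))]

theorem avgn_const (n : ℕ) (c : ℝ) : avgn n (fun _ => c) = c := by
  induction n with
  | zero => exact pavg_const c
  | succ n ih =>
    change (avgn n (fun _ => c) + avgn n (fun _ => c)) / 2 = c
    rw [ih]; ring

theorem avgn_const_mul (n : ℕ) (c : ℝ) (ψ : E3 → ℝ) :
    avgn n (fun x => c * ψ x) = c * avgn n ψ := by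
  induction n generalizing ψ with
  | zero => exact pavg_const_mul c ψ
  | succ n ih =>
    change (avgn n (fun x => c * (ψ ∘ sim true) x) + avgn n (fun x => c * (ψ ∘ sim false) x)) / 2 =
      c * ((avgn n (ψ ∘ sim true) + avgn n (ψ ∘ sim false)) / 2)
    rw [ih, ih]; ring

theorem avgn_add (n : ℕ) {ψ ψ' : E3 → ℝ} (hψ : Continuous ψ) (hψ' : Continuous ψ') :
    avgn n (fun x => ψ x + ψ' x) = avgn n ψ + avgn n ψ' := by
  induction n generalizing ψ ψ' with
  | zero => exact pavg_add hψ hψ'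
  | succ n ih =>
    change (avgn n (fun x => (ψ ∘ sim true) x + (ψ' ∘ sim true) x) +
      avgn n (fun x => (ψ ∘ sim false) x + (ψ' ∘ sim false) x)) / 2 =
      (avgn n (ψ ∘ sim true) + avgn n (ψ ∘ sim false)) / 2 +
      (avgn n (ψ' ∘ sim true) + avgn n (ψ' ∘ sim false)) / 2
    rw [ih (hψ.comp (sim_continuous _)) (hψ'.comp (sim_continuous _)),
      ih (hψ.comp (sim_continuous _)) (hψ'.comp (sim_continuous _))]
    ring

theorem avgn_mono (n : ℕ) {ψ ψ' : E3 → ℝ} (hψ : Continuous ψ) (hψ' : Continuous ψ')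
    (h : ∀ x ∈ Kc n, ψ x ≤ ψ' x) : avgn n ψ ≤ avgn n ψ' := by
  induction n generalizing ψ ψ' with
  | zero => exact pavg_mono hψ hψ' h
  | succ n ih =>
    change (avgn n (ψ ∘ sim true) + avgn n (ψ ∘ sim false)) / 2 ≤
      (avgn n (ψ' ∘ sim true) + avgn n (ψ' ∘ sim false)) / 2
    have h1 := ih (ψ := ψ ∘ sim true) (ψ' := ψ' ∘ sim true) (hψ.comp (sim_continuous _))
      (hψ'.comp (sim_continuous _)) fun x hx => h _ (Or.inl (mem_image_of_mem _ hx))
    have h2 := ih (ψ := ψ ∘ sim false) (ψ' := ψ' ∘ sim false) (hψ.comp (sim_continuous _))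
      (hψ'.comp (sim_continuous _)) fun x hx => h _ (Or.inr (mem_image_of_mem _ hx))
    linarith

theorem avgn_nonneg (n : ℕ) {ψ : E3 → ℝ} (hψ : Continuous ψ) (h : ∀ x ∈ Kc n, 0 ≤ ψ x) :
    0 ≤ avgn n ψ := by
  have := avgn_mono n (ψ := fun _ => 0) continuous_const hψ h
  rwa [avgn_const] at this

theorem abs_avgn_le (n : ℕ) {ψ ψ' : E3 → ℝ} (hψ : Continuous ψ) (hψ' : Continuous ψ')
    (h : ∀ x ∈ Kc n, |ψ x| ≤ ψ' x) : |avgn n ψ| ≤ avgn n ψ' := by
  rw [abs_le]
  constructor
  · have h1 := avgn_mono n (ψ := fun x => (-1) * ψ' x) (continuous_const.mul hψ') hψ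
      fun x hx => by linarith [neg_abs_le (ψ x), h x hx]
    rw [avgn_const_mul] at h1
    linarith
  · exact avgn_mono n hψ hψ' fun x hx => le_trans (le_abs_self _) (h x hx)

end Crest.Agent.R083
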