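import Crest.Agent.R083.Pairing

/-!
Row 83 (S0111): for every cell there is a potential whose pairing with `ψ` is the difference of
the averages over the boundary of this cell and over the boundary of `cellB`.
-/

set_option autoImplicit false

namespace Crest.Agent.R083

open MeasureTheory Set Filter
open scoped Gradient ENNReal NNReal Topology

theorem cc_map (b : Bool) :
    Measure.map (simInv b) (volume : Measure E3) = ENNReal.ofReal (27/125) • volume := by
  ext S hS
  rw [Measure.map_apply (simInv_continuous b).measurable hS, ← pr_image, volume_sim]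
  rfl

theorem cc_eLp (b : Bool) (f : E3 → E3) (hf : AEStronglyMeasurable f volume) :
    eLpNorm (fun x => f (simInv b x)) 2 volume ≤ eLpNorm f 2 volume := by
  have h1 : AEStronglyMeasurable f (Measure.map (simInv b) volume) := by
    rw [cc_map]; exact hf.smul_measure _
  have h2 := eLpNorm_map_measure h1 (simInv_continuous b).measurable.aemeasurable (p := 2)
  have h3 : (fun x => f (simInv b x)) = f ∘ simInv b := rfl
  rw [h3, ← h2, cc_map]
  refine eLpNorm_mono_measure f ?_
  have h4 : ENNReal.ofReal (27/125) ≤ 1 := by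
    rw [ENNReal.ofReal_le_one]; norm_num
  intro S
  rw [Measure.smul_apply, smul_eq_mul]
  calc ENNReal.ofReal (27/125) * volume S ≤ 1 * volume S := by gcongr
    _ = volume S := one_mul _

theorem cc_aes (b : Bool) (f : E3 → E3) (hf : AEStronglyMeasurable f volume) :
    AEStronglyMeasurable (fun x => f (simInv b x)) volume := by
  have h1 : AEStronglyMeasurable f (Measure.map (simInv b) volume) := by
    rw [cc_map]; exact hf.smul_measure _
  exact h1.comp_aemeasurable (simInv_continuous b).measurable.aemeasurable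

theorem cc_swp_cont : Continuous swp := by
  have h : swp = fun x => swpL x := by funext x; exact (swpL_apply x).symm
  rw [h]; exact swpL.continuous

/-- The transported field. -/
noncomputable def ccT (b : Bool) (G' : E3 → E3) (x : E3) : E3 :=
  (25/9 : ℝ) • swp (G' (simInv b x))

theorem cc_T_aes (b : Bool) (f : E3 → E3) (hf : AEStronglyMeasurable f volume) :
    AEStronglyMeasurable (ccT b f) volume := by
  have h := (cc_swp_cont.comp_aestronglyMeasurable (cc_aes b f hf)).const_smul (25/9 : ℝ)
  exact h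

theorem cc_T_norm (b : Bool) (f : E3 → E3) (hf : AEStronglyMeasurable f volume) :
    eLpNorm (ccT b f) 2 volume ≤ ENNReal.ofReal (25/9) * eLpNorm f 2 volume := by
  have h1 : eLpNorm (ccT b f) 2 volume =
      eLpNorm ((25/9 : ℝ) • fun x => f (simInv b x)) 2 volume := by
    refine eLpNorm_congr_norm_ae (Eventually.of_forall fun x => ?_)
    simp only [ccT, Pi.smul_apply, norm_smul, norm_swp]
  rw [h1, eLpNorm_const_smul]
  have h2 : ‖(25/9 : ℝ)‖ₑ = ENNReal.ofReal (25/9) := by
    rw [Real.enorm_eq_ofReal (by norm_num)]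
  rw [h2]
  gcongr
  exact cc_eLp b f hf

theorem cc_T_mem (b : Bool) (f : E3 → E3) (hf : MemLp f 2 volume) :
    MemLp (ccT b f) 2 volume :=
  ⟨cc_T_aes b f hf.1, (cc_T_norm b f hf.1).trans_lt
    (ENNReal.mul_lt_top ENNReal.ofReal_lt_top hf.2)⟩

theorem cc_general (D : ModData) (a : Bool) (H G' : E3 → E3)
    (hH : Integrable H volume) (h0 : ∀ᵐ x, x ∉ cellBc → H x = 0)
    (hs : ∀ᵐ x, x ∈ sim a '' cellB → H x = ccT a G' x)
    (hn : ∀ᵐ x, x ∈ sim (!a) '' cellB → H x = 0)
    (hG0 : ∀ x, x ∉ cellB → G' x = 0)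
    (ψ : E3 → ℝ) (K : ℝ≥0) (hψ : LipschitzWith K ψ) :
    ∫ x, D.gam0 x * inner ℝ (H x) (∇ ψ x) =
      (∫ x in modQ, D.γ x * inner ℝ (H x) (∇ ψ x)) +
      ∫ x, D.gam0 x * inner ℝ (G' x) (∇ (ψ ∘ sim a) x) := by
  have hint := pr_int_pair D H hH ψ K hψ
  rw [pr_split _ hint (by filter_upwards [h0] with x hx h; rw [hx h, inner_zero_left, mul_zero])]
  have hQ : ∫ x in modQ, D.gam0 x * inner ℝ (H x) (∇ ψ x) =
      ∫ x in modQ, D.γ x * inner ℝ (H x) (∇ ψ x) := by
    refine setIntegral_congr_fun pr_modQ_open.measurableSet fun x hx => ?_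
    simp only [gam0_mod D x hx]
  have hA : ∫ x in sim a '' cellB, D.gam0 x * inner ℝ (H x) (∇ ψ x) =
      ∫ x, D.gam0 x * inner ℝ (G' x) (∇ (ψ ∘ sim a) x) := by
    have e1 : ∫ x in sim a '' cellB, D.gam0 x * inner ℝ (H x) (∇ ψ x) =
        ∫ x in sim a '' cellB, (25/9 : ℝ) *
          (D.gam0 x * inner ℝ (G' (simInv a x)) (swp (∇ ψ x))) := by
      refine setIntegral_congr_ae (pr_child_open a).measurableSet ?_
      filter_upwards [hs] with x hx h
      rw [hx h, ccT, inner_smul_left, pr_inner_swp']
      simp only [conj_trivial]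
      ring
    have e2 := integral_sim a cellB cellB_open.measurableSet
      (fun x => (25/9 : ℝ) *
          (D.gam0 x * inner ℝ (G' (simInv a x)) (swp (∇ ψ x))))
    rw [e1, e2]
    have e3 : ∫ x in cellB, (25/9 : ℝ) *
          (D.gam0 (sim a x) * inner ℝ (G' (simInv a (sim a x))) (swp (∇ ψ (sim a x)))) =
        ∫ x in cellB, (125/27 : ℝ) *
          (D.gam0 x * inner ℝ (G' x) (∇ (ψ ∘ sim a) x)) := by
      refine setIntegral_congr_fun cellB_open.measurableSet fun x hx => ?_
      simp only [gam0_sim D a x hx, simInv_sim, pr_grad_sim, inner_smul_right]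
      ring
    rw [e3, integral_const_mul]
    have e4 : ∫ x in cellB, D.gam0 x * inner ℝ (G' x) (∇ (ψ ∘ sim a) x) =
        ∫ x, D.gam0 x * inner ℝ (G' x) (∇ (ψ ∘ sim a) x) := by
      refine setIntegral_eq_integral_of_forall_compl_eq_zero fun x hx => ?_
      rw [hG0 x hx, inner_zero_left, mul_zero]
    rw [e4]
    ring
  have hN : ∫ x in sim (!a) '' cellB, D.gam0 x * inner ℝ (H x) (∇ ψ x) = 0 := by
    have e1 : ∫ x in sim (!a) '' cellB, D.gam0 x * inner ℝ (H x) (∇ ψ x) =
        ∫ x in sim (!a) '' cellB, (0 : ℝ) := by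
      refine setIntegral_congr_ae (pr_child_open (!a)).measurableSet ?_
      filter_upwards [hn] with x hx h
      rw [hx h, inner_zero_left, mul_zero]
    rw [e1, integral_zero]
  rw [hQ]
  cases a with
  | true =>
    simp only [Bool.not_true] at hN
    rw [hA, hN, add_zero]
  | false =>
    simp only [Bool.not_false] at hN
    rw [hA, hN, zero_add]

/-- The module part of the charge potential. -/
noncomputable def ccM (D : ModData) (a : Bool) (x : E3) : E3 := ∇ D.F x + sg a • D.G x

theorem cc_M_mem (D : ModData) (a : Bool) : MemLp (ccM D a) 2 volume := by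
  obtain ⟨K, hK⟩ := D.FL
  exact (pr_grad_memLp _ K hK D.F0).add (D.Gmem.const_smul (sg a))

theorem cc_M_off (D : ModData) (a : Bool) : ∀ᵐ x, x ∉ cellBc → ccM D a x = 0 := by
  filter_upwards [pr_G_off D] with x h1 h2
  rw [ccM, h1 h2, pr_grad_off _ D.F0 x h2, smul_zero, add_zero]

theorem cc_M_child (D : ModData) (a b : Bool) :
    ∀ᵐ x, x ∈ sim b '' cellB → ccM D a x = 0 := by
  filter_upwards [pr_G_child D b] with x h1 h2
  have h3 : ∇ D.F x = 0 := by
    refine pr_grad_zero _ x D.d ?_
    filter_upwards [(pr_child_open b).mem_nhds h2] with y hy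
    exact D.Fd b y (image_mono cellB_subset hy)
  rw [ccM, h1 h2, h3, smul_zero, add_zero]

theorem cc_M_pair (D : ModData) (a : Bool) (ψ : E3 → ℝ) (K : ℝ≥0) (hψ : LipschitzWith K ψ) :
    ∫ x in modQ, D.γ x * inner ℝ (ccM D a x) (∇ ψ x) = pavg (ψ ∘ sim a) - pavg ψ := by
  obtain ⟨KF, hKF⟩ := D.FL
  have i1 : Integrable (∇ D.F) volume :=
    pr_int_of_L2 _ (pr_grad_memLp _ KF hKF D.F0) (pr_off_ae _ D.F0)
  have i2 : Integrable D.G volume := pr_int_of_L2 _ D.Gmem (pr_G_off D)
  have j : ∀ H : E3 → E3, Integrable H volume →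
      IntegrableOn (fun x => D.γ x * inner ℝ (H x) (∇ ψ x)) modQ volume := by
    intro H hH
    have h1 := (pr_int_pair D H hH ψ K hψ).integrableOn (s := modQ)
    refine h1.congr_fun ?_ pr_modQ_open.measurableSet
    intro x hx
    simp only [gam0_mod D x hx]
  have e1 : ∫ x in modQ, D.γ x * inner ℝ (ccM D a x) (∇ ψ x) =
      ∫ x in modQ, ((D.γ x * inner ℝ (∇ D.F x) (∇ ψ x)) +
        sg a * (D.γ x * inner ℝ (D.G x) (∇ ψ x))) := by
    refine setIntegral_congr_fun pr_modQ_open.measurableSet fun x _ => ?_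
    simp only [ccM, inner_add_left, inner_smul_left, conj_trivial]
    ring
  rw [e1, integral_add (j _ i1) ((j _ i2).const_mul _), integral_const_mul, D.FE ψ K hψ,
    D.WE ψ K hψ]
  cases a with
  | true => simp only [sg, if_true]; ring
  | false => simp [sg]; ring

/-- The inductive statement. -/
theorem cc_induct (D : ModData) (w : List Bool) :
    ∃ (G : E3 → E3) (zj : ℕ → E3 → ℝ), MemLp G 2 volume ∧
      (∀ j, ∃ K : ℝ≥0, LipschitzWith K (zj j)) ∧ (∀ j x, x ∉ cellB → zj j x = 0) ∧
      Tendsto (fun j => eLpNorm (fun x => ∇ (zj j) x - G x) 2 volume) atTop (𝓝 0) ∧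
      (∀ x, x ∉ cellB → G x = 0) ∧
      ∀ (ψ : E3 → ℝ) (K : ℝ≥0), LipschitzWith K ψ →
        ∫ x, D.gam0 x * inner ℝ (G x) (∇ ψ x) = pavg (ψ ∘ simw w) - pavg ψ := by
  induction w with
  | nil =>
    refine ⟨fun _ => 0, fun _ _ => 0, MemLp.zero', fun _ => ⟨0, LipschitzWith.const 0⟩,
      fun _ _ _ => rfl, ?_, fun _ _ => rfl, ?_⟩
    · refine tendsto_const_nhds.congr fun j => ?_
      symm
      have : (fun x : E3 => ∇ (fun _ : E3 => (0:ℝ)) x - (0 : E3)) = 0 := by
        funext x; simp
      rw [this, eLpNorm_zero]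
    · intro ψ K _
      simp only [inner_zero_left, mul_zero, integral_zero, simw, Function.comp_id, sub_self]
  | cons a w ih =>
    obtain ⟨G', z', hG'm, hz'L, hz'0, hz't, hG'0, hG'p⟩ := ih
    -- the unrestricted field
    set H : E3 → E3 := fun x => ccM D a x + ccT a G' x with hHdef
    have hT0 : ∀ x, simInv a x ∉ cellB → ccT a G' x = 0 := by
      intro x hx
      rw [ccT, hG'0 _ hx]
      have : swp (0 : E3) = 0 := by rw [← swpL_apply, map_zero]
      rw [this, smul_zero]
    have hHm : MemLp H 2 volume := (cc_M_mem D a).add (cc_T_mem a G' hG'm)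
    have hH0 : ∀ᵐ x, x ∉ cellBc → H x = 0 := by
      filter_upwards [cc_M_off D a] with x h1 h2
      have h3 : simInv a x ∉ cellB := pr_off' a x fun h => h2 (cellB_subset h)
      simp only [hHdef]
      rw [h1 h2, hT0 x h3, add_zero]
    have hHI : Integrable H volume := pr_int_of_L2 _ hHm hH0
    -- restriction to the cell
    set G : E3 → E3 := cellB.indicator H with hGdef
    have hGH : G =ᵐ[volume] H := by
      have hb : ∀ᵐ x, x ∉ cellBc \ cellB := by
        exact measure_eq_zero_iff_ae_notMem.1 volume_bdry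
      filter_upwards [hH0, hb] with x h1 h2
      by_cases h : x ∈ cellB
      · rw [hGdef, indicator_of_mem h]
      · rw [hGdef, indicator_of_notMem h]
        exact (h1 fun h3 => h2 ⟨h3, h⟩).symm
    refine ⟨G, fun j x => (D.F x + sg a * D.Wj j x) + 5/3 * z' j (simInv a x),
      hHm.ae_eq hGH.symm, ?_, ?_, ?_, ?_, ?_⟩
    · intro j
      obtain ⟨K1, h1⟩ := D.FL
      obtain ⟨K2, h2⟩ := D.WjL j
      obtain ⟨K3, h3⟩ := hz'L j
      exact ⟨_, (h1.add ((lipschitzWith_smul (sg a)).comp h2)).add
        ((lipschitzWith_smul (5/3 : ℝ)).comp (h3.comp (simInv_lipschitz a)))⟩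
    · intro j x hx
      simp only
      rw [D.F0 x hx, D.Wj0 j x hx, hz'0 j _ (pr_off' a x hx)]
      norm_num
    · -- convergence
      have hbound : ∀ j, eLpNorm (fun x => ∇ (fun x => (D.F x + sg a * D.Wj j x) +
          5/3 * z' j (simInv a x)) x - G x) 2 volume ≤
          eLpNorm (fun x => ∇ (D.Wj j) x - D.G x) 2 volume +
          ENNReal.ofReal (25/9) * eLpNorm (fun x => ∇ (z' j) x - G' x) 2 volume := by
        intro j
        have hzd : ∀ᵐ x, DifferentiableAt ℝ (fun x => z' j (simInv a x)) x := by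
          obtain ⟨K3, h3⟩ := hz'L j
          exact (h3.comp (simInv_lipschitz a)).ae_differentiableAt
        have hm1 : AEStronglyMeasurable (fun x => ∇ (D.Wj j) x - D.G x) volume :=
          (pr_grad_measurable _).aestronglyMeasurable.sub D.Gmem.1
        have hm2 : AEStronglyMeasurable (fun x => ∇ (z' j) x - G' x) volume :=
          (pr_grad_measurable _).aestronglyMeasurable.sub hG'm.1
        have e1 : eLpNorm (fun x => ∇ (fun x => (D.F x + sg a * D.Wj j x) +
            5/3 * z' j (simInv a x)) x - G x) 2 volume =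
            eLpNorm (fun x => (sg a • fun x => (∇ (D.Wj j) x - D.G x)) x +
              ccT a (fun x => ∇ (z' j) x - G' x) x) 2 volume := by
          refine eLpNorm_congr_ae ?_
          filter_upwards [hzd, pr_lip_diff _ (D.WjL j), pr_lip_diff _ D.FL, hGH]
            with x d3 d2 d1 hx
          have d2' : DifferentiableAt ℝ (fun x => sg a * D.Wj j x) x := d2.const_mul _
          have d3' : DifferentiableAt ℝ (fun x => 5/3 * z' j (simInv a x)) x := d3.const_mul _
          have g1 : ∇ (fun x => (D.F x + sg a * D.Wj j x) + 5/3 * z' j (simInv a x)) x =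
              (∇ D.F x + sg a • ∇ (D.Wj j) x) + (5/3 : ℝ) • ((5/3 : ℝ) •
                swp (∇ (z' j) (simInv a x))) := by
            have d12 : DifferentiableAt ℝ (fun x => D.F x + sg a * D.Wj j x) x := d1.add d2'
            rw [pr_grad_add _ _ x d12 d3', pr_grad_add _ _ x d1 d2',
              pr_grad_const_mul, pr_grad_const_mul, grad_comp_simInv]
          rw [g1, hx]
          simp only [hHdef, ccM, ccT, swp_sub, smul_sub, Pi.smul_apply, smul_smul]
          norm_num
          abel
        rw [e1]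
        refine (eLpNorm_add_le (hm1.const_smul _) (cc_T_aes a _ hm2) (by norm_num)).trans ?_
        refine add_le_add ?_ (cc_T_norm a _ hm2)
        rw [eLpNorm_const_smul]
        have : ‖sg a‖ₑ = 1 := by
          rw [← ofReal_norm, Real.norm_eq_abs, abs_sg, ENNReal.ofReal_one]
        rw [this, one_mul]
      refine tendsto_of_tendsto_of_tendsto_of_le_of_le tendsto_const_nhds ?_
        (fun _ => zero_le) hbound
      have h1 := ENNReal.Tendsto.const_mul hz't
        (Or.inr (ENNReal.ofReal_ne_top (r := 25/9)))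
      have h2 := D.WjG.add h1
      simpa using h2
    · intro x hx
      rw [hGdef, indicator_of_notMem hx]
    · intro ψ K hψ
      have e0 : ∫ x, D.gam0 x * inner ℝ (G x) (∇ ψ x) =
          ∫ x, D.gam0 x * inner ℝ (H x) (∇ ψ x) := by
        refine integral_congr_ae ?_
        filter_upwards [hGH] with x hx
        rw [hx]
      have hs : ∀ᵐ x, x ∈ sim a '' cellB → H x = ccT a G' x := by
        filter_upwards [cc_M_child D a a] with x h1 h2
        simp only [hHdef]
        rw [h1 h2, zero_add]
      have hn : ∀ᵐ x, x ∈ sim (!a) '' cellB → H x = 0 := by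
        filter_upwards [cc_M_child D a (!a)] with x h1 h2
        have h3 := pr_child_other (!a) x (image_mono cellB_subset h2)
        rw [Bool.not_not] at h3
        simp only [hHdef]
        rw [h1 h2, hT0 x fun h => h3 (cellB_subset h), zero_add]
      have hQ : ∫ x in modQ, D.γ x * inner ℝ (H x) (∇ ψ x) =
          ∫ x in modQ, D.γ x * inner ℝ (ccM D a x) (∇ ψ x) := by
        refine setIntegral_congr_fun pr_modQ_open.measurableSet fun x hx => ?_
        have h1 : simInv a x ∉ cellBc := by
          refine pr_off a x fun h => hx.2 ?_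
          cases a with
          | true => exact Or.inl h
          | false => exact Or.inr h
        simp only [hHdef]
        rw [hT0 x fun h => h1 (cellB_subset h), add_zero]
      rw [e0, cc_general D a H G' hHI hH0 hs hn hG'0 ψ K hψ, hQ, cc_M_pair D a ψ K hψ,
        hG'p _ _ (hψ.comp (sim_lipschitz a))]
      have : (ψ ∘ sim a) ∘ simw w = ψ ∘ simw (a :: w) := rfl
      rw [this]
      ring

/-- For every cell there is a potential whose pairing with `ψ` is the difference of the averages
over the boundary of this cell and over the boundary of `cellB`. -/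
theorem cell_charge (D : ModData) (w : List Bool) :
    ∃ G : E3 → E3, SobZ 2 G ∧ (∀ x, 2 < ‖x‖ → G x = 0) ∧
      ∀ (ψ : E3 → ℝ) (K : ℝ≥0), LipschitzWith K ψ →
        ∫ x, D.gam0 x * inner ℝ (G x) (∇ ψ x) = pavg (ψ ∘ simw w) - pavg ψ := by
  obtain ⟨G, zj, h1, h2, h3, h4, h5, h6⟩ := cc_induct D w
  have h0 : ∀ x : E3, 2 < ‖x‖ → x ∉ cellB := fun x hx h =>
    absurd (cellBc_norm x (cellB_subset h)) (not_le.2 hx)
  exact ⟨G, ⟨h1, zj, h2, fun j x hx => h3 j x (h0 x hx), h4⟩, fun x hx => h5 x (h0 x hx), h6⟩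

end Crest.Agent.R083
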