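import Crest.Agent.R083.TreeDefs

/-!
Row 83 (S0111): geometry of the tree of cells.
-/

set_option autoImplicit false

namespace Crest.Agent.R083

open MeasureTheory Set Filter
open scoped Gradient ENNReal NNReal Topology ContDiff Pointwise

@[simp] theorem tg_pt_zero (a b c : ℝ) : pt a b c 0 = a := rfl
@[simp] theorem tg_pt_one (a b c : ℝ) : pt a b c 1 = b := rfl
@[simp] theorem tg_pt_two (a b c : ℝ) : pt a b c 2 = c := rfl

theorem tg_ext {x y : E3} (h0 : x 0 = y 0) (h1 : x 1 = y 1) (h2 : x 2 = y 2) : x = y := by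
  ext i; fin_cases i <;> assumption

theorem simInv_sim (b : Bool) (x : E3) : simInv b (sim b x) = x := by
  apply tg_ext <;> simp [simInv, sim] <;> ring

theorem sim_simInv (b : Bool) (x : E3) : sim b (simInv b x) = x := by
  apply tg_ext <;> simp [simInv, sim] <;> ring

theorem mem_cellB {p : E3} : p ∈ cellB ↔
    |p 2| < 1 ∧ |p 2| + 5/2 * |p 0| < 7/2 ∧ |p 2| + 5/2 * |p 1| < 5/2 := by
  unfold cellB roof
  simp only [mem_ofPred_eq]
  constructor
  · intro h
    have h1 : 0 ≤ max 0 (max (|p 0| - 1) (|p 1| - 3/5)) := le_max_left _ _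
    have h2 : |p 0| - 1 ≤ max 0 (max (|p 0| - 1) (|p 1| - 3/5)) :=
      le_trans (le_max_left _ _) (le_max_right _ _)
    have h3 : |p 1| - 3/5 ≤ max 0 (max (|p 0| - 1) (|p 1| - 3/5)) :=
      le_trans (le_max_right _ _) (le_max_right _ _)
    refine ⟨?_, ?_, ?_⟩ <;> linarith
  · rintro ⟨h1, h2, h3⟩
    have : max 0 (max (|p 0| - 1) (|p 1| - 3/5)) < (1 - |p 2|) * (2/5) := by
      refine max_lt ?_ (max_lt ?_ ?_) <;> linarith
    linarith

theorem mem_cellBc {p : E3} : p ∈ cellBc ↔
    |p 2| ≤ 1 ∧ |p 2| + 5/2 * |p 0| ≤ 7/2 ∧ |p 2| + 5/2 * |p 1| ≤ 5/2 := by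
  unfold cellBc roof
  simp only [mem_ofPred_eq]
  constructor
  · intro h
    have h1 : 0 ≤ max 0 (max (|p 0| - 1) (|p 1| - 3/5)) := le_max_left _ _
    have h2 : |p 0| - 1 ≤ max 0 (max (|p 0| - 1) (|p 1| - 3/5)) :=
      le_trans (le_max_left _ _) (le_max_right _ _)
    have h3 : |p 1| - 3/5 ≤ max 0 (max (|p 0| - 1) (|p 1| - 3/5)) :=
      le_trans (le_max_right _ _) (le_max_right _ _)
    refine ⟨?_, ?_, ?_⟩ <;> linarith
  · rintro ⟨h1, h2, h3⟩
    have : max 0 (max (|p 0| - 1) (|p 1| - 3/5)) ≤ (1 - |p 2|) * (2/5) := by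
      refine max_le ?_ (max_le ?_ ?_) <;> linarith
    linarith

theorem cellB_subset : cellB ⊆ cellBc := by
  intro x hx
  rw [mem_cellB] at hx
  rw [mem_cellBc]
  exact ⟨hx.1.le, hx.2.1.le, hx.2.2.le⟩

theorem abs_sg (b : Bool) : |sg b| = 1 := by cases b <;> simp [sg]

theorem sim_cell_subset (b : Bool) : sim b '' cellBc ⊆ cellB := by
  rintro _ ⟨p, hp, rfl⟩
  rw [mem_cellBc] at hp
  rw [mem_cellB]
  obtain ⟨h1, h2, h3⟩ := hp
  have e2 : |sim b p 2| = 3/5 * |p 2| := by
    have : sim b p 2 = 3/5 * p 2 := rfl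
    rw [this, abs_mul, abs_of_pos (by norm_num : (0:ℝ) < 3/5)]
  have e1 : |sim b p 1| = 3/5 * |p 0| := by
    have : sim b p 1 = 3/5 * p 0 := rfl
    rw [this, abs_mul, abs_of_pos (by norm_num : (0:ℝ) < 3/5)]
  have e0 : |sim b p 0| ≤ 16/25 + 3/5 * |p 1| := by
    have : sim b p 0 = sg b * (16/25) + 3/5 * p 1 := rfl
    rw [this]
    refine (abs_add_le _ _).trans ?_
    rw [abs_mul, abs_mul, abs_sg]
    norm_num [abs_of_pos]
  have := abs_nonneg (p 2)
  have := abs_nonneg (p 1)
  have := abs_nonneg (p 0)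
  refine ⟨?_, ?_, ?_⟩
  · rw [e2]; linarith
  · rw [e2]; linarith
  · rw [e2, e1]; linarith

theorem children_disjoint : Disjoint (sim true '' cellBc) (sim false '' cellBc) := by
  rw [Set.disjoint_left]
  rintro _ ⟨p, hp, rfl⟩ ⟨p', hp', h⟩
  rw [mem_cellBc] at hp hp'
  have h0 := congrArg (fun x : E3 => x 0) h
  simp [sim, sg] at h0
  have h1 := abs_le.1 (show |p 1| ≤ 1 by linarith [abs_nonneg (p 2), hp.2.2])
  have h2 := abs_le.1 (show |p' 1| ≤ 1 by linarith [abs_nonneg (p' 2), hp'.2.2])
  linarith [h1.1, h1.2, h2.1, h2.2]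

theorem tg_continuous_coord (i : Fin 3) : Continuous (fun p : E3 => p i) := by
  fun_prop

theorem cellB_open : IsOpen cellB := by
  unfold cellB roof
  apply isOpen_lt <;> fun_prop

theorem cellBc_closed : IsClosed cellBc := by
  unfold cellBc roof
  apply isClosed_le <;> fun_prop

theorem tg_norm_sq (x : E3) : ‖x‖ ^ 2 = x 0 ^ 2 + x 1 ^ 2 + x 2 ^ 2 := by
  rw [EuclideanSpace.norm_sq_eq, Fin.sum_univ_three]
  simp [Real.norm_eq_abs, sq_abs]

theorem cellBc_norm (x : E3) (hx : x ∈ cellBc) : ‖x‖ ≤ 2 := by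
  rw [mem_cellBc] at hx
  obtain ⟨h1, h2, h3⟩ := hx
  have a0 := abs_nonneg (x 0)
  have a1 := abs_nonneg (x 1)
  have a2 := abs_nonneg (x 2)
  have : ‖x‖ ^ 2 ≤ 2 ^ 2 := by
    rw [tg_norm_sq, ← sq_abs (x 0), ← sq_abs (x 1), ← sq_abs (x 2)]
    nlinarith
  exact le_of_sq_le_sq this (by norm_num)

theorem cellBc_compact : IsCompact cellBc := by
  refine Metric.isCompact_of_isClosed_isBounded cellBc_closed ?_
  refine (Metric.isBounded_closedBall (x := (0 : E3)) (r := 2)).subset ?_
  intro x hx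
  rw [mem_closedBall_zero_iff]
  exact cellBc_norm x hx

theorem cellB_convex : Convex ℝ cellB := by
  intro p hp q hq a b ha hb hab
  rw [mem_cellB] at *
  have key : ∀ i : Fin 3, |(a • p + b • q) i| ≤ a * |p i| + b * |q i| := by
    intro i
    have : (a • p + b • q) i = a * p i + b * q i := by simp
    rw [this]
    refine (abs_add_le _ _).trans ?_
    rw [abs_mul, abs_mul, abs_of_nonneg ha, abs_of_nonneg hb]
  have k0 := key 0
  have k1 := key 1
  have k2 := key 2
  obtain ⟨p1, p2, p3⟩ := hp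
  obtain ⟨q1, q2, q3⟩ := hq
  have hlt : ∀ u v c : ℝ, u < c → v < c → a * u + b * v < c := by
    intro u v c hu hv
    rcases eq_or_lt_of_le ha with h | h
    · have hb1 : b = 1 := by linarith
      rw [← h, hb1]; linarith
    · have h1 : a * u < a * c := mul_lt_mul_of_pos_left hu h
      have h2 : b * v ≤ b * c := mul_le_mul_of_nonneg_left hv.le hb
      have h3 : a * c + b * c = c := by rw [← add_mul, hab, one_mul]
      linarith
  refine ⟨?_, ?_, ?_⟩
  · have := hlt _ _ _ p1 q1
    linarith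
  · have := hlt _ _ _ p2 q2
    linarith
  · have := hlt _ _ _ p3 q3
    linarith

theorem cellBc_subset_closure : cellBc ⊆ closure cellB := by
  intro p hp
  rw [mem_cellBc] at hp
  -- scale towards 0
  have hlim : Tendsto (fun n : ℕ => ((1 : ℝ) - 1 / ((n : ℝ) + 1)) • p) atTop (𝓝 ((1 : ℝ) • p)) := by
    have : Tendsto (fun n : ℕ => (1 : ℝ) - 1 / ((n : ℝ) + 1)) atTop (𝓝 (1 - 0)) :=
      tendsto_const_nhds.sub tendsto_one_div_add_atTop_nhds_zero_nat
    rw [sub_zero] at this
    exact this.smul_const p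
  rw [one_smul] at hlim
  refine mem_closure_of_tendsto hlim (Eventually.of_forall ?_)
  intro n
  rw [mem_cellB]
  set t : ℝ := 1 - 1 / ((n : ℝ) + 1) with ht
  have hn : (0 : ℝ) < 1 / ((n : ℝ) + 1) := by positivity
  have hn1 : 1 / ((n : ℝ) + 1) ≤ 1 := by
    rw [div_le_one (by positivity)]
    linarith [(Nat.cast_nonneg n : (0 : ℝ) ≤ n)]
  have t1 : t < 1 := by linarith
  have t0 : 0 ≤ t := by linarith
  have e : ∀ i : Fin 3, |(t • p) i| = t * |p i| := by
    intro i
    have : (t • p) i = t * p i := by simp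
    rw [this, abs_mul, abs_of_nonneg t0]
  rw [e 0, e 1, e 2]
  obtain ⟨h1, h2, h3⟩ := hp
  have hlt : ∀ u c : ℝ, 0 < c → u ≤ c → t * u < c := by
    intro u c hc hu
    nlinarith
  refine ⟨hlt _ _ one_pos h1, ?_, ?_⟩
  · have := hlt _ _ (by norm_num) h2
    linarith
  · have := hlt _ _ (by norm_num) h3
    linarith

theorem volume_bdry : volume (cellBc \ cellB) = 0 := by
  have h : cellBc \ cellB ⊆ frontier cellB := by
    intro x hx
    rw [cellB_open.frontier_eq]
    exact ⟨cellBc_subset_closure hx.1, hx.2⟩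
  exact measure_mono_null h (cellB_convex.addHaar_frontier volume)

/-! ### Kc -/

theorem sim_continuous (b : Bool) : Continuous (sim b) := by
  unfold sim pt
  fun_prop

theorem simInv_continuous (b : Bool) : Continuous (simInv b) := by
  unfold simInv pt
  fun_prop

theorem Kc_compact (n : ℕ) : IsCompact (Kc n) := by
  induction n with
  | zero => exact cellBc_compact
  | succ n ih => exact (ih.image (sim_continuous true)).union (ih.image (sim_continuous false))

theorem sim_cellBc_subset (b : Bool) : sim b '' cellBc ⊆ cellBc :=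
  (sim_cell_subset b).trans cellB_subset

theorem Kc_anti (n : ℕ) : Kc (n + 1) ⊆ Kc n := by
  induction n with
  | zero =>
    exact union_subset (sim_cellBc_subset true) (sim_cellBc_subset false)
  | succ n ih =>
    exact union_subset_union (image_mono ih) (image_mono ih)

/-! ### swp as a linear isometry -/

/-- The swap of the first two coordinates, as a linear isometry. -/
noncomputable def swpL : E3 ≃ₗᵢ[ℝ] E3 :=
  LinearIsometryEquiv.piLpCongrLeft 2 ℝ ℝ (Equiv.swap (0 : Fin 3) 1)

theorem swpL_apply (x : E3) : swpL x = swp x := by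
  apply tg_ext
  · simp [swpL, swp, LinearIsometryEquiv.piLpCongrLeft_apply]
  · simp [swpL, swp, LinearIsometryEquiv.piLpCongrLeft_apply]
  · have h : (Equiv.swap (0 : Fin 3) 1) 2 = 2 := by decide
    simp [swpL, swp, LinearIsometryEquiv.piLpCongrLeft_apply, h]

theorem swp_swp (x : E3) : swp (swp x) = x := by
  apply tg_ext <;> simp [swp]

theorem inner_swp (x y : E3) : inner ℝ (swp x) (swp y) = inner ℝ x y := by
  rw [← swpL_apply, ← swpL_apply, LinearIsometryEquiv.inner_map_map]

theorem norm_swp (x : E3) : ‖swp x‖ = ‖x‖ := by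
  rw [← swpL_apply, LinearIsometryEquiv.norm_map]

/-- centre of the child cell -/
noncomputable def ctr (b : Bool) : E3 := pt (sg b * (16/25)) 0 0

theorem sim_eq (b : Bool) (x : E3) : sim b x = ctr b + (3/5 : ℝ) • swp x := by
  apply tg_ext <;> simp [sim, ctr, swp]

theorem simInv_eq (b : Bool) (x : E3) : simInv b x = (5/3 : ℝ) • swp (x - ctr b) := by
  apply tg_ext <;> simp [simInv, ctr, swp]

theorem swp_add (x y : E3) : swp (x + y) = swp x + swp y := by
  apply tg_ext <;> simp [swp]

theorem swp_sub (x y : E3) : swp (x - y) = swp x - swp y := by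
  apply tg_ext <;> simp [swp]

theorem swp_smul (c : ℝ) (x : E3) : swp (c • x) = c • swp x := by
  apply tg_ext <;> simp [swp]

theorem sim_lipschitz (b : Bool) : LipschitzWith (3/5) (sim b) := by
  refine LipschitzWith.of_dist_le_mul (fun x y => ?_)
  rw [dist_eq_norm, dist_eq_norm, sim_eq, sim_eq, add_sub_add_left_eq_sub, ← smul_sub,
    ← swp_sub, norm_smul, norm_swp]
  norm_num

theorem simInv_lipschitz (b : Bool) : LipschitzWith (5/3) (simInv b) := by
  refine LipschitzWith.of_dist_le_mul (fun x y => ?_)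
  rw [dist_eq_norm, dist_eq_norm, simInv_eq, simInv_eq, ← smul_sub,
    ← swp_sub, norm_smul, norm_swp, sub_sub_sub_cancel_right]
  norm_num

theorem sim_injective (b : Bool) : Function.Injective (sim b) :=
  Function.LeftInverse.injective (simInv_sim b)

theorem sim_surjective (b : Bool) : Function.Surjective (sim b) :=
  fun x => ⟨simInv b x, sim_simInv b x⟩

theorem sim_bijective (b : Bool) : Function.Bijective (sim b) :=
  ⟨sim_injective b, sim_surjective b⟩

theorem mem_sim_image (b : Bool) (S : Set E3) (x : E3) : x ∈ sim b '' S ↔ simInv b x ∈ S := by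
  constructor
  · rintro ⟨y, hy, rfl⟩; rwa [simInv_sim]
  · intro h; exact ⟨_, h, sim_simInv b x⟩

/-- `sim b` as a homeomorphism. -/
noncomputable def simH (b : Bool) : E3 ≃ₜ E3 where
  toFun := sim b
  invFun := simInv b
  left_inv := simInv_sim b
  right_inv := sim_simInv b
  continuous_toFun := sim_continuous b
  continuous_invFun := simInv_continuous b

theorem measurableSet_sim_image (b : Bool) {S : Set E3} (hS : MeasurableSet S) :
    MeasurableSet (sim b '' S) :=
  (simH b).measurableEmbedding.measurableSet_image.2 hS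

/-! ### change of variables -/

theorem integral_sim_univ (b : Bool) (f : E3 → ℝ) :
    ∫ x, f x = 27/125 * ∫ x, f (sim b x) := by
  have h1 : ∫ x, f (sim b x) = ∫ x, f (ctr b + (3/5 : ℝ) • x) := by
    have := (swpL.measurePreserving).integral_comp swpL.toHomeomorph.measurableEmbedding
      (fun x => f (ctr b + (3/5 : ℝ) • x))
    rw [← this]
    refine integral_congr_ae (Eventually.of_forall fun x => ?_)
    simp only [sim_eq, swpL_apply]
  have h2 : ∫ x, f (ctr b + (3/5 : ℝ) • x) = |(((3/5 : ℝ)) ^ 3)⁻¹| • ∫ x, f (ctr b + x) := by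
    have := Measure.integral_comp_smul (volume : Measure E3) (fun x => f (ctr b + x)) (3/5 : ℝ)
    rw [this]
    simp
  have h3 : ∫ x, f (ctr b + x) = ∫ x, f x := integral_add_left_eq_self f (ctr b)
  rw [h1, h2, h3, smul_eq_mul, abs_of_pos (by norm_num), ← mul_assoc]
  norm_num

theorem integral_sim (b : Bool) (S : Set E3) (hS : MeasurableSet S) (f : E3 → ℝ) :
    ∫ x in sim b '' S, f x = 27/125 * ∫ x in S, f (sim b x) := by
  rw [← integral_indicator (measurableSet_sim_image b hS), ← integral_indicator hS,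
    integral_sim_univ b]
  congr 1
  refine integral_congr_ae (Eventually.of_forall fun x => ?_)
  by_cases hx : x ∈ S
  · simp only [indicator_of_mem hx, indicator_of_mem (mem_image_of_mem (sim b) hx)]
  · have hx' : sim b x ∉ sim b '' S := by rwa [mem_sim_image, simInv_sim]
    simp only [indicator_of_notMem hx, indicator_of_notMem hx']

theorem volume_sim (b : Bool) (S : Set E3) :
    volume (sim b '' S) = ENNReal.ofReal (27/125) * volume S := by
  have e1 : sim b '' S = (fun x => ctr b + x) '' ((3/5 : ℝ) • (swpL '' S)) := by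
    rw [← image_smul, image_image, image_image]
    refine image_congr fun x _ => ?_
    rw [sim_eq, swpL_apply]
  have e2 : volume (swpL '' S) = volume S := by
    rw [← swpL.measurePreserving.measure_preimage_emb swpL.toHomeomorph.measurableEmbedding,
      preimage_image_eq _ swpL.injective]
  rw [e1, image_add_left, measure_preimage_add, Measure.addHaar_smul, e2]
  norm_num

theorem volume_Kc (n : ℕ) :
    volume (Kc n) ≤ ENNReal.ofReal ((54/125 : ℝ) ^ n) * volume cellBc := by
  induction n with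
  | zero => simp [Kc]
  | succ n ih =>
    calc volume (Kc (n + 1)) ≤ volume (sim true '' Kc n) + volume (sim false '' Kc n) :=
          measure_union_le _ _
      _ = ENNReal.ofReal (54/125) * volume (Kc n) := by
          rw [volume_sim, volume_sim, ← add_mul, ← ENNReal.ofReal_add (by norm_num) (by norm_num)]
          norm_num
      _ ≤ ENNReal.ofReal (54/125) * (ENNReal.ofReal ((54/125 : ℝ) ^ n) * volume cellBc) := by
          gcongr
      _ = ENNReal.ofReal ((54/125 : ℝ) ^ (n + 1)) * volume cellBc := by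
          rw [← mul_assoc, ← ENNReal.ofReal_mul (by norm_num), pow_succ, mul_comm (54/125 : ℝ)]

/-! ### gradients -/

/-- the linear part of `sim b` -/
noncomputable def simLin : E3 ≃L[ℝ] E3 :=
  (swpL.toContinuousLinearEquiv).trans
    (ContinuousLinearEquiv.smulLeft (Units.mk0 (3/5 : ℝ) (by norm_num)))

theorem simLin_apply (x : E3) : simLin x = (3/5 : ℝ) • swp x := by
  simp [simLin, swpL_apply]

theorem inner_swp_left (x y : E3) : inner ℝ (swp x) y = inner ℝ x (swp y) := by
  rw [← inner_swp x (swp y), swp_swp]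

theorem grad_comp_sim (b : Bool) (ψ : E3 → ℝ) (x : E3) :
    ∇ (ψ ∘ sim b) x = (3/5 : ℝ) • swp (∇ ψ (sim b x)) := by
  have h1 : (ψ ∘ sim b) = (fun y => ψ (ctr b + y)) ∘ simLin := by
    funext y
    simp only [Function.comp, sim_eq, simLin_apply]
  have h2 : fderiv ℝ (ψ ∘ sim b) x = (fderiv ℝ ψ (sim b x)).comp (simLin : E3 →L[ℝ] E3) := by
    rw [h1, ContinuousLinearEquiv.comp_right_fderiv, fderiv_comp_add_left, simLin_apply, sim_eq]
  refine ext_inner_right ℝ (fun v => ?_)
  rw [inner_gradient_left, inner_smul_left, inner_swp_left, inner_gradient_left, h2]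
  simp [simLin_apply]

theorem grad_comp_simInv (b : Bool) (ψ : E3 → ℝ) (x : E3) :
    ∇ (fun y => ψ (simInv b y)) x = (5/3 : ℝ) • swp (∇ ψ (simInv b x)) := by
  have h := grad_comp_sim b (fun y => ψ (simInv b y)) (simInv b x)
  have h1 : (fun y => ψ (simInv b y)) ∘ sim b = ψ := by
    funext y
    simp only [Function.comp, simInv_sim]
  rw [h1, sim_simInv] at h
  rw [h, swp_smul, swp_swp, smul_smul]
  norm_num

/-! ### the bigger box -/

theorem mem_Dbox {p : E3} : p ∈ Dbox ↔ |p 0| < 71/50 ∧ |p 1| < 51/50 ∧ |p 2| < 51/50 :=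
  Iff.rfl

theorem sim_Dbox (b : Bool) : sim b '' Dbox ⊆ Dbox := by
  rintro _ ⟨p, hp, rfl⟩
  rw [mem_Dbox] at hp ⊢
  obtain ⟨h1, h2, h3⟩ := hp
  have e2 : |sim b p 2| = 3/5 * |p 2| := by
    have : sim b p 2 = 3/5 * p 2 := rfl
    rw [this, abs_mul, abs_of_pos (by norm_num : (0:ℝ) < 3/5)]
  have e1 : |sim b p 1| = 3/5 * |p 0| := by
    have : sim b p 1 = 3/5 * p 0 := rfl
    rw [this, abs_mul, abs_of_pos (by norm_num : (0:ℝ) < 3/5)]
  have e0 : |sim b p 0| ≤ 16/25 + 3/5 * |p 1| := by
    have : sim b p 0 = sg b * (16/25) + 3/5 * p 1 := rfl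
    rw [this]
    refine (abs_add_le _ _).trans ?_
    rw [abs_mul, abs_mul, abs_sg]
    norm_num [abs_of_pos]
  refine ⟨?_, ?_, ?_⟩
  · linarith
  · rw [e1]; linarith
  · rw [e2]; linarith

theorem Dbox_disjoint : Disjoint (sim true '' Dbox) (sim false '' Dbox) := by
  rw [Set.disjoint_left]
  rintro _ ⟨p, hp, rfl⟩ ⟨p', hp', h⟩
  rw [mem_Dbox] at hp hp'
  have h0 := congrArg (fun x : E3 => x 0) h
  simp [sim, sg] at h0
  have h1 := abs_lt.1 hp.2.1
  have h2 := abs_lt.1 hp'.2.1
  linarith [h1.1, h1.2, h2.1, h2.2]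

end Crest.Agent.R083
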