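import Crest.Agent.R083.ChartDefs
import Crest.Agent.R083.TreeGeom

/-!
Row 83 (S0111), task MOD-b: the piecewise linear chart of the module (helper552).

Proofs of the statements of the section `Chart.lean` of `ModIface.lean`.  Auxiliary lemmas are in the
namespace `Crest.Agent.R083.Ch`.
-/

set_option autoImplicit false

namespace Crest.Agent.R083

open MeasureTheory Set Filter
open scoped Gradient ENNReal NNReal Topology

namespace Ch

/-! ### One-dimensional lemmas -/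

/-- Shifted height from the level. -/
noncomputable def lev0 (l v : ℝ) : ℝ := max (l - 5/2 * v) (min l (5 * l - 7/2))

/-- Level from the shifted height. -/
noncomputable def lev1 (l0 v : ℝ) : ℝ := l0 + min (5/2 * v) (max 0 (7/10 - 4/5 * l0))

theorem lev_eq (p : E3) : lev p = lev1 (lv0 p) (v0 (p 0) (p 1)) := rfl

theorem zlev_eq (x y l : ℝ) : zlev x y l = lev0 l (v0 x y) - 5/2 * d0 x y := rfl

theorem roof_eq (x y : ℝ) : roof x y = 1 - 5/2 * d0 x y := rfl

theorem v0_nonneg (x y : ℝ) : 0 ≤ v0 x y := le_max_left _ _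
theorem d0_nonneg (x y : ℝ) : 0 ≤ d0 x y := le_max_left _ _

@[simp] theorem v0_neg_left (x y : ℝ) : v0 (-x) y = v0 x y := by simp [v0]
@[simp] theorem v0_neg_right (x y : ℝ) : v0 x (-y) = v0 x y := by simp [v0]
@[simp] theorem d0_neg_left (x y : ℝ) : d0 (-x) y = d0 x y := by simp [d0]
@[simp] theorem d0_neg_right (x y : ℝ) : d0 x (-y) = d0 x y := by simp [d0]
@[simp] theorem zlev_neg_left (x y l : ℝ) : zlev (-x) y l = zlev x y l := by simp [zlev]
@[simp] theorem zlev_neg_right (x y l : ℝ) : zlev x (-y) l = zlev x y l := by simp [zlev]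

theorem clp_zero (lam x : ℝ) : clp 0 lam x = x := by
  rw [clp, sub_zero, add_zero]
  exact max_eq_left (min_le_left _ _)

theorem clm_self {a b x : ℝ} (h1 : a ≤ x) (h2 : x ≤ b) : clm a b x = x := by
  rw [clm, min_eq_right h2, max_eq_right h1]

theorem clm_mem {a b : ℝ} (x : ℝ) (h : a ≤ b) : a ≤ clm a b x ∧ clm a b x ≤ b :=
  ⟨le_max_left _ _, max_le h (min_le_left _ _)⟩

theorem clm_top {a b x : ℝ} (h : a ≤ b) (hx : b ≤ x) : clm a b x = b := by
  rw [clm, min_eq_left hx, max_eq_right h]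

theorem clm_bot {a b x : ℝ} (hx : x ≤ a) : clm a b x = a := by
  rw [clm]
  exact max_eq_left ((min_le_right _ _).trans hx)

theorem clp_neg (t lam x : ℝ) (ht : 0 ≤ t) : clp t lam (-x) = -clp t lam x := by
  rcases le_total (lam * x) (x - t) with h | h <;> rcases le_total (lam * x) (x + t) with h' | h'
  all_goals
    simp only [clp, max_def, min_def]
    split_ifs <;> linarith

theorem lev0_lev1 (l0 v : ℝ) (hv : 0 ≤ v) : lev0 (lev1 l0 v) v = l0 := by
  simp only [lev0, lev1, max_def, min_def]; split_ifs <;> linarith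

theorem lev1_lev0 (l v : ℝ) (hv : 0 ≤ v) : lev1 (lev0 l v) v = l := by
  simp only [lev0, lev1, max_def, min_def]; split_ifs <;> linarith

theorem lev0_le (l v : ℝ) (hv : 0 ≤ v) : lev0 l v ≤ l := by
  simp only [lev0, max_def, min_def]; split_ifs <;> linarith

/-- the coordinate changes -/
theorem inv_a (t x : ℝ) (ht : 0 ≤ t) : clp t (35/32) (clp t (32/35) x) = x := by
  simp only [clp, max_def, min_def]; split_ifs <;> linarith
theorem inv_a' (t x : ℝ) (ht : 0 ≤ t) : clp t (32/35) (clp t (35/32) x) = x := by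
  simp only [clp, max_def, min_def]; split_ifs <;> linarith
theorem inv_b (t x : ℝ) (ht : 0 ≤ t) : clp t (25/22) (clp t (22/25) x) = x := by
  simp only [clp, max_def, min_def]; split_ifs <;> linarith
theorem inv_b' (t x : ℝ) (ht : 0 ≤ t) : clp t (22/25) (clp t (25/22) x) = x := by
  simp only [clp, max_def, min_def]; split_ifs <;> linarith
theorem inv_c (t x : ℝ) (ht : 0 ≤ t) : clp t (15/16) (clp t (16/15) x) = x := by
  simp only [clp, max_def, min_def]; split_ifs <;> linarith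
theorem inv_c' (t x : ℝ) (ht : 0 ≤ t) : clp t (16/15) (clp t (15/16) x) = x := by
  simp only [clp, max_def, min_def]; split_ifs <;> linarith
theorem inv_d (t x : ℝ) (ht : 0 ≤ t) : clp t (21/22) (clp t (22/21) x) = x := by
  simp only [clp, max_def, min_def]; split_ifs <;> linarith
theorem inv_d' (t x : ℝ) (ht : 0 ≤ t) : clp t (22/21) (clp t (21/22) x) = x := by
  simp only [clp, max_def, min_def]; split_ifs <;> linarith

/-- bounds for the new coordinates -/
theorem bd_a (t x : ℝ) (h0 : 0 ≤ t) (h1 : t ≤ 3/25) :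
    |clp t (32/35) x| ≤ 32/25 ↔ |x| ≤ 32/25 + t := by
  rw [abs_le, abs_le]
  constructor
  · intro h
    simp only [clp, max_def, min_def] at h
    split_ifs at h <;> constructor <;> linarith
  · intro h
    simp only [clp, max_def, min_def]
    split_ifs <;> constructor <;> linarith

theorem bd_a' (t x : ℝ) (h0 : 0 ≤ t) (h1 : t ≤ 3/25) :
    |clp t (32/35) x| < 32/25 ↔ |x| < 32/25 + t := by
  rw [abs_lt, abs_lt]
  constructor
  · intro h
    simp only [clp, max_def, min_def] at h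
    split_ifs at h <;> constructor <;> linarith
  · intro h
    simp only [clp, max_def, min_def]
    split_ifs <;> constructor <;> linarith

theorem bd_b (t x : ℝ) (h0 : 0 ≤ t) (h1 : t ≤ 3/25) :
    |clp t (22/25) x| ≤ 22/25 ↔ |x| ≤ 22/25 + t := by
  rw [abs_le, abs_le]
  constructor
  · intro h
    simp only [clp, max_def, min_def] at h
    split_ifs at h <;> constructor <;> linarith
  · intro h
    simp only [clp, max_def, min_def]
    split_ifs <;> constructor <;> linarith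

theorem bd_b' (t x : ℝ) (h0 : 0 ≤ t) (h1 : t ≤ 3/25) :
    |clp t (22/25) x| < 22/25 ↔ |x| < 22/25 + t := by
  rw [abs_lt, abs_lt]
  constructor
  · intro h
    simp only [clp, max_def, min_def] at h
    split_ifs at h <;> constructor <;> linarith
  · intro h
    simp only [clp, max_def, min_def]
    split_ifs <;> constructor <;> linarith

theorem bd_c (t x : ℝ) (h0 : 0 ≤ t) (h1 : t ≤ 1/25) :
    |clp t (16/15) x| ≤ 16/25 ↔ |x| ≤ 16/25 - t := by
  rw [abs_le, abs_le]
  constructor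
  · intro h
    simp only [clp, max_def, min_def] at h
    split_ifs at h <;> constructor <;> linarith
  · intro h
    simp only [clp, max_def, min_def]
    split_ifs <;> constructor <;> linarith

theorem bd_c' (t x : ℝ) (h0 : 0 ≤ t) (h1 : t ≤ 1/25) :
    |clp t (16/15) x| < 16/25 ↔ |x| < 16/25 - t := by
  rw [abs_lt, abs_lt]
  constructor
  · intro h
    simp only [clp, max_def, min_def] at h
    split_ifs at h <;> constructor <;> linarith
  · intro h
    simp only [clp, max_def, min_def]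
    split_ifs <;> constructor <;> linarith

theorem bd_d (t x : ℝ) (h0 : 0 ≤ t) (h1 : t ≤ 1/25) :
    |clp t (22/21) x| ≤ 22/25 ↔ |x| ≤ 22/25 - t := by
  rw [abs_le, abs_le]
  constructor
  · intro h
    simp only [clp, max_def, min_def] at h
    split_ifs at h <;> constructor <;> linarith
  · intro h
    simp only [clp, max_def, min_def]
    split_ifs <;> constructor <;> linarith

theorem bd_d' (t x : ℝ) (h0 : 0 ≤ t) (h1 : t ≤ 1/25) :
    |clp t (22/21) x| < 22/25 ↔ |x| < 22/25 - t := by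
  rw [abs_lt, abs_lt]
  constructor
  · intro h
    simp only [clp, max_def, min_def] at h
    split_ifs at h <;> constructor <;> linarith
  · intro h
    simp only [clp, max_def, min_def]
    split_ifs <;> constructor <;> linarith

/-! ### Height of the sections -/

theorem v0_cases (x y : ℝ) :
    (v0 x y = 0 ∧ (7/25 - |x|) - max 0 (|y| - 3/5) ≤ 0) ∨
      (v0 x y = (7/25 - |x|) - max 0 (|y| - 3/5) ∧ 0 ≤ (7/25 - |x|) - max 0 (|y| - 3/5)) := by
  rcases le_total ((7/25 - |x|) - max 0 (|y| - 3/5)) 0 with h | h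
  · left; exact ⟨max_eq_left h, h⟩
  · right; exact ⟨max_eq_right h, h⟩

theorem le_v0 (x y : ℝ) : (7/25 - |x|) - max 0 (|y| - 3/5) ≤ v0 x y := le_max_right _ _
theorem le_d0_x (x y : ℝ) : |x| - 1 ≤ d0 x y := (le_max_left _ _).trans (le_max_right _ _)
theorem le_d0_y (x y : ℝ) : |y| - 3/5 ≤ d0 x y := (le_max_right _ _).trans (le_max_right _ _)
theorem max_le_d0 (x y : ℝ) : max 0 (|y| - 3/5) ≤ d0 x y :=
  max_le (d0_nonneg x y) (le_d0_y x y)
theorem d0_le {x y L : ℝ} (h0 : 0 ≤ L) (h1 : |x| - 1 ≤ L) (h2 : |y| - 3/5 ≤ L) : d0 x y ≤ L :=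
  max_le h0 (max_le h1 h2)
theorem d0_lt {x y L : ℝ} (h0 : 0 < L) (h1 : |x| - 1 < L) (h2 : |y| - 3/5 < L) : d0 x y < L :=
  max_lt h0 (max_lt h1 h2)

/-- distance to the flat tops of the children -/
theorem d0_add_v0 (x y : ℝ) :
    d0 x y + v0 x y = max 0 (max (max (|x| - 1) (7/25 - |x|)) (|y| - 3/5)) := by
  apply le_antisymm
  · rcases v0_cases x y with ⟨h, h'⟩ | ⟨h, h'⟩
    · rw [h, add_zero]
      refine d0_le (le_max_left _ _) ?_ ?_
      · exact ((le_max_left _ _).trans (le_max_left _ _)).trans (le_max_right _ _)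
      · exact (le_max_right _ _).trans (le_max_right _ _)
    · have hm : 0 ≤ max 0 (|y| - 3/5) := le_max_left _ _
      have hd : d0 x y = max 0 (|y| - 3/5) := by
        apply le_antisymm _ (max_le_d0 x y)
        refine d0_le hm ?_ (le_max_right _ _)
        linarith
      rw [h, hd]
      have : (7/25 : ℝ) - |x| ≤ max 0 (max (max (|x| - 1) (7/25 - |x|)) (|y| - 3/5)) :=
        ((le_max_right _ _).trans (le_max_left _ _)).trans (le_max_right _ _)
      linarith
  · have h1 := v0_nonneg x y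
    have h2 := d0_nonneg x y
    have h3 := le_d0_x x y
    have h4 := le_d0_y x y
    have h5 := le_v0 x y
    have h6 := max_le_d0 x y
    refine max_le ?_ (max_le (max_le ?_ ?_) ?_) <;> linarith

theorem zlev_nonneg_iff (x y l : ℝ) : 0 ≤ zlev x y l ↔ 5/2 * d0 x y ≤ lev0 l (v0 x y) := by
  rw [zlev_eq, sub_nonneg]

theorem zlev_pos_iff (x y l : ℝ) : 0 < zlev x y l ↔ 5/2 * d0 x y < lev0 l (v0 x y) := by
  rw [zlev_eq, sub_pos]

theorem zlev_nonneg_O (x y l : ℝ) (hl : 7/10 ≤ l) :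
    0 ≤ zlev x y l ↔ |x| ≤ 1 + 2/5 * l ∧ |y| ≤ 3/5 + 2/5 * l := by
  have hx := abs_nonneg x
  rw [zlev_nonneg_iff]
  constructor
  · intro h
    have h1 := le_d0_x x y
    have h2 := le_d0_y x y
    have h3 := lev0_le l _ (v0_nonneg x y)
    constructor <;> linarith
  · rintro ⟨h1, h2⟩
    rcases v0_cases x y with ⟨h, h'⟩ | ⟨h, h'⟩
    · have hL : l ≤ lev0 l (v0 x y) := by
        rw [h, lev0]; exact le_trans (by linarith) (le_max_left _ _)
      have : d0 x y ≤ 2/5 * l := d0_le (by linarith) (by linarith) (by linarith)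
      linarith
    · have hL : l - 5/2 * v0 x y ≤ lev0 l (v0 x y) := le_max_left _ _
      have hm : 0 ≤ max 0 (|y| - 3/5) := le_max_left _ _
      have hd : d0 x y ≤ max 0 (|y| - 3/5) := d0_le hm (by linarith) (le_max_right _ _)
      linarith

theorem zlev_pos_O (x y l : ℝ) (hl : 7/10 < l) :
    0 < zlev x y l ↔ |x| < 1 + 2/5 * l ∧ |y| < 3/5 + 2/5 * l := by
  have hx := abs_nonneg x
  rw [zlev_pos_iff]
  constructor
  · intro h
    have h1 := le_d0_x x y
    have h2 := le_d0_y x y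
    have h3 := lev0_le l _ (v0_nonneg x y)
    constructor <;> linarith
  · rintro ⟨h1, h2⟩
    rcases v0_cases x y with ⟨h, h'⟩ | ⟨h, h'⟩
    · have hL : l ≤ lev0 l (v0 x y) := by
        rw [h, lev0]; exact le_trans (by linarith) (le_max_left _ _)
      have : d0 x y < 2/5 * l := d0_lt (by linarith) (by linarith) (by linarith)
      linarith
    · have hL : l - 5/2 * v0 x y ≤ lev0 l (v0 x y) := le_max_left _ _
      have hm : 0 ≤ max 0 (|y| - 3/5) := le_max_left _ _
      have hd : d0 x y ≤ max 0 (|y| - 3/5) := d0_le hm (by linarith) (le_max_right _ _)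
      linarith

theorem lev0_P {l v : ℝ} (_h0 : 0 ≤ l) (hl : l ≤ 7/10) (h : 0 ≤ lev0 l v) :
    lev0 l v = l - 5/2 * v ∨ (l = 7/10 ∧ lev0 l v = 0) := by
  have hm : min l (5 * l - 7/2) ≤ 5 * l - 7/2 := min_le_right _ _
  rcases le_total (min l (5 * l - 7/2)) (l - 5/2 * v) with h' | h'
  · left; exact max_eq_left h'
  · right
    have h2 : lev0 l v = min l (5 * l - 7/2) := max_eq_right h'
    rw [h2] at h ⊢
    have h3 : l = 7/10 := by linarith
    refine ⟨h3, le_antisymm (by linarith) h⟩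

theorem zlev_nonneg_P (x y l : ℝ) (h0 : 0 ≤ l) (hl : l ≤ 7/10) (hx : 0 ≤ x) :
    0 ≤ zlev x y l ↔ |x - 16/25| ≤ 9/25 + 2/5 * l ∧ |y| ≤ 3/5 + 2/5 * l := by
  rw [zlev_nonneg_iff, abs_le (a := x - 16/25)]
  have hax := abs_of_nonneg hx
  have hs := d0_add_v0 x y
  have hd0 := d0_nonneg x y
  have h1 := le_d0_x x y
  have h2 := le_d0_y x y
  constructor
  · intro h
    rcases lev0_P (v := v0 x y) h0 hl (le_trans (by linarith) h) with h3 | ⟨h3, h4⟩
    · rw [h3] at h
      have h5 : (7/25 : ℝ) - |x| ≤ d0 x y + v0 x y := by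
        rw [hs]
        exact ((le_max_right _ _).trans (le_max_left _ _)).trans (le_max_right _ _)
      have h6 := v0_nonneg x y
      rw [hax] at h1 h5
      refine ⟨⟨?_, ?_⟩, ?_⟩ <;> linarith
    · rw [h4] at h
      rw [hax] at h1
      refine ⟨⟨?_, ?_⟩, ?_⟩ <;> linarith
  · rintro ⟨⟨h3, h4⟩, h5⟩
    have hL : l - 5/2 * v0 x y ≤ lev0 l (v0 x y) := le_max_left _ _
    have : d0 x y + v0 x y ≤ 2/5 * l := by
      rw [hs, hax]
      refine max_le ?_ (max_le (max_le ?_ ?_) ?_) <;> linarith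
    linarith

theorem zlev_pos_P (x y l : ℝ) (h0 : 0 < l) (hl : l < 7/10) (hx : 0 ≤ x) :
    0 < zlev x y l ↔ |x - 16/25| < 9/25 + 2/5 * l ∧ |y| < 3/5 + 2/5 * l := by
  rw [zlev_pos_iff, abs_lt (a := x - 16/25)]
  have hax := abs_of_nonneg hx
  have hs := d0_add_v0 x y
  have hd0 := d0_nonneg x y
  have h1 := le_d0_x x y
  have h2 := le_d0_y x y
  constructor
  · intro h
    rcases lev0_P (v := v0 x y) h0.le hl.le (le_trans (by linarith) h.le) with h3 | ⟨h3, h4⟩
    · rw [h3] at h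
      have h5 : (7/25 : ℝ) - |x| ≤ d0 x y + v0 x y := by
        rw [hs]
        exact ((le_max_right _ _).trans (le_max_left _ _)).trans (le_max_right _ _)
      have h6 := v0_nonneg x y
      rw [hax] at h1 h5
      refine ⟨⟨?_, ?_⟩, ?_⟩ <;> linarith
    · exact absurd h3 hl.ne
  · rintro ⟨⟨h3, h4⟩, h5⟩
    have hL : l - 5/2 * v0 x y ≤ lev0 l (v0 x y) := le_max_left _ _
    have : d0 x y + v0 x y < 2/5 * l := by
      rw [hs, hax]
      refine max_lt ?_ (max_lt (max_lt ?_ ?_) ?_) <;> linarith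
    linarith

/-! ### The level -/

theorem lev1_le_one (l0 v : ℝ) (hv : 0 ≤ v) : lev1 l0 v ≤ 1 ↔ l0 ≤ 1 := by
  constructor
  · intro h
    have : 0 ≤ min (5/2 * v) (max 0 (7/10 - 4/5 * l0)) :=
      le_min (by positivity) (le_max_left _ _)
    rw [lev1] at h; linarith
  · intro h
    rw [lev1]
    rcases le_total (7/10 - 4/5 * l0) 0 with h' | h'
    · rw [max_eq_left h']
      have := min_le_right (5/2 * v) (0:ℝ)
      linarith
    · rw [max_eq_right h']
      have := min_le_right (5/2 * v) (7/10 - 4/5 * l0)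
      linarith

theorem lev1_lt_one (l0 v : ℝ) (hv : 0 ≤ v) : lev1 l0 v < 1 ↔ l0 < 1 := by
  constructor
  · intro h
    have : 0 ≤ min (5/2 * v) (max 0 (7/10 - 4/5 * l0)) :=
      le_min (by positivity) (le_max_left _ _)
    rw [lev1] at h; linarith
  · intro h
    rw [lev1]
    rcases le_total (7/10 - 4/5 * l0) 0 with h' | h'
    · rw [max_eq_left h']
      have := min_le_right (5/2 * v) (0:ℝ)
      linarith
    · rw [max_eq_right h']
      have := min_le_right (5/2 * v) (7/10 - 4/5 * l0)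
      linarith

theorem v0_le (x y : ℝ) : v0 x y ≤ 7/25 := by
  have := abs_nonneg x
  have hm : 0 ≤ max 0 (|y| - 3/5) := le_max_left _ _
  exact max_le (by norm_num) (by linarith)

theorem lev1_le_iff (l0 v t : ℝ) (h0 : 0 ≤ l0) (hv' : v ≤ 7/25) (ht : t ≤ 7/10) :
    lev1 l0 v ≤ t ↔ l0 + 5/2 * v ≤ t := by
  constructor
  · intro h
    rcases le_total (5/2 * v) (max 0 (7/10 - 4/5 * l0)) with h' | h'
    · rwa [lev1, min_eq_left h'] at h
    · rw [lev1, min_eq_right h'] at h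
      have := le_max_right 0 (7/10 - 4/5 * l0)
      have h1 : l0 = 0 := by linarith
      subst h1
      linarith
  · intro h
    have := min_le_left (5/2 * v) (max 0 (7/10 - 4/5 * l0))
    rw [lev1]; linarith

theorem lev1_lt_iff (l0 v t : ℝ) (h0 : 0 ≤ l0) (ht : t ≤ 7/10) :
    lev1 l0 v < t ↔ l0 + 5/2 * v < t := by
  constructor
  · intro h
    rcases le_total (5/2 * v) (max 0 (7/10 - 4/5 * l0)) with h' | h'
    · rwa [lev1, min_eq_left h'] at h
    · rw [lev1, min_eq_right h'] at h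
      have := le_max_right 0 (7/10 - 4/5 * l0)
      exfalso
      linarith
  · intro h
    have := min_le_left (5/2 * v) (max 0 (7/10 - 4/5 * l0))
    rw [lev1]; linarith

theorem lv0_nonneg (p : E3) : 0 ≤ lv0 p := by
  have h1 := abs_nonneg (p 2)
  have h2 := d0_nonneg (p 0) (p 1)
  rw [lv0]; linarith

theorem mem_cellBc_iff (q : E3) : q ∈ cellBc ↔ lev q ≤ 1 := by
  rw [lev_eq, lev1_le_one _ _ (v0_nonneg _ _), lv0]
  change |q 2| ≤ roof (q 0) (q 1) ↔ _
  rw [roof_eq]
  constructor <;> intro h <;> linarith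

theorem mem_cellB_iff (q : E3) : q ∈ cellB ↔ lev q < 1 := by
  rw [lev_eq, lev1_lt_one _ _ (v0_nonneg _ _), lv0]
  change |q 2| < roof (q 0) (q 1) ↔ _
  rw [roof_eq]
  constructor <;> intro h <;> linarith

/-- horizontal distance to the flat top of the child centred at `c` -/
noncomputable def dc (c x y : ℝ) : ℝ := max 0 (max (|x - c| - 9/25) (|y| - 3/5))

theorem dc_pos (x y : ℝ) (hx : 0 ≤ x) : dc (16/25) x y = d0 x y + v0 x y := by
  rw [d0_add_v0, dc, abs_of_nonneg hx]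
  congr 2
  rcases le_total (16/25) x with h | h
  · rw [abs_of_nonneg (by linarith)]
    rw [max_eq_left (by linarith)]; ring
  · rw [abs_of_nonpos (by linarith), max_eq_right (by linarith : x - 1 ≤ 7/25 - x)]
    ring

theorem dc_neg (x y : ℝ) (hx : x ≤ 0) : dc (-(16/25)) x y = d0 x y + v0 x y := by
  have h := dc_pos (-x) y (by linarith)
  rw [d0_neg_left, v0_neg_left] at h
  rw [← h, dc, dc]
  congr 3
  rw [← abs_neg]; congr 1; ring

theorem le_dc (c x y : ℝ) (hc : c = 16/25 ∨ c = -(16/25)) : d0 x y + v0 x y ≤ dc c x y := by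
  rw [d0_add_v0, dc]
  refine max_le (le_max_left _ _) (max_le (max_le ?_ ?_) ?_)
  · refine le_trans ?_ ((le_max_left _ _).trans (le_max_right _ _))
    rcases hc with rfl | rfl
    · have := abs_sub_abs_le_abs_sub x (16/25)
      rw [abs_of_nonneg (by norm_num : (0:ℝ) ≤ 16/25)] at this
      linarith
    · have := abs_sub_abs_le_abs_sub x (-(16/25))
      rw [abs_neg, abs_of_nonneg (by norm_num : (0:ℝ) ≤ 16/25)] at this
      linarith
  · refine le_trans ?_ ((le_max_left _ _).trans (le_max_right _ _))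
    rcases hc with rfl | rfl
    · have := abs_sub_abs_le_abs_sub (16/25) x
      rw [abs_of_nonneg (by norm_num : (0:ℝ) ≤ 16/25), abs_sub_comm] at this
      linarith
    · have := abs_sub_abs_le_abs_sub (-(16/25)) x
      rw [abs_neg, abs_of_nonneg (by norm_num : (0:ℝ) ≤ 16/25), abs_sub_comm] at this
      linarith
  · exact (le_max_right _ _).trans (le_max_right _ _)

theorem roof_scale (x y c : ℝ) :
    3/5 * roof (5/3 * y) (5/3 * (x - c)) = 3/5 - 5/2 * dc c x y := by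
  have h1 : |5/3 * y| = 5/3 * |y| := by rw [abs_mul, abs_of_pos (by norm_num : (0:ℝ) < 5/3)]
  have h2 : |5/3 * (x - c)| = 5/3 * |x - c| := by
    rw [abs_mul, abs_of_pos (by norm_num : (0:ℝ) < 5/3)]
  rw [roof, h1, h2, dc]
  have h3 : (5/3 : ℝ) * |y| - 1 = 5/3 * (|y| - 3/5) := by ring
  have h4 : (5/3 : ℝ) * |x - c| - 3/5 = 5/3 * (|x - c| - 9/25) := by ring
  rw [h3, h4, ← mul_max_of_nonneg _ _ (by norm_num : (0:ℝ) ≤ 5/3)]
  have h5 : (0:ℝ) = 5/3 * 0 := by norm_num
  conv_lhs => rw [h5]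
  rw [← mul_max_of_nonneg _ _ (by norm_num : (0:ℝ) ≤ 5/3), max_comm (|y| - 3/5)]
  ring

theorem mem_sim_cellBc_iff (b : Bool) (q : E3) :
    q ∈ sim b '' cellBc ↔ |q 2| + 5/2 * dc (sg b * (16/25)) (q 0) (q 1) ≤ 3/5 := by
  rw [mem_sim_image]
  have h := roof_scale (q 0) (q 1) (sg b * (16/25))
  have h1 : |5/3 * q 2| = 5/3 * |q 2| := by rw [abs_mul, abs_of_pos (by norm_num : (0:ℝ) < 5/3)]
  change |5/3 * q 2| ≤ roof (5/3 * q 1) (5/3 * (q 0 - sg b * (16/25))) ↔ _
  rw [h1]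
  constructor <;> intro h' <;> linarith

theorem lev_le_iff (q : E3) (t : ℝ) (ht : t ≤ 7/10) :
    lev q ≤ t ↔ |q 2| + 5/2 * (d0 (q 0) (q 1) + v0 (q 0) (q 1)) ≤ t := by
  rw [lev_eq, lev1_le_iff _ _ t (lv0_nonneg q) (v0_le _ _) ht, lv0]
  constructor <;> intro h <;> linarith

theorem lev_lt_iff (q : E3) (t : ℝ) (ht : t ≤ 7/10) :
    lev q < t ↔ |q 2| + 5/2 * (d0 (q 0) (q 1) + v0 (q 0) (q 1)) < t := by
  rw [lev_eq, lev1_lt_iff _ _ t (lv0_nonneg q) ht, lv0]
  constructor <;> intro h <;> linarith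

end Ch

open Ch

/-! ### Description of the cells by the level -/

theorem cellB_eq : cellB = {p | lev p < 1} := by
  ext p; exact mem_cellB_iff p

theorem child_true_eq : sim true '' cellBc = {p | lev p ≤ 3/5 ∧ 0 ≤ p 0} := by
  ext q
  rw [mem_sim_cellBc_iff, Set.mem_ofPred_eq, lev_le_iff q _ (by norm_num)]
  simp only [sg, if_true, one_mul]
  constructor
  · intro h
    have h1 := le_dc (16/25) (q 0) (q 1) (Or.inl rfl)
    refine ⟨by linarith, ?_⟩
    have h2 : |q 0 - 16/25| - 9/25 ≤ dc (16/25) (q 0) (q 1) :=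
      (le_max_left _ _).trans (le_max_right _ _)
    have h3 := neg_abs_le (q 0 - 16/25)
    have h4 := abs_nonneg (q 2)
    linarith
  · rintro ⟨h, hx⟩
    rw [dc_pos _ _ hx]; exact h

theorem child_false_eq : sim false '' cellBc = {p | lev p ≤ 3/5 ∧ p 0 ≤ 0} := by
  ext q
  rw [mem_sim_cellBc_iff, Set.mem_ofPred_eq, lev_le_iff q _ (by norm_num)]
  simp only [sg, Bool.false_eq_true, if_false, neg_mul, one_mul]
  constructor
  · intro h
    have h1 := le_dc (-(16/25)) (q 0) (q 1) (Or.inr rfl)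
    refine ⟨by linarith, ?_⟩
    have h2 : |q 0 - -(16/25)| - 9/25 ≤ dc (-(16/25)) (q 0) (q 1) :=
      (le_max_left _ _).trans (le_max_right _ _)
    have h3 := le_abs_self (q 0 - -(16/25))
    have h4 := abs_nonneg (q 2)
    linarith
  · rintro ⟨h, hx⟩
    rw [dc_neg _ _ hx]; exact h

theorem modQ_eq : modQ = {p | 3/5 < lev p ∧ lev p < 1} := by
  ext q
  rw [modQ, child_true_eq, child_false_eq, cellB_eq]
  simp only [Set.mem_sdiff, Set.mem_union, Set.mem_ofPred_eq]
  constructor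
  · rintro ⟨h1, h2⟩
    refine ⟨?_, h1⟩
    by_contra h
    push Not at h h2
    rcases le_total 0 (q 0) with hx | hx
    · exact absurd hx (not_le.mpr (h2.1 h))
    · exact absurd hx (not_le.mpr (h2.2 h))
  · rintro ⟨h1, h2⟩
    refine ⟨h2, ?_⟩
    rintro (⟨h, -⟩ | ⟨h, -⟩) <;> linarith

theorem lev_of_zero (p : E3) (h : p 0 = 0) : 7/10 ≤ lev p := by
  by_contra h'
  rw [not_le, lev_lt_iff p _ le_rfl, d0_add_v0, h] at h'
  have h1 : (7/25 : ℝ) - |(0:ℝ)| ≤ max 0 (max (max (|(0:ℝ)| - 1) (7/25 - |(0:ℝ)|)) (|p 1| - 3/5)) :=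
    ((le_max_right _ _).trans (le_max_left _ _)).trans (le_max_right _ _)
  rw [abs_zero] at h1 h'
  have h2 := abs_nonneg (p 2)
  linarith

/-! ### Lipschitz bounds -/

namespace Ch

/-- Lipschitz real functions on space. -/
def LR (f : E3 → ℝ) : Prop := ∃ K : ℝ≥0, LipschitzWith K f

theorem LR.const (c : ℝ) : LR (fun _ => c) := ⟨0, LipschitzWith.const c⟩
theorem LR.coord (i : Fin 3) : LR (fun p => p i) := by
  refine ⟨1, LipschitzWith.of_dist_le_mul fun x y => ?_⟩
  rw [NNReal.coe_one, one_mul, dist_eq_norm, dist_eq_norm, ← PiLp.sub_apply]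
  exact PiLp.norm_apply_le (x - y) i
theorem LR.add {f g : E3 → ℝ} (hf : LR f) (hg : LR g) : LR (fun p => f p + g p) := by
  obtain ⟨K, hK⟩ := hf; obtain ⟨L, hL⟩ := hg
  exact ⟨K + L, hK.add hL⟩
theorem LR.neg {f : E3 → ℝ} (hf : LR f) : LR (fun p => -f p) := by
  obtain ⟨K, hK⟩ := hf
  exact ⟨K, hK.neg⟩
theorem LR.sub {f g : E3 → ℝ} (hf : LR f) (hg : LR g) : LR (fun p => f p - g p) := by
  obtain ⟨K, hK⟩ := hf; obtain ⟨L, hL⟩ := hg
  exact ⟨K + L, hK.sub hL⟩
theorem LR.max {f g : E3 → ℝ} (hf : LR f) (hg : LR g) : LR (fun p => Max.max (f p) (g p)) := by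
  obtain ⟨K, hK⟩ := hf; obtain ⟨L, hL⟩ := hg
  exact ⟨Max.max K L, hK.max hL⟩
theorem LR.min {f g : E3 → ℝ} (hf : LR f) (hg : LR g) : LR (fun p => Min.min (f p) (g p)) := by
  obtain ⟨K, hK⟩ := hf; obtain ⟨L, hL⟩ := hg
  exact ⟨Max.max K L, hK.min hL⟩
theorem LR.abs {f : E3 → ℝ} (hf : LR f) : LR (fun p => |f p|) := hf.max hf.neg
theorem LR.mul (c : ℝ) {f : E3 → ℝ} (hf : LR f) : LR (fun p => c * f p) := by
  obtain ⟨K, hK⟩ := hf
  refine ⟨‖c‖₊ * K, LipschitzWith.of_dist_le_mul fun x y => ?_⟩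
  rw [Real.dist_eq, ← mul_sub, abs_mul, NNReal.coe_mul, coe_nnnorm, Real.norm_eq_abs, mul_assoc]
  exact mul_le_mul_of_nonneg_left (hK.dist_le_mul x y) (abs_nonneg c)
theorem LR.pt {f g h : E3 → ℝ} (hf : LR f) (hg : LR g) (hh : LR h) :
    ∃ K : ℝ≥0, LipschitzWith K (fun p => pt (f p) (g p) (h p)) := by
  obtain ⟨K, hK⟩ := hf; obtain ⟨L, hL⟩ := hg; obtain ⟨M, hM⟩ := hh
  refine ⟨K + L + M, LipschitzWith.of_dist_le_mul fun x y => ?_⟩
  have hd := dist_nonneg (x := x) (y := y)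
  have e1 := hK.dist_le_mul x y
  have e2 := hL.dist_le_mul x y
  have e3 := hM.dist_le_mul x y
  rw [Real.dist_eq] at e1 e2 e3
  rw [dist_eq_norm]
  have hn := tg_norm_sq (Crest.Agent.R083.pt (f x) (g x) (h x) - Crest.Agent.R083.pt (f y) (g y) (h y))
  simp only [PiLp.sub_apply, tg_pt_zero, tg_pt_one, tg_pt_two] at hn
  have a1 := abs_nonneg (f x - f y)
  have a2 := abs_nonneg (g x - g y)
  have a3 := abs_nonneg (h x - h y)
  rw [← sq_abs (f x - f y), ← sq_abs (g x - g y), ← sq_abs (h x - h y)] at hn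
  have hb : ‖Crest.Agent.R083.pt (f x) (g x) (h x) - Crest.Agent.R083.pt (f y) (g y) (h y)‖ ≤
      |f x - f y| + |g x - g y| + |h x - h y| := by
    apply le_of_sq_le_sq _ (by positivity)
    rw [hn]; nlinarith [mul_nonneg a1 a2, mul_nonneg a1 a3, mul_nonneg a2 a3]
  refine hb.trans ?_
  push_cast
  linarith

theorem LR.clp {t f : E3 → ℝ} (lam : ℝ) (ht : LR t) (hf : LR f) :
    LR (fun p => Crest.Agent.R083.clp (t p) lam (f p)) :=
  (hf.sub ht).max ((hf.add ht).min (hf.mul lam))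
theorem LR.clm {f : E3 → ℝ} (a b : ℝ) (hf : LR f) : LR (fun p => Crest.Agent.R083.clm a b (f p)) :=
  (LR.const a).max ((LR.const b).min hf)
theorem LR.d0 {f g : E3 → ℝ} (hf : LR f) (hg : LR g) :
    LR (fun p => Crest.Agent.R083.d0 (f p) (g p)) :=
  (LR.const 0).max ((hf.abs.sub (LR.const 1)).max (hg.abs.sub (LR.const (3/5))))
theorem LR.v0 {f g : E3 → ℝ} (hf : LR f) (hg : LR g) :
    LR (fun p => Crest.Agent.R083.v0 (f p) (g p)) :=
  (LR.const 0).max (((LR.const (7/25)).sub hf.abs).sub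
    ((LR.const 0).max (hg.abs.sub (LR.const (3/5)))))
theorem LR.lv0 : LR lv0 := (LR.coord 2).abs.add (((LR.coord 0).d0 (LR.coord 1)).mul (5/2))
theorem LR.lev : LR lev :=
  LR.lv0.add ((((LR.coord 0).v0 (LR.coord 1)).mul (5/2)).min
    ((LR.const 0).max ((LR.const (7/10)).sub (LR.lv0.mul (4/5)))))
theorem LR.zlev {f g h : E3 → ℝ} (hf : LR f) (hg : LR g) (hh : LR h) :
    LR (fun p => Crest.Agent.R083.zlev (f p) (g p) (h p)) :=
  ((hh.sub ((hf.v0 hg).mul (5/2))).max (hh.min ((hh.mul 5).sub (LR.const (7/2))))).sub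
    ((hf.d0 hg).mul (5/2))

end Ch

theorem lev_lip : ∃ K : ℝ≥0, LipschitzWith K lev := LR.lev

theorem phi_lip (b : Box) : ∃ K : ℝ≥0, LipschitzWith K (phi b) := by
  cases b
  · have h : LR (fun p => clm (7/10) 1 (lev p)) := LR.lev.clm _ _
    have ht : LR (fun p => 2/5 * (clm (7/10) 1 (lev p) - 7/10)) := (h.sub (LR.const _)).mul (2/5)
    have hX : LR (fun p => clm (-(32/25)) (32/25)
        (clp (2/5 * (clm (7/10) 1 (lev p) - 7/10)) (32/35) (p 0))) :=
      (LR.clp _ ht (LR.coord 0)).clm _ _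
    have hY : LR (fun p => clm (-(22/25)) (22/25)
        (clp (2/5 * (clm (7/10) 1 (lev p) - 7/10)) (22/25) (p 1))) :=
      (LR.clp _ ht (LR.coord 1)).clm _ _
    exact LR.pt hX hY h
  · have h : LR (fun p => clm (3/5) (7/10) (lev p)) := LR.lev.clm _ _
    have ht : LR (fun p => 2/5 * (7/10 - clm (3/5) (7/10) (lev p))) :=
      ((LR.const _).sub h).mul (2/5)
    have hX : LR (fun p => clm 0 (32/25)
          (16/25 + clp (2/5 * (7/10 - clm (3/5) (7/10) (lev p))) (16/15) (p 0 - 16/25))) :=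
      ((LR.const _).add (LR.clp _ ht ((LR.coord 0).sub (LR.const _)))).clm _ _
    have hY : LR (fun p => clm (-(22/25)) (22/25)
          (clp (2/5 * (7/10 - clm (3/5) (7/10) (lev p))) (22/21) (p 1))) :=
      (LR.clp _ ht (LR.coord 1)).clm _ _
    exact LR.pt hX hY h
  · have h : LR (fun p => clm (3/5) (7/10) (lev p)) := LR.lev.clm _ _
    have ht : LR (fun p => 2/5 * (7/10 - clm (3/5) (7/10) (lev p))) :=
      ((LR.const _).sub h).mul (2/5)
    have hX : LR (fun p => clm (-(32/25)) 0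
          (-(16/25) + clp (2/5 * (7/10 - clm (3/5) (7/10) (lev p))) (16/15) (p 0 + 16/25))) :=
      ((LR.const _).add (LR.clp _ ht ((LR.coord 0).add (LR.const _)))).clm _ _
    have hY : LR (fun p => clm (-(22/25)) (22/25)
          (clp (2/5 * (7/10 - clm (3/5) (7/10) (lev p))) (22/21) (p 1))) :=
      (LR.clp _ ht (LR.coord 1)).clm _ _
    exact LR.pt hX hY h

namespace Ch

theorem LR.thx (b : Box) : LR (thx b) := by
  cases b
  · have ht : LR (fun P => 2/5 * (P 2 - 7/10)) := ((LR.coord 2).sub (LR.const _)).mul (2/5)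
    exact LR.clp _ ht (LR.coord 0)
  · have ht : LR (fun P => 2/5 * (7/10 - P 2)) := ((LR.const _).sub (LR.coord 2)).mul (2/5)
    exact (LR.const _).add (LR.clp _ ht ((LR.coord 0).sub (LR.const _)))
  · have ht : LR (fun P => 2/5 * (7/10 - P 2)) := ((LR.const _).sub (LR.coord 2)).mul (2/5)
    exact (LR.const _).add (LR.clp _ ht ((LR.coord 0).add (LR.const _)))

theorem LR.thy (b : Box) : LR (thy b) := by
  cases b
  · have ht : LR (fun P => 2/5 * (P 2 - 7/10)) := ((LR.coord 2).sub (LR.const _)).mul (2/5)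
    exact LR.clp _ ht (LR.coord 1)
  · have ht : LR (fun P => 2/5 * (7/10 - P 2)) := ((LR.const _).sub (LR.coord 2)).mul (2/5)
    exact LR.clp _ ht (LR.coord 1)
  · have ht : LR (fun P => 2/5 * (7/10 - P 2)) := ((LR.const _).sub (LR.coord 2)).mul (2/5)
    exact LR.clp _ ht (LR.coord 1)

end Ch

theorem theta_lip (b : Box) : ∃ K : ℝ≥0, LipschitzWith K (theta b) :=
  LR.pt (LR.thx b) (LR.thy b) ((LR.thx b).zlev (LR.thy b) (LR.coord 2))

theorem lev_rfl2 (p : E3) : lev (rfl2 p) = lev p := by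
  simp only [lev, lv0, rfl2, tg_pt_zero, tg_pt_one, tg_pt_two, abs_neg]

theorem phi_rfl2 (b : Box) (p : E3) : phi b (rfl2 p) = phi b p := by
  cases b <;> simp only [phi, lev_rfl2] <;> rfl

theorem phi_mem (b : Box) (p : E3) : phi b p ∈ bx b := by
  cases b
  · have h1 := clm_mem (a := -(32/25)) (b := 32/25)
      (clp (2/5 * (clm (7/10) 1 (lev p) - 7/10)) (32/35) (p 0)) (by norm_num)
    have h2 := clm_mem (a := -(22/25)) (b := 22/25)
      (clp (2/5 * (clm (7/10) 1 (lev p) - 7/10)) (22/25) (p 1)) (by norm_num)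
    have h3 := clm_mem (a := 7/10) (b := 1) (lev p) (by norm_num)
    exact ⟨abs_le.2 h1, abs_le.2 h2, h3.1, h3.2⟩
  · have h1 := clm_mem (a := 0) (b := 32/25)
      (16/25 + clp (2/5 * (7/10 - clm (3/5) (7/10) (lev p))) (16/15) (p 0 - 16/25)) (by norm_num)
    have h2 := clm_mem (a := -(22/25)) (b := 22/25)
      (clp (2/5 * (7/10 - clm (3/5) (7/10) (lev p))) (22/21) (p 1)) (by norm_num)
    have h3 := clm_mem (a := 3/5) (b := 7/10) (lev p) (by norm_num)
    exact ⟨h1.1, h1.2, abs_le.2 h2, h3.1, h3.2⟩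
  · have h1 := clm_mem (a := -(32/25)) (b := 0)
      (-(16/25) + clp (2/5 * (7/10 - clm (3/5) (7/10) (lev p))) (16/15) (p 0 + 16/25))
      (by norm_num)
    have h2 := clm_mem (a := -(22/25)) (b := 22/25)
      (clp (2/5 * (7/10 - clm (3/5) (7/10) (lev p))) (22/21) (p 1)) (by norm_num)
    have h3 := clm_mem (a := 3/5) (b := 7/10) (lev p) (by norm_num)
    exact ⟨h1.1, h1.2, abs_le.2 h2, h3.1, h3.2⟩

theorem continuous_lev : Continuous lev := by
  obtain ⟨K, hK⟩ := lev_lip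
  exact hK.continuous

theorem reg_closed (b : Box) : IsClosed (reg b) := by
  have h0 := tg_continuous_coord 0
  cases b
  · exact isClosed_le continuous_const continuous_lev
  · exact (isClosed_le continuous_lev continuous_const).inter (isClosed_le continuous_const h0)
  · exact (isClosed_le continuous_lev continuous_const).inter (isClosed_le h0 continuous_const)

theorem reg_cover : (⋃ b, reg b) = univ := by
  rw [Set.eq_univ_iff_forall]
  intro p
  rw [Set.mem_iUnion]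
  rcases le_total (7/10) (lev p) with h | h
  · exact ⟨Box.O, h⟩
  · rcases le_total 0 (p 0) with h' | h'
    · exact ⟨Box.P, h, h'⟩
    · exact ⟨Box.N, h, h'⟩

theorem om_open (b : Box) : IsOpen (om b) := by
  have h0 := tg_continuous_coord 0
  have h2 := tg_continuous_coord 2
  cases b
  · exact (isOpen_lt continuous_const h2).inter
      ((isOpen_lt continuous_const continuous_lev).inter (isOpen_lt continuous_lev continuous_const))
  · exact (isOpen_lt continuous_const h2).inter ((isOpen_lt continuous_const h0).inter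
      ((isOpen_lt continuous_const continuous_lev).inter (isOpen_lt continuous_lev continuous_const)))
  · exact (isOpen_lt continuous_const h2).inter ((isOpen_lt h0 continuous_const).inter
      ((isOpen_lt continuous_const continuous_lev).inter (isOpen_lt continuous_lev continuous_const)))

/-! ### Matching -/

theorem reg_PN (p : E3) (hP : p ∈ reg Box.P) (hN : p ∈ reg Box.N) : p ∈ reg Box.O :=
  lev_of_zero p (le_antisymm hN.2 hP.2)

theorem phi_OP (p : E3) (hO : p ∈ reg Box.O) (hP : p ∈ reg Box.P) :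
    phi Box.O p = phi Box.P p ∧ (phi Box.P p) 2 = 7/10 := by
  have h : lev p = 7/10 := le_antisymm hP.1 hO
  have hx : 0 ≤ p 0 := hP.2
  have e1 : clm (7/10) 1 (lev p) = 7/10 := clm_bot h.le
  have e2 : clm (3/5) (7/10) (lev p) = 7/10 := clm_top (by norm_num) h.ge
  refine ⟨?_, e2⟩
  simp only [phi, e1, e2, sub_self, mul_zero, clp_zero]
  congr 1
  rw [add_sub_cancel, clm, clm]
  rw [max_eq_right (le_min (by norm_num) hx), max_eq_right (le_min (by norm_num) (by linarith))]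

theorem phi_ON (p : E3) (hO : p ∈ reg Box.O) (hN : p ∈ reg Box.N) :
    phi Box.O p = phi Box.N p ∧ (phi Box.N p) 2 = 7/10 := by
  have h : lev p = 7/10 := le_antisymm hN.1 hO
  have hx : p 0 ≤ 0 := hN.2
  have e1 : clm (7/10) 1 (lev p) = 7/10 := clm_bot h.le
  have e2 : clm (3/5) (7/10) (lev p) = 7/10 := clm_top (by norm_num) h.ge
  refine ⟨?_, e2⟩
  simp only [phi, e1, e2, sub_self, mul_zero, clp_zero]
  congr 1
  rw [neg_add_cancel_comm_assoc, clm, clm, min_eq_right (by linarith : p 0 ≤ 32/25),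
    min_eq_right hx]

theorem phi_out (p : E3) (h : 1 ≤ lev p) : (phi Box.O p) 2 = 1 := clm_top (by norm_num) h
theorem phi_inP (p : E3) (h : lev p ≤ 3/5) : (phi Box.P p) 2 = 3/5 := clm_bot h
theorem phi_inN (p : E3) (h : lev p ≤ 3/5) : (phi Box.N p) 2 = 3/5 := clm_bot h

/-! ### The charts are inverse to each other -/

namespace Ch

theorem zlev_nonneg_N (x y l : ℝ) (h0 : 0 ≤ l) (hl : l ≤ 7/10) (hx : x ≤ 0) :
    0 ≤ zlev x y l ↔ |x + 16/25| ≤ 9/25 + 2/5 * l ∧ |y| ≤ 3/5 + 2/5 * l := by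
  rw [← zlev_neg_left, zlev_nonneg_P (-x) y l h0 hl (by linarith), ← abs_neg (x + 16/25)]
  have : -x - 16/25 = -(x + 16/25) := by ring
  rw [this]

theorem zlev_pos_N (x y l : ℝ) (h0 : 0 < l) (hl : l < 7/10) (hx : x ≤ 0) :
    0 < zlev x y l ↔ |x + 16/25| < 9/25 + 2/5 * l ∧ |y| < 3/5 + 2/5 * l := by
  rw [← zlev_neg_left, zlev_pos_P (-x) y l h0 hl (by linarith), ← abs_neg (x + 16/25)]
  have : -x - 16/25 = -(x + 16/25) := by ring
  rw [this]

theorem lev_pt (x y l : ℝ) (h : 0 ≤ zlev x y l) : lev (pt x y (zlev x y l)) = l := by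
  rw [lev_eq, lv0, tg_pt_zero, tg_pt_one, tg_pt_two, abs_of_nonneg h, zlev_eq, sub_add_cancel,
    lev1_lev0 _ _ (v0_nonneg x y)]

theorem zlev_lev_abs (p : E3) : zlev (p 0) (p 1) (lev p) = |p 2| := by
  rw [zlev_eq, lev_eq, lev0_lev1 _ _ (v0_nonneg _ _), lv0]; ring

theorem zlev_lev (p : E3) (h : 0 ≤ p 2) : zlev (p 0) (p 1) (lev p) = p 2 := by
  rw [zlev_lev_abs, abs_of_nonneg h]

theorem pt_eta' (p : E3) : pt (p 0) (p 1) (p 2) = p := tg_ext rfl rfl rfl

theorem phi_O_eq (p : E3) (h1 : 7/10 ≤ lev p) (h2 : lev p ≤ 1) (hx : |p 0| ≤ 1 + 2/5 * lev p)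
    (hy : |p 1| ≤ 3/5 + 2/5 * lev p) :
    phi Box.O p = pt (clp (2/5 * (lev p - 7/10)) (32/35) (p 0))
      (clp (2/5 * (lev p - 7/10)) (22/25) (p 1)) (lev p) := by
  have e1 : clm (7/10) 1 (lev p) = lev p := clm_self h1 h2
  have hX := (bd_a (2/5 * (lev p - 7/10)) (p 0) (by linarith) (by linarith)).2 (by linarith)
  have hY := (bd_b (2/5 * (lev p - 7/10)) (p 1) (by linarith) (by linarith)).2 (by linarith)
  rw [abs_le] at hX hY
  simp only [phi, e1]
  rw [clm_self hX.1 hX.2, clm_self hY.1 hY.2]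

theorem phi_P_eq (p : E3) (h1 : 3/5 ≤ lev p) (h2 : lev p ≤ 7/10)
    (hx : |p 0 - 16/25| ≤ 9/25 + 2/5 * lev p) (hy : |p 1| ≤ 3/5 + 2/5 * lev p) :
    phi Box.P p = pt (16/25 + clp (2/5 * (7/10 - lev p)) (16/15) (p 0 - 16/25))
      (clp (2/5 * (7/10 - lev p)) (22/21) (p 1)) (lev p) := by
  have e1 : clm (3/5) (7/10) (lev p) = lev p := clm_self h1 h2
  have hX := (bd_c (2/5 * (7/10 - lev p)) (p 0 - 16/25) (by linarith) (by linarith)).2
    (by linarith)
  have hY := (bd_d (2/5 * (7/10 - lev p)) (p 1) (by linarith) (by linarith)).2 (by linarith)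
  rw [abs_le] at hX hY
  simp only [phi, e1]
  rw [clm_self (by linarith [hX.1]) (by linarith [hX.2]), clm_self hY.1 hY.2]

theorem phi_N_eq (p : E3) (h1 : 3/5 ≤ lev p) (h2 : lev p ≤ 7/10)
    (hx : |p 0 + 16/25| ≤ 9/25 + 2/5 * lev p) (hy : |p 1| ≤ 3/5 + 2/5 * lev p) :
    phi Box.N p = pt (-(16/25) + clp (2/5 * (7/10 - lev p)) (16/15) (p 0 + 16/25))
      (clp (2/5 * (7/10 - lev p)) (22/21) (p 1)) (lev p) := by
  have e1 : clm (3/5) (7/10) (lev p) = lev p := clm_self h1 h2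
  have hX := (bd_c (2/5 * (7/10 - lev p)) (p 0 + 16/25) (by linarith) (by linarith)).2
    (by linarith)
  have hY := (bd_d (2/5 * (7/10 - lev p)) (p 1) (by linarith) (by linarith)).2 (by linarith)
  rw [abs_le] at hX hY
  simp only [phi, e1]
  rw [clm_self (by linarith [hX.1]) (by linarith [hX.2]), clm_self hY.1 hY.2]

/-- bounds for the physical point over the box `O` -/
theorem th_O {X Y l : ℝ} (hX : |X| ≤ 32/25) (hY : |Y| ≤ 22/25) (h1 : 7/10 ≤ l) (h2 : l ≤ 1) :
    |clp (2/5 * (l - 7/10)) (35/32) X| ≤ 1 + 2/5 * l ∧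
      |clp (2/5 * (l - 7/10)) (25/22) Y| ≤ 3/5 + 2/5 * l := by
  have e1 := bd_a (2/5 * (l - 7/10)) (clp (2/5 * (l - 7/10)) (35/32) X) (by linarith) (by linarith)
  have e2 := bd_b (2/5 * (l - 7/10)) (clp (2/5 * (l - 7/10)) (25/22) Y) (by linarith) (by linarith)
  rw [inv_a' _ _ (by linarith)] at e1
  rw [inv_b' _ _ (by linarith)] at e2
  have f1 := e1.1 hX
  have f2 := e2.1 hY
  constructor <;> linarith

theorem th_O' {X Y l : ℝ} (hX : |X| < 32/25) (hY : |Y| < 22/25) (h1 : 7/10 ≤ l) (h2 : l ≤ 1) :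
    |clp (2/5 * (l - 7/10)) (35/32) X| < 1 + 2/5 * l ∧
      |clp (2/5 * (l - 7/10)) (25/22) Y| < 3/5 + 2/5 * l := by
  have e1 := bd_a' (2/5 * (l - 7/10)) (clp (2/5 * (l - 7/10)) (35/32) X) (by linarith)
    (by linarith)
  have e2 := bd_b' (2/5 * (l - 7/10)) (clp (2/5 * (l - 7/10)) (25/22) Y) (by linarith)
    (by linarith)
  rw [inv_a' _ _ (by linarith)] at e1
  rw [inv_b' _ _ (by linarith)] at e2
  have f1 := e1.1 hX
  have f2 := e2.1 hY
  constructor <;> linarith

theorem th_P {X Y l : ℝ} (hX : |X| ≤ 16/25) (hY : |Y| ≤ 22/25) (h1 : 3/5 ≤ l) (h2 : l ≤ 7/10) :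
    |clp (2/5 * (7/10 - l)) (15/16) X| ≤ 9/25 + 2/5 * l ∧
      |clp (2/5 * (7/10 - l)) (21/22) Y| ≤ 3/5 + 2/5 * l := by
  have e1 := bd_c (2/5 * (7/10 - l)) (clp (2/5 * (7/10 - l)) (15/16) X) (by linarith) (by linarith)
  have e2 := bd_d (2/5 * (7/10 - l)) (clp (2/5 * (7/10 - l)) (21/22) Y) (by linarith) (by linarith)
  rw [inv_c' _ _ (by linarith)] at e1
  rw [inv_d' _ _ (by linarith)] at e2
  have f1 := e1.1 hX
  have f2 := e2.1 hY
  constructor <;> linarith

theorem th_P' {X Y l : ℝ} (hX : |X| < 16/25) (hY : |Y| < 22/25) (h1 : 3/5 ≤ l) (h2 : l ≤ 7/10) :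
    |clp (2/5 * (7/10 - l)) (15/16) X| < 9/25 + 2/5 * l ∧
      |clp (2/5 * (7/10 - l)) (21/22) Y| < 3/5 + 2/5 * l := by
  have e1 := bd_c' (2/5 * (7/10 - l)) (clp (2/5 * (7/10 - l)) (15/16) X) (by linarith)
    (by linarith)
  have e2 := bd_d' (2/5 * (7/10 - l)) (clp (2/5 * (7/10 - l)) (21/22) Y) (by linarith)
    (by linarith)
  rw [inv_c' _ _ (by linarith)] at e1
  rw [inv_d' _ _ (by linarith)] at e2
  have f1 := e1.1 hX
  have f2 := e2.1 hY
  constructor <;> linarith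

/-- the inverse chart on the closed boxes: height, sign of the first coordinate -/
theorem theta_closed (b : Box) (P : E3) (h : P ∈ bx b) :
    0 ≤ zlev (thx b P) (thy b P) (P 2) ∧ phi b (theta b P) = P := by
  cases b
  · obtain ⟨hX, hY, h1, h2⟩ := h
    obtain ⟨b1, b2⟩ := th_O hX hY h1 h2
    have hz : 0 ≤ zlev (thx Box.O P) (thy Box.O P) (P 2) :=
      (zlev_nonneg_O _ _ _ h1).2 ⟨b1, b2⟩
    refine ⟨hz, ?_⟩
    have hl : lev (theta Box.O P) = P 2 := lev_pt _ _ _ hz
    rw [phi_O_eq _ (by rw [hl]; exact h1) (by rw [hl]; exact h2) (by rw [hl]; exact b1)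
      (by rw [hl]; exact b2), hl]
    refine tg_ext ?_ ?_ rfl
    · exact inv_a' _ _ (by linarith)
    · exact inv_b' _ _ (by linarith)
  · obtain ⟨hX0, hX, hY, h1, h2⟩ := h
    obtain ⟨b1, b2⟩ := th_P (X := P 0 - 16/25) (abs_le.2 ⟨by linarith, by linarith⟩) hY h1 h2
    have b1' : |thx Box.P P - 16/25| ≤ 9/25 + 2/5 * P 2 := by
      change |16/25 + clp (2/5 * (7/10 - P 2)) (15/16) (P 0 - 16/25) - 16/25| ≤ _
      rwa [add_sub_cancel_left]
    have hx : 0 ≤ thx Box.P P := by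
      have := (abs_le.1 b1').1
      linarith
    have hz : 0 ≤ zlev (thx Box.P P) (thy Box.P P) (P 2) :=
      (zlev_nonneg_P _ _ _ (by linarith) h2 hx).2 ⟨b1', b2⟩
    refine ⟨hz, ?_⟩
    have hl : lev (theta Box.P P) = P 2 := lev_pt _ _ _ hz
    rw [phi_P_eq _ (by rw [hl]; exact h1) (by rw [hl]; exact h2) (by rw [hl]; exact b1')
      (by rw [hl]; exact b2), hl]
    refine tg_ext ?_ ?_ rfl
    · change 16/25 + clp (2/5 * (7/10 - P 2)) (16/15)
        (16/25 + clp (2/5 * (7/10 - P 2)) (15/16) (P 0 - 16/25) - 16/25) = P 0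
      rw [add_sub_cancel_left, inv_c' _ _ (by linarith)]; ring
    · exact inv_d' _ _ (by linarith)
  · obtain ⟨hX0, hX, hY, h1, h2⟩ := h
    obtain ⟨b1, b2⟩ := th_P (X := P 0 + 16/25) (abs_le.2 ⟨by linarith, by linarith⟩) hY h1 h2
    have b1' : |thx Box.N P + 16/25| ≤ 9/25 + 2/5 * P 2 := by
      change |-(16/25) + clp (2/5 * (7/10 - P 2)) (15/16) (P 0 + 16/25) + 16/25| ≤ _
      rwa [neg_add_cancel_comm]
    have hx : thx Box.N P ≤ 0 := by
      have := (abs_le.1 b1').2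
      linarith
    have hz : 0 ≤ zlev (thx Box.N P) (thy Box.N P) (P 2) :=
      (zlev_nonneg_N _ _ _ (by linarith) h2 hx).2 ⟨b1', b2⟩
    refine ⟨hz, ?_⟩
    have hl : lev (theta Box.N P) = P 2 := lev_pt _ _ _ hz
    rw [phi_N_eq _ (by rw [hl]; exact h1) (by rw [hl]; exact h2) (by rw [hl]; exact b1')
      (by rw [hl]; exact b2), hl]
    refine tg_ext ?_ ?_ rfl
    · change -(16/25) + clp (2/5 * (7/10 - P 2)) (16/15)
        (-(16/25) + clp (2/5 * (7/10 - P 2)) (15/16) (P 0 + 16/25) + 16/25) = P 0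
      rw [neg_add_cancel_comm, inv_c' _ _ (by linarith)]; ring
    · exact inv_d' _ _ (by linarith)

end Ch

theorem phi_theta (b : Box) (P : E3) (h : P ∈ bx b) : phi b (theta b P) = P :=
  (theta_closed b P h).2

theorem lev_theta (b : Box) (P : E3) (h : P ∈ bx b) : lev (theta b P) = P 2 :=
  lev_pt _ _ _ (theta_closed b P h).1

/-- the height of the physical point is nonnegative -/
theorem theta_two_nonneg (b : Box) (P : E3) (h : P ∈ bx b) : 0 ≤ (theta b P) 2 :=
  (theta_closed b P h).1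

theorem theta_phi_closed (b : Box) (p : E3) (h : p ∈ reg b) (h0 : 0 ≤ p 2) (h1 : 3/5 ≤ lev p)
    (h2 : lev p ≤ 1) : theta b (phi b p) = p := by
  have hz := zlev_lev p h0
  have hz0 : 0 ≤ zlev (p 0) (p 1) (lev p) := by rw [hz]; exact h0
  cases b
  · have h1' : 7/10 ≤ lev p := h
    obtain ⟨b1, b2⟩ := (zlev_nonneg_O _ _ _ h1').1 hz0
    rw [phi_O_eq p h1' h2 b1 b2]
    have e1 : thx Box.O (pt (clp (2/5 * (lev p - 7/10)) (32/35) (p 0))
      (clp (2/5 * (lev p - 7/10)) (22/25) (p 1)) (lev p)) = p 0 := inv_a _ _ (by linarith)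
    have e2 : thy Box.O (pt (clp (2/5 * (lev p - 7/10)) (32/35) (p 0))
      (clp (2/5 * (lev p - 7/10)) (22/25) (p 1)) (lev p)) = p 1 := inv_b _ _ (by linarith)
    rw [theta, e1, e2, tg_pt_two, hz, pt_eta']
  · have h2' : lev p ≤ 7/10 := h.1
    have hx : 0 ≤ p 0 := h.2
    obtain ⟨b1, b2⟩ := (zlev_nonneg_P _ _ _ (by linarith) h2' hx).1 hz0
    rw [phi_P_eq p h1 h2' b1 b2]
    have e1 : thx Box.P (pt (16/25 + clp (2/5 * (7/10 - lev p)) (16/15) (p 0 - 16/25))
      (clp (2/5 * (7/10 - lev p)) (22/21) (p 1)) (lev p)) = p 0 := by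
      change 16/25 + clp (2/5 * (7/10 - lev p)) (15/16)
        (16/25 + clp (2/5 * (7/10 - lev p)) (16/15) (p 0 - 16/25) - 16/25) = p 0
      rw [add_sub_cancel_left, inv_c _ _ (by linarith)]; ring
    have e2 : thy Box.P (pt (16/25 + clp (2/5 * (7/10 - lev p)) (16/15) (p 0 - 16/25))
      (clp (2/5 * (7/10 - lev p)) (22/21) (p 1)) (lev p)) = p 1 := inv_d _ _ (by linarith)
    rw [theta, e1, e2, tg_pt_two, hz, pt_eta']
  · have h2' : lev p ≤ 7/10 := h.1
    have hx : p 0 ≤ 0 := h.2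
    obtain ⟨b1, b2⟩ := (zlev_nonneg_N _ _ _ (by linarith) h2' hx).1 hz0
    rw [phi_N_eq p h1 h2' b1 b2]
    have e1 : thx Box.N (pt (-(16/25) + clp (2/5 * (7/10 - lev p)) (16/15) (p 0 + 16/25))
      (clp (2/5 * (7/10 - lev p)) (22/21) (p 1)) (lev p)) = p 0 := by
      change -(16/25) + clp (2/5 * (7/10 - lev p)) (15/16)
        (-(16/25) + clp (2/5 * (7/10 - lev p)) (16/15) (p 0 + 16/25) + 16/25) = p 0
      rw [neg_add_cancel_comm, inv_c _ _ (by linarith)]; ring
    have e2 : thy Box.N (pt (-(16/25) + clp (2/5 * (7/10 - lev p)) (16/15) (p 0 + 16/25))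
      (clp (2/5 * (7/10 - lev p)) (22/21) (p 1)) (lev p)) = p 1 := inv_d _ _ (by linarith)
    rw [theta, e1, e2, tg_pt_two, hz, pt_eta']

theorem om_subset_reg (b : Box) : om b ⊆ reg b := by
  intro p hp
  cases b
  · exact hp.2.1.le
  · exact ⟨hp.2.2.2.le, hp.2.1.le⟩
  · exact ⟨hp.2.2.2.le, hp.2.1.le⟩

theorem om_lev (b : Box) (p : E3) (h : p ∈ om b) : 0 < p 2 ∧ 3/5 < lev p ∧ lev p < 1 := by
  cases b
  · exact ⟨h.1, by linarith [h.2.1], h.2.2⟩
  · exact ⟨h.1, h.2.2.1, by linarith [h.2.2.2]⟩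
  · exact ⟨h.1, h.2.2.1, by linarith [h.2.2.2]⟩

theorem theta_phi (b : Box) (p : E3) (h : p ∈ om b) : theta b (phi b p) = p := by
  obtain ⟨h0, h1, h2⟩ := om_lev b p h
  exact theta_phi_closed b p (om_subset_reg b h) h0.le h1.le h2.le

theorem phi_maps (b : Box) (p : E3) (h : p ∈ om b) : phi b p ∈ bxo b := by
  have h0 : 0 < p 2 := (om_lev b p h).1
  have hz0 : 0 < zlev (p 0) (p 1) (lev p) := by rw [zlev_lev p h0.le]; exact h0
  cases b
  · obtain ⟨-, h1, h2⟩ := h
    obtain ⟨b1, b2⟩ := (zlev_pos_O _ _ _ h1).1 hz0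
    rw [phi_O_eq p h1.le h2.le b1.le b2.le]
    exact ⟨(bd_a' _ _ (by linarith) (by linarith)).2 (by linarith),
      (bd_b' _ _ (by linarith) (by linarith)).2 (by linarith), h1, h2⟩
  · obtain ⟨-, hx, h1, h2⟩ := h
    obtain ⟨b1, b2⟩ := (zlev_pos_P _ _ _ (by linarith) h2 hx.le).1 hz0
    rw [phi_P_eq p h1.le h2.le b1.le b2.le]
    have c1 := abs_lt.1 ((bd_c' (2/5 * (7/10 - lev p)) (p 0 - 16/25) (by linarith)
      (by linarith)).2 (by linarith))
    have c2 := (bd_d' (2/5 * (7/10 - lev p)) (p 1) (by linarith) (by linarith)).2 (by linarith)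
    refine ⟨?_, ?_, c2, h1, h2⟩
    · rw [tg_pt_zero]; linarith [c1.1]
    · rw [tg_pt_zero]; linarith [c1.2]
  · obtain ⟨-, hx, h1, h2⟩ := h
    obtain ⟨b1, b2⟩ := (zlev_pos_N _ _ _ (by linarith) h2 hx.le).1 hz0
    rw [phi_N_eq p h1.le h2.le b1.le b2.le]
    have c1 := abs_lt.1 ((bd_c' (2/5 * (7/10 - lev p)) (p 0 + 16/25) (by linarith)
      (by linarith)).2 (by linarith))
    have c2 := (bd_d' (2/5 * (7/10 - lev p)) (p 1) (by linarith) (by linarith)).2 (by linarith)
    refine ⟨?_, ?_, c2, h1, h2⟩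
    · rw [tg_pt_zero]; linarith [c1.1]
    · rw [tg_pt_zero]; linarith [c1.2]

theorem bxo_subset (b : Box) : bxo b ⊆ bx b := by
  intro P hP
  cases b
  · exact ⟨hP.1.le, hP.2.1.le, hP.2.2.1.le, hP.2.2.2.le⟩
  · exact ⟨hP.1.le, hP.2.1.le, hP.2.2.1.le, hP.2.2.2.1.le, hP.2.2.2.2.le⟩
  · exact ⟨hP.1.le, hP.2.1.le, hP.2.2.1.le, hP.2.2.2.1.le, hP.2.2.2.2.le⟩

theorem theta_maps (b : Box) (P : E3) (h : P ∈ bxo b) : theta b P ∈ om b := by
  have hl := lev_theta b P (bxo_subset b h)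
  cases b
  · obtain ⟨hX, hY, h1, h2⟩ := h
    obtain ⟨b1, b2⟩ := th_O' hX hY h1.le h2.le
    refine ⟨(zlev_pos_O _ _ _ h1).2 ⟨b1, b2⟩, ?_, ?_⟩
    · rw [hl]; exact h1
    · rw [hl]; exact h2
  · obtain ⟨hX0, hX, hY, h1, h2⟩ := h
    obtain ⟨b1, b2⟩ := th_P' (X := P 0 - 16/25) (abs_lt.2 ⟨by linarith, by linarith⟩) hY h1.le h2.le
    have b1' : |thx Box.P P - 16/25| < 9/25 + 2/5 * P 2 := by
      change |16/25 + clp (2/5 * (7/10 - P 2)) (15/16) (P 0 - 16/25) - 16/25| < _
      rwa [add_sub_cancel_left]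
    have hx : 0 < thx Box.P P := by
      have := (abs_lt.1 b1').1
      linarith
    refine ⟨(zlev_pos_P _ _ _ (by linarith) h2 hx.le).2 ⟨b1', b2⟩, hx, ?_, ?_⟩
    · rw [hl]; exact h1
    · rw [hl]; exact h2
  · obtain ⟨hX0, hX, hY, h1, h2⟩ := h
    obtain ⟨b1, b2⟩ := th_P' (X := P 0 + 16/25) (abs_lt.2 ⟨by linarith, by linarith⟩) hY h1.le h2.le
    have b1' : |thx Box.N P + 16/25| < 9/25 + 2/5 * P 2 := by
      change |-(16/25) + clp (2/5 * (7/10 - P 2)) (15/16) (P 0 + 16/25) + 16/25| < _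
      rwa [neg_add_cancel_comm]
    have hx : thx Box.N P < 0 := by
      have := (abs_lt.1 b1').2
      linarith
    refine ⟨(zlev_pos_N _ _ _ (by linarith) h2 hx.le).2 ⟨b1', b2⟩, hx, ?_, ?_⟩
    · rw [hl]; exact h1
    · rw [hl]; exact h2

/-! ### Matching and faces of the inverse charts -/

theorem theta_OP (P : E3) (_h : P ∈ bx Box.P) (h2 : P 2 = 7/10) :
    theta Box.O P = theta Box.P P := by
  simp only [theta, thx, thy, h2, sub_self, mul_zero, clp_zero, add_sub_cancel]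

theorem theta_ON (P : E3) (_h : P ∈ bx Box.N) (h2 : P 2 = 7/10) :
    theta Box.O P = theta Box.N P := by
  simp only [theta, thx, thy, h2, sub_self, mul_zero, clp_zero, neg_add_cancel_comm_assoc]

/-- faces -/
theorem theta_faceO (X Y : ℝ) (hX : |X| ≤ 32/25) (hY : |Y| ≤ 22/25) :
    theta Box.O (pt X Y 1) = pt (35/32 * X) (25/22 * Y) (roof (35/32 * X) (25/22 * Y)) := by
  rw [abs_le] at hX hY
  have e1 : thx Box.O (pt X Y 1) = 35/32 * X := by
    simp only [thx, clp, tg_pt_zero, tg_pt_two]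
    rw [min_eq_right (by linarith), max_eq_right (by linarith)]
  have e2 : thy Box.O (pt X Y 1) = 25/22 * Y := by
    simp only [thy, clp, tg_pt_one, tg_pt_two]
    rw [min_eq_right (by linarith), max_eq_right (by linarith)]
  have e3 : ∀ x y : ℝ, zlev x y 1 = roof x y := by
    intro x y
    have hv := v0_nonneg x y
    rw [zlev_eq, roof_eq, lev0, min_eq_left (by norm_num), max_eq_right (by linarith)]
  rw [theta, e1, e2, tg_pt_two, e3]

namespace Ch

theorem zlev_inner (x y : ℝ) : zlev x y (3/5) = 3/5 - 5/2 * (d0 x y + v0 x y) := by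
  have hv := v0_le x y
  rw [zlev_eq, lev0, min_eq_right (by norm_num), max_eq_left (by linarith)]
  ring

end Ch

theorem theta_faceP (X Y : ℝ) (hX0 : 0 ≤ X) (hX : X ≤ 32/25) (hY : |Y| ≤ 22/25) :
    theta Box.P (pt X Y (3/5)) =
      sim true (pt (35/22 * Y) (25/16 * (X - 16/25))
        (roof (35/22 * Y) (25/16 * (X - 16/25)))) := by
  rw [abs_le] at hY
  have e1 : thx Box.P (pt X Y (3/5)) = 16/25 + 15/16 * (X - 16/25) := by
    simp only [thx, clp, tg_pt_zero, tg_pt_two]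
    rw [min_eq_right (by linarith), max_eq_right (by linarith)]
  have e2 : thy Box.P (pt X Y (3/5)) = 21/22 * Y := by
    simp only [thy, clp, tg_pt_one, tg_pt_two]
    rw [min_eq_right (by linarith), max_eq_right (by linarith)]
  rw [theta, e1, e2, tg_pt_two, zlev_inner, ← dc_pos _ _ (by linarith), ← roof_scale]
  have e3 : (5/3 : ℝ) * (21/22 * Y) = 35/22 * Y := by ring
  have e4 : (5/3 : ℝ) * (16/25 + 15/16 * (X - 16/25) - 16/25) = 25/16 * (X - 16/25) := by ring
  rw [e3, e4]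
  refine tg_ext ?_ ?_ rfl
  · simp only [sim, sg, tg_pt_zero, tg_pt_one, if_true]; ring
  · simp only [sim, tg_pt_zero, tg_pt_one]; ring

theorem theta_faceN (X Y : ℝ) (hX0 : X ≤ 0) (hX : -(32/25) ≤ X) (hY : |Y| ≤ 22/25) :
    theta Box.N (pt X Y (3/5)) =
      sim false (pt (35/22 * Y) (25/16 * (X + 16/25))
        (roof (35/22 * Y) (25/16 * (X + 16/25)))) := by
  rw [abs_le] at hY
  have e1 : thx Box.N (pt X Y (3/5)) = -(16/25) + 15/16 * (X + 16/25) := by
    simp only [thx, clp, tg_pt_zero, tg_pt_two]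
    rw [min_eq_right (by linarith), max_eq_right (by linarith)]
  have e2 : thy Box.N (pt X Y (3/5)) = 21/22 * Y := by
    simp only [thy, clp, tg_pt_one, tg_pt_two]
    rw [min_eq_right (by linarith), max_eq_right (by linarith)]
  rw [theta, e1, e2, tg_pt_two, zlev_inner, ← dc_neg _ _ (by linarith), ← roof_scale]
  have e3 : (5/3 : ℝ) * (21/22 * Y) = 35/22 * Y := by ring
  have e4 : (5/3 : ℝ) * (-(16/25) + 15/16 * (X + 16/25) - -(16/25)) = 25/16 * (X + 16/25) := by
    ring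
  rw [e3, e4]
  refine tg_ext ?_ ?_ rfl
  · simp only [sim, sg, tg_pt_zero, tg_pt_one, Bool.false_eq_true, if_false]; ring
  · simp only [sim, tg_pt_zero, tg_pt_one]; ring

/-! ### Null sets -/

namespace Ch

theorem mp_pt : MeasurePreserving (fun p : ℝ × ℝ × ℝ => pt p.1 p.2.1 p.2.2) volume volume := by
  have h1 : MeasurePreserving (MeasurableEquiv.finTwoArrow (α := ℝ)).symm volume volume :=
    (volume_preserving_finTwoArrow ℝ).symm _
  have h2 : MeasurePreserving (Prod.map (id : ℝ → ℝ) (MeasurableEquiv.finTwoArrow (α := ℝ)).symm)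
      volume volume := (MeasurePreserving.id volume).prod h1
  have h3 : MeasurePreserving (MeasurableEquiv.piFinSuccAbove (fun _ : Fin 3 => ℝ) 0).symm
      volume volume := (volume_preserving_piFinSuccAbove (fun _ : Fin 3 => ℝ) 0).symm _
  have h4 := (PiLp.volume_preserving_toLp (Fin 3)).comp (h3.comp h2)
  have h5 : (fun p : ℝ × ℝ × ℝ => pt p.1 p.2.1 p.2.2) = (WithLp.toLp 2 ∘
      ⇑(MeasurableEquiv.piFinSuccAbove (fun _ : Fin 3 => ℝ) 0).symm ∘
        Prod.map id ⇑(MeasurableEquiv.finTwoArrow (α := ℝ)).symm) := by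
    funext p
    simp only [pt, Function.comp_apply]
    congr 1
    funext i
    fin_cases i <;> rfl
  rw [h5]
  exact h4

/-- Graphs over the horizontal coordinates are null. -/
theorem graph_null (h : ℝ → ℝ → ℝ) (hh : Measurable (Function.uncurry h)) :
    volume {p : E3 | p 2 = h (p 0) (p 1)} = 0 := by
  have hm : MeasurableSet {p : E3 | p 2 = h (p 0) (p 1)} := by
    apply measurableSet_eq_fun (tg_continuous_coord 2).measurable
    exact hh.comp ((tg_continuous_coord 0).measurable.prodMk (tg_continuous_coord 1).measurable)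
  rw [← mp_pt.measure_preimage hm.nullMeasurableSet]
  have hm2 : MeasurableSet ((fun p : ℝ × ℝ × ℝ => pt p.1 p.2.1 p.2.2) ⁻¹'
      {p : E3 | p 2 = h (p 0) (p 1)}) := mp_pt.measurable hm
  rw [Measure.volume_eq_prod, Measure.measure_prod_null hm2]
  refine Eventually.of_forall fun x => ?_
  have hm3 := measurable_prodMk_left (x := x) hm2
  change (volume.prod volume) _ = 0
  rw [Measure.measure_prod_null hm3]
  refine Eventually.of_forall fun y => ?_
  have : (Prod.mk y ⁻¹' (Prod.mk x ⁻¹' ((fun p : ℝ × ℝ × ℝ => pt p.1 p.2.1 p.2.2) ⁻¹'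
      {p : E3 | p 2 = h (p 0) (p 1)}))) = {h x y} := by
    ext z; rfl
  change volume (Prod.mk y ⁻¹' (Prod.mk x ⁻¹' ((fun p : ℝ × ℝ × ℝ => pt p.1 p.2.1 p.2.2) ⁻¹'
      {p : E3 | p 2 = h (p 0) (p 1)}))) = 0
  rw [this]
  exact Real.volume_singleton

end Ch

theorem volume_plane : volume {p : E3 | p 2 = 0} = 0 :=
  graph_null (fun _ _ => 0) measurable_const

theorem volume_level' (l : ℝ) : volume {p : E3 | lev p = l} = 0 := by
  have hz : Continuous (Function.uncurry fun x y : ℝ => zlev x y l) := by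
    unfold Function.uncurry zlev v0 d0
    fun_prop
  have h1 := graph_null (fun x y => zlev x y l) hz.measurable
  have h2 := graph_null (fun x y => -zlev x y l) hz.neg.measurable
  refine measure_mono_null ?_ (measure_union_null h1 h2)
  intro p hp
  have hp' : lev p = l := hp
  have := zlev_lev_abs p
  rw [hp'] at this
  rcases abs_choice (p 2) with h | h
  · left; rw [h] at this; exact this.symm
  · right
    change p 2 = -zlev (p 0) (p 1) l
    rw [this, h, neg_neg]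

theorem volume_level (l : ℝ) (_h : 3/5 ≤ l) (_h' : l ≤ 1) : volume {p : E3 | lev p = l} = 0 :=
  volume_level' l

end Crest.Agent.R083
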