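import Crest.Agent.R083.ChartCov
import Crest.Agent.R083.Chart

/-!
Row 83 (S0111), MOD-c: the inverse chart `theta` is locally affine almost everywhere; the metric
field `Mf` satisfies the hypothesis of `model_out`; Jacobian bounds.
-/

set_option autoImplicit false

namespace Crest.Agent.R083

open MeasureTheory Set Filter
open scoped Gradient ENNReal NNReal Topology

theorem LA_clp {t f : E3 → ℝ} (ht : LA t) (hf : LA f) (lam : ℝ) :
    LA (fun p => clp (t p) lam (f p)) :=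
  (hf.sub ht).max ((hf.add ht).min (hf.const_mul lam))

theorem LA_d0 {f g : E3 → ℝ} (hf : LA f) (hg : LA g) : LA (fun p => d0 (f p) (g p)) :=
  (LA_const 0).max ((hf.abs.sub (LA_const 1)).max (hg.abs.sub (LA_const (3/5))))

theorem LA_v0 {f g : E3 → ℝ} (hf : LA f) (hg : LA g) : LA (fun p => v0 (f p) (g p)) :=
  (LA_const 0).max (((LA_const (7/25)).sub hf.abs).sub
    ((LA_const 0).max (hg.abs.sub (LA_const (3/5)))))

theorem LA_zlev {f g l : E3 → ℝ} (hf : LA f) (hg : LA g) (hl : LA l) :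
    LA (fun p => zlev (f p) (g p) (l p)) :=
  ((hl.sub ((LA_v0 hf hg).const_mul (5/2))).max
    (hl.min ((hl.const_mul 5).sub (LA_const (7/2))))).sub ((LA_d0 hf hg).const_mul (5/2))

theorem LA_thx (b : Box) : LA (thx b) := by
  cases b
  · exact LA_clp (((LA_coord 2).sub (LA_const (7/10))).const_mul (2/5)) (LA_coord 0) _
  · exact (LA_const (16/25)).add (LA_clp (((LA_const (7/10)).sub (LA_coord 2)).const_mul (2/5))
      ((LA_coord 0).sub (LA_const (16/25))) _)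
  · exact (LA_const (-(16/25))).add (LA_clp (((LA_const (7/10)).sub (LA_coord 2)).const_mul (2/5))
      ((LA_coord 0).add (LA_const (16/25))) _)

theorem LA_thy (b : Box) : LA (thy b) := by
  cases b
  · exact LA_clp (((LA_coord 2).sub (LA_const (7/10))).const_mul (2/5)) (LA_coord 1) _
  · exact LA_clp (((LA_const (7/10)).sub (LA_coord 2)).const_mul (2/5)) (LA_coord 1) _
  · exact LA_clp (((LA_const (7/10)).sub (LA_coord 2)).const_mul (2/5)) (LA_coord 1) _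

theorem LA_theta (b : Box) (i : Fin 3) : LA (fun P => theta b P i) := by
  fin_cases i
  · exact LA_thx b
  · exact LA_thy b
  · exact LA_zlev (LA_thx b) (LA_thy b) (LA_coord 2)

theorem Mf_eq_pullM (b : Box) (P : E3) : Mf b P = pullM (fderiv ℝ (theta b) P) := rfl

/-- The inverse chart is bi-Lipschitz on the boxes, with a uniform constant. -/
theorem theta_bilip : ∃ K : ℝ, 1 ≤ K ∧ (∀ b, ∀ x y, ‖theta b x - theta b y‖ ≤ K * ‖x - y‖) ∧
    (∀ b, ∀ x y, ‖phi b x - phi b y‖ ≤ K * ‖x - y‖) ∧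
    (∀ b, ∀ x ∈ bx b, ∀ y ∈ bx b, ‖x - y‖ ≤ K * ‖theta b x - theta b y‖) := by
  choose Kt hKt using theta_lip
  choose Kp hKp using phi_lip
  let K : ℝ := 1 + (Kt Box.O + Kt Box.P + Kt Box.N + Kp Box.O + Kp Box.P + Kp Box.N)
  have ht : ∀ b, (Kt b : ℝ) ≤ K := by
    intro b
    cases b <;> simp only [K] <;> linarith [(Kt Box.O).2, (Kt Box.P).2, (Kt Box.N).2,
      (Kp Box.O).2, (Kp Box.P).2, (Kp Box.N).2]
  have hp : ∀ b, (Kp b : ℝ) ≤ K := by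
    intro b
    cases b <;> simp only [K] <;> linarith [(Kt Box.O).2, (Kt Box.P).2, (Kt Box.N).2,
      (Kp Box.O).2, (Kp Box.P).2, (Kp Box.N).2]
  have hp' : ∀ b, ∀ x y, ‖phi b x - phi b y‖ ≤ K * ‖x - y‖ := by
    intro b x y
    have := (hKp b).dist_le_mul x y
    rw [dist_eq_norm, dist_eq_norm] at this
    exact this.trans (by gcongr; exact hp b)
  refine ⟨K, ?_, ?_, hp', ?_⟩
  · simp only [K]
    linarith [(Kt Box.O).2, (Kt Box.P).2, (Kt Box.N).2, (Kp Box.O).2, (Kp Box.P).2, (Kp Box.N).2]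
  · intro b x y
    have := (hKt b).dist_le_mul x y
    rw [dist_eq_norm, dist_eq_norm] at this
    exact this.trans (by gcongr; exact ht b)
  · intro b x hx y hy
    have := hp' b (theta b x) (theta b y)
    rwa [phi_theta b x hx, phi_theta b y hy] at this

/-- Full local structure of the inverse chart. -/
theorem theta_struct : ∃ K : ℝ, 1 ≤ K ∧ ∀ b : Box, ∃ U : Set E3, IsOpen U ∧ U ⊆ bxo b ∧
    volume (bx b \ U) = 0 ∧
    ∀ x ∈ U, ∃ A : E3 ≃L[ℝ] E3, (∃ c, ∀ᶠ y in 𝓝 x, theta b y = A y + c) ∧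
        HasFDerivAt (theta b) (A : E3 →L[ℝ] E3) x ∧
        (∀ v, ‖A v‖ ≤ K * ‖v‖) ∧ (∀ v, ‖A.symm v‖ ≤ K * ‖v‖) ∧
        (∀ᶠ y in 𝓝 x, fderiv ℝ (theta b) y = (A : E3 →L[ℝ] E3)) ∧
        (∀ᶠ y in 𝓝 x, Mf b y = Mf b x) ∧
        Ell (((K * K) ^ 3)⁻¹) (Mf b x) := by
  obtain ⟨K, hK, h1, -, h2⟩ := theta_bilip
  refine ⟨K, hK, fun b => ?_⟩
  obtain ⟨U, hU, hUS, hn, hx⟩ := metric_field (theta b) (LA_theta b) (bxo b) (isOpen_bxo b) K K
    hK hK (fun x _ y _ => h1 b x y)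
    (fun x hx y hy => h2 b x (bxo_subset_bx b hx) y (bxo_subset_bx b hy))
  refine ⟨U, hU, hUS, ?_, hx⟩
  have : bx b \ U ⊆ (bx b \ bxo b) ∪ (bxo b \ U) := by
    intro x hx
    by_cases h : x ∈ bxo b
    · exact Or.inr ⟨h, hx.2⟩
    · exact Or.inl ⟨hx.1, h⟩
  exact measure_mono_null this (measure_union_null (bx_diff_bxo_null b) hn)

/-- locally affine almost everywhere, with uniform bounds -/
theorem chart_affine : ∃ L : ℝ≥0, ∀ b : Box, ∃ U : Set E3, IsOpen U ∧ U ⊆ bxo b ∧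
    volume (bx b \ U) = 0 ∧ ∀ P ∈ U, ∃ A : E3 ≃L[ℝ] E3,
      (∀ᶠ Q in 𝓝 P, theta b Q = theta b P + A (Q - P)) ∧
      ‖(A : E3 →L[ℝ] E3)‖ ≤ L ∧ ‖(A.symm : E3 →L[ℝ] E3)‖ ≤ L := by
  obtain ⟨K, hK, h⟩ := theta_struct
  lift K to ℝ≥0 using (by linarith)
  refine ⟨K, fun b => ?_⟩
  obtain ⟨U, hU, hUS, hn, hx⟩ := h b
  refine ⟨U, hU, hUS, hn, fun P hP => ?_⟩
  obtain ⟨A, ⟨c, hc⟩, -, hA, hA', -⟩ := hx P hP
  refine ⟨A, ?_, ?_, ?_⟩
  · filter_upwards [hc] with Q hQ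
    rw [hQ, hc.self_of_nhds, map_sub]
    abel
  · exact ContinuousLinearMap.opNorm_le_bound _ K.2 hA
  · exact ContinuousLinearMap.opNorm_le_bound _ K.2 hA'

/-- the metric field satisfies the hypothesis of `model_out` -/
theorem chart_metric : ∃ μ : ℝ, 0 < μ ∧ ∀ b : Box, ∃ U : Set E3, IsOpen U ∧ U ⊆ bxo b ∧
    volume (bx b \ U) = 0 ∧ (∀ x ∈ U, ∀ᶠ y in 𝓝 x, Mf b y = Mf b x) ∧
    (∀ x ∈ U, Ell μ (Mf b x)) := by
  obtain ⟨K, hK, h⟩ := theta_struct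
  refine ⟨((K * K) ^ 3)⁻¹, by positivity, fun b => ?_⟩
  obtain ⟨U, hU, hUS, hn, hx⟩ := h b
  refine ⟨U, hU, hUS, hn, fun x hxU => ?_, fun x hxU => ?_⟩
  · obtain ⟨A, -, -, -, -, -, h, -⟩ := hx x hxU
    exact h
  · obtain ⟨A, -, -, -, -, -, -, h⟩ := hx x hxU
    exact h

/-- bounds for the Jacobian (in the notation of `chart_affine`) -/
theorem det_bounds (A : E3 ≃L[ℝ] E3) (L : ℝ) (h1 : ‖(A : E3 →L[ℝ] E3)‖ ≤ L)
    (h2 : ‖(A.symm : E3 →L[ℝ] E3)‖ ≤ L) :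
    |(A : E3 →L[ℝ] E3).det| ≤ L ^ 3 ∧ 1 ≤ L ^ 3 * |(A : E3 →L[ℝ] E3).det| := by
  have hL : 0 ≤ L := (norm_nonneg _).trans h1
  have hA : ∀ v, ‖(A : E3 →L[ℝ] E3) v‖ ≤ L * ‖v‖ := fun v =>
    (ContinuousLinearMap.le_opNorm _ _).trans (by gcongr)
  have hA' : ∀ v, ‖(A.symm : E3 →L[ℝ] E3) v‖ ≤ L * ‖v‖ := fun v =>
    (ContinuousLinearMap.le_opNorm _ _).trans (by gcongr)
  have hd1 := abs_det_le _ L hL hA
  have hd2 := abs_det_le _ L hL hA'
  have hdd : (A : E3 →L[ℝ] E3).det * (A.symm : E3 →L[ℝ] E3).det = 1 := by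
    have h0 : (A : E3 →L[ℝ] E3).det ≠ 0 := (LinearEquiv.isUnit_det' A.toLinearEquiv).ne_zero
    rw [ContinuousLinearEquiv.det_coe_symm A]
    field_simp
  refine ⟨hd1, ?_⟩
  calc (1 : ℝ) = |(A.symm : E3 →L[ℝ] E3).det| * |(A : E3 →L[ℝ] E3).det| := by
        rw [← abs_mul, mul_comm, hdd, abs_one]
    _ ≤ L ^ 3 * |(A : E3 →L[ℝ] E3).det| := by gcongr

end Crest.Agent.R083
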