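import Crest.Agent.R083.MetricField

/-!
Row 83 (S0111): change of variables under a locally affine bi-Lipschitz map; null faces of the
boxes; `hM` of `model_out` for the metric field of a locally affine chart.
-/

set_option autoImplicit false

namespace Crest.Agent.R083

open MeasureTheory Set Filter
open scoped Gradient ENNReal NNReal Topology

/-- Pointwise pull-back identity. -/
theorem pullM_inner (A : E3 ≃L[ℝ] E3) (g h : E3) :
    inner ℝ (pullM (A : E3 →L[ℝ] E3) (ContinuousLinearMap.adjoint (A : E3 →L[ℝ] E3) g))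
      (ContinuousLinearMap.adjoint (A : E3 →L[ℝ] E3) h) =
      |(A : E3 →L[ℝ] E3).det| * inner ℝ g h := by
  have hinv : (A : E3 →L[ℝ] E3).inverse = (A.symm : E3 →L[ℝ] E3) :=
    ContinuousLinearMap.inverse_equiv A
  have h3 : (ContinuousLinearMap.adjoint (A.symm : E3 →L[ℝ] E3)).comp
      (ContinuousLinearMap.adjoint (A : E3 →L[ℝ] E3)) = ContinuousLinearMap.id ℝ E3 := by
    rw [← ContinuousLinearMap.adjoint_comp]
    have h4 : (A : E3 →L[ℝ] E3).comp (A.symm : E3 →L[ℝ] E3) = ContinuousLinearMap.id ℝ E3 := by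
      ext1 y
      simp
    rw [h4]
    exact ContinuousLinearMap.adjoint_id
  have h5 : ContinuousLinearMap.adjoint (A.symm : E3 →L[ℝ] E3)
      (ContinuousLinearMap.adjoint (A : E3 →L[ℝ] E3) g) = g :=
    congrArg (fun T : E3 →L[ℝ] E3 => T g) h3
  simp only [pullM, hinv, smul_apply, ContinuousLinearMap.comp_apply, inner_smul_left, h5]
  rw [ContinuousLinearMap.adjoint_inner_right]
  simp

/-- Gradient of a composition with a locally affine, locally invertible map. No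
differentiability of `F` is needed. -/
theorem gradient_comp_affine (F : E3 → ℝ) (Ψ : E3 → E3) (x : E3) (A : E3 ≃L[ℝ] E3) (b : E3)
    (hA : ∀ᶠ y in 𝓝 x, Ψ y = A y + b) :
    ∇ (fun y => F (Ψ y)) x = ContinuousLinearMap.adjoint (A : E3 →L[ℝ] E3) (∇ F (Ψ x)) := by
  have h1 : (fun y => F (Ψ y)) =ᶠ[𝓝 x] (fun y => F (A y + b)) := by
    filter_upwards [hA] with y hy
    rw [hy]
  have h2 : fderiv ℝ (fun y => F (Ψ y)) x = (fderiv ℝ F (Ψ x)).comp (A : E3 →L[ℝ] E3) := by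
    rw [h1.fderiv_eq]
    have h3 : (fun y => F (A y + b)) = (fun z => F (z + b)) ∘ A := rfl
    rw [h3, ContinuousLinearEquiv.comp_right_fderiv, fderiv_comp_add_right, hA.self_of_nhds]
  refine ext_inner_right ℝ fun v => ?_
  rw [ContinuousLinearMap.adjoint_inner_left]
  simp only [gradient, InnerProductSpace.toDual_symm_apply]
  rw [h2]
  rfl

/-- Change of variables for the bilinear form of a conductivity. -/
theorem cov_general (Ψ : E3 → E3) (U : Set E3) (hU : MeasurableSet U) (hinj : InjOn Ψ U)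
    (hA : ∀ x ∈ U, ∃ A : E3 ≃L[ℝ] E3, HasFDerivAt Ψ (A : E3 →L[ℝ] E3) x)
    (γ : E3 → ℝ) (G H : E3 → E3) :
    ∫ y in Ψ '' U, γ y * inner ℝ (G y) (H y) =
      ∫ x in U, γ (Ψ x) * inner ℝ (pullM (fderiv ℝ Ψ x)
        (ContinuousLinearMap.adjoint (fderiv ℝ Ψ x) (G (Ψ x))))
        (ContinuousLinearMap.adjoint (fderiv ℝ Ψ x) (H (Ψ x))) := by
  rw [integral_image_eq_integral_abs_det_fderiv_smul volume hU
    (f' := fun x => fderiv ℝ Ψ x) (fun x hx => ?_) hinj]
  · refine setIntegral_congr_fun hU fun x hx => ?_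
    obtain ⟨A, hAx⟩ := hA x hx
    simp only [hAx.fderiv, pullM_inner, smul_eq_mul]
    ring
  · obtain ⟨A, hAx⟩ := hA x hx
    rw [hAx.fderiv]
    exact hAx.hasFDerivWithinAt

/-- Change of variables for Dirichlet pairings. -/
theorem cov_dirichlet (Ψ : E3 → E3) (U : Set E3) (hU : MeasurableSet U) (hinj : InjOn Ψ U)
    (hA : ∀ x ∈ U, ∃ A : E3 ≃L[ℝ] E3, ∃ b, ∀ᶠ y in 𝓝 x, Ψ y = A y + b)
    (γ F ψ : E3 → ℝ) :
    ∫ y in Ψ '' U, γ y * inner ℝ (∇ F y) (∇ ψ y) =
      ∫ x in U, γ (Ψ x) * inner ℝ (pullM (fderiv ℝ Ψ x) (∇ (fun y => F (Ψ y)) x))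
        (∇ (fun y => ψ (Ψ y)) x) := by
  have hA' : ∀ x ∈ U, ∃ A : E3 ≃L[ℝ] E3, HasFDerivAt Ψ (A : E3 →L[ℝ] E3) x ∧
      ∃ b, ∀ᶠ y in 𝓝 x, Ψ y = A y + b := by
    intro x hx
    obtain ⟨A, b, hAb⟩ := hA x hx
    refine ⟨A, ?_, b, hAb⟩
    refine (((A : E3 →L[ℝ] E3).hasFDerivAt (x := x)).add_const b).congr_of_eventuallyEq ?_
    filter_upwards [hAb] with z hz using hz
  rw [cov_general Ψ U hU hinj (fun x hx => ⟨_, (hA' x hx).choose_spec.1⟩)]
  refine setIntegral_congr_fun hU fun x hx => ?_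
  obtain ⟨A, hAx, b, hAb⟩ := hA' x hx
  simp only [hAx.fderiv]
  rw [gradient_comp_affine F Ψ x A b hAb, gradient_comp_affine ψ Ψ x A b hAb]

/-- Coordinate hyperplanes are null. -/
theorem hyper_null (i : Fin 3) (c : ℝ) : volume {p : E3 | p i = c} = 0 := by
  refine measure_mono_null ?_ (touch_null (fun p : E3 => p i) (fun _ => c))
  intro x hx
  let f : E3 →ₗ[ℝ] ℝ := ((EuclideanSpace.proj i : E3 →L[ℝ] ℝ) : E3 →ₗ[ℝ] ℝ)
  refine ⟨⟨f.toAffineMap, Eventually.of_forall fun _ => rfl⟩,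
    ⟨AffineMap.const ℝ E3 c, Eventually.of_forall fun _ => rfl⟩, hx, ?_⟩
  intro h
  have h0 : x i = c := hx
  have hlim : Tendsto (fun t : ℝ => x + t • ee i) (𝓝[>] 0) (𝓝 x) := by
    have : Continuous (fun t : ℝ => x + t • ee i) := by fun_prop
    have h1 := this.tendsto 0
    simp only [zero_smul, add_zero] at h1
    exact h1.mono_left nhdsWithin_le_nhds
  obtain ⟨t, h1, h2⟩ := ((hlim.eventually h).and self_mem_nhdsWithin).exists
  have ht : (0 : ℝ) < t := h2
  have h3 : (x + t • ee i) i = x i + t := by simp [ee]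
  have h4 : (x + t • ee i) i = c := h1
  linarith

theorem isOpen_bxo (b : Box) : IsOpen (bxo b) := by
  have hc : ∀ i : Fin 3, Continuous fun p : E3 => p i := fun i => by fun_prop
  cases b <;> simp only [bxo, ofPred_and]
  · exact (isOpen_lt (hc 0).abs continuous_const).inter
      ((isOpen_lt (hc 1).abs continuous_const).inter
        ((isOpen_lt continuous_const (hc 2)).inter (isOpen_lt (hc 2) continuous_const)))
  · exact (isOpen_lt continuous_const (hc 0)).inter ((isOpen_lt (hc 0) continuous_const).inter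
      ((isOpen_lt (hc 1).abs continuous_const).inter
        ((isOpen_lt continuous_const (hc 2)).inter (isOpen_lt (hc 2) continuous_const))))
  · exact (isOpen_lt continuous_const (hc 0)).inter ((isOpen_lt (hc 0) continuous_const).inter
      ((isOpen_lt (hc 1).abs continuous_const).inter
        ((isOpen_lt continuous_const (hc 2)).inter (isOpen_lt (hc 2) continuous_const))))

theorem isClosed_bx (b : Box) : IsClosed (bx b) := by
  have hc : ∀ i : Fin 3, Continuous fun p : E3 => p i := fun i => by fun_prop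
  cases b <;> simp only [bx, ofPred_and]
  · exact (isClosed_le (hc 0).abs continuous_const).inter
      ((isClosed_le (hc 1).abs continuous_const).inter
        ((isClosed_le continuous_const (hc 2)).inter (isClosed_le (hc 2) continuous_const)))
  · exact (isClosed_le continuous_const (hc 0)).inter ((isClosed_le (hc 0) continuous_const).inter
      ((isClosed_le (hc 1).abs continuous_const).inter
        ((isClosed_le continuous_const (hc 2)).inter (isClosed_le (hc 2) continuous_const))))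
  · exact (isClosed_le continuous_const (hc 0)).inter ((isClosed_le (hc 0) continuous_const).inter
      ((isClosed_le (hc 1).abs continuous_const).inter
        ((isClosed_le continuous_const (hc 2)).inter (isClosed_le (hc 2) continuous_const))))

theorem bxo_subset_bx (b : Box) : bxo b ⊆ bx b := by
  cases b <;> rintro p hp
  · exact ⟨hp.1.le, hp.2.1.le, hp.2.2.1.le, hp.2.2.2.le⟩
  · exact ⟨hp.1.le, hp.2.1.le, hp.2.2.1.le, hp.2.2.2.1.le, hp.2.2.2.2.le⟩
  · exact ⟨hp.1.le, hp.2.1.le, hp.2.2.1.le, hp.2.2.2.1.le, hp.2.2.2.2.le⟩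

/-- The faces of the boxes are null. -/
theorem bx_diff_bxo_null (b : Box) : volume (bx b \ bxo b) = 0 := by
  have h : bx b \ bxo b ⊆ (⋃ i : Fin 3, ⋃ c ∈ ({0, 32/25, -(32/25), 22/25, -(22/25), 7/10, 3/5, 1} :
      Finset ℝ), {p : E3 | p i = c}) := by
    rintro p ⟨hp, hpo⟩
    simp only [mem_iUnion, mem_ofPred_eq]
    by_contra hc
    push Not at hc
    have hc' : ∀ (i : Fin 3) (c : ℝ), c ∈ ({0, 32/25, -(32/25), 22/25, -(22/25), 7/10, 3/5, 1} :
      Finset ℝ) → p i ≠ c := fun i c h => hc i c h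
    apply hpo
    have h01 := hc' 0 (32/25) (by simp)
    have h02 := hc' 0 (-(32/25)) (by simp)
    have h03 := hc' 0 0 (by simp)
    have h11 := hc' 1 (22/25) (by simp)
    have h12 := hc' 1 (-(22/25)) (by simp)
    have h21 := hc' 2 (7/10) (by simp)
    have h22 := hc' 2 (3/5) (by simp)
    have h23 := hc' 2 1 (by simp)
    cases b
    · obtain ⟨a1, a2, a3, a4⟩ := hp
      rw [abs_le] at a1 a2
      exact ⟨abs_lt.2 ⟨lt_of_le_of_ne a1.1 h02.symm, lt_of_le_of_ne a1.2 h01⟩,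
        abs_lt.2 ⟨lt_of_le_of_ne a2.1 h12.symm, lt_of_le_of_ne a2.2 h11⟩,
        lt_of_le_of_ne a3 h21.symm, lt_of_le_of_ne a4 h23⟩
    · obtain ⟨a0, a1, a2, a3, a4⟩ := hp
      rw [abs_le] at a2
      exact ⟨lt_of_le_of_ne a0 h03.symm, lt_of_le_of_ne a1 h01,
        abs_lt.2 ⟨lt_of_le_of_ne a2.1 h12.symm, lt_of_le_of_ne a2.2 h11⟩,
        lt_of_le_of_ne a3 h22.symm, lt_of_le_of_ne a4 h21⟩
    · obtain ⟨a0, a1, a2, a3, a4⟩ := hp
      rw [abs_le] at a2
      exact ⟨lt_of_le_of_ne a0 h02.symm, lt_of_le_of_ne a1 h03,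
        abs_lt.2 ⟨lt_of_le_of_ne a2.1 h12.symm, lt_of_le_of_ne a2.2 h11⟩,
        lt_of_le_of_ne a3 h22.symm, lt_of_le_of_ne a4 h21⟩
  refine measure_mono_null h (measure_iUnion_null fun i => ?_)
  exact (measure_biUnion_null_iff (Finset.countable_toSet _)).2 fun c _ => hyper_null i c

/-- Hypothesis `hM` of `model_out` for the metric field of a locally affine chart. -/
theorem chart_hM (Ψ : Box → E3 → E3) (hL : ∀ b i, LA (fun p => Ψ b p i))
    (K K' : ℝ) (hK : 1 ≤ K) (hK' : 1 ≤ K')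
    (h1 : ∀ b, ∀ x ∈ bxo b, ∀ y ∈ bxo b, ‖Ψ b x - Ψ b y‖ ≤ K * ‖x - y‖)
    (h2 : ∀ b, ∀ x ∈ bxo b, ∀ y ∈ bxo b, ‖x - y‖ ≤ K' * ‖Ψ b x - Ψ b y‖) (b : Box) :
    ∃ U : Set E3, IsOpen U ∧ U ⊆ bxo b ∧ volume (bx b \ U) = 0 ∧
      (∀ x ∈ U, ∀ᶠ y in 𝓝 x, pullM (fderiv ℝ (Ψ b) y) = pullM (fderiv ℝ (Ψ b) x)) ∧
      (∀ x ∈ U, Ell (((K * K') ^ 3)⁻¹) (pullM (fderiv ℝ (Ψ b) x))) ∧
      (∀ x ∈ U, ∃ A : E3 ≃L[ℝ] E3, ∃ c, ∀ᶠ y in 𝓝 x, Ψ b y = A y + c) := by
  obtain ⟨U, hU, hUS, hn, hx⟩ := metric_field (Ψ b) (hL b) (bxo b) (isOpen_bxo b) K K' hK hK'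
    (h1 b) (h2 b)
  refine ⟨U, hU, hUS, ?_, ?_, ?_, ?_⟩
  · have : bx b \ U ⊆ (bx b \ bxo b) ∪ (bxo b \ U) := by
      intro x hx
      by_cases h : x ∈ bxo b
      · exact Or.inr ⟨h, hx.2⟩
      · exact Or.inl ⟨hx.1, h⟩
    exact measure_mono_null this (measure_union_null (bx_diff_bxo_null b) hn)
  · intro x hxU
    obtain ⟨A, -, -, -, -, -, h, -⟩ := hx x hxU
    exact h
  · intro x hxU
    obtain ⟨A, -, -, -, -, -, -, h⟩ := hx x hxU
    exact h
  · intro x hxU
    obtain ⟨A, h, -⟩ := hx x hxU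
    exact ⟨A, h⟩

end Crest.Agent.R083
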