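import Crest.Agent.R083.ChartDefs

/-!
Row 83 (S0111), MOD: the face integrals of the model boxes are averages over the boundary of the
cells. The statements take the face values of the inverse chart as hypotheses, so that they only
depend on `ChartDefs.lean`.
-/

set_option autoImplicit false

namespace Crest.Agent.R083

open MeasureTheory Set Filter
open scoped Gradient ENNReal NNReal Topology

/-- Integral over the upper roof of the basic cell. -/
noncomputable def roofInt (ψ : E3 → ℝ) : ℝ :=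
  ∫ x in (-(7/5:ℝ))..(7/5), ∫ y in (-1:ℝ)..1, ψ (pt x y (roof x y))

theorem swap_interval (f : ℝ → ℝ → ℝ) (hf : Continuous (Function.uncurry f)) {a b c d : ℝ}
    (hab : a ≤ b) (hcd : c ≤ d) :
    ∫ x in a..b, ∫ y in c..d, f x y = ∫ y in c..d, ∫ x in a..b, f x y := by
  simp only [intervalIntegral.integral_of_le hab, intervalIntegral.integral_of_le hcd]
  refine integral_integral_swap ?_
  rw [Measure.prod_restrict]
  refine (hf.continuousOn.integrableOn_compact (μ := volume.prod volume)
    (isCompact_Icc.prod isCompact_Icc) : IntegrableOn (Function.uncurry f) (Icc a b ×ˢ Icc c d)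
      (volume.prod volume)).mono_set ?_
  exact prod_mono Ioc_subset_Icc_self Ioc_subset_Icc_self

theorem continuous_roof : Continuous fun p : ℝ × ℝ => roof p.1 p.2 := by
  unfold roof
  fun_prop

theorem cf_continuous_pt {X : Type*} [TopologicalSpace X] {f g h : X → ℝ} (hf : Continuous f)
    (hg : Continuous g) (hh : Continuous h) : Continuous fun x => pt (f x) (g x) (h x) := by
  unfold pt
  refine (PiLp.continuous_toLp 2 _).comp ?_
  refine continuous_pi fun i => ?_
  fin_cases i
  · exact hf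
  · exact hg
  · exact hh

/-- The upper and lower roofs. -/
theorem pavg_eq_roofInt (ψ : E3 → ℝ) (hψ : Continuous ψ) :
    pavg ψ = (roofInt ψ + roofInt (fun p => ψ (rfl2 p))) / (2 * (14/5) * 2) := by
  unfold pavg roofInt
  have hr : ∀ x y, ψ (rfl2 (pt x y (roof x y))) = ψ (pt x y (-roof x y)) := by
    intro x y
    simp [rfl2, pt]
  simp only [hr]
  have hc1 : Continuous fun p : ℝ × ℝ => ψ (pt p.1 p.2 (roof p.1 p.2)) :=
    hψ.comp (cf_continuous_pt continuous_fst continuous_snd continuous_roof)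
  have hc2 : Continuous fun p : ℝ × ℝ => ψ (pt p.1 p.2 (-roof p.1 p.2)) :=
    hψ.comp (cf_continuous_pt continuous_fst continuous_snd continuous_roof.neg)
  congr 1
  rw [← intervalIntegral.integral_add]
  · refine intervalIntegral.integral_congr fun x _ => ?_
    rw [← intervalIntegral.integral_add]
    · exact (hc1.comp (Continuous.prodMk_right x)).intervalIntegrable _ _
    · exact (hc2.comp (Continuous.prodMk_right x)).intervalIntegrable _ _
  · exact (intervalIntegral.continuous_parametric_intervalIntegral_of_continuous' hc1 _ _).intervalIntegrable _ _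
  · exact (intervalIntegral.continuous_parametric_intervalIntegral_of_continuous' hc2 _ _).intervalIntegrable _ _

/-- The outer face. -/
theorem faceO_eq (ψ : E3 → ℝ) (θ : E3 → E3)
    (hθ : ∀ X Y : ℝ, |X| ≤ 32/25 → |Y| ≤ 22/25 →
      θ (pt X Y 1) = pt (35/32 * X) (25/22 * Y) (roof (35/32 * X) (25/22 * Y))) :
    faceO (fun P => ψ (θ P)) = 32/35 * (22/25) * roofInt ψ := by
  have h1 : faceO (fun P => ψ (θ P)) = ∫ X in (-(32/25:ℝ))..(32/25), ∫ Y in (-(22/25:ℝ))..(22/25),
      ψ (pt (35/32 * X) (25/22 * Y) (roof (35/32 * X) (25/22 * Y))) := by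
    unfold faceO
    refine intervalIntegral.integral_congr fun X hX => ?_
    refine intervalIntegral.integral_congr fun Y hY => ?_
    rw [uIcc_of_le (by norm_num)] at hX hY
    simp only
    rw [hθ X Y (abs_le.2 hX) (abs_le.2 hY)]
  rw [h1]
  have h2 : ∀ X : ℝ, (∫ Y in (-(22/25:ℝ))..(22/25),
      ψ (pt (35/32 * X) (25/22 * Y) (roof (35/32 * X) (25/22 * Y)))) =
      22/25 * ∫ y in (-1:ℝ)..1, ψ (pt (35/32 * X) y (roof (35/32 * X) y)) := by
    intro X
    rw [intervalIntegral.integral_comp_mul_left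
      (fun y => ψ (pt (35/32 * X) y (roof (35/32 * X) y))) (by norm_num)]
    norm_num
  simp only [h2]
  rw [intervalIntegral.integral_comp_mul_left
      (fun x => 22/25 * ∫ y in (-1:ℝ)..1, ψ (pt x y (roof x y))) (by norm_num)]
  rw [intervalIntegral.integral_const_mul, roofInt]
  norm_num
  ring

/-- The right inner face. -/
theorem faceP_eq (ψ : E3 → ℝ) (hψ : Continuous ψ) (θ : E3 → E3)
    (hθ : ∀ X Y : ℝ, 0 ≤ X → X ≤ 32/25 → |Y| ≤ 22/25 →
      θ (pt X Y (3/5)) =
        sim true (pt (35/22 * Y) (25/16 * (X - 16/25)) (roof (35/22 * Y) (25/16 * (X - 16/25))))) :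
    faceP (fun P => ψ (θ P)) = 22/35 * (16/25) * roofInt (ψ ∘ sim true) := by
  have h1 : faceP (fun P => ψ (θ P)) = ∫ X in (0:ℝ)..(32/25), ∫ Y in (-(22/25:ℝ))..(22/25),
      (ψ ∘ sim true) (pt (35/22 * Y) (25/16 * (X - 16/25))
        (roof (35/22 * Y) (25/16 * (X - 16/25)))) := by
    unfold faceP
    refine intervalIntegral.integral_congr fun X hX => ?_
    refine intervalIntegral.integral_congr fun Y hY => ?_
    rw [uIcc_of_le (by norm_num)] at hX hY
    simp only [Function.comp_apply]
    rw [hθ X Y hX.1 hX.2 (abs_le.2 hY)]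
  rw [h1]
  have h2 : ∀ X : ℝ, (∫ Y in (-(22/25:ℝ))..(22/25),
      (ψ ∘ sim true) (pt (35/22 * Y) (25/16 * (X - 16/25))
        (roof (35/22 * Y) (25/16 * (X - 16/25))))) =
      22/35 * ∫ x in (-(7/5:ℝ))..(7/5), (ψ ∘ sim true) (pt x (25/16 * (X - 16/25))
        (roof x (25/16 * (X - 16/25)))) := by
    intro X
    rw [intervalIntegral.integral_comp_mul_left
      (fun x => (ψ ∘ sim true) (pt x (25/16 * (X - 16/25)) (roof x (25/16 * (X - 16/25)))))
      (by norm_num)]
    norm_num
  simp only [h2]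
  have h3 : (∫ X in (0:ℝ)..(32/25), 22/35 * ∫ x in (-(7/5:ℝ))..(7/5),
      (ψ ∘ sim true) (pt x (25/16 * (X - 16/25)) (roof x (25/16 * (X - 16/25))))) =
      16/25 * ∫ y in (-1:ℝ)..1, 22/35 * ∫ x in (-(7/5:ℝ))..(7/5),
        (ψ ∘ sim true) (pt x y (roof x y)) := by
    have e1 : ∀ X : ℝ, (25/16 * (X - 16/25) : ℝ) = 25/16 * X - 1 := fun X => by ring
    simp only [e1]
    rw [intervalIntegral.integral_comp_mul_sub
      (fun y => 22/35 * ∫ x in (-(7/5:ℝ))..(7/5), (ψ ∘ sim true) (pt x y (roof x y)))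
      (by norm_num) 1]
    norm_num
  rw [h3, intervalIntegral.integral_const_mul]
  have hc : Continuous (Function.uncurry fun y x : ℝ => (ψ ∘ sim true) (pt x y (roof x y))) := by
    refine (hψ.comp ?_).comp (cf_continuous_pt continuous_snd continuous_fst
      (continuous_roof.comp (continuous_snd.prodMk continuous_fst)))
    refine cf_continuous_pt ?_ ?_ ?_ <;> fun_prop
  rw [swap_interval _ hc (by norm_num) (by norm_num), roofInt]
  ring

/-- The left inner face. -/
theorem faceN_eq (ψ : E3 → ℝ) (hψ : Continuous ψ) (θ : E3 → E3)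
    (hθ : ∀ X Y : ℝ, X ≤ 0 → -(32/25) ≤ X → |Y| ≤ 22/25 →
      θ (pt X Y (3/5)) =
        sim false (pt (35/22 * Y) (25/16 * (X + 16/25)) (roof (35/22 * Y) (25/16 * (X + 16/25))))) :
    faceN (fun P => ψ (θ P)) = 22/35 * (16/25) * roofInt (ψ ∘ sim false) := by
  have h1 : faceN (fun P => ψ (θ P)) = ∫ X in (-(32/25:ℝ))..0, ∫ Y in (-(22/25:ℝ))..(22/25),
      (ψ ∘ sim false) (pt (35/22 * Y) (25/16 * (X + 16/25))
        (roof (35/22 * Y) (25/16 * (X + 16/25)))) := by
    unfold faceN
    refine intervalIntegral.integral_congr fun X hX => ?_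
    refine intervalIntegral.integral_congr fun Y hY => ?_
    rw [uIcc_of_le (by norm_num)] at hX hY
    simp only [Function.comp_apply]
    rw [hθ X Y hX.2 hX.1 (abs_le.2 hY)]
  rw [h1]
  have h2 : ∀ X : ℝ, (∫ Y in (-(22/25:ℝ))..(22/25),
      (ψ ∘ sim false) (pt (35/22 * Y) (25/16 * (X + 16/25))
        (roof (35/22 * Y) (25/16 * (X + 16/25))))) =
      22/35 * ∫ x in (-(7/5:ℝ))..(7/5), (ψ ∘ sim false) (pt x (25/16 * (X + 16/25))
        (roof x (25/16 * (X + 16/25)))) := by
    intro X
    rw [intervalIntegral.integral_comp_mul_left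
      (fun x => (ψ ∘ sim false) (pt x (25/16 * (X + 16/25)) (roof x (25/16 * (X + 16/25)))))
      (by norm_num)]
    norm_num
  simp only [h2]
  have h3 : (∫ X in (-(32/25:ℝ))..0, 22/35 * ∫ x in (-(7/5:ℝ))..(7/5),
      (ψ ∘ sim false) (pt x (25/16 * (X + 16/25)) (roof x (25/16 * (X + 16/25))))) =
      16/25 * ∫ y in (-1:ℝ)..1, 22/35 * ∫ x in (-(7/5:ℝ))..(7/5),
        (ψ ∘ sim false) (pt x y (roof x y)) := by
    have e1 : ∀ X : ℝ, (25/16 * (X + 16/25) : ℝ) = 25/16 * X + 1 := fun X => by ring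
    simp only [e1]
    rw [intervalIntegral.integral_comp_mul_add
      (fun y => 22/35 * ∫ x in (-(7/5:ℝ))..(7/5), (ψ ∘ sim false) (pt x y (roof x y)))
      (by norm_num) 1]
    norm_num
  rw [h3, intervalIntegral.integral_const_mul]
  have hc : Continuous (Function.uncurry fun y x : ℝ => (ψ ∘ sim false) (pt x y (roof x y))) := by
    refine (hψ.comp ?_).comp (cf_continuous_pt continuous_snd continuous_fst
      (continuous_roof.comp (continuous_snd.prodMk continuous_fst)))
    refine cf_continuous_pt ?_ ?_ ?_ <;> fun_prop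
  rw [swap_interval _ hc (by norm_num) (by norm_num), roofInt]
  ring

end Crest.Agent.R083
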