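import Crest.Agent.R083.LocAff
import Crest.Agent.R083.ChartDefs

/-!
Row 83 (S0111), MOD: level sets of `lev` are null.
-/

set_option autoImplicit false

namespace Crest.Agent.R083

open MeasureTheory Set Filter
open scoped Gradient ENNReal NNReal Topology

theorem LA_lv0 : LA lv0 :=
  (LA_coord 2).abs.add (((LA_const 0).max (((LA_coord 0).abs.sub (LA_const 1)).max
    ((LA_coord 1).abs.sub (LA_const (3/5))))).const_mul (5/2))

theorem LA_lev : LA lev :=
  LA_lv0.add ((((LA_const 0).max (((LA_const (7/25)).sub (LA_coord 0).abs).sub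
    ((LA_const 0).max ((LA_coord 1).abs.sub (LA_const (3/5)))))).const_mul (5/2)).min
      ((LA_const 0).max ((LA_const (7/10)).sub (LA_lv0.const_mul (4/5)))))

theorem lev_profile {a L s : ℝ} (hs : 0 < s) :
    L + min a (max 0 (7/10 - 4/5 * L)) < L + s + min a (max 0 (7/10 - 4/5 * (L + s))) := by
  have h1 : max 0 (7/10 - 4/5 * L) ≤ max 0 (7/10 - 4/5 * (L + s)) + 4/5 * s := by
    refine max_le ?_ ?_
    · linarith [le_max_left 0 (7/10 - 4/5 * (L + s))]
    · linarith [le_max_right 0 (7/10 - 4/5 * (L + s))]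
  have h2 : min a (max 0 (7/10 - 4/5 * L)) - 4/5 * s ≤
      min a (max 0 (7/10 - 4/5 * (L + s))) :=
    le_min (by linarith [min_le_left a (max 0 (7/10 - 4/5 * L))])
      (by linarith [min_le_right a (max 0 (7/10 - 4/5 * L))])
  linarith

theorem lev_not_const (x : E3) (l : ℝ) : ¬ lev =ᶠ[𝓝 x] fun _ => l := by
  intro h
  -- direction of increasing `|p 2|`
  obtain ⟨σ, hσ, hσx⟩ : ∃ σ : ℝ, |σ| = 1 ∧ ∀ t : ℝ, 0 ≤ t → |x 2 + t * σ| = |x 2| + t := by
    rcases le_total 0 (x 2) with hx | hx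
    · refine ⟨1, by simp, fun t ht => ?_⟩
      rw [abs_of_nonneg hx, abs_of_nonneg (by linarith)]; ring
    · refine ⟨-1, by simp, fun t ht => ?_⟩
      rw [abs_of_nonpos hx, abs_of_nonpos (by linarith)]; ring
  have hlim : Tendsto (fun t : ℝ => x + (t * σ) • ee 2) (𝓝[>] 0) (𝓝 x) := by
    have : Continuous (fun t : ℝ => x + (t * σ) • ee 2) := by fun_prop
    have h1 := this.tendsto 0
    simp only [zero_mul, zero_smul, add_zero] at h1
    exact h1.mono_left nhdsWithin_le_nhds
  obtain ⟨t, h1, h2⟩ := ((hlim.eventually h).and self_mem_nhdsWithin).exists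
  have ht : (0 : ℝ) < t := h2
  have h0 : lev x = l := h.self_of_nhds
  have h3 : lev (x + (t * σ) • ee 2) = l := h1
  have e0 : (x + (t * σ) • ee 2) 0 = x 0 := by simp [ee]
  have e1 : (x + (t * σ) • ee 2) 1 = x 1 := by simp [ee]
  have e2 : (x + (t * σ) • ee 2) 2 = x 2 + t * σ := by simp [ee]
  have e3 : lv0 (x + (t * σ) • ee 2) = lv0 x + t := by
    simp only [lv0, e0, e1, e2, hσx t ht.le]; ring
  have h4 := lev_profile (a := 5/2 * v0 (x 0) (x 1)) (L := lv0 x) ht
  have h5 : lev x < lev (x + (t * σ) • ee 2) := by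
    simp only [lev, e0, e1, e3]
    exact h4
  linarith

/-- Level sets are null. -/
theorem volume_lev_eq (l : ℝ) : volume {p : E3 | lev p = l} = 0 := by
  have h := LA_lev
  have h1 : {p : E3 | lev p = l} ⊆ (RegA lev)ᶜ ∪
      {x | x ∈ RegA lev ∧ x ∈ RegA (fun _ => l) ∧ lev x = (fun _ => l) x ∧
        ¬ lev =ᶠ[𝓝 x] (fun _ => l)} := by
    intro x hx
    by_cases hr : x ∈ RegA lev
    · exact Or.inr ⟨hr, ⟨AffineMap.const ℝ E3 l, Eventually.of_forall fun _ => rfl⟩, hx,
        lev_not_const x l⟩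
    · exact Or.inl hr
  exact measure_mono_null h1 (measure_union_null h (touch_null _ _))

end Crest.Agent.R083
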