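import Crest.Agent.R083.Defs

/-!
Row 83 (S0111): definitions shared inside the TM group (task TM-d, owner helper979).
-/

set_option autoImplicit false

namespace Crest.Agent.R083

open MeasureTheory Set Filter
open scoped Gradient ENNReal NNReal Topology ContDiff

/-- Hypotheses of the front lemma on a two-dimensional potential `U (σ, x)`. -/
structure FrontHyp (C0 c0 ρ lam : ℝ) (U : ℝ × ℝ → ℝ) : Prop where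
  sm : ContDiffOn ℝ ∞ U {q | 0 < q.1}
  pde : ∀ q : ℝ × ℝ, 0 < q.1 →
    fderiv ℝ (fun q => fderiv ℝ U q (1, 0)) q (1, 0) +
      lam * fderiv ℝ (fun q => fderiv ℝ U q (0, 1)) q (0, 1) = 0
  wall : ∀ σ, 0 < σ → fderiv ℝ U (σ, 0) (0, 1) = 0 ∧ fderiv ℝ U (σ, 1) (0, 1) = 0
  mean : ∀ σ, 0 < σ → ∫ x in (0:ℝ)..1, U (σ, x) = 0
  up : ∀ σ x, 1 / 2 ≤ σ → σ ≤ 5 / 8 → 0 ≤ x → x ≤ 1 →
    |U (σ, x)| ≤ C0 * Real.exp (-ρ * σ) ∧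
    |fderiv ℝ U (σ, x) (1, 0)| ≤ C0 * ρ * Real.exp (-ρ * σ)
  low : ∀ σ x, 0 < σ → σ ≤ 1 / 2 → 0 ≤ x → x ≤ 1 →
    c0 * Real.exp (-ρ * σ) * Real.sin (Real.pi * x) ≤ |fderiv ℝ U (σ, x) (0, 1)|

/-- Everything the two-dimensional core has to provide. `uL` is the potential on `s < 0`
(all `X`), `uR` the potential on `s > 0` minus its affine part `π/2 * s + log 2` (all `X`). -/
structure CoreData where
  uL : ℝ → ℝ → ℝ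
  uLs : ℝ → ℝ → ℝ
  uLX : ℝ → ℝ → ℝ
  uR : ℝ → ℝ → ℝ
  uRs : ℝ → ℝ → ℝ
  uRX : ℝ → ℝ → ℝ
  v0 : ℝ → ℝ
  g0 : ℝ → ℝ
  C0 : ℝ
  c0 : ℝ
  c0pos : 0 < c0
  -- partial derivatives
  dLs : ∀ s X, s < 0 → HasDerivAt (fun t => uL t X) (uLs s X) s
  dLX : ∀ s X, s < 0 → HasDerivAt (fun t => uL s t) (uLX s X) X
  dRs : ∀ s X, 0 < s → HasDerivAt (fun t => uR t X) (uRs s X) s
  dRX : ∀ s X, 0 < s → HasDerivAt (fun t => uR s t) (uRX s X) X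
  -- front hypotheses
  frontO : ∀ M : ℝ, 1 ≤ M → FrontHyp C0 c0 (Real.pi / 2 * M) (M ^ 2 / 4)
    (fun q => uL (-(M * q.1)) (2 * q.2 - 1))
  frontP : ∀ M : ℝ, 1 ≤ M → FrontHyp C0 c0 (Real.pi * M) (M ^ 2)
    (fun q => uR (M * q.1) q.2)
  -- symmetry
  oddL : ∀ s X, s < 0 → uL s (-X) = -uL s X ∧ uLs s (-X) = -uLs s X
  -- traces at `s = 0`
  trL : ∀ X, 0 < X → X ≤ 1 → Tendsto (fun s => uL s X) (𝓝[<] 0) (𝓝 (v0 X)) ∧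
    Tendsto (fun s => uLs s X) (𝓝[<] 0) (𝓝 (g0 X))
  trR : ∀ X, 0 < X → X ≤ 1 →
    Tendsto (fun s => Real.pi / 2 * s + Real.log 2 + uR s X) (𝓝[>] 0) (𝓝 (v0 X)) ∧
    Tendsto (fun s => Real.pi / 2 + uRs s X) (𝓝[>] 0) (𝓝 (g0 X))
  -- behaviour at the tip
  tipL : ∀ S : ℝ, 0 < S → ∃ C : ℝ, ∀ s X, -S ≤ s → s < 0 → |X| ≤ 1 →
    (uL s X) ^ 2 ≤ C * √(s ^ 2 + X ^ 2) ∧
    ((uLs s X) ^ 2 + (uLX s X) ^ 2) * √(s ^ 2 + X ^ 2) ≤ C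
  tipR : ∀ S : ℝ, 0 < S → ∃ C : ℝ, ∀ s X, 0 < s → s ≤ S → |X| ≤ 1 →
    (Real.pi / 2 * s + Real.log 2 + uR s X) ^ 2 ≤ C * √(s ^ 2 + X ^ 2) ∧
    ((Real.pi / 2 + uRs s X) ^ 2 + (uRX s X) ^ 2) * √(s ^ 2 + X ^ 2) ≤ C

/-- Cutoff away from the tip. -/
noncomputable def cut (j : ℕ) (p : E3) : ℝ := Real.smoothTransition ((j : ℝ) * tip2 p - 1)

end Crest.Agent.R083
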