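import Crest.Agent.R083.Core1
import Crest.Agent.R083.TMDefs

/-!
Row 83 (S0111), task TM-b: packaging of the core (`core_exists`).
-/

set_option autoImplicit false

namespace Crest.Agent.R083.Core

open Complex Set Filter Topology
open scoped Real ContDiff

/-! ### packaging -/

theorem fderiv_fst_of {F : ℝ × ℝ → ℝ} {q : ℝ × ℝ} (hd : DifferentiableAt ℝ F q) {F' : ℝ}
    (h : HasDerivAt (fun t => F (t, q.2)) F' q.1) : fderiv ℝ F q (1, 0) = F' := by
  have h1 : HasDerivAt (fun t : ℝ => ((t, q.2) : ℝ × ℝ)) (1, 0) q.1 :=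
    (hasDerivAt_id q.1).prodMk (hasDerivAt_const q.1 q.2)
  have h2 : HasDerivAt (fun t => F (t, q.2)) (fderiv ℝ F q (1, 0)) q.1 :=
    HasFDerivAt.comp_hasDerivAt (f := fun t : ℝ => ((t, q.2) : ℝ × ℝ)) q.1 hd.hasFDerivAt h1
  exact h2.unique h

theorem fderiv_snd_of {F : ℝ × ℝ → ℝ} {q : ℝ × ℝ} (hd : DifferentiableAt ℝ F q) {F' : ℝ}
    (h : HasDerivAt (fun t => F (q.1, t)) F' q.2) : fderiv ℝ F q (0, 1) = F' := by
  have h1 : HasDerivAt (fun t : ℝ => ((q.1, t) : ℝ × ℝ)) (0, 1) q.2 :=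
    (hasDerivAt_const q.2 q.1).prodMk (hasDerivAt_id q.2)
  have h2 : HasDerivAt (fun t => F (q.1, t)) (fderiv ℝ F q (0, 1)) q.2 :=
    HasFDerivAt.comp_hasDerivAt (f := fun t : ℝ => ((q.1, t) : ℝ × ℝ)) q.2 hd.hasFDerivAt h1
  exact h2.unique h

theorem diff_left {f : ℂ → ℂ} (hf : ∀ ζ ∈ DL, DifferentiableAt ℂ f ζ) {p : ℝ × ℝ}
    (hp : p.1 < 0) :
    DifferentiableAt ℝ (fun p : ℝ × ℝ => (f (p.1 + p.2 * I)).re) p ∧
      DifferentiableAt ℝ (fun p : ℝ × ℝ => (f (p.1 + p.2 * I)).im) p := by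
  have hf' : DifferentiableOn ℂ f DL := fun ζ hζ => (hf ζ hζ).differentiableWithinAt
  have hmem : {p : ℝ × ℝ | (p.1 + p.2 * I : ℂ) ∈ DL} ∈ 𝓝 p := by
    apply (isOpen_DL.preimage (by fun_prop : Continuous fun p : ℝ × ℝ => (p.1 + p.2 * I : ℂ))).mem_nhds
    exact mem_DL (Or.inl hp)
  exact ⟨(contDiffOn_re isOpen_DL hf').contDiffAt hmem |>.differentiableAt (by simp),
    (contDiffOn_im isOpen_DL hf').contDiffAt hmem |>.differentiableAt (by simp)⟩

theorem diff_right {f : ℂ → ℂ} (hf : ∀ ζ ∈ DR, DifferentiableAt ℂ f ζ) {p : ℝ × ℝ}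
    (hp : 0 < p.1) :
    DifferentiableAt ℝ (fun p : ℝ × ℝ => (f (p.1 + p.2 * I)).re) p ∧
      DifferentiableAt ℝ (fun p : ℝ × ℝ => (f (p.1 + p.2 * I)).im) p := by
  have hf' : DifferentiableOn ℂ f DR := fun ζ hζ => (hf ζ hζ).differentiableWithinAt
  have hmem : {p : ℝ × ℝ | (p.1 + p.2 * I : ℂ) ∈ DR} ∈ 𝓝 p := by
    apply (isOpen_DR.preimage (by fun_prop : Continuous fun p : ℝ × ℝ => (p.1 + p.2 * I : ℂ))).mem_nhds
    exact mem_DR (Or.inl hp)
  exact ⟨(contDiffOn_re isOpen_DR hf').contDiffAt hmem |>.differentiableAt (by simp),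
    (contDiffOn_im isOpen_DR hf').contDiffAt hmem |>.differentiableAt (by simp)⟩

/-- the affine change of variables on the left -/
noncomputable def aO (M : ℝ) (q : ℝ × ℝ) : ℝ × ℝ := (-(M * q.1), 2 * q.2 - 1)

/-- the affine change of variables on the right -/
noncomputable def aP (M : ℝ) (q : ℝ × ℝ) : ℝ × ℝ := (M * q.1, q.2)

theorem contDiff_aO (M : ℝ) : ContDiff ℝ ∞ (aO M) := by unfold aO; fun_prop

theorem contDiff_aP (M : ℝ) : ContDiff ℝ ∞ (aP M) := by unfold aP; fun_prop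

section frontO

variable {M : ℝ} (hM : 1 ≤ M) {q : ℝ × ℝ} (hq : 0 < q.1)
include hM hq

theorem aO_neg : (aO M q).1 < 0 := by
  change -(M * q.1) < 0
  have : 0 < M * q.1 := by positivity
  linarith

theorem diffO {f : ℝ × ℝ → ℝ} (hf : ∀ p : ℝ × ℝ, p.1 < 0 → DifferentiableAt ℝ f p) :
    DifferentiableAt ℝ (fun q => f (aO M q)) q :=
  (hf _ (aO_neg hM hq)).comp q ((contDiff_aO M).differentiable (by simp) q)

theorem O_fst {f f1 : ℝ → ℝ → ℝ} (hf : ∀ p : ℝ × ℝ, p.1 < 0 →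
      DifferentiableAt ℝ (fun p : ℝ × ℝ => f p.1 p.2) p)
    (h1 : ∀ s X, s < 0 → HasDerivAt (fun t => f t X) (f1 s X) s) :
    fderiv ℝ (fun q : ℝ × ℝ => f (-(M * q.1)) (2 * q.2 - 1)) q (1, 0) =
      -M * f1 (-(M * q.1)) (2 * q.2 - 1) := by
  refine fderiv_fst_of (diffO hM hq hf) ?_
  have h2 : HasDerivAt (fun t : ℝ => -(M * t)) (-M) q.1 :=
    ((hasDerivAt_id q.1).const_mul M).neg.congr_deriv (by ring)
  have h3 := (h1 (-(M * q.1)) (2 * q.2 - 1) (aO_neg hM hq)).comp q.1 h2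
  exact h3.congr_deriv (by ring)

theorem O_snd {f f1 : ℝ → ℝ → ℝ} (hf : ∀ p : ℝ × ℝ, p.1 < 0 →
      DifferentiableAt ℝ (fun p : ℝ × ℝ => f p.1 p.2) p)
    (h1 : ∀ s X, s < 0 → HasDerivAt (fun t => f s t) (f1 s X) X) :
    fderiv ℝ (fun q : ℝ × ℝ => f (-(M * q.1)) (2 * q.2 - 1)) q (0, 1) =
      2 * f1 (-(M * q.1)) (2 * q.2 - 1) := by
  refine fderiv_snd_of (diffO hM hq hf) ?_
  have h2 : HasDerivAt (fun t : ℝ => 2 * t - 1) 2 q.2 := by
    simpa using ((hasDerivAt_id q.2).const_mul 2).sub_const 1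
  have h3 := (h1 (-(M * q.1)) (2 * q.2 - 1) (aO_neg hM hq)).comp q.2 h2
  exact h3.congr_deriv (by ring)

end frontO

section frontP

variable {M : ℝ} (hM : 1 ≤ M) {q : ℝ × ℝ} (hq : 0 < q.1)
include hM hq

theorem aP_pos : 0 < (aP M q).1 := by
  change 0 < M * q.1
  positivity

theorem diffP {f : ℝ × ℝ → ℝ} (hf : ∀ p : ℝ × ℝ, 0 < p.1 → DifferentiableAt ℝ f p) :
    DifferentiableAt ℝ (fun q => f (aP M q)) q :=
  (hf _ (aP_pos hM hq)).comp q ((contDiff_aP M).differentiable (by simp) q)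

theorem P_fst {f f1 : ℝ → ℝ → ℝ} (hf : ∀ p : ℝ × ℝ, 0 < p.1 →
      DifferentiableAt ℝ (fun p : ℝ × ℝ => f p.1 p.2) p)
    (h1 : ∀ s X, 0 < s → HasDerivAt (fun t => f t X) (f1 s X) s) :
    fderiv ℝ (fun q : ℝ × ℝ => f (M * q.1) q.2) q (1, 0) = M * f1 (M * q.1) q.2 := by
  refine fderiv_fst_of (diffP hM hq hf) ?_
  have h2 : HasDerivAt (fun t : ℝ => M * t) M q.1 := by
    simpa using (hasDerivAt_id q.1).const_mul M
  have h3 := (h1 (M * q.1) q.2 (aP_pos hM hq)).comp q.1 h2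
  exact h3.congr_deriv (by ring)

theorem P_snd {f f1 : ℝ → ℝ → ℝ} (hf : ∀ p : ℝ × ℝ, 0 < p.1 →
      DifferentiableAt ℝ (fun p : ℝ × ℝ => f p.1 p.2) p)
    (h1 : ∀ s X, 0 < s → HasDerivAt (fun t => f s t) (f1 s X) X) :
    fderiv ℝ (fun q : ℝ × ℝ => f (M * q.1) q.2) q (0, 1) = f1 (M * q.1) q.2 := by
  refine fderiv_snd_of (diffP hM hq hf) ?_
  exact h1 (M * q.1) q.2 (aP_pos hM hq)

end frontP

theorem diff_uL (p : ℝ × ℝ) (hp : p.1 < 0) :
    DifferentiableAt ℝ (fun p : ℝ × ℝ => uL p.1 p.2) p := by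
  simp only [uL_eq]
  exact (diff_left (fun _ hζ => (hasDerivAt_EL hζ).differentiableAt) hp).2

theorem diff_uLs (p : ℝ × ℝ) (hp : p.1 < 0) :
    DifferentiableAt ℝ (fun p : ℝ × ℝ => uLs p.1 p.2) p :=
  (diff_left (fun _ hζ => (hasDerivAt_gL hζ).differentiableAt) hp).2

theorem diff_uLX (p : ℝ × ℝ) (hp : p.1 < 0) :
    DifferentiableAt ℝ (fun p : ℝ × ℝ => uLX p.1 p.2) p :=
  (diff_left (fun _ hζ => (hasDerivAt_gL hζ).differentiableAt) hp).1

theorem diff_utR (p : ℝ × ℝ) (hp : 0 < p.1) :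
    DifferentiableAt ℝ (fun p : ℝ × ℝ => utR p.1 p.2) p := by
  simp only [utR_eq]
  exact (diff_right (fun _ hζ => (hasDerivAt_ER hζ).differentiableAt) hp).1

theorem diff_utRs (p : ℝ × ℝ) (hp : 0 < p.1) :
    DifferentiableAt ℝ (fun p : ℝ × ℝ => utRs p.1 p.2) p :=
  (diff_right (fun _ hζ => (hasDerivAt_kR hζ).differentiableAt) hp).1

theorem diff_utRX (p : ℝ × ℝ) (hp : 0 < p.1) :
    DifferentiableAt ℝ (fun p : ℝ × ℝ => utRX p.1 p.2) p :=
  (diff_right (fun _ hζ => (hasDerivAt_kR hζ).differentiableAt) hp).2.neg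

theorem exp_neg_half_pi : Real.exp (-(π * (1 / 2))) ≤ 1 / 2 := by
  have h1 : Real.exp (-(π * (1 / 2))) ≤ Real.exp (-1) := by
    apply Real.exp_le_exp.2
    nlinarith [Real.pi_gt_three]
  have h2 : Real.exp (-1) ≤ 1 / 2 := by
    rw [Real.exp_neg, one_div]
    apply inv_anti₀ (by norm_num)
    have := Real.add_one_le_exp (1 : ℝ)
    linarith
  linarith

theorem norm_low_left {s : ℝ} (hs : s ≤ -(1 / 2)) (X : ℝ) :
    1 / 2 ≤ ‖1 - exp (π * (s + X * I))‖ := by
  have h1 : Real.exp (π * s) ≤ 1 / 2 := by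
    refine le_trans ?_ exp_neg_half_pi
    apply Real.exp_le_exp.2
    nlinarith [Real.pi_pos]
  have h2 := norm_sub_norm_le (1 : ℂ) (exp (π * (s + X * I)))
  rw [norm_one, norm_exp_pi] at h2
  linarith

theorem norm_low_right {s : ℝ} (hs : 1 / 2 ≤ s) (X : ℝ) :
    1 / 2 ≤ ‖1 - zR (s + X * I)‖ := by
  have h1 : Real.exp (-π * s) ≤ 1 / 2 := by
    refine le_trans ?_ exp_neg_half_pi
    apply Real.exp_le_exp.2
    nlinarith [Real.pi_pos]
  have h2 := norm_sub_norm_le (1 : ℂ) (zR (s + X * I))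
  rw [norm_one, norm_zR] at h2
  linarith

theorem abs_uLs_le {s : ℝ} (hs : s ≤ -(1 / 2)) (X : ℝ) :
    |uLs s X| ≤ π * Real.exp (π / 2 * s) := by
  have hp := Real.pi_pos
  have h1 := grad_uL s X
  have h2 := norm_low_left hs X
  have h3 : Real.exp (π * s) / ‖1 - exp (π * (s + X * I))‖ ≤ Real.exp (π * s) * 2 := by
    rw [div_le_iff₀ (by linarith)]
    have := Real.exp_pos (π * s)
    nlinarith
  have h4 : Real.exp (π * s) = Real.exp (π / 2 * s) ^ 2 := by
    rw [← Real.exp_nat_mul]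
    congr 1
    push_cast
    ring
  apply abs_le_of_sq_le_sq _ (by positivity)
  have h5 : uLs s X ^ 2 ≤ (π / 2) ^ 2 * (Real.exp (π * s) * 2) := by
    have := mul_le_mul_of_nonneg_left h3 (by positivity : (0 : ℝ) ≤ (π / 2) ^ 2)
    nlinarith [sq_nonneg (uLX s X)]
  rw [h4] at h5
  nlinarith [sq_nonneg (π * Real.exp (π / 2 * s))]

theorem abs_utRs_le {s : ℝ} (hs : 1 / 2 ≤ s) (X : ℝ) :
    |utRs s X| ≤ π * Real.exp (-π * s) := by
  have hp := Real.pi_pos
  have h1 := grad_utR_le (s := s) (X := X) (Or.inl (by linarith))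
  have h2 := norm_low_right hs X
  change _ ≤ (π / 2) ^ 2 * (Real.exp (-(2 * π * s)) / ‖1 - zR (s + X * I)‖) at h1
  have h3 : Real.exp (-(2 * π * s)) / ‖1 - zR (s + X * I)‖ ≤ Real.exp (-(2 * π * s)) * 2 := by
    rw [div_le_iff₀ (by linarith)]
    have := Real.exp_pos (-(2 * π * s))
    nlinarith
  have h4 : Real.exp (-(2 * π * s)) = Real.exp (-π * s) ^ 2 := by
    rw [← Real.exp_nat_mul]
    congr 1
    push_cast
    ring
  apply abs_le_of_sq_le_sq _ (by positivity)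
  have h5 : utRs s X ^ 2 ≤ (π / 2) ^ 2 * (Real.exp (-(2 * π * s)) * 2) := by
    have := mul_le_mul_of_nonneg_left h3 (by positivity : (0 : ℝ) ≤ (π / 2) ^ 2)
    nlinarith [sq_nonneg (utRX s X)]
  rw [h4] at h5
  nlinarith [sq_nonneg (π * Real.exp (-π * s))]

attribute [local irreducible] uL uLs uLX uLss uLsX utR utRs utRX utRss utRsX

theorem smO (M : ℝ) (hM : 1 ≤ M) :
    ContDiffOn ℝ ∞ (fun q : ℝ × ℝ => uL (-(M * q.1)) (2 * q.2 - 1)) {q | 0 < q.1} :=
  ContDiffOn.comp (g := fun p : ℝ × ℝ => uL p.1 p.2) (f := fun q : ℝ × ℝ => aO M q)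
    contDiffOn_uL (contDiff_aO M).contDiffOn (fun _ hq => aO_neg hM hq)

theorem smP (M : ℝ) (hM : 1 ≤ M) :
    ContDiffOn ℝ ∞ (fun q : ℝ × ℝ => utR (M * q.1) q.2) {q | 0 < q.1} :=
  ContDiffOn.comp (g := fun p : ℝ × ℝ => utR p.1 p.2) (f := fun q : ℝ × ℝ => aP M q)
    contDiffOn_utR (contDiff_aP M).contDiffOn (fun _ hq => aP_pos hM hq)

theorem frontO (M : ℝ) (hM : 1 ≤ M) : FrontHyp (π + 2) (π / (8 * √2)) (π / 2 * M) (M ^ 2 / 4)
    (fun q => uL (-(M * q.1)) (2 * q.2 - 1)) where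
  sm := smO M hM
  pde := by
    intro q hq
    have e1 : (fun q : ℝ × ℝ => fderiv ℝ (fun q : ℝ × ℝ => uL (-(M * q.1)) (2 * q.2 - 1)) q (1, 0))
        =ᶠ[𝓝 q] fun q => -M * uLs (-(M * q.1)) (2 * q.2 - 1) := by
      filter_upwards [(isOpen_lt continuous_const continuous_fst).mem_nhds hq] with r hr
      exact O_fst hM hr diff_uL (fun s X hs => hasDerivAt_uL_s (Or.inl hs))
    have e2 : (fun q : ℝ × ℝ => fderiv ℝ (fun q : ℝ × ℝ => uL (-(M * q.1)) (2 * q.2 - 1)) q (0, 1))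
        =ᶠ[𝓝 q] fun q => 2 * uLX (-(M * q.1)) (2 * q.2 - 1) := by
      filter_upwards [(isOpen_lt continuous_const continuous_fst).mem_nhds hq] with r hr
      exact O_snd hM hr diff_uL (fun s X hs => hasDerivAt_uL_X (Or.inl hs))
    rw [e1.fderiv_eq, e2.fderiv_eq]
    have d1 : DifferentiableAt ℝ (fun q : ℝ × ℝ => uLs (-(M * q.1)) (2 * q.2 - 1)) q :=
      diffO hM hq diff_uLs
    have d2 : DifferentiableAt ℝ (fun q : ℝ × ℝ => uLX (-(M * q.1)) (2 * q.2 - 1)) q :=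
      diffO hM hq diff_uLX
    rw [fderiv_const_mul d1, fderiv_const_mul d2]
    have f1 := O_fst hM hq diff_uLs (fun s X hs => hasDerivAt_uLs_s (Or.inl hs))
    have f2 := O_snd hM hq (f1 := fun s X => -uLss s X) diff_uLX
      (fun s X hs => hasDerivAt_uLX_X (Or.inl hs))
    simp only [smul_apply, smul_eq_mul]
    rw [f1, f2]
    ring
  wall := by
    intro σ hσ
    have f1 := O_snd hM (q := (σ, 0)) hσ diff_uL (fun s X hs => hasDerivAt_uL_X (Or.inl hs))
    have f2 := O_snd hM (q := (σ, 1)) hσ diff_uL (fun s X hs => hasDerivAt_uL_X (Or.inl hs))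
    rw [f1, f2]
    constructor
    · change 2 * uLX (-(M * σ)) (2 * 0 - 1) = 0
      rw [show (2 * 0 - 1 : ℝ) = -1 by norm_num, uLX_neg_one, mul_zero]
    · change 2 * uLX (-(M * σ)) (2 * 1 - 1) = 0
      rw [show (2 * 1 - 1 : ℝ) = 1 by norm_num, uLX_one, mul_zero]
  mean := by
    intro σ hσ
    have h0 : 0 < M * σ := by positivity
    exact mean_uL (s := -(M * σ)) (by linarith)
  up := by
    intro σ x h1 h2 h3 h4
    have hσ : 0 < σ := by linarith
    have hs : -(M * σ) ≤ -(1 / 2) := by nlinarith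
    have hexp : π / 2 * -(M * σ) = -(π / 2 * M) * σ := by ring
    have hp := Real.pi_pos
    constructor
    · refine (abs_uL_le' (by linarith) _).trans ?_
      rw [hexp]
      have := Real.exp_pos (-(π / 2 * M) * σ)
      nlinarith
    · rw [O_fst hM (q := (σ, x)) hσ diff_uL (fun s X hs => hasDerivAt_uL_s (Or.inl hs))]
      rw [abs_mul, abs_neg, abs_of_pos (by linarith : 0 < M)]
      have h5 := abs_uLs_le hs (2 * x - 1)
      rw [hexp] at h5
      have h6 := mul_le_mul_of_nonneg_left h5 (by linarith : (0 : ℝ) ≤ M)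
      refine h6.trans ?_
      have := Real.exp_pos (-(π / 2 * M) * σ)
      have h8 : 0 ≤ M * π ^ 2 := by positivity
      have h7 : M * π ≤ (π + 2) * (π / 2 * M) := by nlinarith
      nlinarith
  low := by
    intro σ x h1 h2 h3 h4
    have hs : -(M * σ) < 0 := by
      have : 0 < M * σ := by positivity
      linarith
    rw [O_snd hM (q := (σ, x)) h1 diff_uL (fun s X hs => hasDerivAt_uL_X (Or.inl hs))]
    have h5 := uLX_low (s := -(M * σ)) (X := 2 * x - 1) hs (by rw [abs_le]; constructor <;> linarith)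
    have hexp : π / 2 * -(M * σ) = -(π / 2 * M) * σ := by ring
    have hcos : Real.cos (π / 2 * (2 * x - 1)) = Real.sin (π * x) := by
      rw [show π / 2 * (2 * x - 1) = π * x - π / 2 by ring, Real.cos_sub_pi_div_two]
    rw [hexp, hcos] at h5
    have hp := Real.pi_pos
    have hsin : 0 ≤ Real.sin (π * x) := by
      apply Real.sin_nonneg_of_nonneg_of_le_pi
      · positivity
      · nlinarith
    refine le_trans ?_ (le_abs_self _)
    refine le_trans ?_ (mul_le_mul_of_nonneg_left h5 (by norm_num : (0 : ℝ) ≤ 2))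
    have h6 : π / (8 * √2) ≤ 2 * (π / (4 * √2)) := by
      have h2 : 0 < √2 := by positivity
      rw [← mul_div_assoc, div_le_div_iff₀ (by positivity) (by positivity)]
      nlinarith [mul_pos hp h2]
    have := mul_le_mul_of_nonneg_right h6
      (mul_nonneg (Real.exp_pos (-(π / 2 * M) * σ)).le hsin)
    calc _ = π / (8 * √2) * (Real.exp (-(π / 2 * M) * σ) * Real.sin (π * x)) := by ring
      _ ≤ _ := this
      _ = _ := by ring

theorem frontP (M : ℝ) (hM : 1 ≤ M) : FrontHyp (π + 2) (π / (8 * √2)) (π * M) (M ^ 2)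
    (fun q => utR (M * q.1) q.2) where
  sm := smP M hM
  pde := by
    intro q hq
    have e1 : (fun q : ℝ × ℝ => fderiv ℝ (fun q : ℝ × ℝ => utR (M * q.1) q.2) q (1, 0))
        =ᶠ[𝓝 q] fun q => M * utRs (M * q.1) q.2 := by
      filter_upwards [(isOpen_lt continuous_const continuous_fst).mem_nhds hq] with r hr
      exact P_fst hM hr diff_utR (fun s X hs => hasDerivAt_utR_s (Or.inl hs))
    have e2 : (fun q : ℝ × ℝ => fderiv ℝ (fun q : ℝ × ℝ => utR (M * q.1) q.2) q (0, 1))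
        =ᶠ[𝓝 q] fun q => utRX (M * q.1) q.2 := by
      filter_upwards [(isOpen_lt continuous_const continuous_fst).mem_nhds hq] with r hr
      exact P_snd hM hr diff_utR (fun s X hs => hasDerivAt_utR_X (Or.inl hs))
    rw [e1.fderiv_eq, e2.fderiv_eq]
    have d1 : DifferentiableAt ℝ (fun q : ℝ × ℝ => utRs (M * q.1) q.2) q :=
      diffP hM hq diff_utRs
    rw [fderiv_const_mul d1]
    have f1 := P_fst hM hq diff_utRs (fun s X hs => hasDerivAt_utRs_s (Or.inl hs))
    have f2 := P_snd hM hq (f1 := fun s X => -utRss s X) diff_utRX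
      (fun s X hs => hasDerivAt_utRX_X (Or.inl hs))
    simp only [smul_apply, smul_eq_mul]
    rw [f1, f2]
    ring
  wall := by
    intro σ hσ
    have f1 := P_snd hM (q := (σ, 0)) hσ diff_utR (fun s X hs => hasDerivAt_utR_X (Or.inl hs))
    have f2 := P_snd hM (q := (σ, 1)) hσ diff_utR (fun s X hs => hasDerivAt_utR_X (Or.inl hs))
    rw [f1, f2]
    constructor
    · exact utRX_zero (by change 0 < M * σ; positivity)
    · exact utRX_one _
  mean := by
    intro σ hσ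
    have h0 : 0 < M * σ := by positivity
    exact mean_utR (s := M * σ) h0
  up := by
    intro σ x h1 h2 h3 h4
    have hσ : 0 < σ := by linarith
    have hs : 1 / 2 ≤ M * σ := by nlinarith
    have hexp : -π * (M * σ) = -(π * M) * σ := by ring
    have hp := Real.pi_pos
    constructor
    · refine (abs_utR_le (by linarith) _).trans ?_
      rw [hexp]
      have := Real.exp_pos (-(π * M) * σ)
      nlinarith
    · rw [P_fst hM (q := (σ, x)) hσ diff_utR (fun s X hs => hasDerivAt_utR_s (Or.inl hs))]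
      rw [abs_mul, abs_of_pos (by linarith : 0 < M)]
      have h5 := abs_utRs_le hs x
      rw [hexp] at h5
      have h6 := mul_le_mul_of_nonneg_left h5 (by linarith : (0 : ℝ) ≤ M)
      refine h6.trans ?_
      have := Real.exp_pos (-(π * M) * σ)
      have h8 : 0 ≤ M * π ^ 2 := by positivity
      have h9 : 0 ≤ M * π := by positivity
      have h7 : M * π ≤ (π + 2) * (π * M) := by nlinarith
      nlinarith
  low := by
    intro σ x h1 h2 h3 h4
    have hs : 0 < M * σ := by positivity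
    rw [P_snd hM (q := (σ, x)) h1 diff_utR (fun s X hs => hasDerivAt_utR_X (Or.inl hs))]
    have h5 := utRX_low (s := M * σ) (X := x) hs h3 h4
    have hexp : -π * (M * σ) = -(π * M) * σ := by ring
    rw [hexp] at h5
    exact h5.trans (le_abs_self _)

/-! ### Tip -/

theorem tipL (s X : ℝ) (hs : s < 0) (hX : |X| ≤ 1) :
    (uL s X) ^ 2 ≤ 4 * √(s ^ 2 + X ^ 2) ∧
    ((uLs s X) ^ 2 + (uLX s X) ^ 2) * √(s ^ 2 + X ^ 2) ≤ 4 := by
  have hp := Real.pi_pos
  have hp4 := Real.pi_lt_four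
  set d := √(s ^ 2 + X ^ 2) with hd
  have hd0 : 0 < d := by
    apply Real.sqrt_pos.2
    nlinarith [sq_nonneg X, sq_pos_of_neg hs]
  set n := ‖1 - exp (π * (s + X * I))‖ with hn
  have h1 := tip_low_L hs.le hX
  have h2 := tip_up_L (X := X) hs.le
  rw [← hd, ← hn] at h1 h2
  have hE : Real.exp (π * s) ≤ 1 := by
    rw [Real.exp_le_one_iff]; nlinarith
  have hE0 := Real.exp_pos (π * s)
  have hn0 : 0 < n := lt_of_lt_of_le (by positivity) h1
  have hsq : Real.exp (π / 2 * s) ^ 2 = Real.exp (π * s) := by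
    rw [← Real.exp_nat_mul]
    congr 1
    push_cast
    ring
  constructor
  · have h3 := abs_uL_le s X
    rw [← hn] at h3
    have h4 : uL s X ^ 2 ≤ (Real.exp (π / 2 * s) * √n) ^ 2 := by
      rw [← sq_abs]
      exact pow_le_pow_left₀ (abs_nonneg _) h3 2
    rw [mul_pow, hsq, Real.sq_sqrt hn0.le] at h4
    nlinarith
  · rw [grad_uL, ← hn]
    have h5 : Real.exp (π * s) / n * d ≤ 1 / 2 := by
      rw [div_mul_eq_mul_div, div_le_iff₀ hn0]
      linarith
    have h6 : (π / 2) ^ 2 ≤ 4 := by nlinarith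
    have h7 : 0 ≤ Real.exp (π * s) / n * d := by positivity
    calc (π / 2) ^ 2 * (Real.exp (π * s) / n) * d = (π / 2) ^ 2 * (Real.exp (π * s) / n * d) := by ring
      _ ≤ 4 * (1 / 2) := mul_le_mul h6 h5 h7 (by norm_num)
      _ ≤ 4 := by norm_num

theorem tipR (S s X : ℝ) (hs : 0 < s) (hS : s ≤ S) (hX : |X| ≤ 1) :
    (π / 2 * s + Real.log 2 + utR s X) ^ 2 ≤ (4 * Real.exp (π * S)) * √(s ^ 2 + X ^ 2) ∧
    ((π / 2 + utRs s X) ^ 2 + (utRX s X) ^ 2) * √(s ^ 2 + X ^ 2) ≤ 4 * Real.exp (π * S) := by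
  have hp := Real.pi_pos
  have hp4 := Real.pi_lt_four
  set d := √(s ^ 2 + X ^ 2) with hd
  have hd0 : 0 < d := by
    apply Real.sqrt_pos.2
    nlinarith [sq_nonneg X, sq_pos_of_pos hs]
  set n := ‖1 - zR (s + X * I)‖ with hn
  have h1 := tip_low_R hs.le hX
  have h2 := tip_up_R (X := X) hs.le
  rw [← hd, ← hn] at h1 h2
  have hE0 := Real.exp_pos (-(π * s))
  have hn0 : 0 < n := lt_of_lt_of_le (by positivity) h1
  have hsq : Real.exp (π / 2 * s) ^ 2 = Real.exp (π * s) := by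
    rw [← Real.exp_nat_mul]
    congr 1
    push_cast
    ring
  have hES : Real.exp (π * s) ≤ Real.exp (π * S) := by
    apply Real.exp_le_exp.2
    nlinarith
  have hEE : Real.exp (π * s) * Real.exp (-(π * s)) = 1 := by
    rw [← Real.exp_add]; simp
  constructor
  · have h3 := abs_uR_le s X
    change |π / 2 * s + Real.log 2 + utR s X| ≤ Real.exp (π / 2 * s) * √n at h3
    have h4 : (π / 2 * s + Real.log 2 + utR s X) ^ 2 ≤ (Real.exp (π / 2 * s) * √n) ^ 2 := by
      rw [← sq_abs]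
      exact pow_le_pow_left₀ (abs_nonneg _) h3 2
    rw [mul_pow, hsq, Real.sq_sqrt hn0.le] at h4
    refine h4.trans ?_
    have h5 : n ≤ 4 * d := by nlinarith
    calc Real.exp (π * s) * n ≤ Real.exp (π * S) * (4 * d) :=
          mul_le_mul hES h5 hn0.le (Real.exp_pos _).le
      _ = _ := by ring
  · rw [grad_uR_eq s X (Or.inl hs), ← hn]
    have h5 : d / n ≤ Real.exp (π * S) / 2 := by
      rw [div_le_div_iff₀ hn0 (by norm_num)]
      have h6 : d * 2 ≤ Real.exp (π * s) * n := by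
        have := mul_le_mul_of_nonneg_left h1 (Real.exp_pos (π * s)).le
        nlinarith
      nlinarith
    have h6 : (π / 2) ^ 2 ≤ 4 := by nlinarith
    have h7 : 0 ≤ d / n := by positivity
    calc (π / 2) ^ 2 / n * d = (π / 2) ^ 2 * (d / n) := by ring
      _ ≤ 4 * (Real.exp (π * S) / 2) := mul_le_mul h6 h5 h7 (by norm_num)
      _ ≤ 4 * Real.exp (π * S) := by have := Real.exp_pos (π * S); linarith

/-! ### The core data -/

/-- The core. -/
noncomputable def coreData : CoreData where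
  uL := uL
  uLs := uLs
  uLX := uLX
  uR := utR
  uRs := utRs
  uRX := utRX
  v0 := uL 0
  g0 := uLs 0
  C0 := π + 2
  c0 := π / (8 * √2)
  c0pos := by have := Real.pi_pos; positivity
  dLs := fun s X hs => hasDerivAt_uL_s (Or.inl hs)
  dLX := fun s X hs => hasDerivAt_uL_X (Or.inl hs)
  dRs := fun s X hs => hasDerivAt_utR_s (Or.inl hs)
  dRX := fun s X hs => hasDerivAt_utR_X (Or.inl hs)
  frontO := frontO
  frontP := frontP
  oddL := fun s X hs => ⟨uL_neg hs.le X, uLs_neg hs X⟩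
  trL := by
    intro X h0 h1
    have hX : (0 : ℝ) < 0 ∨ (0 < X ∧ X < 2) := Or.inr ⟨h0, by linarith⟩
    constructor
    · exact ((hasDerivAt_uL_s (s := 0) (Or.inr ⟨h0, by linarith⟩)).continuousAt.tendsto).mono_left
        nhdsWithin_le_nhds
    · exact ((hasDerivAt_uLs_s (s := 0) (Or.inr ⟨h0, by linarith⟩)).continuousAt.tendsto).mono_left
        nhdsWithin_le_nhds
  trR := by
    intro X h0 h1
    constructor
    · have h2 : (fun s => π / 2 * s + Real.log 2 + utR s X) = fun s => uL s X := by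
        funext s
        exact (uL_eq_uR h0 h1).symm
      rw [h2]
      exact ((hasDerivAt_uL_s (s := 0) (Or.inr ⟨h0, by linarith⟩)).continuousAt.tendsto).mono_left
        nhdsWithin_le_nhds
    · have h2 : (fun s => π / 2 + utRs s X) = fun s => uLs s X := by
        funext s
        exact (uLs_eq h0 h1).symm
      rw [h2]
      exact ((hasDerivAt_uLs_s (s := 0) (Or.inr ⟨h0, by linarith⟩)).continuousAt.tendsto).mono_left
        nhdsWithin_le_nhds
  tipL := by
    intro S hS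
    exact ⟨4, fun s X _ hs hX => tipL s X hs hX⟩
  tipR := by
    intro S hS
    exact ⟨4 * Real.exp (π * S), fun s X hs hsS hX => tipR S s X hs hsS hX⟩

end Crest.Agent.R083.Core

namespace Crest.Agent.R083

theorem core_exists : Nonempty CoreData := ⟨Core.coreData⟩

end Crest.Agent.R083
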