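import Mathlib

/-!
Row 83 (S0111), task TM-b: the harmonic core function near the tip of the slit.

Two explicit real functions of `(s, X)`:
* `uL s X = -log ‖cs (1 - exp (π ζ)) + I exp (π ζ / 2)‖`, `ζ = s + i X` (used for `s ≤ 0`);
* `utR s X = log ‖(1 + cs (1 - exp (-π ζ))) / 2‖` (used for `0 ≤ s`), and
  `uR s X = (π/2) s + log 2 + utR s X`.
-/

set_option autoImplicit false

namespace Crest.Agent.R083.Core

open Complex Set Filter Topology
open scoped Real ContDiff

/-! ### Principal square root -/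

/-- principal square root -/
noncomputable def cs (z : ℂ) : ℂ := z ^ (2⁻¹ : ℂ)

theorem cs_sq (z : ℂ) : cs z ^ 2 = z := Complex.cpow_ofNat_inv_pow z 2

theorem cs_mul_self (z : ℂ) : cs z * cs z = z := by rw [← sq, cs_sq]

theorem cs_re_nonneg (z : ℂ) : 0 ≤ (cs z).re := by
  unfold cs; rw [cpow_inv_two_re]; exact Real.sqrt_nonneg _

theorem cs_re_pos {z : ℂ} (hz : z ∈ slitPlane) : 0 < (cs z).re := by
  unfold cs
  rw [cpow_inv_two_re]
  apply Real.sqrt_pos.2
  rcases mem_slitPlane_iff.1 hz with h | h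
  · have := norm_nonneg z
    linarith
  · have h1 : |z.re| < ‖z‖ := Complex.abs_re_lt_norm.2 h
    have h2 := neg_abs_le z.re
    linarith

theorem norm_cs_sq (z : ℂ) : ‖cs z‖ ^ 2 = ‖z‖ := by rw [← norm_pow, cs_sq]

theorem norm_cs (z : ℂ) : ‖cs z‖ = √‖z‖ := by
  rw [← norm_cs_sq z, Real.sqrt_sq (norm_nonneg _)]

theorem cs_ne_zero {z : ℂ} (hz : z ≠ 0) : cs z ≠ 0 := by
  intro h
  apply hz
  rw [← cs_sq z, h]
  simp

theorem hasDerivAt_cs {z : ℂ} (hz : z ∈ slitPlane) : HasDerivAt cs (1 / (2 * cs z)) z := by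
  have h0 : z ≠ 0 := slitPlane_ne_zero hz
  have h := (hasDerivAt_id z).cpow_const (c := 2⁻¹) hz
  have e : (2⁻¹ : ℂ) * id z ^ ((2⁻¹ : ℂ) - 1) * 1 = 1 / (2 * cs z) := by
    have h1 : z ^ ((2⁻¹ : ℂ) - 1) = cs z / z := by
      rw [Complex.cpow_sub _ _ h0, Complex.cpow_one, cs]
    simp only [id, mul_one]
    rw [h1]
    have h2 := cs_ne_zero h0
    have h3 : z = cs z * cs z := (cs_mul_self z).symm
    nth_rw 2 [h3]
    field_simp
  rw [e] at h
  exact h

theorem continuousAt_cs {z : ℂ} (hz : 0 ≤ z.re ∨ z.im ≠ 0) : ContinuousAt cs z :=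
  Complex.continuousAt_cpow_const_of_re_pos hz (by norm_num)

/-! ### real partial derivatives of real and imaginary parts of holomorphic functions -/

section partials

variable {f : ℂ → ℂ} {f' : ℂ} {s X : ℝ}

theorem hasDerivAt_fst (h : HasDerivAt f f' (s + X * I)) :
    HasDerivAt (fun t : ℝ => f (t + X * I)) f' s := by
  have h1 : HasDerivAt (fun t : ℝ => (t : ℂ) + X * I) 1 s := by
    simpa using (Complex.ofRealCLM.hasDerivAt (x := s)).add_const (X * I)
  exact (h.scomp s h1).congr_deriv (by simp)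

theorem hasDerivAt_snd (h : HasDerivAt f f' (s + X * I)) :
    HasDerivAt (fun t : ℝ => f (s + t * I)) (I * f') X := by
  have h1 : HasDerivAt (fun t : ℝ => (s : ℂ) + t * I) I X := by
    simpa using ((Complex.ofRealCLM.hasDerivAt (x := X)).mul_const I).const_add (s : ℂ)
  exact (h.scomp X h1).congr_deriv (by simp)

theorem re_fst (h : HasDerivAt f f' (s + X * I)) :
    HasDerivAt (fun t : ℝ => (f (t + X * I)).re) f'.re s :=
  (reCLM.hasFDerivAt.comp_hasDerivAt s (hasDerivAt_fst h))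

theorem im_fst (h : HasDerivAt f f' (s + X * I)) :
    HasDerivAt (fun t : ℝ => (f (t + X * I)).im) f'.im s :=
  (imCLM.hasFDerivAt.comp_hasDerivAt s (hasDerivAt_fst h))

theorem re_snd (h : HasDerivAt f f' (s + X * I)) :
    HasDerivAt (fun t : ℝ => (f (s + t * I)).re) (-f'.im) X := by
  exact (reCLM.hasFDerivAt.comp_hasDerivAt X (hasDerivAt_snd h)).congr_deriv (by simp)

theorem im_snd (h : HasDerivAt f f' (s + X * I)) :
    HasDerivAt (fun t : ℝ => (f (s + t * I)).im) f'.re X := by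
  exact (imCLM.hasFDerivAt.comp_hasDerivAt X (hasDerivAt_snd h)).congr_deriv (by simp)

end partials

/-! ### The algebra of `A = r + i q` with `r ^ 2 = 1 - q ^ 2` -/

theorem AB_one {r q : ℂ} (h : r ^ 2 = 1 - q ^ 2) : (r + I * q) * (r - I * q) = 1 := by
  have : (r + I * q) * (r - I * q) = r ^ 2 - I ^ 2 * q ^ 2 := by ring
  rw [this, h, I_sq]; ring

theorem A_ne {r q : ℂ} (h : r ^ 2 = 1 - q ^ 2) : r + I * q ≠ 0 := by
  intro h0
  have := AB_one h
  rw [h0, zero_mul] at this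
  exact zero_ne_one this

theorem A_re_pos {r q : ℂ} (h : r ^ 2 = 1 - q ^ 2) (hr : 0 < r.re) : 0 < (r + I * q).re := by
  have h1 := AB_one h
  have hA := A_ne h
  have h2 : r - I * q = (r + I * q)⁻¹ := eq_inv_of_mul_eq_one_right h1
  have h3 : (r + I * q).re + (r - I * q).re = 2 * r.re := by simp; ring
  rw [h2, Complex.inv_re] at h3
  have h4 : 0 < normSq (r + I * q) := normSq_pos.2 hA
  by_contra hneg
  push Not at hneg
  have h5 : (r + I * q).re / normSq (r + I * q) ≤ 0 := div_nonpos_of_nonpos_of_nonneg hneg h4.le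
  linarith

/-! ### The left function (`s < 0`) -/

/-- `r(ζ) = √(1 - q²)` -/
noncomputable def rL (ζ : ℂ) : ℂ := cs (1 - exp (π * ζ))

/-- `q(ζ) = exp (π ζ / 2)` -/
noncomputable def qL (ζ : ℂ) : ℂ := exp (π / 2 * ζ)

theorem qL_sq (ζ : ℂ) : qL ζ ^ 2 = exp (π * ζ) := by
  unfold qL
  rw [← Complex.exp_nat_mul]
  congr 1
  push_cast
  ring

theorem rL_sq (ζ : ℂ) : rL ζ ^ 2 = 1 - qL ζ ^ 2 := by
  rw [qL_sq]; exact cs_sq _

/-- `A = r + i q` -/
noncomputable def AL (ζ : ℂ) : ℂ := rL ζ + I * qL ζ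

/-- domain of holomorphy -/
def DL : Set ℂ := {ζ | 1 - exp (π * ζ) ∈ slitPlane}

/-- `g = (π/2) q / r` -/
noncomputable def gL (ζ : ℂ) : ℂ := π / 2 * (qL ζ / rL ζ)

/-- `g' = (π/2)² q / r³` -/
noncomputable def gL' (ζ : ℂ) : ℂ := (π / 2) ^ 2 * (qL ζ / rL ζ ^ 3)

/-- `arcsin q` -/
noncomputable def EL (ζ : ℂ) : ℂ := -I * log (AL ζ)

theorem hasDerivAt_qL (ζ : ℂ) : HasDerivAt qL (π / 2 * qL ζ) ζ := by
  have h : HasDerivAt (fun z : ℂ => (π / 2 : ℂ) * z) (π / 2) ζ := by
    simpa using (hasDerivAt_id ζ).const_mul (π / 2 : ℂ)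
  exact h.cexp.congr_deriv (by unfold qL; ring)

theorem rL_ne {ζ : ℂ} (h : ζ ∈ DL) : rL ζ ≠ 0 := cs_ne_zero (slitPlane_ne_zero h)

theorem rL_re_pos {ζ : ℂ} (h : ζ ∈ DL) : 0 < (rL ζ).re := cs_re_pos h

theorem hasDerivAt_rL {ζ : ℂ} (h : ζ ∈ DL) : HasDerivAt rL (-(π / 2) * qL ζ ^ 2 / rL ζ) ζ := by
  have h1 : HasDerivAt (fun z : ℂ => 1 - exp (π * z)) (-(exp (π * ζ) * π)) ζ := by
    have h2 : HasDerivAt (fun z : ℂ => (π : ℂ) * z) π ζ := by
      simpa using (hasDerivAt_id ζ).const_mul (π : ℂ)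
    simpa using (h2.cexp).const_sub 1
  have h3 := (hasDerivAt_cs (z := 1 - exp (π * ζ)) h).comp ζ h1
  have hr := rL_ne h
  refine h3.congr_deriv ?_
  rw [qL_sq]
  unfold rL at *
  field_simp

theorem hasDerivAt_AL {ζ : ℂ} (h : ζ ∈ DL) : HasDerivAt AL (I * gL ζ * AL ζ) ζ := by
  have h1 := (hasDerivAt_rL h).add ((hasDerivAt_qL ζ).const_mul I)
  have hr := rL_ne h
  refine h1.congr_deriv ?_
  unfold gL AL
  field_simp
  linear_combination -(qL ζ) * I_sq * qL ζ

theorem hasDerivAt_EL {ζ : ℂ} (h : ζ ∈ DL) : HasDerivAt EL (gL ζ) ζ := by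
  have hA : AL ζ ∈ slitPlane := mem_slitPlane_iff.2 (Or.inl (A_re_pos (rL_sq ζ) (rL_re_pos h)))
  have h1 := ((hasDerivAt_AL h).clog hA).const_mul (-I)
  have h0 : AL ζ ≠ 0 := slitPlane_ne_zero hA
  refine h1.congr_deriv ?_
  field_simp
  linear_combination -(gL ζ) * I_sq

theorem hasDerivAt_gL {ζ : ℂ} (h : ζ ∈ DL) : HasDerivAt gL (gL' ζ) ζ := by
  have hr := rL_ne h
  have h1 := (((hasDerivAt_qL ζ).div (hasDerivAt_rL h) hr)).const_mul (π / 2 : ℂ)
  refine h1.congr_deriv ?_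
  unfold gL'
  have h2 := rL_sq ζ
  field_simp
  linear_combination (qL ζ) * h2

/-! ### The right function (`s > 0`) -/

/-- `z(ζ) = exp (-π ζ)` -/
noncomputable def zR (ζ : ℂ) : ℂ := exp (-π * ζ)

/-- `ρ(ζ) = √(1 - z)` -/
noncomputable def rR (ζ : ℂ) : ℂ := cs (1 - zR ζ)

theorem rR_sq (ζ : ℂ) : rR ζ ^ 2 = 1 - zR ζ := cs_sq _

/-- domain of holomorphy -/
def DR : Set ℂ := {ζ | 1 - zR ζ ∈ slitPlane}

/-- `log ((1 + ρ) / 2)` -/
noncomputable def ER (ζ : ℂ) : ℂ := log ((1 + rR ζ) / 2)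

/-- derivative of `ER` -/
noncomputable def kR (ζ : ℂ) : ℂ := π / 2 * (1 / rR ζ - 1)

/-- second derivative of `ER` -/
noncomputable def kR' (ζ : ℂ) : ℂ := -(π / 2) ^ 2 * (zR ζ / rR ζ ^ 3)

theorem rR_ne {ζ : ℂ} (h : ζ ∈ DR) : rR ζ ≠ 0 := cs_ne_zero (slitPlane_ne_zero h)

theorem rR_re_pos {ζ : ℂ} (h : ζ ∈ DR) : 0 < (rR ζ).re := cs_re_pos h

theorem hasDerivAt_zR (ζ : ℂ) : HasDerivAt zR (-π * zR ζ) ζ := by
  have h2 : HasDerivAt (fun z : ℂ => (-π : ℂ) * z) (-π) ζ := by
    simpa using (hasDerivAt_id ζ).const_mul (-π : ℂ)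
  exact h2.cexp.congr_deriv (by unfold zR; ring)

theorem hasDerivAt_rR {ζ : ℂ} (h : ζ ∈ DR) : HasDerivAt rR (π / 2 * zR ζ / rR ζ) ζ := by
  have h1 : HasDerivAt (fun z : ℂ => 1 - zR z) (π * zR ζ) ζ :=
    ((hasDerivAt_zR ζ).const_sub 1).congr_deriv (by ring)
  have h3 := (hasDerivAt_cs (z := 1 - zR ζ) h).comp ζ h1
  have hr := rR_ne h
  refine h3.congr_deriv ?_
  unfold rR at *
  field_simp

theorem one_add_rR_re (ζ : ℂ) : 1 ≤ (1 + rR ζ).re := by
  have : 0 ≤ (rR ζ).re := cs_re_nonneg _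
  simp only [add_re, one_re]
  linarith

theorem one_add_rR_ne (ζ : ℂ) : 1 + rR ζ ≠ 0 := by
  intro h
  have := one_add_rR_re ζ
  rw [h] at this
  simp at this
  linarith

theorem hasDerivAt_ER {ζ : ℂ} (h : ζ ∈ DR) : HasDerivAt ER (kR ζ) ζ := by
  have h0 := one_add_rR_ne ζ
  have hr := rR_ne h
  have hA : (1 + rR ζ) / 2 ∈ slitPlane := by
    refine mem_slitPlane_iff.2 (Or.inl ?_)
    have := one_add_rR_re ζ
    have e : ((1 + rR ζ) / 2).re = (1 + rR ζ).re / 2 := by
      have : (1 + rR ζ) / 2 = ((1 / 2 : ℝ) : ℂ) * (1 + rR ζ) := by push_cast; ring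
      rw [this, re_ofReal_mul]; ring
    rw [e]; linarith
  have h1 := (((hasDerivAt_rR h).const_add 1).div_const 2).clog hA
  refine h1.congr_deriv ?_
  unfold kR
  have h2 := rR_sq ζ
  field_simp
  linear_combination h2

theorem hasDerivAt_kR {ζ : ℂ} (h : ζ ∈ DR) : HasDerivAt kR (kR' ζ) ζ := by
  have hr := rR_ne h
  have h1 : HasDerivAt (fun z => π / 2 * ((rR z)⁻¹ - 1)) (π / 2 * (-(π / 2 * zR ζ / rR ζ) / rR ζ ^ 2)) ζ :=
    (((hasDerivAt_rR h).inv hr).sub_const 1).const_mul (π / 2 : ℂ)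
  have h2 : kR = fun z => π / 2 * ((rR z)⁻¹ - 1) := by
    funext z; unfold kR; rw [one_div]
  rw [h2]
  refine h1.congr_deriv ?_
  unfold kR'
  field_simp

/-! ### domains -/

theorem one_sub_mem_slit {w : ℂ} (h : w.re < 1 ∨ w.im ≠ 0) : 1 - w ∈ slitPlane := by
  rw [mem_slitPlane_iff]
  rcases h with h | h
  · left; simpa using h
  · right; simpa using h

theorem exp_pi_re (s X : ℝ) : (exp (π * (s + X * I))).re = Real.exp (π * s) * Real.cos (π * X) := by
  rw [Complex.exp_re]; simp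

theorem exp_pi_im (s X : ℝ) : (exp (π * (s + X * I))).im = Real.exp (π * s) * Real.sin (π * X) := by
  rw [Complex.exp_im]; simp

theorem norm_exp_pi (s X : ℝ) : ‖exp (π * (s + X * I))‖ = Real.exp (π * s) := by
  rw [Complex.norm_exp]; simp

theorem slit_cond {e X : ℝ} (he : 0 < e) (h : e < 1 ∨ (0 < X ∧ X < 2)) :
    e * Real.cos (π * X) < 1 ∨ e * Real.sin (π * X) ≠ 0 := by
  rcases h with h | h
  · left
    have := Real.cos_le_one (π * X)
    nlinarith
  · by_cases hX : X = 1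
    · left
      subst hX
      simp
      linarith
    · right
      have hs : Real.sin (π * X) ≠ 0 := by
        intro h0
        rw [Real.sin_eq_zero_iff] at h0
        obtain ⟨n, hn⟩ := h0
        have : (n : ℝ) = X := by
          have hp := Real.pi_pos
          field_simp at hn
          nlinarith
        have h1 : (0 : ℝ) < n := by rw [this]; exact h.1
        have h2 : (n : ℝ) < 2 := by rw [this]; exact h.2
        have h3 : 0 < n := by exact_mod_cast h1
        have h4 : n < 2 := by exact_mod_cast h2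
        have h5 : n = 1 := by omega
        apply hX
        rw [← this, h5]
        simp
      positivity

theorem mem_DL {s X : ℝ} (h : s < 0 ∨ (0 < X ∧ X < 2)) : (s + X * I : ℂ) ∈ DL := by
  refine one_sub_mem_slit ?_
  rw [exp_pi_re, exp_pi_im]
  refine slit_cond (Real.exp_pos _) ?_
  rcases h with h | h
  · left
    rw [Real.exp_lt_one_iff]
    have := Real.pi_pos
    nlinarith
  · right; exact h

theorem zR_eq (s X : ℝ) : zR (s + X * I) = exp (π * ((-s : ℝ) + (-X : ℝ) * I)) := by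
  unfold zR; congr 1; push_cast; ring

theorem mem_DR {s X : ℝ} (h : 0 < s ∨ (0 < X ∧ X < 2)) : (s + X * I : ℂ) ∈ DR := by
  refine one_sub_mem_slit ?_
  rw [zR_eq, exp_pi_re, exp_pi_im, mul_neg π X, Real.cos_neg, Real.sin_neg, mul_neg (Real.exp _),
    ne_eq, neg_eq_zero]
  refine slit_cond (Real.exp_pos _) ?_
  rcases h with h | h
  · left
    rw [Real.exp_lt_one_iff]
    have := Real.pi_pos
    nlinarith
  · right; exact h

/-! ### The real functions and their partial derivatives -/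

/-- the left function -/
noncomputable def uL (s X : ℝ) : ℝ := -Real.log ‖AL (s + X * I)‖
noncomputable def uLs (s X : ℝ) : ℝ := (gL (s + X * I)).im
noncomputable def uLX (s X : ℝ) : ℝ := (gL (s + X * I)).re
noncomputable def uLss (s X : ℝ) : ℝ := (gL' (s + X * I)).im
noncomputable def uLsX (s X : ℝ) : ℝ := (gL' (s + X * I)).re

/-- the right function, without its affine part -/
noncomputable def utR (s X : ℝ) : ℝ := Real.log ‖(1 + rR (s + X * I)) / 2‖
noncomputable def utRs (s X : ℝ) : ℝ := (kR (s + X * I)).re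
noncomputable def utRX (s X : ℝ) : ℝ := -(kR (s + X * I)).im
noncomputable def utRss (s X : ℝ) : ℝ := (kR' (s + X * I)).re
noncomputable def utRsX (s X : ℝ) : ℝ := -(kR' (s + X * I)).im

theorem uL_eq (s X : ℝ) : uL s X = (EL (s + X * I)).im := by
  unfold uL EL
  simp [Complex.log_re]

theorem utR_eq (s X : ℝ) : utR s X = (ER (s + X * I)).re := by
  unfold utR ER
  rw [Complex.log_re]

section left

variable {s X : ℝ} (h : s < 0 ∨ (0 < X ∧ X < 2))
include h

theorem hasDerivAt_uL_s : HasDerivAt (fun t => uL t X) (uLs s X) s := by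
  simp only [uL_eq]
  exact im_fst (hasDerivAt_EL (mem_DL h))

theorem hasDerivAt_uL_X : HasDerivAt (fun t => uL s t) (uLX s X) X := by
  simp only [uL_eq]
  exact im_snd (hasDerivAt_EL (mem_DL h))

theorem hasDerivAt_uLs_s : HasDerivAt (fun t => uLs t X) (uLss s X) s :=
  im_fst (hasDerivAt_gL (mem_DL h))

theorem hasDerivAt_uLs_X : HasDerivAt (fun t => uLs s t) (uLsX s X) X :=
  im_snd (hasDerivAt_gL (mem_DL h))

theorem hasDerivAt_uLX_s : HasDerivAt (fun t => uLX t X) (uLsX s X) s :=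
  re_fst (hasDerivAt_gL (mem_DL h))

theorem hasDerivAt_uLX_X : HasDerivAt (fun t => uLX s t) (-uLss s X) X :=
  re_snd (hasDerivAt_gL (mem_DL h))

end left

section right

variable {s X : ℝ} (h : 0 < s ∨ (0 < X ∧ X < 2))
include h

theorem hasDerivAt_utR_s : HasDerivAt (fun t => utR t X) (utRs s X) s := by
  simp only [utR_eq]
  exact re_fst (hasDerivAt_ER (mem_DR h))

theorem hasDerivAt_utR_X : HasDerivAt (fun t => utR s t) (utRX s X) X := by
  simp only [utR_eq]
  exact re_snd (hasDerivAt_ER (mem_DR h))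

theorem hasDerivAt_utRs_s : HasDerivAt (fun t => utRs t X) (utRss s X) s :=
  re_fst (hasDerivAt_kR (mem_DR h))

theorem hasDerivAt_utRs_X : HasDerivAt (fun t => utRs s t) (utRsX s X) X :=
  re_snd (hasDerivAt_kR (mem_DR h))

theorem hasDerivAt_utRX_s : HasDerivAt (fun t => utRX t X) (utRsX s X) s :=
  (im_fst (hasDerivAt_kR (mem_DR h))).neg

theorem hasDerivAt_utRX_X : HasDerivAt (fun t => utRX s t) (-utRss s X) X :=
  (im_snd (hasDerivAt_kR (mem_DR h))).neg

end right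

/-! ### Smoothness in the two real variables -/

/-- the open half-plane / slit strip domains -/
theorem isOpen_DL : IsOpen DL :=
  Complex.isOpen_slitPlane.preimage (by fun_prop : Continuous fun ζ : ℂ => 1 - exp (π * ζ))

theorem isOpen_DR : IsOpen DR :=
  Complex.isOpen_slitPlane.preimage (by unfold zR; fun_prop : Continuous fun ζ : ℂ => 1 - zR ζ)

theorem contDiffOn_comp {f : ℂ → ℂ} {D : Set ℂ} (hD : IsOpen D) (hf : DifferentiableOn ℂ f D) :
    ContDiffOn ℝ ∞ (fun p : ℝ × ℝ => f (p.1 + p.2 * I)) {p | (p.1 + p.2 * I : ℂ) ∈ D} := by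
  have h1 : ContDiffOn ℝ ∞ f D := ((hf.contDiffOn hD).restrict_scalars ℝ)
  have h2 : ContDiff ℝ ∞ (fun p : ℝ × ℝ => (p.1 + p.2 * I : ℂ)) := by
    have e1 : ContDiff ℝ ∞ (fun p : ℝ × ℝ => ((p.1 : ℝ) : ℂ)) :=
      Complex.ofRealCLM.contDiff.comp contDiff_fst
    have e2 : ContDiff ℝ ∞ (fun p : ℝ × ℝ => ((p.2 : ℝ) : ℂ)) :=
      Complex.ofRealCLM.contDiff.comp contDiff_snd
    exact e1.add (e2.mul contDiff_const)
  exact h1.comp h2.contDiffOn (fun p hp => hp)

theorem contDiffOn_re {f : ℂ → ℂ} {D : Set ℂ} (hD : IsOpen D) (hf : DifferentiableOn ℂ f D) :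
    ContDiffOn ℝ ∞ (fun p : ℝ × ℝ => (f (p.1 + p.2 * I)).re) {p | (p.1 + p.2 * I : ℂ) ∈ D} :=
  Complex.reCLM.contDiff.comp_contDiffOn (contDiffOn_comp hD hf)

theorem contDiffOn_im {f : ℂ → ℂ} {D : Set ℂ} (hD : IsOpen D) (hf : DifferentiableOn ℂ f D) :
    ContDiffOn ℝ ∞ (fun p : ℝ × ℝ => (f (p.1 + p.2 * I)).im) {p | (p.1 + p.2 * I : ℂ) ∈ D} :=
  Complex.imCLM.contDiff.comp_contDiffOn (contDiffOn_comp hD hf)

theorem contDiffOn_uL : ContDiffOn ℝ ∞ (fun p : ℝ × ℝ => uL p.1 p.2) {p | p.1 < 0} := by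
  simp only [uL_eq]
  refine (contDiffOn_im isOpen_DL (f := EL) fun ζ hζ =>
    (hasDerivAt_EL hζ).differentiableAt.differentiableWithinAt).mono ?_
  intro p hp
  exact mem_DL (Or.inl hp)

theorem contDiffOn_utR : ContDiffOn ℝ ∞ (fun p : ℝ × ℝ => utR p.1 p.2) {p | 0 < p.1} := by
  simp only [utR_eq]
  refine (contDiffOn_re isOpen_DR (f := ER) fun ζ hζ =>
    (hasDerivAt_ER hζ).differentiableAt.differentiableWithinAt).mono ?_
  intro p hp
  exact mem_DR (Or.inl hp)

/-! ### Continuity -/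

theorem continuous_qL : Continuous qL := by unfold qL; fun_prop

theorem continuous_zR : Continuous zR := by unfold zR; fun_prop

theorem norm_qL (s X : ℝ) : ‖qL (s + X * I)‖ = Real.exp (π / 2 * s) := by
  unfold qL
  rw [Complex.norm_exp]
  congr 1
  simp

theorem norm_zR (s X : ℝ) : ‖zR (s + X * I)‖ = Real.exp (-π * s) := by
  unfold zR
  rw [Complex.norm_exp]
  congr 1
  simp

theorem continuousAt_rL {ζ : ℂ} (h : 0 ≤ (1 - exp (π * ζ)).re ∨ (1 - exp (π * ζ)).im ≠ 0) :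
    ContinuousAt rL ζ := by
  have h1 : ContinuousAt (fun z : ℂ => 1 - exp (π * z)) ζ := by fun_prop
  exact ContinuousAt.comp (g := cs) (f := fun z : ℂ => 1 - exp (π * z)) (continuousAt_cs h) h1

theorem continuousAt_rR {ζ : ℂ} (h : 0 ≤ (1 - zR ζ).re ∨ (1 - zR ζ).im ≠ 0) :
    ContinuousAt rR ζ := by
  have h1 : ContinuousAt (fun z : ℂ => 1 - zR z) ζ := (continuous_const.sub continuous_zR).continuousAt
  exact ContinuousAt.comp (g := cs) (f := fun z : ℂ => 1 - zR z) (continuousAt_cs h) h1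

theorem AL_ne (ζ : ℂ) : AL ζ ≠ 0 := A_ne (rL_sq ζ)

theorem continuousAt_uL {s X : ℝ} (h : s ≤ 0 ∨ (0 < X ∧ X < 2)) :
    ContinuousAt (fun p : ℝ × ℝ => uL p.1 p.2) (s, X) := by
  have hr : ContinuousAt rL (s + X * I) := by
    rcases h with h | h
    · apply continuousAt_rL
      left
      have h1 : ‖exp (π * (s + X * I))‖ ≤ 1 := by
        rw [norm_exp_pi]
        rw [Real.exp_le_one_iff]
        have := Real.pi_pos
        nlinarith
      have h2 := Complex.re_le_norm (exp (π * (s + X * I)))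
      simp only [sub_re, one_re]
      linarith
    · exact ((hasDerivAt_rL (mem_DL (Or.inr h))).continuousAt)
  have hA : ContinuousAt AL (s + X * I) :=
    hr.add (continuousAt_const.mul continuous_qL.continuousAt)
  have hp : ContinuousAt (fun p : ℝ × ℝ => (p.1 + p.2 * I : ℂ)) (s, X) := by fun_prop
  have hA2 : ContinuousAt (fun p : ℝ × ℝ => AL (p.1 + p.2 * I)) (s, X) :=
    ContinuousAt.comp (f := fun p : ℝ × ℝ => (p.1 + p.2 * I : ℂ)) (g := AL) hA hp
  exact (hA2.norm.log (norm_ne_zero_iff.2 (AL_ne _))).neg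

theorem continuousAt_utR {s X : ℝ} (h : 0 ≤ s ∨ (0 < X ∧ X < 2)) :
    ContinuousAt (fun p : ℝ × ℝ => utR p.1 p.2) (s, X) := by
  have hr : ContinuousAt rR (s + X * I) := by
    rcases h with h | h
    · apply continuousAt_rR
      left
      have h1 : ‖zR (s + X * I)‖ ≤ 1 := by
        rw [norm_zR]
        rw [Real.exp_le_one_iff]
        have := Real.pi_pos
        nlinarith
      have h2 := Complex.re_le_norm (zR (s + X * I))
      simp only [sub_re, one_re]
      linarith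
    · exact ((hasDerivAt_rR (mem_DR (Or.inr h))).continuousAt)
  have hA : ContinuousAt (fun ζ => (1 + rR ζ) / 2) (s + X * I) :=
    (continuousAt_const.add hr).div_const 2
  have hp : ContinuousAt (fun p : ℝ × ℝ => (p.1 + p.2 * I : ℂ)) (s, X) := by fun_prop
  have hA2 : ContinuousAt (fun p : ℝ × ℝ => (1 + rR (p.1 + p.2 * I)) / 2) (s, X) :=
    ContinuousAt.comp (f := fun p : ℝ × ℝ => (p.1 + p.2 * I : ℂ)) (g := fun ζ => (1 + rR ζ) / 2) hA hp
  exact (hA2.norm.log (norm_ne_zero_iff.2 (div_ne_zero (one_add_rR_ne _) two_ne_zero)))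

/-! ### Gluing of the two formulas on the strip `0 < X < 2` -/

theorem zR_qL (ζ : ℂ) : zR ζ * qL ζ ^ 2 = 1 := by
  rw [qL_sq]
  unfold zR
  rw [← Complex.exp_add]
  simp

theorem qL_ne (ζ : ℂ) : qL ζ ≠ 0 := Complex.exp_ne_zero _

/-- uniqueness of the square root with positive real part -/
theorem eq_cs {w z : ℂ} (h : w ^ 2 = z) (hw : 0 < w.re) : w = cs z := by
  have h1 : w ^ 2 = cs z ^ 2 := by rw [cs_sq, h]
  rcases sq_eq_sq_iff_eq_or_eq_neg.1 h1 with h2 | h2
  · exact h2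
  · exfalso
    have h3 := cs_re_nonneg z
    rw [h2] at hw
    simp at hw
    linarith

theorem qL_re (s X : ℝ) : (qL (s + X * I)).re = Real.exp (π / 2 * s) * Real.cos (π / 2 * X) := by
  unfold qL
  rw [Complex.exp_re]
  simp

theorem qL_im (s X : ℝ) : (qL (s + X * I)).im = Real.exp (π / 2 * s) * Real.sin (π / 2 * X) := by
  unfold qL
  rw [Complex.exp_im]
  simp

theorem cs_im_mul (z : ℂ) : 2 * ((cs z).re * (cs z).im) = z.im := by
  have := congrArg Complex.im (cs_sq z)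
  rw [sq, mul_im] at this
  linarith

theorem rL_eq {s X : ℝ} (h0 : 0 < X) (h1 : X ≤ 1) :
    rL (s + X * I) = -I * qL (s + X * I) * rR (s + X * I) := by
  symm
  have hD := mem_DR (s := s) (X := X) (Or.inr ⟨h0, by linarith⟩)
  refine eq_cs ?_ ?_
  · have e1 := rR_sq (s + X * I)
    have e2 := zR_qL (s + X * I)
    have e3 := qL_sq (s + X * I)
    rw [← e3]
    linear_combination (qL (s + X * I)) ^ 2 * rR (s + X * I) ^ 2 * I_sq - (qL (s + X * I)) ^ 2 * e1 + e2
  · have hρ := rR_re_pos hD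
    have him : 0 ≤ (1 - zR (s + X * I)).im := by
      rw [sub_im, one_im, zero_sub, zR_eq, exp_pi_im]
      rw [mul_neg π X, Real.sin_neg]
      have : 0 ≤ Real.sin (π * X) := by
        apply Real.sin_nonneg_of_nonneg_of_le_pi
        · have := Real.pi_pos; positivity
        · have := Real.pi_pos; nlinarith
      have := Real.exp_pos (π * -s)
      nlinarith
    have hb : 0 ≤ (rR (s + X * I)).im := by
      have := cs_im_mul (1 - zR (s + X * I))
      rw [← this] at him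
      change 0 ≤ 2 * ((rR (s + X * I)).re * (rR (s + X * I)).im) at him
      by_contra hneg
      push Not at hneg
      nlinarith
    have hx : 0 ≤ (qL (s + X * I)).re := by
      rw [qL_re]
      have : 0 ≤ Real.cos (π / 2 * X) := by
        apply Real.cos_nonneg_of_neg_pi_div_two_le_of_le
        · have := Real.pi_pos; nlinarith
        · have := Real.pi_pos; nlinarith
      positivity
    have hy : 0 < (qL (s + X * I)).im := by
      rw [qL_im]
      have : 0 < Real.sin (π / 2 * X) := by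
        apply Real.sin_pos_of_pos_of_lt_pi
        · have := Real.pi_pos; positivity
        · have := Real.pi_pos; nlinarith
      positivity
    have : (-I * qL (s + X * I) * rR (s + X * I)).re =
        (qL (s + X * I)).im * (rR (s + X * I)).re + (qL (s + X * I)).re * (rR (s + X * I)).im := by
      simp [mul_re, mul_im]
      ring
    rw [this]
    nlinarith [mul_pos hy hρ, mul_nonneg hx hb]

theorem gL_eq {s X : ℝ} (h0 : 0 < X) (h1 : X ≤ 1) :
    gL (s + X * I) = I * (kR (s + X * I) + π / 2) := by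
  have hD := mem_DR (s := s) (X := X) (Or.inr ⟨h0, by linarith⟩)
  have hr := rR_ne hD
  have hq := qL_ne (s + X * I)
  unfold gL kR
  rw [rL_eq h0 h1]
  field_simp
  linear_combination (-(1 : ℂ)) * I_sq

/-- the full right function -/
noncomputable def uR (s X : ℝ) : ℝ := π / 2 * s + Real.log 2 + utR s X

theorem uL_eq_uR {s X : ℝ} (h0 : 0 < X) (h1 : X ≤ 1) : uL s X = uR s X := by
  set ζ : ℂ := s + X * I with hζ
  have hA : AL ζ = I * qL ζ * (1 - rR ζ) := by
    unfold AL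
    rw [hζ, rL_eq h0 h1]
    ring
  have e : AL ζ * (qL ζ * (1 + rR ζ)) = I := by
    have e1 := rR_sq ζ
    have e2 := zR_qL ζ
    rw [hA]
    linear_combination (-I * qL ζ ^ 2) * e1 + I * e2
  have hn : ‖AL ζ‖ * (‖qL ζ‖ * ‖1 + rR ζ‖) = 1 := by
    rw [← norm_mul, ← norm_mul, e, norm_I]
  have hq0 : ‖qL ζ‖ ≠ 0 := norm_ne_zero_iff.2 (qL_ne ζ)
  have hr0 : ‖1 + rR ζ‖ ≠ 0 := norm_ne_zero_iff.2 (one_add_rR_ne ζ)
  have hA0 : ‖AL ζ‖ ≠ 0 := norm_ne_zero_iff.2 (AL_ne ζ)
  have hlog := congrArg Real.log hn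
  rw [Real.log_mul hA0 (mul_ne_zero hq0 hr0), Real.log_mul hq0 hr0, Real.log_one,
    show ‖qL ζ‖ = Real.exp (π / 2 * s) from norm_qL s X, Real.log_exp] at hlog
  unfold uL uR utR
  rw [norm_div, Real.log_div hr0 (by simp)]
  rw [← hζ]
  have h2 : ‖(2 : ℂ)‖ = 2 := by simp
  rw [h2]
  linarith

theorem uLs_eq {s X : ℝ} (h0 : 0 < X) (h1 : X ≤ 1) : uLs s X = π / 2 + utRs s X := by
  unfold uLs utRs
  rw [gL_eq h0 h1]
  have : ((π : ℂ) / 2).re = π / 2 := by
    rw [show (π : ℂ) / 2 = ((π / 2 : ℝ) : ℂ) by push_cast; ring, ofReal_re]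
  simp [mul_im]
  ring

theorem uLX_eq {s X : ℝ} (h0 : 0 < X) (h1 : X ≤ 1) : uLX s X = utRX s X := by
  unfold uLX utRX
  rw [gL_eq h0 h1]
  have : ((π : ℂ) / 2).im = 0 := by
    rw [show (π : ℂ) / 2 = ((π / 2 : ℝ) : ℂ) by push_cast; ring, ofReal_im]
  simp [mul_re, this]

/-! ### Symmetries -/

theorem conj_two' : (starRingEnd ℂ) (2 : ℂ) = 2 := map_ofNat (starRingEnd ℂ) 2

open ComplexConjugate in
theorem cs_conj {z : ℂ} (hz : 0 ≤ z.re ∨ z.im ≠ 0) : cs (conj z) = conj (cs z) := by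
  by_cases h0 : z = 0
  · subst h0
    simp [cs]
  unfold cs
  have harg : z.arg ≠ π := by
    apply slitPlane_arg_ne_pi
    rw [mem_slitPlane_iff]
    rcases hz with h | h
    · rcases h.lt_or_eq with h1 | h1
      · exact Or.inl h1
      · right
        intro h2
        exact h0 (Complex.ext h1.symm h2)
    · exact Or.inr h
  rw [Complex.conj_cpow _ _ harg, map_inv₀, conj_two']

open ComplexConjugate in
theorem one_sub_exp_cond {w : ℂ} (hw : ‖w‖ ≤ 1) : 0 ≤ (1 - w).re ∨ (1 - w).im ≠ 0 := by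
  left
  have := Complex.re_le_norm w
  simp only [sub_re, one_re]
  linarith

theorem norm_exp_pi_le {s : ℝ} (hs : s ≤ 0) (X : ℝ) : ‖exp (π * (s + X * I))‖ ≤ 1 := by
  rw [norm_exp_pi, Real.exp_le_one_iff]
  have := Real.pi_pos
  nlinarith

theorem norm_zR_le {s : ℝ} (hs : 0 ≤ s) (X : ℝ) : ‖zR (s + X * I)‖ ≤ 1 := by
  rw [norm_zR, Real.exp_le_one_iff]
  have := Real.pi_pos
  nlinarith

open ComplexConjugate in
theorem uL_neg {s : ℝ} (hs : s ≤ 0) (X : ℝ) : uL s (-X) = -uL s X := by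
  have e0 : ((s : ℂ) + ((-X : ℝ) : ℂ) * I) = conj ((s : ℂ) + X * I) := by
    simp [Complex.ext_iff]
  have e1 : rL (conj ((s : ℂ) + X * I)) = conj (rL (s + X * I)) := by
    unfold rL
    rw [← cs_conj (one_sub_exp_cond (norm_exp_pi_le hs X))]
    congr 1
    rw [map_sub, map_one, ← Complex.exp_conj, map_mul, Complex.conj_ofReal]
  have e2 : qL (conj ((s : ℂ) + X * I)) = conj (qL (s + X * I)) := by
    unfold qL
    rw [← Complex.exp_conj, map_mul, map_div₀, Complex.conj_ofReal, conj_two']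
  have e3 : AL (conj ((s : ℂ) + X * I)) = conj (AL (s + X * I))⁻¹ := by
    have h1 : rL (s + X * I) - I * qL (s + X * I) = (AL (s + X * I))⁻¹ :=
      eq_inv_of_mul_eq_one_right (AB_one (rL_sq _))
    rw [← h1]
    unfold AL
    rw [e1, e2, map_sub, map_mul, Complex.conj_I]
    ring
  unfold uL
  rw [e0, e3, RCLike.norm_conj, norm_inv, Real.log_inv]

open ComplexConjugate in
theorem uL_refl {s : ℝ} (hs : s ≤ 0) (X : ℝ) : uL s (2 - X) = uL s X := by
  have e1 : rL ((s : ℂ) + ((2 - X : ℝ) : ℂ) * I) = conj (rL (s + X * I)) := by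
    unfold rL
    rw [← cs_conj (one_sub_exp_cond (norm_exp_pi_le hs X))]
    congr 1
    rw [map_sub, map_one, ← Complex.exp_conj, map_mul, Complex.conj_ofReal]
    congr 1
    have : (π : ℂ) * ((s : ℂ) + ((2 - X : ℝ) : ℂ) * I) = π * conj ((s : ℂ) + X * I) + 2 * π * I := by
      push_cast
      simp
      ring
    rw [this, Complex.exp_periodic]
  have e2 : qL ((s : ℂ) + ((2 - X : ℝ) : ℂ) * I) = -conj (qL (s + X * I)) := by
    unfold qL
    rw [← Complex.exp_conj, map_mul, map_div₀, Complex.conj_ofReal, conj_two']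
    have : (π : ℂ) / 2 * ((s : ℂ) + ((2 - X : ℝ) : ℂ) * I) =
        π / 2 * conj ((s : ℂ) + X * I) + π * I := by
      push_cast
      simp
      ring
    rw [this, Complex.exp_add, Complex.exp_pi_mul_I]
    ring
  have e3 : AL ((s : ℂ) + ((2 - X : ℝ) : ℂ) * I) = conj (AL (s + X * I)) := by
    unfold AL
    rw [e1, e2, map_add, map_mul, Complex.conj_I]
    ring
  unfold uL
  rw [e3, RCLike.norm_conj]

open ComplexConjugate in
theorem utR_neg {s : ℝ} (hs : 0 ≤ s) (X : ℝ) : utR s (-X) = utR s X := by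
  have e0 : ((s : ℂ) + ((-X : ℝ) : ℂ) * I) = conj ((s : ℂ) + X * I) := by
    simp [Complex.ext_iff]
  have e1 : rR (conj ((s : ℂ) + X * I)) = conj (rR (s + X * I)) := by
    unfold rR
    rw [← cs_conj (one_sub_exp_cond (norm_zR_le hs X))]
    congr 1
    unfold zR
    rw [map_sub, map_one, ← Complex.exp_conj, map_mul, map_neg, Complex.conj_ofReal]
  have e3 : (1 + rR (conj ((s : ℂ) + X * I))) / 2 = conj ((1 + rR (s + X * I)) / 2) := by
    rw [e1, map_div₀, map_add, map_one, conj_two']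
  unfold utR
  rw [e0, e3, RCLike.norm_conj]

theorem utR_add_two (s X : ℝ) : utR s (X + 2) = utR s X := by
  have e : zR ((s : ℂ) + ((X + 2 : ℝ) : ℂ) * I) = zR (s + X * I) := by
    unfold zR
    have : -(π : ℂ) * ((s : ℂ) + ((X + 2 : ℝ) : ℂ) * I) = -π * ((s : ℂ) + X * I) - 2 * π * I := by
      push_cast
      ring
    rw [this, Complex.exp_periodic.sub_eq]
  unfold utR rR
  rw [e]

/-! ### Neumann conditions -/

theorem cs_im_zero {z : ℂ} (hz : 0 < z.re) (h : z.im = 0) : (cs z).im = 0 := by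
  have h1 := cs_im_mul z
  have h2 := cs_re_pos (mem_slitPlane_iff.2 (Or.inl hz))
  rw [h] at h1
  have h3 : (cs z).re * (cs z).im = 0 := by linarith
  rcases mul_eq_zero.1 h3 with h4 | h4
  · linarith
  · exact h4

theorem gL_re_zero {s X : ℝ} (hX : Real.cos (π / 2 * X) = 0) (hX2 : Real.sin (π * X) = 0)
    (hX3 : Real.cos (π * X) ≤ 0) : (gL (s + X * I)).re = 0 := by
  have hr : (rL (s + X * I)).im = 0 := by
    apply cs_im_zero
    · simp only [sub_re, one_re]
      rw [exp_pi_re]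
      have := Real.exp_pos (π * s)
      nlinarith
    · simp only [sub_im, one_im]
      rw [exp_pi_im, hX2]
      simp
  have hq : (qL (s + X * I)).re = 0 := by rw [qL_re, hX, mul_zero]
  have : ((π : ℂ) / 2) = ((π / 2 : ℝ) : ℂ) := by push_cast; ring
  unfold gL
  rw [this, re_ofReal_mul, div_re, hr, hq]
  simp

theorem uLX_one (s : ℝ) : uLX s 1 = 0 := by
  apply gL_re_zero
  · rw [mul_one, Real.cos_pi_div_two]
  · rw [mul_one, Real.sin_pi]
  · rw [mul_one, Real.cos_pi]; norm_num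

theorem uLX_neg_one (s : ℝ) : uLX s (-1) = 0 := by
  apply gL_re_zero
  · rw [mul_neg_one, Real.cos_neg, Real.cos_pi_div_two]
  · rw [mul_neg_one, Real.sin_neg, Real.sin_pi, neg_zero]
  · rw [mul_neg_one, Real.cos_neg, Real.cos_pi]; norm_num

theorem kR_im_zero {s X : ℝ} (hX2 : Real.sin (π * X) = 0)
    (hX3 : Real.exp (-π * s) * Real.cos (π * X) < 1) : (kR (s + X * I)).im = 0 := by
  have hr : (rR (s + X * I)).im = 0 := by
    apply cs_im_zero
    · simp only [sub_re, one_re]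
      rw [zR_eq, exp_pi_re, mul_neg π X, Real.cos_neg]
      have : π * -s = -π * s := by ring
      rw [this]
      linarith
    · simp only [sub_im, one_im]
      rw [zR_eq, exp_pi_im, mul_neg π X, Real.sin_neg, hX2]
      simp
  have : ((π : ℂ) / 2) = ((π / 2 : ℝ) : ℂ) := by push_cast; ring
  unfold kR
  rw [this, im_ofReal_mul, sub_im, one_div, inv_im, hr]
  simp

theorem utRX_zero {s : ℝ} (hs : 0 < s) : utRX s 0 = 0 := by
  unfold utRX
  rw [kR_im_zero, neg_zero]
  · simp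
  · simp only [mul_zero, Real.cos_zero, mul_one]
    rw [Real.exp_lt_one_iff]
    have := Real.pi_pos
    nlinarith

theorem utRX_one (s : ℝ) : utRX s 1 = 0 := by
  unfold utRX
  rw [kR_im_zero, neg_zero]
  · rw [mul_one, Real.sin_pi]
  · rw [mul_one, Real.cos_pi]
    have := Real.exp_pos (-π * s)
    linarith

/-! ### Upper bounds -/

theorem re_sq_add_im_sq (z : ℂ) : z.im ^ 2 + z.re ^ 2 = ‖z‖ ^ 2 := by
  rw [← Complex.normSq_eq_norm_sq, Complex.normSq_apply]
  ring

theorem norm_pi_div_two : ‖((π : ℂ) / 2)‖ = π / 2 := by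
  rw [show (π : ℂ) / 2 = ((π / 2 : ℝ) : ℂ) by push_cast; ring, Complex.norm_real,
    Real.norm_of_nonneg (by have := Real.pi_pos; positivity)]

theorem grad_uL (s X : ℝ) : uLs s X ^ 2 + uLX s X ^ 2 =
    (π / 2) ^ 2 * (Real.exp (π * s) / ‖1 - exp (π * (s + X * I))‖) := by
  unfold uLs uLX
  rw [re_sq_add_im_sq]
  unfold gL
  rw [norm_mul, norm_pi_div_two, norm_div, mul_pow, div_pow _ ‖rL _‖, norm_qL]
  unfold rL
  rw [norm_cs_sq]
  congr 2
  rw [← Real.exp_nat_mul]
  congr 1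
  push_cast
  ring

theorem grad_utR_le {s X : ℝ} (h : 0 < s ∨ (0 < X ∧ X < 2)) : utRs s X ^ 2 + utRX s X ^ 2 ≤
    (π / 2) ^ 2 * (Real.exp (-(2 * π * s)) / ‖1 - exp (-π * (s + X * I))‖) := by
  have hD := mem_DR h
  have hr := rR_ne hD
  unfold utRs utRX
  rw [neg_sq, add_comm, re_sq_add_im_sq]
  have hk : kR (s + X * I) = π / 2 * ((1 - rR (s + X * I)) / rR (s + X * I)) := by
    unfold kR
    field_simp
  have e1 : (1 - rR (s + X * I)) * (1 + rR (s + X * I)) = zR (s + X * I) := by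
    linear_combination -rR_sq (s + X * I)
  have e2 : ‖1 - rR (s + X * I)‖ * ‖1 + rR (s + X * I)‖ = ‖zR (s + X * I)‖ := by
    rw [← norm_mul, e1]
  have e3 : 1 ≤ ‖1 + rR (s + X * I)‖ := (one_add_rR_re _).trans (Complex.re_le_norm _)
  have e4 : ‖1 - rR (s + X * I)‖ ≤ ‖zR (s + X * I)‖ := by
    rw [← e2]
    exact le_mul_of_one_le_right (norm_nonneg _) e3
  rw [hk, norm_mul, norm_pi_div_two, norm_div, mul_pow, div_pow _ ‖rR _‖]
  have e5 : ‖rR (s + X * I)‖ ^ 2 = ‖1 - exp (-π * (s + X * I))‖ := norm_cs_sq _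
  rw [e5]
  have e6 : ‖zR (s + X * I)‖ ^ 2 = Real.exp (-(2 * π * s)) := by
    rw [norm_zR, ← Real.exp_nat_mul]
    congr 1
    push_cast
    ring
  rw [← e6]
  gcongr

theorem abs_log_le_of_mul {a b : ℝ} (ha : 0 < a) (h : a * b = 1) :
    |Real.log a| ≤ |a - b| / 2 := by
  have hb : b = a⁻¹ := eq_inv_of_mul_eq_one_right h
  have h1 : |Real.log a| ≤ Real.sinh |Real.log a| := Real.self_le_sinh_iff.2 (abs_nonneg _)
  rw [← Real.abs_sinh, Real.sinh_log ha, ← hb, abs_div, abs_two] at h1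
  exact h1

theorem abs_uL_le (s X : ℝ) : |uL s X| ≤
    Real.exp (π / 2 * s) * √‖1 - exp (π * (s + X * I))‖ := by
  set ζ : ℂ := s + X * I with hζ
  set a := ‖rL ζ + I * qL ζ‖ with ha
  set b := ‖rL ζ - I * qL ζ‖ with hb
  have hab : a * b = 1 := by
    rw [ha, hb, ← norm_mul, AB_one (rL_sq ζ), norm_one]
  have ha0 : 0 < a := norm_pos_iff.2 (A_ne (rL_sq ζ))
  have hb0 : 0 < b := by
    by_contra h
    push Not at h
    have : b = 0 := le_antisymm h (norm_nonneg _)
    rw [this, mul_zero] at hab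
    exact zero_ne_one hab
  have h2 : 2 ≤ a + b := by nlinarith [sq_nonneg (a - b)]
  have h3 : |a ^ 2 - b ^ 2| ≤ 4 * (‖rL ζ‖ * ‖qL ζ‖) := by
    have e : a ^ 2 - b ^ 2 = 4 * (rL ζ * (starRingEnd ℂ) (I * qL ζ)).re := by
      rw [ha, hb, ← Complex.normSq_eq_norm_sq, ← Complex.normSq_eq_norm_sq, Complex.normSq_add,
        Complex.normSq_sub]
      ring
    rw [e, abs_mul]
    have h4 : |(rL ζ * (starRingEnd ℂ) (I * qL ζ)).re| ≤ ‖rL ζ‖ * ‖qL ζ‖ := by
      refine (Complex.abs_re_le_norm _).trans ?_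
      rw [norm_mul, RCLike.norm_conj, norm_mul, norm_I, one_mul]
    rw [show |(4 : ℝ)| = 4 by norm_num]
    linarith
  have h5 : |a - b| * 2 ≤ |a ^ 2 - b ^ 2| := by
    have : a ^ 2 - b ^ 2 = (a - b) * (a + b) := by ring
    rw [this, abs_mul, abs_of_pos (by linarith : 0 < a + b)]
    exact mul_le_mul_of_nonneg_left h2 (abs_nonneg _)
  have h6 := abs_log_le_of_mul ha0 hab
  have h7 : |uL s X| = |Real.log a| := by
    unfold uL AL
    rw [abs_neg]
  have h8 : ‖rL ζ‖ = √‖1 - exp (π * (s + X * I))‖ := norm_cs _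
  rw [h7, ← h8, ← norm_qL s X, ← hζ]
  linarith

theorem abs_uL_le' {s : ℝ} (hs : s ≤ 0) (X : ℝ) : |uL s X| ≤ 2 * Real.exp (π / 2 * s) := by
  refine (abs_uL_le s X).trans ?_
  rw [mul_comm (2 : ℝ)]
  have h1 : ‖1 - exp (π * (s + X * I))‖ ≤ 2 := by
    refine (norm_sub_le _ _).trans ?_
    rw [norm_one]
    have := norm_exp_pi_le hs X
    linarith
  have h2 : √‖1 - exp (π * (s + X * I))‖ ≤ 2 := by
    rw [Real.sqrt_le_left (by norm_num)]
    linarith
  exact mul_le_mul_of_nonneg_left h2 (Real.exp_pos _).le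

theorem abs_utR_le {s : ℝ} (hs : 0 ≤ s) (X : ℝ) : |utR s X| ≤ Real.exp (-π * s) := by
  set w := (1 + rR (s + X * I)) / 2 with hw
  set t := ‖zR (s + X * I)‖ with ht
  have e1 : (1 - rR (s + X * I)) * (1 + rR (s + X * I)) = zR (s + X * I) := by
    linear_combination -rR_sq (s + X * I)
  have e2 : ‖1 - rR (s + X * I)‖ * ‖1 + rR (s + X * I)‖ = ‖zR (s + X * I)‖ := by
    rw [← norm_mul, e1]
  have e3 : 1 ≤ ‖1 + rR (s + X * I)‖ := (one_add_rR_re _).trans (Complex.re_le_norm _)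
  have e4 : ‖1 - rR (s + X * I)‖ ≤ t := by
    rw [ht, ← e2]
    exact le_mul_of_one_le_right (norm_nonneg _) e3
  have e5 : ‖w - 1‖ ≤ t / 2 := by
    have : w - 1 = -((1 - rR (s + X * I)) / 2) := by rw [hw]; ring
    rw [this, norm_neg, norm_div]
    have h2 : ‖(2 : ℂ)‖ = 2 := by simp
    rw [h2]
    linarith
  have ht1 : t ≤ 1 := norm_zR_le hs X
  have ht0 : 0 ≤ t := norm_nonneg _
  have h6 : ‖w‖ ≤ 1 + t / 2 := by
    have := norm_add_le (w - 1) 1
    rw [sub_add_cancel, norm_one] at this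
    linarith
  have h7 : 1 - t / 2 ≤ ‖w‖ := by
    have := norm_sub_le w (w - 1)
    rw [sub_sub_cancel, norm_one] at this
    linarith
  have hw0 : 0 < ‖w‖ := by linarith
  have h8 : Real.log ‖w‖ ≤ t := by
    have := Real.log_le_sub_one_of_pos hw0
    linarith
  have h9 : -t ≤ Real.log ‖w‖ := by
    have h10 := Real.one_sub_inv_le_log_of_pos hw0
    have h11 : (‖w‖)⁻¹ ≤ 1 + t := by
      rw [inv_le_comm₀ hw0 (by linarith)]
      refine le_trans ?_ h7
      rw [inv_le_comm₀ (by linarith) (by linarith)]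
      rw [inv_le_comm₀ (by linarith) (by linarith)]
      rw [inv_le_iff_one_le_mul₀ (by linarith)]
      nlinarith
    linarith
  unfold utR
  rw [← norm_zR s X, abs_le]
  exact ⟨h9, h8⟩

theorem abs_uR_le (s X : ℝ) : |uR s X| ≤
    Real.exp (π / 2 * s) * √‖1 - exp (-π * (s + X * I))‖ := by
  set ζ : ℂ := s + X * I with hζ
  set Q := ‖qL ζ‖ with hQ
  set a := ‖1 + rR ζ‖ with ha
  set b := ‖1 - rR ζ‖ with hb
  have hQ0 : 0 < Q := norm_pos_iff.2 (qL_ne ζ)
  have ha0 : 0 < a := norm_pos_iff.2 (one_add_rR_ne ζ)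
  have hab : (Q * a) * (Q * b) = 1 := by
    have e : (qL ζ * (1 + rR ζ)) * (qL ζ * (1 - rR ζ)) = 1 := by
      linear_combination (-qL ζ ^ 2) * rR_sq ζ + zR_qL ζ
    have := congrArg norm e
    rw [norm_mul, norm_mul, norm_mul, norm_one] at this
    exact this
  have h1 : uR s X = Real.log (Q * a) := by
    unfold uR utR
    rw [norm_div, Real.log_div ha0.ne' (by simp), Real.log_mul hQ0.ne' ha0.ne',
      show Q = Real.exp (π / 2 * s) from norm_qL s X, Real.log_exp]
    have h2 : ‖(2 : ℂ)‖ = 2 := by simp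
    rw [h2]
    ring
  have h2 : 2 ≤ a + b := by
    have := norm_add_le (1 + rR ζ) (1 - rR ζ)
    have e : (1 + rR ζ) + (1 - rR ζ) = 2 := by ring
    rw [e] at this
    have h3 : ‖(2 : ℂ)‖ = 2 := by simp
    rw [h3] at this
    exact this
  have h3 : |a ^ 2 - b ^ 2| ≤ 4 * ‖rR ζ‖ := by
    have e : a ^ 2 - b ^ 2 = 4 * (1 * (starRingEnd ℂ) (rR ζ)).re := by
      rw [ha, hb, ← Complex.normSq_eq_norm_sq, ← Complex.normSq_eq_norm_sq, Complex.normSq_add,
        Complex.normSq_sub]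
      ring
    rw [e, abs_mul, one_mul]
    have h4 : |((starRingEnd ℂ) (rR ζ)).re| ≤ ‖rR ζ‖ := by
      refine (Complex.abs_re_le_norm _).trans ?_
      rw [RCLike.norm_conj]
    rw [show |(4 : ℝ)| = 4 by norm_num]
    linarith
  have h5 : |a - b| * 2 ≤ |a ^ 2 - b ^ 2| := by
    have : a ^ 2 - b ^ 2 = (a - b) * (a + b) := by ring
    rw [this, abs_mul, abs_of_pos (by linarith : 0 < a + b)]
    exact mul_le_mul_of_nonneg_left h2 (abs_nonneg _)
  have h6 := abs_log_le_of_mul (mul_pos hQ0 ha0) hab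
  have h7 : |Q * a - Q * b| = Q * |a - b| := by
    rw [← mul_sub, abs_mul, abs_of_pos hQ0]
  have h8 : ‖rR ζ‖ = √‖1 - exp (-π * (s + X * I))‖ := norm_cs _
  rw [h1, ← h8, ← norm_qL s X, ← hζ]
  rw [h7] at h6
  nlinarith

/-! ### Lower bounds -/

theorem uLX_low {s X : ℝ} (hs : s < 0) (hX : |X| ≤ 1) :
    π / (4 * √2) * Real.exp (π / 2 * s) * Real.cos (π / 2 * X) ≤ uLX s X := by
  set ζ : ℂ := s + X * I with hζ
  have hD : ζ ∈ DL := mem_DL (Or.inl hs)
  set α := (rL ζ).re with hα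
  set β := (rL ζ).im with hβ
  set x := (qL ζ).re with hx
  set y := (qL ζ).im with hy
  have hα0 : 0 < α := rL_re_pos hD
  have e := rL_sq ζ
  have e1 : α ^ 2 - β ^ 2 = 1 - (x ^ 2 - y ^ 2) := by
    have := congrArg Complex.re e
    simp only [sq, mul_re, sub_re, one_re] at this
    rw [← hα, ← hβ, ← hx, ← hy] at this
    linarith [this, sq α, sq β, sq x, sq y]
  have e2 : α * β = -(x * y) := by
    have := congrArg Complex.im e
    simp only [sq, mul_im, sub_im, one_im] at this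
    rw [← hα, ← hβ, ← hx, ← hy] at this
    linarith
  have hx0 : 0 ≤ x := by
    rw [hx, qL_re]
    have : 0 ≤ Real.cos (π / 2 * X) := by
      rw [abs_le] at hX
      apply Real.cos_nonneg_of_neg_pi_div_two_le_of_le
      · have := Real.pi_pos; nlinarith [hX.1]
      · have := Real.pi_pos; nlinarith [hX.2]
    positivity
  have hq : x ^ 2 + y ^ 2 ≤ 1 := by
    have h1 : ‖qL ζ‖ ^ 2 = x ^ 2 + y ^ 2 := by
      rw [← re_sq_add_im_sq]; ring
    rw [← h1, norm_qL]
    have : Real.exp (π / 2 * s) ≤ 1 := by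
      rw [Real.exp_le_one_iff]
      have := Real.pi_pos
      nlinarith
    have h0 := Real.exp_pos (π / 2 * s)
    nlinarith
  have hn : 0 < α ^ 2 + β ^ 2 := by positivity
  have hn2 : α ^ 2 + β ^ 2 ≤ 2 := by
    have h1 : ‖rL ζ‖ ^ 2 = α ^ 2 + β ^ 2 := by
      rw [← re_sq_add_im_sq]; ring
    rw [← h1]
    unfold rL
    rw [norm_cs_sq]
    refine (norm_sub_le _ _).trans ?_
    rw [norm_one]
    have := norm_exp_pi_le hs.le X
    rw [← hζ] at this
    linarith
  -- main inequality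
  have h1 : x * (α ^ 2 + β ^ 2) / 2 ≤ α * (x * α + y * β) := by
    have h2 : α * (x * α + y * β) = x * (α ^ 2 - y ^ 2) := by
      linear_combination y * e2
    rw [h2]
    have h3 : (α ^ 2 + β ^ 2) / 2 ≤ α ^ 2 - y ^ 2 := by nlinarith
    nlinarith [mul_le_mul_of_nonneg_left h3 hx0]
  have hα2 : α ≤ √2 := by
    apply Real.le_sqrt_of_sq_le
    nlinarith [sq_nonneg β]
  have h4 : x / (2 * √2) ≤ (x * α + y * β) / (α ^ 2 + β ^ 2) := by
    rw [div_le_div_iff₀ (by positivity) hn]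
    have h5 : x * (α ^ 2 + β ^ 2) ≤ (x * α + y * β) * (2 * α) := by linarith
    have h6 : 0 ≤ x * α + y * β := by
      have : 0 ≤ α * (x * α + y * β) := le_trans (by positivity) h1
      exact nonneg_of_mul_nonneg_right this hα0
    refine h5.trans ?_
    exact mul_le_mul_of_nonneg_left (by linarith) h6
  have h7 : uLX s X = π / 2 * ((x * α + y * β) / (α ^ 2 + β ^ 2)) := by
    unfold uLX gL
    rw [show (π : ℂ) / 2 = ((π / 2 : ℝ) : ℂ) by push_cast; ring, re_ofReal_mul, div_re,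
      Complex.normSq_apply, ← hζ, ← hα, ← hβ, ← hx, ← hy]
    have : α * α + β * β = α ^ 2 + β ^ 2 := by ring
    rw [this]
    ring
  rw [h7]
  have h8 : π / (4 * √2) * Real.exp (π / 2 * s) * Real.cos (π / 2 * X) = π / 2 * (x / (2 * √2)) := by
    rw [hx, qL_re]
    field_simp
    ring
  rw [h8]
  exact mul_le_mul_of_nonneg_left h4 (by have := Real.pi_pos; positivity)

theorem utRX_low {s X : ℝ} (hs : 0 < s) (hX0 : 0 ≤ X) (hX1 : X ≤ 1) :
    π / (8 * √2) * Real.exp (-π * s) * Real.sin (π * X) ≤ utRX s X := by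
  set ζ : ℂ := s + X * I with hζ
  have hD : ζ ∈ DR := mem_DR (Or.inl hs)
  set α := (rR ζ).re with hα
  set β := (rR ζ).im with hβ
  have hα0 : 0 < α := rR_re_pos hD
  set m := Real.exp (-π * s) * Real.sin (π * X) with hm
  have hm0 : 0 ≤ m := by
    have : 0 ≤ Real.sin (π * X) := by
      apply Real.sin_nonneg_of_nonneg_of_le_pi
      · have := Real.pi_pos; positivity
      · have := Real.pi_pos; nlinarith
    positivity
  have e2 : 2 * (α * β) = m := by
    have := cs_im_mul (1 - zR ζ)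
    rw [hα, hβ]
    unfold rR
    rw [this, sub_im, one_im, hζ, zR_eq, exp_pi_im, mul_neg π X, Real.sin_neg, hm]
    have : π * -s = -π * s := by ring
    rw [this]
    ring
  have hn : 0 < α ^ 2 + β ^ 2 := by positivity
  have hn2 : α ^ 2 + β ^ 2 ≤ 2 := by
    have h1 : ‖rR ζ‖ ^ 2 = α ^ 2 + β ^ 2 := by
      rw [← re_sq_add_im_sq]; ring
    rw [← h1]
    unfold rR
    rw [norm_cs_sq]
    refine (norm_sub_le _ _).trans ?_
    rw [norm_one]
    have := norm_zR_le hs.le X
    rw [← hζ] at this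
    linarith
  have hβ0 : 0 ≤ β := by
    by_contra h
    push Not at h
    nlinarith
  have hα2 : α ≤ √2 := by
    apply Real.le_sqrt_of_sq_le
    nlinarith [sq_nonneg β]
  have h4 : m / (4 * √2) ≤ β / (α ^ 2 + β ^ 2) := by
    rw [div_le_div_iff₀ (by positivity) hn, ← e2]
    have h5 : α * (α ^ 2 + β ^ 2) ≤ √2 * 2 := mul_le_mul hα2 hn2 hn.le (by positivity)
    nlinarith
  have h7 : utRX s X = π / 2 * (β / (α ^ 2 + β ^ 2)) := by
    unfold utRX kR
    rw [show (π : ℂ) / 2 = ((π / 2 : ℝ) : ℂ) by push_cast; ring, im_ofReal_mul, sub_im, one_im,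
      one_div, inv_im, Complex.normSq_apply, ← hζ, ← hα, ← hβ]
    have : α * α + β * β = α ^ 2 + β ^ 2 := by ring
    rw [this]
    ring
  rw [h7]
  have h8 : π / (8 * √2) * Real.exp (-π * s) * Real.sin (π * X) = π / 2 * (m / (4 * √2)) := by
    rw [hm]
    field_simp
    ring
  rw [h8]
  exact mul_le_mul_of_nonneg_left h4 (by have := Real.pi_pos; positivity)

/-! ### Distance to the tip -/

theorem norm_one_sub_zR_sq (s X : ℝ) : ‖1 - zR (s + X * I)‖ ^ 2 =
    (1 - Real.exp (-(π * s))) ^ 2 + 2 * Real.exp (-(π * s)) * (1 - Real.cos (π * X)) := by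
  rw [← re_sq_add_im_sq, sub_re, sub_im, one_re, one_im, zR_eq, exp_pi_re, exp_pi_im,
    mul_neg π X, Real.sin_neg, Real.cos_neg, mul_neg π s]
  have := Real.sin_sq_add_cos_sq (π * X)
  linear_combination (Real.exp (-(π * s))) ^ 2 * this

theorem tip_low_R {s X : ℝ} (hs : 0 ≤ s) (hX : |X| ≤ 1) :
    2 * Real.exp (-(π * s)) * √(s ^ 2 + X ^ 2) ≤ ‖1 - zR (s + X * I)‖ := by
  have hp := Real.pi_pos
  apply le_of_sq_le_sq _ (norm_nonneg _)
  rw [norm_one_sub_zR_sq, mul_pow, mul_pow, Real.sq_sqrt (by positivity)]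
  set E := Real.exp (-(π * s)) with hE
  have hE0 : 0 < E := Real.exp_pos _
  have hE1 : E ≤ 1 := by
    rw [hE, Real.exp_le_one_iff]
    nlinarith
  have h1 : π * s * E ≤ 1 - E := by
    have h2 := Real.add_one_le_exp (π * s)
    have h3 : Real.exp (π * s) * E = 1 := by rw [hE, ← Real.exp_add]; simp
    nlinarith
  have h4 : Real.cos (π * X) ≤ 1 - 2 * X ^ 2 := by
    have h5 := Real.cos_le_one_sub_mul_cos_sq (x := π * X) (by
      rw [abs_mul, abs_of_pos hp]
      nlinarith [abs_nonneg X])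
    have h6 : 2 / π ^ 2 * (π * X) ^ 2 = 2 * X ^ 2 := by
      field_simp
    linarith
  have h6 : (π * s * E) ^ 2 ≤ (1 - E) ^ 2 := by
    apply pow_le_pow_left₀ (by positivity) h1
  have h7 : 4 * (s * E) ^ 2 ≤ (π * s * E) ^ 2 := by
    have : (π * s * E) ^ 2 = π ^ 2 * (s * E) ^ 2 := by ring
    rw [this]
    have h8 : (4 : ℝ) ≤ π ^ 2 := by nlinarith [Real.pi_gt_three]
    exact mul_le_mul_of_nonneg_right h8 (sq_nonneg _)
  have h9 : 4 * X ^ 2 * E ^ 2 ≤ 2 * E * (1 - Real.cos (π * X)) := by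
    have h10 : 4 * X ^ 2 * E ^ 2 ≤ 4 * X ^ 2 * E := by
      have : E ^ 2 ≤ E := by nlinarith
      nlinarith [sq_nonneg X]
    nlinarith
  nlinarith

theorem tip_up_R {s X : ℝ} (hs : 0 ≤ s) :
    ‖1 - zR (s + X * I)‖ ≤ π * √(s ^ 2 + X ^ 2) := by
  have hp := Real.pi_pos
  apply le_of_sq_le_sq _ (by positivity)
  rw [norm_one_sub_zR_sq, mul_pow, Real.sq_sqrt (by positivity)]
  set E := Real.exp (-(π * s)) with hE
  have hE0 : 0 < E := Real.exp_pos _
  have hE1 : E ≤ 1 := by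
    rw [hE, Real.exp_le_one_iff]
    nlinarith
  have h1 : 1 - E ≤ π * s := by
    have h2 := Real.add_one_le_exp (-(π * s))
    rw [hE]
    linarith
  have h3 : (1 - E) ^ 2 ≤ (π * s) ^ 2 := pow_le_pow_left₀ (by linarith) h1 2
  have h4 := Real.one_sub_sq_div_two_le_cos (x := π * X)
  have h5 := Real.cos_le_one (π * X)
  have h6 : 2 * E * (1 - Real.cos (π * X)) ≤ (π * X) ^ 2 := by
    nlinarith [sq_nonneg (π * X)]
  nlinarith

/-! ### mean value -/

theorem mean_utR {s : ℝ} (hs : 0 < s) : ∫ x in (0:ℝ)..1, utR s x = 0 := by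
  set R := Real.exp (-(π * s)) with hR
  have hR0 : 0 < R := Real.exp_pos _
  have hR1 : R < 1 := by
    rw [hR, Real.exp_lt_one_iff]
    have := Real.pi_pos
    nlinarith
  let f : ℂ → ℂ := fun w => log ((1 + cs (1 - w)) / 2)
  have hf : ∀ w : ℂ, ‖w‖ < 1 → DifferentiableAt ℂ f w := by
    intro w hw
    have h1 : 1 - w ∈ slitPlane := by
      apply one_sub_mem_slit
      left
      exact (Complex.re_le_norm w).trans_lt hw
    have h2 : DifferentiableAt ℂ (fun w => cs (1 - w)) w :=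
      (hasDerivAt_cs h1).differentiableAt.comp w (by fun_prop)
    have h3 : (1 + cs (1 - w)) / 2 ∈ slitPlane := by
      refine mem_slitPlane_iff.2 (Or.inl ?_)
      have := cs_re_nonneg (1 - w)
      have e : ((1 + cs (1 - w)) / 2).re = (1 + (cs (1 - w)).re) / 2 := by
        have : (1 + cs (1 - w)) / 2 = ((1 / 2 : ℝ) : ℂ) * (1 + cs (1 - w)) := by push_cast; ring
        rw [this, re_ofReal_mul, add_re, one_re]; ring
      rw [e]; linarith
    exact DifferentiableAt.clog ((differentiableAt_const 1).add h2 |>.div_const 2) h3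
  have hdc : DiffContOnCl ℂ f (Metric.ball 0 |R|) := by
    apply DifferentiableOn.diffContOnCl
    intro w hw
    rw [abs_of_pos hR0] at hw
    have : ‖w‖ ≤ R := by
      have := Metric.closure_ball_subset_closedBall hw
      simpa using this
    exact (hf w (by linarith)).differentiableWithinAt
  have h0 : Real.circleAverage f 0 R = 0 := by
    rw [hdc.circleAverage]
    simp [f, cs]
  have hcirc : ∫ θ in (0:ℝ)..2 * π, f (circleMap 0 R θ) = 0 := by
    rw [Real.circleAverage_def, smul_eq_zero] at h0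
    rcases h0 with h | h
    · exfalso
      have := Real.pi_pos
      have : (2 * π)⁻¹ ≠ 0 := by positivity
      exact this h
    · exact h
  have hcont : Continuous fun θ : ℝ => f (circleMap 0 R θ) := by
    rw [continuous_iff_continuousAt]
    intro θ
    have hn : ‖circleMap 0 R θ‖ < 1 := by
      rw [norm_circleMap_zero, abs_of_pos hR0]
      exact hR1
    exact ((hf _ hn).continuousAt).comp (continuous_circleMap 0 R).continuousAt
  have hre : ∫ θ in (0:ℝ)..2 * π, (f (circleMap 0 R θ)).re = 0 := by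
    have := Complex.reCLM.intervalIntegral_comp_comm
      (hcont.intervalIntegrable (μ := MeasureTheory.volume) 0 (2 * π))
    rw [hcirc] at this
    simpa using this
  have hg : ∀ x : ℝ, (f (circleMap 0 R (π * x))).re = utR s x := by
    intro x
    rw [← utR_neg hs.le x, utR_eq]
    unfold ER rR
    have e : zR (s + ((-x : ℝ) : ℂ) * I) = circleMap 0 R (π * x) := by
      rw [circleMap, hR, zR]
      rw [Complex.ofReal_exp, zero_add, ← Complex.exp_add]
      congr 1
      push_cast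
      ring
    rw [e]
  have h2 : ∫ x in (0:ℝ)..2, utR s x = 0 := by
    simp only [← hg]
    rw [intervalIntegral.integral_comp_mul_left (fun θ => (f (circleMap 0 R θ)).re) Real.pi_ne_zero,
      mul_zero, mul_comm π 2, hre, smul_zero]
  have hci : ∀ a b : ℝ, IntervalIntegrable (fun x => utR s x) MeasureTheory.volume a b := by
    intro a b
    have : Continuous fun x => utR s x := by
      simp only [← hg]
      exact Complex.continuous_re.comp (hcont.comp (continuous_const.mul continuous_id))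
    exact this.intervalIntegrable a b
  have h3 : ∫ x in (1:ℝ)..2, utR s x = ∫ x in (0:ℝ)..1, utR s x := by
    have h4 := intervalIntegral.integral_comp_sub_left (fun x => utR s x) (a := 0) (b := 1) 2
    have h5 : (fun x => utR s (2 - x)) = fun x => utR s x := by
      funext x
      rw [← utR_neg hs.le x, ← utR_add_two s (-x)]
      congr 1
      ring
    rw [h5] at h4
    rw [h4]
    norm_num
  have h4 := intervalIntegral.integral_add_adjacent_intervals (hci 0 1) (hci 1 2)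
  rw [h3, h2] at h4
  linarith

theorem mean_uL {s : ℝ} (hs : s < 0) : ∫ x in (0:ℝ)..1, uL s (2 * x - 1) = 0 := by
  have h1 := intervalIntegral.integral_comp_sub_left (fun x => uL s (2 * x - 1)) (a := 0) (b := 1) 1
  have h2 : (fun x : ℝ => uL s (2 * (1 - x) - 1)) = fun x => -uL s (2 * x - 1) := by
    funext x
    rw [← uL_neg hs.le]
    congr 1
    ring
  rw [h2, intervalIntegral.integral_neg] at h1
  rw [sub_self, sub_zero] at h1
  linarith

theorem uLs_neg {s : ℝ} (hs : s < 0) (X : ℝ) : uLs s (-X) = -uLs s X := by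
  have h1 := hasDerivAt_uL_s (s := s) (X := -X) (Or.inl hs)
  have h2 := (hasDerivAt_uL_s (s := s) (X := X) (Or.inl hs)).neg
  refine h1.unique (h2.congr_of_eventuallyEq ?_)
  filter_upwards [Iio_mem_nhds hs] with t ht
  exact uL_neg (le_of_lt ht) X

/-! ### Tip -/

theorem exp_pi_eq_zR (s X : ℝ) : exp (π * (s + X * I)) = zR (((-s : ℝ) : ℂ) + ((-X : ℝ) : ℂ) * I) := by
  unfold zR; congr 1; push_cast; ring

theorem tip_low_L {s X : ℝ} (hs : s ≤ 0) (hX : |X| ≤ 1) :
    2 * Real.exp (π * s) * √(s ^ 2 + X ^ 2) ≤ ‖1 - exp (π * (s + X * I))‖ := by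
  rw [exp_pi_eq_zR]
  have := tip_low_R (s := -s) (X := -X) (by linarith) (by rwa [abs_neg])
  rw [neg_sq, neg_sq, mul_neg, neg_neg] at this
  exact this

theorem tip_up_L {s X : ℝ} (hs : s ≤ 0) :
    ‖1 - exp (π * (s + X * I))‖ ≤ π * √(s ^ 2 + X ^ 2) := by
  rw [exp_pi_eq_zR]
  have := tip_up_R (s := -s) (X := -X) (by linarith)
  rw [neg_sq, neg_sq] at this
  exact this

theorem grad_uR_eq (s X : ℝ) (h : 0 < s ∨ (0 < X ∧ X < 2)) :
    (π / 2 + utRs s X) ^ 2 + utRX s X ^ 2 = (π / 2) ^ 2 / ‖1 - zR (s + X * I)‖ := by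
  have hr := rR_ne (mem_DR h)
  have e1 : ((π / 2 : ℂ) + kR (s + X * I)) = π / 2 * (1 / rR (s + X * I)) := by
    unfold kR; ring
  have e2 : π / 2 + utRs s X = ((π / 2 : ℂ) + kR (s + X * I)).re := by
    unfold utRs
    rw [add_re, show (π : ℂ) / 2 = ((π / 2 : ℝ) : ℂ) by push_cast; ring, ofReal_re]
  have e3 : utRX s X = -((π / 2 : ℂ) + kR (s + X * I)).im := by
    unfold utRX
    rw [add_im, show (π : ℂ) / 2 = ((π / 2 : ℝ) : ℂ) by push_cast; ring, ofReal_im, zero_add]
  rw [e2, e3, neg_sq, add_comm, re_sq_add_im_sq, e1, norm_mul, norm_pi_div_two, mul_pow, norm_div,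
    norm_one]
  have e5 : ‖rR (s + X * I)‖ ^ 2 = ‖1 - zR (s + X * I)‖ := norm_cs_sq _
  rw [← e5]
  ring

end Crest.Agent.R083.Core
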