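import Crest.Agent.R083.TreeDefs

set_option autoImplicit false

/-!
Row 83 (S0111), file Poincare.lean (helper39): Poincare inequality on the box with the cell
boundary average, and a smooth cutoff.
-/

namespace Crest.Agent.R083.Poin

open MeasureTheory Set Filter
open scoped Gradient ENNReal NNReal Topology ContDiff

theorem mp_pt : MeasurePreserving (fun p : ℝ × ℝ × ℝ => pt p.1 p.2.1 p.2.2) volume volume := by
  have h1 : MeasurePreserving (MeasurableEquiv.finTwoArrow (α := ℝ)).symm volume volume :=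
    (volume_preserving_finTwoArrow ℝ).symm _
  have h2 : MeasurePreserving (Prod.map (id : ℝ → ℝ) (MeasurableEquiv.finTwoArrow (α := ℝ)).symm)
      volume volume := (MeasurePreserving.id volume).prod h1
  have h3 : MeasurePreserving (MeasurableEquiv.piFinSuccAbove (fun _ : Fin 3 => ℝ) 0).symm
      volume volume := (volume_preserving_piFinSuccAbove (fun _ : Fin 3 => ℝ) 0).symm _
  have h4 := (PiLp.volume_preserving_toLp (Fin 3)).comp (h3.comp h2)
  have h5 : (fun p : ℝ × ℝ × ℝ => pt p.1 p.2.1 p.2.2) = (WithLp.toLp 2 ∘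
      ⇑(MeasurableEquiv.piFinSuccAbove (fun _ : Fin 3 => ℝ) 0).symm ∘
        Prod.map id ⇑(MeasurableEquiv.finTwoArrow (α := ℝ)).symm) := by
    funext p
    simp only [pt, Function.comp_apply]
    congr 1
    funext i
    fin_cases i <;> rfl
  rw [h5]
  exact h4

theorem pt_injective : Function.Injective (fun p : ℝ × ℝ × ℝ => pt p.1 p.2.1 p.2.2) := by
  intro p q h
  have h0 := congrArg (fun v : E3 => v 0) h
  have h1 := congrArg (fun v : E3 => v 1) h
  have h2 := congrArg (fun v : E3 => v 2) h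
  simp [pt] at h0 h1 h2
  ext <;> assumption

theorem continuous_pt : Continuous (fun p : ℝ × ℝ × ℝ => pt p.1 p.2.1 p.2.2) := by
  unfold pt
  apply Continuous.comp (PiLp.continuous_toLp 2 _)
  apply continuous_pi
  intro i
  fin_cases i <;> simp <;> fun_prop

theorem me_pt : MeasurableEmbedding (fun p : ℝ × ℝ × ℝ => pt p.1 p.2.1 p.2.2) :=
  continuous_pt.measurableEmbedding pt_injective

theorem intg_Ioo2 (f : ℝ × ℝ → ℝ) (hf : Continuous f) (a b c d : ℝ) (hab : a ≤ b) (hcd : c ≤ d) :
    ∫ p in Ioo a b ×ˢ Ioo c d, f p = ∫ x in a..b, ∫ y in c..d, f (x, y) := by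
  have hi : IntegrableOn f (Ioo a b ×ˢ Ioo c d) (volume.prod volume) := by
    apply (hf.continuousOn.integrableOn_compact (isCompact_Icc.prod isCompact_Icc)).mono_set
      (prod_mono Ioo_subset_Icc_self Ioo_subset_Icc_self)
  have h := setIntegral_prod f hi
  rw [intervalIntegral.integral_of_le hab, integral_Ioc_eq_integral_Ioo]
  simp_rw [intervalIntegral.integral_of_le hcd, integral_Ioc_eq_integral_Ioo]
  exact h

theorem intg_Ioo3 (f : ℝ × ℝ × ℝ → ℝ) (hf : Continuous f) (a b c d e g : ℝ) (hab : a ≤ b)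
    (hcd : c ≤ d) (heg : e ≤ g) :
    ∫ p in Ioo a b ×ˢ (Ioo c d ×ˢ Ioo e g), f p =
      ∫ x in a..b, ∫ y in c..d, ∫ z in e..g, f (x, y, z) := by
  have hi : IntegrableOn f (Ioo a b ×ˢ (Ioo c d ×ˢ Ioo e g)) (volume.prod volume) := by
    apply (hf.continuousOn.integrableOn_compact
      (isCompact_Icc.prod (isCompact_Icc.prod isCompact_Icc))).mono_set
      (prod_mono Ioo_subset_Icc_self (prod_mono Ioo_subset_Icc_self Ioo_subset_Icc_self))
  have h := setIntegral_prod f hi
  rw [intervalIntegral.integral_of_le hab, integral_Ioc_eq_integral_Ioo]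
  refine h.trans ?_
  congr 1
  funext x
  exact intg_Ioo2 (fun q => f (x, q)) (hf.comp (by fun_prop)) c d e g hcd heg

theorem integral_Dbox (g : E3 → ℝ) (hg : Continuous g) :
    ∫ x in Dbox, g x = ∫ x in (-(71/50:ℝ))..(71/50), ∫ y in (-(51/50:ℝ))..(51/50),
      ∫ z in (-(51/50:ℝ))..(51/50), g (pt x y z) := by
  have h := mp_pt.setIntegral_preimage_emb me_pt g Dbox
  have hpre : (fun p : ℝ × ℝ × ℝ => pt p.1 p.2.1 p.2.2) ⁻¹' Dbox =
      Ioo (-(71/50:ℝ)) (71/50) ×ˢ (Ioo (-(51/50:ℝ)) (51/50) ×ˢ Ioo (-(51/50:ℝ)) (51/50)) := by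
    ext p
    simp [Dbox, pt, abs_lt]
  rw [hpre] at h
  rw [← h]
  exact intg_Ioo3 (fun p => g (pt p.1 p.2.1 p.2.2)) (hg.comp continuous_pt) _ _ _ _ _ _
    (by norm_num) (by norm_num) (by norm_num)


theorem swapc (F : ℝ → ℝ → ℝ) (hF : Continuous (Function.uncurry F)) (a b c d : ℝ) :
    ∫ x in a..b, ∫ y in c..d, F x y = ∫ y in c..d, ∫ x in a..b, F x y := by
  apply intervalIntegral_intervalIntegral_swap
  apply (hF.continuousOn.integrableOn_compact (isCompact_uIcc.prod isCompact_uIcc)).mono_set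
    (prod_mono uIoc_subset_uIcc uIoc_subset_uIcc)

theorem cs_interval (f : ℝ → ℝ) (hf : Continuous f) (s t : ℝ) (hst : s ≤ t) :
    (∫ r in s..t, f r) ^ 2 ≤ (t - s) * ∫ r in s..t, f r ^ 2 := by
  rcases hst.eq_or_lt with h | h
  · subst h; simp
  set m : ℝ := (∫ r in s..t, f r) / (t - s) with hm
  have hpos : 0 < t - s := sub_pos.2 h
  have h0 : 0 ≤ ∫ r in s..t, (f r - m) ^ 2 :=
    intervalIntegral.integral_nonneg hst (fun r _ => sq_nonneg _)
  have h1 : ∫ r in s..t, (f r - m) ^ 2 =
      (∫ r in s..t, f r ^ 2) - 2 * m * (∫ r in s..t, f r) + m ^ 2 * (t - s) := by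
    have : (fun r => (f r - m) ^ 2) = fun r => f r ^ 2 - 2 * m * f r + m ^ 2 := by
      funext r; ring
    rw [this, intervalIntegral.integral_add, intervalIntegral.integral_sub,
      intervalIntegral.integral_const_mul, intervalIntegral.integral_const]
    · simp [mul_comm]
    · exact (hf.pow 2).intervalIntegrable _ _
    · exact (hf.const_mul _).intervalIntegrable _ _
    · exact ((hf.pow 2).sub (hf.const_mul _)).intervalIntegrable _ _
    · exact continuous_const.intervalIntegrable _ _
  have h2 : m * (t - s) = ∫ r in s..t, f r := by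
    rw [hm]; field_simp
  rw [h1] at h0
  have h3 : m * (∫ r in s..t, f r) ≤ ∫ r in s..t, f r ^ 2 := by
    have : m ^ 2 * (t - s) = m * ∫ r in s..t, f r := by rw [← h2]; ring
    rw [this] at h0; linarith
  calc (∫ r in s..t, f r) ^ 2 = (t - s) * (m * ∫ r in s..t, f r) := by
        rw [← mul_assoc, mul_comm (t - s) m, h2]; ring
    _ ≤ _ := mul_le_mul_of_nonneg_left h3 hpos.le

theorem sq_diff_le (f f' G : ℝ → ℝ) (hf : ∀ r, HasDerivAt f (f' r) r) (hc : Continuous f')
    (hG : Continuous G) (h : ∀ r, f' r ^ 2 ≤ G r) (a s t : ℝ) (hs : s ∈ Icc (-a) a)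
    (ht : t ∈ Icc (-a) a) : (f t - f s) ^ 2 ≤ 2 * a * ∫ r in (-a)..a, G r := by
  wlog hst : s ≤ t generalizing s t
  · have := this t s ht hs (le_of_not_ge hst)
    calc (f t - f s) ^ 2 = (f s - f t) ^ 2 := by ring
      _ ≤ _ := this
  have ha : -a ≤ a := hs.1.trans hs.2
  have hG0 : ∀ r, 0 ≤ G r := fun r => (sq_nonneg _).trans (h r)
  have e1 : ∫ r in s..t, f' r = f t - f s :=
    intervalIntegral.integral_eq_sub_of_hasDerivAt (fun r _ => hf r) (hc.intervalIntegrable _ _)
  have e2 := cs_interval f' hc s t hst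
  rw [e1] at e2
  have e3 : ∫ r in s..t, f' r ^ 2 ≤ ∫ r in s..t, G r :=
    intervalIntegral.integral_mono_on hst ((hc.pow 2).intervalIntegrable _ _)
      (hG.intervalIntegrable _ _) (fun r _ => h r)
  have e4 : ∫ r in s..t, G r ≤ ∫ r in (-a)..a, G r :=
    intervalIntegral.integral_mono_interval hs.1 hst ht.2
      (Eventually.of_forall (fun r => hG0 r)) (hG.intervalIntegrable _ _)
  have e5 : 0 ≤ ∫ r in (-a)..a, G r := intervalIntegral.integral_nonneg ha (fun r _ => hG0 r)
  calc (f t - f s) ^ 2 ≤ (t - s) * ∫ r in s..t, f' r ^ 2 := e2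
    _ ≤ (t - s) * ∫ r in (-a)..a, G r :=
        mul_le_mul_of_nonneg_left (e3.trans e4) (sub_nonneg.2 hst)
    _ ≤ _ := mul_le_mul_of_nonneg_right (by linarith [hs.1, ht.2]) e5

theorem hasDerivAt_pt0 (v : E3 → ℝ) (hv : ContDiff ℝ 1 v) (y z r : ℝ) :
    HasDerivAt (fun r => v (pt r y z)) (fderiv ℝ v (pt r y z) (ee 0)) r := by
  have h1 : HasFDerivAt v (fderiv ℝ v (pt r y z)) (pt r y z) :=
    (hv.differentiable (by norm_num)).differentiableAt.hasFDerivAt
  have h2 : HasDerivAt (fun r => pt r y z) (ee 0) r := by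
    have : (fun r => pt r y z) = fun r => r • ee 0 + pt 0 y z := by
      funext r; ext i; fin_cases i <;> simp [pt, ee]
    rw [this]
    simpa using ((hasDerivAt_id r).smul_const (ee 0)).add_const (pt 0 y z)
  exact h1.comp_hasDerivAt r h2

theorem hasDerivAt_pt1 (v : E3 → ℝ) (hv : ContDiff ℝ 1 v) (x z r : ℝ) :
    HasDerivAt (fun r => v (pt x r z)) (fderiv ℝ v (pt x r z) (ee 1)) r := by
  have h1 : HasFDerivAt v (fderiv ℝ v (pt x r z)) (pt x r z) :=
    (hv.differentiable (by norm_num)).differentiableAt.hasFDerivAt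
  have h2 : HasDerivAt (fun r => pt x r z) (ee 1) r := by
    have : (fun r => pt x r z) = fun r => r • ee 1 + pt x 0 z := by
      funext r; ext i; fin_cases i <;> simp [pt, ee]
    rw [this]
    simpa using ((hasDerivAt_id r).smul_const (ee 1)).add_const (pt x 0 z)
  exact h1.comp_hasDerivAt r h2

theorem hasDerivAt_pt2 (v : E3 → ℝ) (hv : ContDiff ℝ 1 v) (x y r : ℝ) :
    HasDerivAt (fun r => v (pt x y r)) (fderiv ℝ v (pt x y r) (ee 2)) r := by
  have h1 : HasFDerivAt v (fderiv ℝ v (pt x y r)) (pt x y r) :=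
    (hv.differentiable (by norm_num)).differentiableAt.hasFDerivAt
  have h2 : HasDerivAt (fun r => pt x y r) (ee 2) r := by
    have : (fun r => pt x y r) = fun r => r • ee 2 + pt x y 0 := by
      funext r; ext i; fin_cases i <;> simp [pt, ee]
    rw [this]
    simpa using ((hasDerivAt_id r).smul_const (ee 2)).add_const (pt x y 0)
  exact h1.comp_hasDerivAt r h2

theorem norm_ee (i : Fin 3) : ‖ee i‖ = 1 := by simp [ee]

theorem norm_grad (v : E3 → ℝ) (x : E3) : ‖∇ v x‖ = ‖fderiv ℝ v x‖ := by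
  simp [gradient]

theorem fderiv_ee_sq (v : E3 → ℝ) (x : E3) (i : Fin 3) :
    (fderiv ℝ v x (ee i)) ^ 2 ≤ ‖∇ v x‖ ^ 2 := by
  rw [norm_grad]
  have h := (fderiv ℝ v x).le_opNorm (ee i)
  rw [norm_ee, mul_one, Real.norm_eq_abs] at h
  rw [← sq_abs]
  exact pow_le_pow_left₀ (abs_nonneg _) h 2


/-- Pointwise three-segment bound. -/
theorem three_seg (v : E3 → ℝ) (hv : ContDiff ℝ 1 v) (G : ℝ → ℝ → ℝ → ℝ)
    (hGd : ∀ x y z, G x y z = ‖∇ v (pt x y z)‖ ^ 2)
    (hGc : Continuous (fun p : ℝ × ℝ × ℝ => G p.1 p.2.1 p.2.2))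
    (a b c x y z x' y' ζ : ℝ) (hx : x ∈ Icc (-a) a) (hy : y ∈ Icc (-b) b) (hz : z ∈ Icc (-c) c)
    (hx' : x' ∈ Icc (-a) a) (hy' : y' ∈ Icc (-b) b) (hζ : ζ ∈ Icc (-c) c) :
    (v (pt x y z) - v (pt x' y' ζ)) ^ 2 ≤
      6 * a * (∫ r in (-a)..a, G r y z) + 6 * b * (∫ r in (-b)..b, G x' r z) +
        6 * c * (∫ r in (-c)..c, G x' y' r) := by
  have hfc : Continuous (fun p : ℝ × ℝ × ℝ => fderiv ℝ v (pt p.1 p.2.1 p.2.2)) :=
    (hv.continuous_fderiv (by norm_num)).comp continuous_pt
  have h1 := sq_diff_le (fun r => v (pt r y z)) (fun r => fderiv ℝ v (pt r y z) (ee 0))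
    (fun r => G r y z) (hasDerivAt_pt0 v hv y z)
    ((hfc.comp (by fun_prop : Continuous fun r : ℝ => (r, y, z))).clm_apply continuous_const)
    (hGc.comp (by fun_prop : Continuous fun r : ℝ => (r, y, z)))
    (fun r => by rw [hGd]; exact fderiv_ee_sq v _ 0) a x' x hx' hx
  have h2 := sq_diff_le (fun r => v (pt x' r z)) (fun r => fderiv ℝ v (pt x' r z) (ee 1))
    (fun r => G x' r z) (hasDerivAt_pt1 v hv x' z)
    ((hfc.comp (by fun_prop : Continuous fun r : ℝ => (x', r, z))).clm_apply continuous_const)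
    (hGc.comp (by fun_prop : Continuous fun r : ℝ => (x', r, z)))
    (fun r => by rw [hGd]; exact fderiv_ee_sq v _ 1) b y' y hy' hy
  have h3 := sq_diff_le (fun r => v (pt x' y' r)) (fun r => fderiv ℝ v (pt x' y' r) (ee 2))
    (fun r => G x' y' r) (hasDerivAt_pt2 v hv x' y')
    ((hfc.comp (by fun_prop : Continuous fun r : ℝ => (x', y', r))).clm_apply continuous_const)
    (hGc.comp (by fun_prop : Continuous fun r : ℝ => (x', y', r)))
    (fun r => by rw [hGd]; exact fderiv_ee_sq v _ 2) c ζ z hζ hz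
  set A := ∫ r in (-a)..a, G r y z
  set B := ∫ r in (-b)..b, G x' r z
  set C := ∫ r in (-c)..c, G x' y' r
  set p := v (pt x y z) - v (pt x' y z)
  set q := v (pt x' y z) - v (pt x' y' z)
  set w := v (pt x' y' z) - v (pt x' y' ζ)
  have e : v (pt x y z) - v (pt x' y' ζ) = p + q + w := by simp only [p, q, w]; ring
  rw [e]
  nlinarith [sq_nonneg (p - q), sq_nonneg (q - w), sq_nonneg (p - w)]

theorem roof_mem (x y : ℝ) (hx : x ∈ Icc (-(7/5:ℝ)) (7/5)) (hy : y ∈ Icc (-1:ℝ) 1) :
    roof x y ∈ Icc (0:ℝ) 1 := by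
  unfold roof
  have h1 : |x| ≤ 7/5 := abs_le.2 hx
  have h2 : |y| ≤ 1 := abs_le.2 hy
  constructor
  · have : max 0 (max (|x| - 1) (|y| - 3/5)) ≤ 2/5 := by
      apply max_le (by norm_num) (max_le (by linarith) (by linarith))
    linarith
  · have : 0 ≤ max 0 (max (|x| - 1) (|y| - 3/5)) := le_max_left _ _
    linarith

theorem continuous_roof : Continuous (fun p : ℝ × ℝ => roof p.1 p.2) := by
  unfold roof
  fun_prop

/-- Comparison of the value at a point with the average. -/
theorem avg_bound (v : E3 → ℝ) (hv : Continuous v) (t : ℝ) (H : ℝ → ℝ → ℝ)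
    (hH : Continuous (Function.uncurry H))
    (hb : ∀ x ∈ Icc (-(7/5:ℝ)) (7/5), ∀ y ∈ Icc (-1:ℝ) 1,
      (t - v (pt x y (roof x y))) ^ 2 ≤ H x y ∧ (t - v (pt x y (-roof x y))) ^ 2 ≤ H x y) :
    (t - pavg v) ^ 2 ≤ 5/28 * ∫ x in (-(7/5:ℝ))..(7/5), ∫ y in (-1:ℝ)..1, H x y := by
  have c1 : Continuous (fun p : ℝ × ℝ => v (pt p.1 p.2 (roof p.1 p.2))) :=
    hv.comp (continuous_pt.comp (by
      exact continuous_fst.prodMk (continuous_snd.prodMk continuous_roof)))
  have c2 : Continuous (fun p : ℝ × ℝ => v (pt p.1 p.2 (-roof p.1 p.2))) :=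
    hv.comp (continuous_pt.comp (by
      exact continuous_fst.prodMk (continuous_snd.prodMk continuous_roof.neg)))
  set P := pavg v with hP
  set g : ℝ → ℝ → ℝ := fun x y => v (pt x y (roof x y)) + v (pt x y (-roof x y)) with hg
  have cg : Continuous (Function.uncurry g) := c1.add c2
  have hI : ∫ x in (-(7/5:ℝ))..(7/5), ∫ y in (-1:ℝ)..1, g x y = 56/5 * P := by
    rw [hP, pavg]
    have : (2 * (14/5 : ℝ) * 2) = 56/5 := by norm_num
    rw [this]
    field_simp
    rfl
  -- pointwise inequality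
  have key : ∀ x ∈ Icc (-(7/5:ℝ)) (7/5), ∀ y ∈ Icc (-1:ℝ) 1,
      (t - P) * (2 * t - g x y) ≤ (t - P) ^ 2 + H x y := by
    intro x hx y hy
    obtain ⟨h1, h2⟩ := hb x hx y hy
    simp only [hg]
    nlinarith [sq_nonneg ((t - P) - (t - v (pt x y (roof x y)))),
      sq_nonneg ((t - P) - (t - v (pt x y (-roof x y))))]
  have cL : Continuous (Function.uncurry (fun x y => (t - P) * (2 * t - g x y))) := by
    have : (Function.uncurry (fun x y => (t - P) * (2 * t - g x y))) =
        fun p => (t - P) * (2 * t - Function.uncurry g p) := by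
      funext p; rfl
    rw [this]; fun_prop
  have cR : Continuous (Function.uncurry (fun x y => (t - P) ^ 2 + H x y)) := by
    have : (Function.uncurry (fun x y => (t - P) ^ 2 + H x y)) =
        fun p => (t - P) ^ 2 + Function.uncurry H p := by
      funext p; rfl
    rw [this]; fun_prop
  have hint : ∫ x in (-(7/5:ℝ))..(7/5), ∫ y in (-1:ℝ)..1, (t - P) * (2 * t - g x y) ≤
      ∫ x in (-(7/5:ℝ))..(7/5), ∫ y in (-1:ℝ)..1, ((t - P) ^ 2 + H x y) := by
    apply intervalIntegral.integral_mono_on (by norm_num)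
    · exact (intervalIntegral.continuous_parametric_intervalIntegral_of_continuous' cL _
        _).intervalIntegrable _ _
    · exact (intervalIntegral.continuous_parametric_intervalIntegral_of_continuous' cR _
        _).intervalIntegrable _ _
    · intro x hx
      apply intervalIntegral.integral_mono_on (by norm_num)
      · exact (cL.comp (by fun_prop : Continuous fun y : ℝ => (x, y))).intervalIntegrable _ _
      · exact (cR.comp (by fun_prop : Continuous fun y : ℝ => (x, y))).intervalIntegrable _ _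
      · intro y hy
        exact key x hx y hy
  have hL : ∫ x in (-(7/5:ℝ))..(7/5), ∫ y in (-1:ℝ)..1, (t - P) * (2 * t - g x y) =
      56/5 * (t - P) ^ 2 := by
    have e1 : ∀ x, ∫ y in (-1:ℝ)..1, (t - P) * (2 * t - g x y) =
        (t - P) * (4 * t - ∫ y in (-1:ℝ)..1, g x y) := by
      intro x
      have cgx : Continuous (fun y => g x y) :=
        cg.comp (by fun_prop : Continuous fun y : ℝ => (x, y))
      rw [intervalIntegral.integral_const_mul, intervalIntegral.integral_sub
        (continuous_const.intervalIntegrable _ _) (cgx.intervalIntegrable _ _)]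
      simp only [intervalIntegral.integral_const, smul_eq_mul]
      ring
    simp_rw [e1]
    rw [intervalIntegral.integral_const_mul, intervalIntegral.integral_sub
        (continuous_const.intervalIntegrable _ _)
        ((intervalIntegral.continuous_parametric_intervalIntegral_of_continuous' cg _
        _).intervalIntegrable _ _), hI]
    simp only [intervalIntegral.integral_const, smul_eq_mul]
    ring
  have hR : ∫ x in (-(7/5:ℝ))..(7/5), ∫ y in (-1:ℝ)..1, ((t - P) ^ 2 + H x y) =
      28/5 * (t - P) ^ 2 + ∫ x in (-(7/5:ℝ))..(7/5), ∫ y in (-1:ℝ)..1, H x y := by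
    have e1 : ∀ x, ∫ y in (-1:ℝ)..1, ((t - P) ^ 2 + H x y) =
        2 * (t - P) ^ 2 + ∫ y in (-1:ℝ)..1, H x y := by
      intro x
      have cHx : Continuous (fun y => H x y) :=
        hH.comp (by fun_prop : Continuous fun y : ℝ => (x, y))
      rw [intervalIntegral.integral_add
        (continuous_const.intervalIntegrable _ _) (cHx.intervalIntegrable _ _)]
      simp only [intervalIntegral.integral_const, smul_eq_mul]
      ring
    simp_rw [e1]
    rw [intervalIntegral.integral_add
        (continuous_const.intervalIntegrable _ _)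
        ((intervalIntegral.continuous_parametric_intervalIntegral_of_continuous' hH _
        _).intervalIntegrable _ _)]
    simp only [intervalIntegral.integral_const, smul_eq_mul]
    ring
  rw [hL, hR] at hint
  linarith


theorem cont_param {X : Type*} [TopologicalSpace X] [FirstCountableTopology X] (F : X → ℝ → ℝ)
    (hF : Continuous (fun p : X × ℝ => F p.1 p.2)) (a b : ℝ) :
    Continuous (fun q => ∫ r in a..b, F q r) :=
  intervalIntegral.continuous_parametric_intervalIntegral_of_continuous' (f := F) hF a b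

set_option maxHeartbeats 1000000 in
theorem poincare_box (a b : ℝ) (ha : 7/5 ≤ a) (hb : 1 ≤ b) :
    ∃ Cp : ℝ, ∀ v : E3 → ℝ, ContDiff ℝ 1 v →
      (∫ x in (-a)..a, ∫ y in (-b)..b, ∫ z in (-b)..b, (v (pt x y z) - pavg v) ^ 2) ≤
        Cp * ∫ x in (-a)..a, ∫ y in (-b)..b, ∫ z in (-b)..b, ‖∇ v (pt x y z)‖ ^ 2 := by
  refine ⟨12 * a ^ 2 + 5/28 * (48 * a * b ^ 2) + 5/28 * (48 * a * b ^ 3), ?_⟩
  intro v hv
  have ha0 : (-a) ≤ a := by linarith
  have hb0 : (-b) ≤ b := by linarith
  obtain ⟨G, hG⟩ : ∃ G : ℝ → ℝ → ℝ → ℝ, ∀ x y z, G x y z = ‖∇ v (pt x y z)‖ ^ 2 :=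
    ⟨_, fun _ _ _ => rfl⟩
  simp_rw [← hG]
  have hGc : Continuous (fun p : ℝ × ℝ × ℝ => G p.1 p.2.1 p.2.2) := by
    have h1 : Continuous (fun p : ℝ × ℝ × ℝ => ‖fderiv ℝ v (pt p.1 p.2.1 p.2.2)‖ ^ 2) :=
      (((hv.continuous_fderiv (by norm_num)).comp continuous_pt).norm).pow 2
    have h2 : (fun p : ℝ × ℝ × ℝ => G p.1 p.2.1 p.2.2) =
        (fun p : ℝ × ℝ × ℝ => ‖fderiv ℝ v (pt p.1 p.2.1 p.2.2)‖ ^ 2) := by
      funext p; rw [hG, norm_grad]
    rw [h2]; exact h1
  have hG0 : ∀ x y z, 0 ≤ G x y z := fun x y z => by rw [hG]; exact sq_nonneg _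
  set A : ℝ → ℝ → ℝ := fun y z => ∫ r in (-a)..a, G r y z with hA
  set B : ℝ → ℝ → ℝ := fun x z => ∫ r in (-b)..b, G x r z with hB
  set C : ℝ → ℝ → ℝ := fun x y => ∫ r in (-b)..b, G x y r with hC
  have hA0 : ∀ y z, 0 ≤ A y z := fun y z =>
    intervalIntegral.integral_nonneg ha0 (fun r _ => hG0 _ _ _)
  have hB0 : ∀ y z, 0 ≤ B y z := fun y z =>
    intervalIntegral.integral_nonneg hb0 (fun r _ => hG0 _ _ _)
  have hC0 : ∀ y z, 0 ≤ C y z := fun y z =>
    intervalIntegral.integral_nonneg hb0 (fun r _ => hG0 _ _ _)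
  have cA : Continuous (Function.uncurry A) := by
    have : Function.uncurry A = fun q : ℝ × ℝ => ∫ r in (-a)..a, G r q.1 q.2 := by
      funext q; rfl
    rw [this]
    exact cont_param (fun (q : ℝ × ℝ) r => G r q.1 q.2)
      (hGc.comp (by fun_prop : Continuous fun p : (ℝ × ℝ) × ℝ => (p.2, p.1.1, p.1.2))) _ _
  have cB : Continuous (Function.uncurry B) := by
    have : Function.uncurry B = fun q : ℝ × ℝ => ∫ r in (-b)..b, G q.1 r q.2 := by
      funext q; rfl
    rw [this]
    exact cont_param (fun (q : ℝ × ℝ) r => G q.1 r q.2)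
      (hGc.comp (by fun_prop : Continuous fun p : (ℝ × ℝ) × ℝ => (p.1.1, p.2, p.1.2))) _ _
  have cC : Continuous (Function.uncurry C) := by
    have : Function.uncurry C = fun q : ℝ × ℝ => ∫ r in (-b)..b, G q.1 q.2 r := by
      funext q; rfl
    rw [this]
    exact cont_param (fun (q : ℝ × ℝ) r => G q.1 q.2 r)
      (hGc.comp (by fun_prop : Continuous fun p : (ℝ × ℝ) × ℝ => (p.1.1, p.1.2, p.2))) _ _
  set I : ℝ := ∫ x in (-a)..a, ∫ y in (-b)..b, ∫ z in (-b)..b, G x y z with hI
  have hI0 : 0 ≤ I := by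
    apply intervalIntegral.integral_nonneg ha0; intro x _
    apply intervalIntegral.integral_nonneg hb0; intro y _
    exact hC0 x y
  -- swaps
  have S1 : ∫ y in (-b)..b, ∫ z in (-b)..b, A y z = I := by
    have e1 : ∀ y, ∫ z in (-b)..b, A y z = ∫ r in (-a)..a, C r y := by
      intro y
      exact swapc (fun z r => G r y z)
        (hGc.comp (by fun_prop : Continuous fun p : ℝ × ℝ => (p.2, y, p.1))) _ _ _ _
    simp_rw [e1]
    exact swapc (fun y r => C r y)
      (cC.comp (by fun_prop : Continuous fun p : ℝ × ℝ => (p.2, p.1))) _ _ _ _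
  have S2 : ∫ z in (-b)..b, ∫ x in (-a)..a, B x z = I := by
    have e1 : ∫ z in (-b)..b, ∫ x in (-a)..a, B x z = ∫ x in (-a)..a, ∫ z in (-b)..b, B x z :=
      swapc (fun z x => B x z)
        (cB.comp (by fun_prop : Continuous fun p : ℝ × ℝ => (p.2, p.1))) _ _ _ _
    rw [e1, hI]
    congr 1
    funext x
    exact swapc (fun z r => G x r z)
        (hGc.comp (by fun_prop : Continuous fun p : ℝ × ℝ => (x, p.2, p.1))) _ _ _ _
  have S3 : ∫ x in (-a)..a, ∫ y in (-b)..b, C x y = I := rfl
  -- pointwise bound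
  have pw : ∀ x ∈ Icc (-a) a, ∀ y ∈ Icc (-b) b, ∀ z ∈ Icc (-b) b,
      (v (pt x y z) - pavg v) ^ 2 ≤ 6 * a * A y z + (5/28 * (12 * b) *
        (∫ x' in (-a)..a, B x' z) + 5/28 * (6 * b) * I) := by
    intro x hx y hy z hz
    have h1 := avg_bound v hv.continuous (v (pt x y z))
      (fun x' y' => 6 * a * A y z + (6 * b * B x' z + 6 * b * C x' y'))
      (by
        have : Function.uncurry (fun x' y' => 6 * a * A y z + (6 * b * B x' z + 6 * b * C x' y'))
          = fun p : ℝ × ℝ => 6 * a * A y z + (6 * b * Function.uncurry B (p.1, z) +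
            6 * b * Function.uncurry C p) := by
          funext p; rfl
        rw [this]
        fun_prop)
      (by
        intro x' hx' y' hy'
        have hr := roof_mem x' y' hx' hy'
        have hx2 : x' ∈ Icc (-a) a := ⟨by linarith [hx'.1], by linarith [hx'.2]⟩
        have hy2 : y' ∈ Icc (-b) b := ⟨by linarith [hy'.1], by linarith [hy'.2]⟩
        constructor
        · have := three_seg v hv G hG hGc a b b x y z x' y' (roof x' y') hx hy hz
            hx2 hy2 ⟨by linarith [hr.1], by linarith [hr.2]⟩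
          simp only [hA, hB, hC]
          linarith
        · have := three_seg v hv G hG hGc a b b x y z x' y' (-roof x' y') hx hy hz
            hx2 hy2 ⟨by linarith [hr.2], by linarith [hr.1]⟩
          simp only [hA, hB, hC]
          linarith)
    refine h1.trans ?_
    -- evaluate the integral
    have e1 : ∀ x', ∫ y' in (-1:ℝ)..1, (6 * a * A y z + (6 * b * B x' z + 6 * b * C x' y')) =
        12 * a * A y z + (12 * b * B x' z + 6 * b * ∫ y' in (-1:ℝ)..1, C x' y') := by
      intro x'
      have cx : Continuous (fun y' => C x' y') :=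
        cC.comp (by fun_prop : Continuous fun y : ℝ => (x', y))
      rw [intervalIntegral.integral_add (continuous_const.intervalIntegrable _ _)
        ((by fun_prop : Continuous fun y' => 6 * b * B x' z + 6 * b * C x' y').intervalIntegrable
          _ _),
        intervalIntegral.integral_add (continuous_const.intervalIntegrable _ _)
        ((cx.const_mul _).intervalIntegrable _ _)]
      simp only [intervalIntegral.integral_const_mul, intervalIntegral.integral_const, smul_eq_mul]
      ring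
    simp_rw [e1]
    have cBz : Continuous (fun x' => B x' z) :=
      cB.comp (by fun_prop : Continuous fun x : ℝ => (x, z))
    have cCx : Continuous (fun x' => ∫ y' in (-1:ℝ)..1, C x' y') :=
      intervalIntegral.continuous_parametric_intervalIntegral_of_continuous' cC _ _
    rw [intervalIntegral.integral_add (continuous_const.intervalIntegrable _ _)
        ((by fun_prop : Continuous fun x' => 12 * b * B x' z +
          6 * b * ∫ y' in (-1:ℝ)..1, C x' y').intervalIntegrable _ _),
        intervalIntegral.integral_add ((cBz.const_mul _).intervalIntegrable _ _)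
        ((cCx.const_mul _).intervalIntegrable _ _)]
    simp only [intervalIntegral.integral_const_mul, intervalIntegral.integral_const, smul_eq_mul]
    have b1 : ∫ x' in (-(7/5:ℝ))..(7/5), B x' z ≤ ∫ x' in (-a)..a, B x' z :=
      intervalIntegral.integral_mono_interval (by linarith) (by norm_num) ha
        (Eventually.of_forall (fun r => hB0 r z)) (cBz.intervalIntegrable _ _)
    have b2 : ∫ x' in (-(7/5:ℝ))..(7/5), ∫ y' in (-1:ℝ)..1, C x' y' ≤ I := by
      have c1 : ∫ x' in (-(7/5:ℝ))..(7/5), ∫ y' in (-1:ℝ)..1, C x' y' ≤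
          ∫ x' in (-a)..a, ∫ y' in (-1:ℝ)..1, C x' y' :=
        intervalIntegral.integral_mono_interval (by linarith) (by norm_num) ha
          (Eventually.of_forall (fun r =>
            intervalIntegral.integral_nonneg (by norm_num) (fun s _ => hC0 r s)))
          (cCx.intervalIntegrable _ _)
      refine c1.trans ?_
      rw [← S3]
      apply intervalIntegral.integral_mono_on ha0 (cCx.intervalIntegrable _ _)
      · exact (intervalIntegral.continuous_parametric_intervalIntegral_of_continuous' cC _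
          _).intervalIntegrable _ _
      · intro x' _
        exact intervalIntegral.integral_mono_interval (by linarith) (by norm_num) hb
          (Eventually.of_forall (fun r => hC0 x' r))
          ((cC.comp (by fun_prop : Continuous fun y : ℝ => (x', y))).intervalIntegrable _ _)
    have b3 : 0 ≤ b := by linarith
    have q1 := mul_le_mul_of_nonneg_left b1 b3
    have q2 := mul_le_mul_of_nonneg_left b2 b3
    linarith
  -- integrate
  set Bz : ℝ → ℝ := fun z => ∫ x' in (-a)..a, B x' z with hBz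
  have cBzc : Continuous Bz := by
    rw [hBz]
    exact intervalIntegral.continuous_parametric_intervalIntegral_of_continuous'
      (f := fun z x' => B x' z)
      (cB.comp (by fun_prop : Continuous fun p : ℝ × ℝ => (p.2, p.1))) _ _
  set Φ : ℝ → ℝ → ℝ := fun y z => 6 * a * A y z + (5/28 * (12 * b) * Bz z + 5/28 * (6 * b) * I)
    with hΦ
  have cΦ : Continuous (Function.uncurry Φ) := by
    have : Function.uncurry Φ = fun p : ℝ × ℝ => 6 * a * Function.uncurry A p +
      (5/28 * (12 * b) * Bz p.2 + 5/28 * (6 * b) * I) := by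
      funext p; rfl
    rw [this]; fun_prop
  have cv : Continuous (fun p : ℝ × ℝ × ℝ => (v (pt p.1 p.2.1 p.2.2) - pavg v) ^ 2) :=
    ((hv.continuous.comp continuous_pt).sub continuous_const).pow 2
  have cv2 : Continuous (fun p : ℝ × ℝ => ∫ z in (-b)..b, (v (pt p.1 p.2 z) - pavg v) ^ 2) := by
    apply intervalIntegral.continuous_parametric_intervalIntegral_of_continuous'
      (f := fun (p : ℝ × ℝ) z => (v (pt p.1 p.2 z) - pavg v) ^ 2)
    exact cv.comp (by fun_prop : Continuous fun p : (ℝ × ℝ) × ℝ => (p.1.1, p.1.2, p.2))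
  have cv3 : Continuous (fun x : ℝ => ∫ y in (-b)..b, ∫ z in (-b)..b,
      (v (pt x y z) - pavg v) ^ 2) := by
    apply intervalIntegral.continuous_parametric_intervalIntegral_of_continuous'
      (f := fun (x : ℝ) y => ∫ z in (-b)..b, (v (pt x y z) - pavg v) ^ 2)
    exact cv2
  have cΦ2 : Continuous (fun y : ℝ => ∫ z in (-b)..b, Φ y z) :=
    intervalIntegral.continuous_parametric_intervalIntegral_of_continuous' cΦ _ _
  have step : (∫ x in (-a)..a, ∫ y in (-b)..b, ∫ z in (-b)..b, (v (pt x y z) - pavg v) ^ 2) ≤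
      ∫ x in (-a)..a, ∫ y in (-b)..b, ∫ z in (-b)..b, Φ y z := by
    apply intervalIntegral.integral_mono_on ha0 (cv3.intervalIntegrable _ _)
      (continuous_const.intervalIntegrable _ _)
    intro x hx
    apply intervalIntegral.integral_mono_on hb0
      ((cv2.comp (by fun_prop : Continuous fun y : ℝ => (x, y))).intervalIntegrable _ _)
      (cΦ2.intervalIntegrable _ _)
    intro y hy
    apply intervalIntegral.integral_mono_on hb0
      ((cv.comp (by fun_prop : Continuous fun z : ℝ => (x, y, z))).intervalIntegrable _ _)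
      ((cΦ.comp (by fun_prop : Continuous fun z : ℝ => (y, z))).intervalIntegrable _ _)
    intro z hz
    exact pw x hx y hy z hz
  refine step.trans (le_of_eq ?_)
  have e1 : ∀ y, ∫ z in (-b)..b, Φ y z = 6 * a * (∫ z in (-b)..b, A y z) +
      (5/28 * (12 * b) * I + 5/28 * (6 * b) * (2 * b) * I) := by
    intro y
    have cAy : Continuous (fun z => A y z) :=
      cA.comp (by fun_prop : Continuous fun z : ℝ => (y, z))
    simp only [hΦ]
    rw [intervalIntegral.integral_add ((cAy.const_mul _).intervalIntegrable _ _)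
        ((by fun_prop : Continuous fun z => 5/28 * (12 * b) * Bz z +
          5/28 * (6 * b) * I).intervalIntegrable _ _),
        intervalIntegral.integral_add ((cBzc.const_mul _).intervalIntegrable _ _)
        (continuous_const.intervalIntegrable _ _),
        intervalIntegral.integral_const_mul, intervalIntegral.integral_const_mul, S2]
    simp only [intervalIntegral.integral_const, smul_eq_mul]
    ring
  simp_rw [e1]
  have cAi : Continuous (fun y => ∫ z in (-b)..b, A y z) :=
    intervalIntegral.continuous_parametric_intervalIntegral_of_continuous' cA _ _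
  rw [intervalIntegral.integral_const, intervalIntegral.integral_add
      ((cAi.const_mul _).intervalIntegrable _ _) (continuous_const.intervalIntegrable _ _),
      intervalIntegral.integral_const_mul, S1]
  simp only [intervalIntegral.integral_const, smul_eq_mul]
  ring

theorem cellBc_closed' : IsClosed cellBc := by
  have h1 : Continuous (fun p : E3 => |p 2|) := by fun_prop
  have h2 : Continuous (fun p : E3 => roof (p 0) (p 1)) := by
    unfold roof; fun_prop
  exact isClosed_le h1 h2

theorem Dbox_open' : IsOpen Dbox := by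
  have h0 : Continuous (fun p : E3 => |p 0|) := by fun_prop
  have h1 : Continuous (fun p : E3 => |p 1|) := by fun_prop
  have h2 : Continuous (fun p : E3 => |p 2|) := by fun_prop
  exact (isOpen_lt h0 continuous_const).inter
    ((isOpen_lt h1 continuous_const).inter (isOpen_lt h2 continuous_const))

theorem cellBc_subset_Dbox' : cellBc ⊆ Dbox := by
  intro p hp
  have h : |p 2| ≤ 1 - 5/2 * max 0 (max (|p 0| - 1) (|p 1| - 3/5)) := hp
  have h0 : |p 0| - 1 ≤ max 0 (max (|p 0| - 1) (|p 1| - 3/5)) :=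
    (le_max_left _ _).trans (le_max_right _ _)
  have h1 : |p 1| - 3/5 ≤ max 0 (max (|p 0| - 1) (|p 1| - 3/5)) :=
    (le_max_right _ _).trans (le_max_right _ _)
  have h2 : 0 ≤ max 0 (max (|p 0| - 1) (|p 1| - 3/5)) := le_max_left _ _
  have h3 : 0 ≤ |p 2| := abs_nonneg _
  refine ⟨?_, ?_, ?_⟩ <;> linarith

theorem Dbox_norm' (x : E3) (hx : x ∈ Dbox) : ‖x‖ ≤ 3 := by
  obtain ⟨h0, h1, h2⟩ := hx
  rw [EuclideanSpace.norm_eq, Fin.sum_univ_three]
  apply Real.sqrt_le_iff.2 ⟨by norm_num, ?_⟩
  simp only [Real.norm_eq_abs]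
  nlinarith [abs_nonneg (x 0), abs_nonneg (x 1), abs_nonneg (x 2)]

end Crest.Agent.R083.Poin

namespace Crest.Agent.R083

open MeasureTheory Set Filter
open scoped Gradient ENNReal NNReal Topology ContDiff

open Poin in
/-- Poincare inequality on the big box with the cell boundary average. -/
theorem poincare_cell : ∃ Cp : ℝ, ∀ v : E3 → ℝ, ContDiff ℝ 1 v →
    ∫ x in Dbox, (v x - pavg v) ^ 2 ≤ Cp * ∫ x in Dbox, ‖∇ v x‖ ^ 2 := by
  obtain ⟨Cp, h⟩ := poincare_box (71/50) (51/50) (by norm_num) (by norm_num)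
  refine ⟨Cp, fun v hv => ?_⟩
  have h1 : Continuous (fun x => (v x - pavg v) ^ 2) :=
    (hv.continuous.sub continuous_const).pow 2
  have h2 : Continuous (fun x => ‖∇ v x‖ ^ 2) := by
    have : (fun x => ‖∇ v x‖ ^ 2) = fun x => ‖fderiv ℝ v x‖ ^ 2 := by
      funext x; rw [norm_grad]
    rw [this]
    exact ((hv.continuous_fderiv (by norm_num)).norm).pow 2
  rw [integral_Dbox _ h1, integral_Dbox _ h2]
  exact h v hv

open Poin in
/-- Cutoff around the basic cell. -/
theorem cutoff_cell : ∃ (χ : E3 → ℝ) (K : ℝ), ContDiff ℝ ∞ χ ∧ (∀ x, 0 ≤ χ x ∧ χ x ≤ 1) ∧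
    (∀ x, ‖∇ χ x‖ ≤ K) ∧ (∀ x ∈ cellBc, χ x = 0) ∧
    (∀ x ∉ Dbox, χ x = 1) ∧ (∀ x ∉ Dbox, ∇ χ x = 0) := by
  have hd : Disjoint cellBc Dboxᶜ := by
    rw [disjoint_compl_right_iff_subset]; exact cellBc_subset_Dbox'
  obtain ⟨f, h0, h1, h2⟩ := exists_contMDiffMap_zero_one_of_isClosed (modelWithCornersSelf ℝ E3)
    (n := (⊤ : ℕ∞)) cellBc_closed' Dbox_open'.isClosed_compl hd
  have hf : ContDiff ℝ ∞ f := f.contMDiff.contDiff
  have hgrad : ∀ x ∉ Dbox, ∇ (f : E3 → ℝ) x = 0 := by
    intro x hx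
    have hx1 : f x = 1 := h1 hx
    have hm : IsLocalMax (f : E3 → ℝ) x := by
      apply Eventually.of_forall
      intro y
      rw [hx1]; exact (h2 y).2
    have := hm.fderiv_eq_zero
    simp [gradient, this]
  have hc : Continuous (fun x => ‖∇ (f : E3 → ℝ) x‖) := by
    have : (fun x => ‖∇ (f : E3 → ℝ) x‖) = fun x => ‖fderiv ℝ (f : E3 → ℝ) x‖ := by
      funext x; rw [norm_grad]
    rw [this]
    exact (hf.continuous_fderiv (by norm_num)).norm
  obtain ⟨K, hK⟩ := (isCompact_closedBall (0 : E3) 3).exists_bound_of_continuousOn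
    (f := fun x => ‖∇ (f : E3 → ℝ) x‖) hc.continuousOn
  refine ⟨f, max K 0, hf, fun x => h2 x, ?_, fun x hx => h0 hx, fun x hx => h1 hx, hgrad⟩
  intro x
  by_cases hx : x ∈ Dbox
  · have := hK x (by simpa using Dbox_norm' x hx)
    rw [norm_norm] at this
    exact this.trans (le_max_left _ _)
  · rw [hgrad x hx, norm_zero]
    exact le_max_right _ _

end Crest.Agent.R083
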