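import Crest.Agent.R083.FinDefs
import Crest.Agent.R083.TreeGeom
import Crest.Agent.R083.Poincare

/-!
Row 83 (S0111), FIN-b: cutting a function down to a constant on all cells of one level.
-/

set_option autoImplicit false

namespace Crest.Agent.R083

open MeasureTheory Set Filter
open scoped Gradient ENNReal NNReal Topology ContDiff

theorem cl_Dbox_open : IsOpen Dbox := by
  have h0 := tg_continuous_coord 0
  have h1 := tg_continuous_coord 1
  have h2 := tg_continuous_coord 2
  exact (isOpen_lt h0.abs continuous_const).inter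
    ((isOpen_lt h1.abs continuous_const).inter (isOpen_lt h2.abs continuous_const))

theorem cl_Dbox_norm {x : E3} (hx : x ∈ Dbox) : ‖x‖ ≤ 3 := by
  rw [mem_Dbox] at hx
  obtain ⟨h0, h1, h2⟩ := hx
  have h := tg_norm_sq x
  have e0 : x 0 ^ 2 ≤ (71/50) ^ 2 := by
    rw [← sq_abs (x 0)]; exact pow_le_pow_left₀ (abs_nonneg _) h0.le 2
  have e1 : x 1 ^ 2 ≤ (51/50) ^ 2 := by
    rw [← sq_abs (x 1)]; exact pow_le_pow_left₀ (abs_nonneg _) h1.le 2
  have e2 : x 2 ^ 2 ≤ (51/50) ^ 2 := by
    rw [← sq_abs (x 2)]; exact pow_le_pow_left₀ (abs_nonneg _) h2.le 2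
  have h9 : ‖x‖ ^ 2 ≤ 3 ^ 2 := by rw [h]; norm_num at *; linarith
  exact le_of_sq_le_sq h9 (by norm_num)

theorem Ln_subset (n : ℕ) : Ln n ⊆ Dbox := by
  induction n with
  | zero => exact subset_rfl
  | succ n ih =>
    exact union_subset ((image_mono ih).trans (sim_Dbox true))
      ((image_mono ih).trans (sim_Dbox false))

theorem Ln_measurable (n : ℕ) : MeasurableSet (Ln n) := by
  induction n with
  | zero => exact cl_Dbox_open.measurableSet
  | succ n ih => exact (measurableSet_sim_image true ih).union (measurableSet_sim_image false ih)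

theorem volume_Ln (n : ℕ) :
    volume (Ln n) ≤ ENNReal.ofReal ((54/125 : ℝ) ^ n) * volume Dbox := by
  induction n with
  | zero => simp [Ln]
  | succ n ih =>
    calc volume (Ln (n + 1)) ≤ volume (sim true '' Ln n) + volume (sim false '' Ln n) :=
          measure_union_le _ _
      _ = ENNReal.ofReal (54/125) * volume (Ln n) := by
          rw [volume_sim, volume_sim, ← add_mul, ← ENNReal.ofReal_add (by norm_num) (by norm_num)]
          norm_num
      _ ≤ ENNReal.ofReal (54/125) * (ENNReal.ofReal ((54/125 : ℝ) ^ n) * volume Dbox) := by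
          gcongr
      _ = ENNReal.ofReal ((54/125 : ℝ) ^ (n + 1)) * volume Dbox := by
          rw [← mul_assoc, ← ENNReal.ofReal_mul (by norm_num), pow_succ, mul_comm (54/125 : ℝ)]

theorem cl_integrableOn {f : E3 → ℝ} (hf : Continuous f) {S : Set E3} (hS : S ⊆ Dbox) :
    IntegrableOn f S volume := by
  have h1 : IntegrableOn f (Metric.closedBall (0:E3) 3) volume :=
    hf.continuousOn.integrableOn_compact (isCompact_closedBall _ _)
  refine h1.mono_set (hS.trans fun x hx => ?_)
  rw [mem_closedBall_zero_iff]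
  exact cl_Dbox_norm hx

theorem cl_grad_continuous {v : E3 → ℝ} (hv : ContDiff ℝ 1 v) : Continuous (fun x => ∇ v x) := by
  unfold gradient
  exact (LinearIsometryEquiv.continuous _).comp (hv.continuous_fderiv (by norm_num))

theorem cl_grad_cut {χ v : E3 → ℝ} (hχ : Differentiable ℝ χ) (hv : Differentiable ℝ v)
    (κ : ℝ) (x : E3) :
    ∇ (fun y => κ + χ y * (v y - κ)) x = χ x • ∇ v x + (v x - κ) • ∇ χ x := by
  have h : fderiv ℝ (fun y => κ + χ y * (v y - κ)) x
      = χ x • fderiv ℝ v x + (v x - κ) • fderiv ℝ χ x := by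
    have h1 : HasFDerivAt (fun y => χ y * (v y - κ)) (χ x • fderiv ℝ v x + (v x - κ) • fderiv ℝ χ x) x :=
      (hχ x).hasFDerivAt.mul ((hv x).hasFDerivAt.sub_const κ)
    exact (h1.const_add κ).fderiv
  unfold gradient
  rw [h, map_add, map_smulₛₗ, map_smulₛₗ]
  simp

/-- The base case. -/
theorem cut_base : ∃ C₁ C₂ : ℝ, 0 ≤ C₁ ∧ 0 ≤ C₂ ∧ ∀ (v : E3 → ℝ) (κ η : ℝ),
    ContDiff ℝ 1 v → |pavg v - κ| ≤ η →
    ∃ v' : E3 → ℝ, ContDiff ℝ 1 v' ∧ (∀ x ∉ Dbox, v' x = v x) ∧ (∀ x ∉ Dbox, ∇ v' x = ∇ v x) ∧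
      (∀ x ∈ cellBc, v' x = κ) ∧
      ∫ x in Dbox, ‖∇ v' x‖ ^ 2 ≤ C₁ * (∫ x in Dbox, ‖∇ v x‖ ^ 2) + C₂ * η ^ 2 := by
  obtain ⟨Cp, hCp⟩ := poincare_cell
  obtain ⟨χ, K, hχs, hχ01, hχK, hχ0, hχ1, hχg⟩ := cutoff_cell
  have hvol : volume Dbox ≠ (⊤ : ℝ≥0∞) := by
    refine ne_of_lt (lt_of_le_of_lt (measure_mono (t := Metric.closedBall (0:E3) 3) ?_)
      measure_closedBall_lt_top)
    intro x hx
    rw [mem_closedBall_zero_iff]
    exact cl_Dbox_norm hx
  refine ⟨2 + 4 * K ^ 2 * max Cp 0, 4 * K ^ 2 * (volume Dbox).toReal, by positivity,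
    by positivity, ?_⟩
  intro v κ η hv hη
  have hχ1' : ContDiff ℝ 1 χ := hχs.of_le (by exact_mod_cast le_top)
  have hχd : Differentiable ℝ χ := hχ1'.differentiable (by norm_num)
  have hvd : Differentiable ℝ v := hv.differentiable (by norm_num)
  have hg := cl_grad_cut hχd hvd κ
  have hv' : ContDiff ℝ 1 (fun y => κ + χ y * (v y - κ)) :=
    contDiff_const.add (hχ1'.mul (hv.sub contDiff_const))
  refine ⟨fun y => κ + χ y * (v y - κ), hv', ?_, ?_, ?_, ?_⟩
  · intro x hx
    simp only [hχ1 x hx]; ring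
  · intro x hx
    rw [hg x, hχ1 x hx, hχg x hx]; simp
  · intro x hx
    simp only [hχ0 x hx]; ring
  · have hpt : ∀ x, ‖∇ (fun y => κ + χ y * (v y - κ)) x‖ ^ 2 ≤
        2 * ‖∇ v x‖ ^ 2 + 4 * K ^ 2 * (v x - pavg v) ^ 2 + 4 * K ^ 2 * η ^ 2 := by
      intro x
      rw [hg x]
      have h1 : ‖χ x • ∇ v x + (v x - κ) • ∇ χ x‖ ≤ ‖∇ v x‖ + |v x - κ| * K := by
        refine (norm_add_le _ _).trans ?_
        rw [norm_smul, norm_smul, Real.norm_eq_abs, Real.norm_eq_abs,
          abs_of_nonneg (hχ01 x).1]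
        refine add_le_add ?_ (mul_le_mul_of_nonneg_left (hχK x) (abs_nonneg _))
        have := mul_le_mul_of_nonneg_right (hχ01 x).2 (norm_nonneg (∇ v x))
        linarith
      have h2 : ‖χ x • ∇ v x + (v x - κ) • ∇ χ x‖ ^ 2 ≤ (‖∇ v x‖ + |v x - κ| * K) ^ 2 :=
        pow_le_pow_left₀ (norm_nonneg _) h1 2
      have h3 : (v x - κ) ^ 2 ≤ 2 * (v x - pavg v) ^ 2 + 2 * η ^ 2 := by
        have h4 : (pavg v - κ) ^ 2 ≤ η ^ 2 := by
          rw [← sq_abs (pavg v - κ)]
          exact pow_le_pow_left₀ (abs_nonneg _) hη 2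
        have h5 : v x - κ = (v x - pavg v) + (pavg v - κ) := by ring
        rw [h5]
        nlinarith [sq_nonneg ((v x - pavg v) - (pavg v - κ))]
      have h6 : |v x - κ| ^ 2 = (v x - κ) ^ 2 := sq_abs _
      have h7 : (‖∇ v x‖ + |v x - κ| * K) ^ 2 ≤ 2 * ‖∇ v x‖ ^ 2 + 2 * (K ^ 2 * (v x - κ) ^ 2) := by
        rw [← h6]
        nlinarith [sq_nonneg (‖∇ v x‖ - |v x - κ| * K)]
      have h8 : K ^ 2 * (v x - κ) ^ 2 ≤ K ^ 2 * (2 * (v x - pavg v) ^ 2 + 2 * η ^ 2) :=
        mul_le_mul_of_nonneg_left h3 (sq_nonneg K)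
      linarith
    have hgc := cl_grad_continuous hv
    have hgc' := cl_grad_continuous hv'
    have i1 : IntegrableOn (fun x => ‖∇ v x‖ ^ 2) Dbox volume :=
      cl_integrableOn (hgc.norm.pow 2) subset_rfl
    have i2 : IntegrableOn (fun x => (v x - pavg v) ^ 2) Dbox volume :=
      cl_integrableOn ((hv.continuous.sub continuous_const).pow 2) subset_rfl
    have i3 : IntegrableOn (fun x => ‖∇ (fun y => κ + χ y * (v y - κ)) x‖ ^ 2) Dbox volume :=
      cl_integrableOn (hgc'.norm.pow 2) subset_rfl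
    have i4 : IntegrableOn (fun _ : E3 => 4 * K ^ 2 * η ^ 2) Dbox volume :=
      cl_integrableOn continuous_const subset_rfl
    have i5 : IntegrableOn (fun x => 2 * ‖∇ v x‖ ^ 2 + 4 * K ^ 2 * (v x - pavg v) ^ 2) Dbox
        volume := (i1.const_mul 2).add (i2.const_mul (4 * K ^ 2))
    have hint : ∫ x in Dbox, ‖∇ (fun y => κ + χ y * (v y - κ)) x‖ ^ 2 ≤
        ∫ x in Dbox, (2 * ‖∇ v x‖ ^ 2 + 4 * K ^ 2 * (v x - pavg v) ^ 2 + 4 * K ^ 2 * η ^ 2) :=
      integral_mono i3 (i5.add i4) hpt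
    have heq : ∫ x in Dbox, (2 * ‖∇ v x‖ ^ 2 + 4 * K ^ 2 * (v x - pavg v) ^ 2 + 4 * K ^ 2 * η ^ 2)
        = 2 * (∫ x in Dbox, ‖∇ v x‖ ^ 2) + 4 * K ^ 2 * (∫ x in Dbox, (v x - pavg v) ^ 2) +
          (volume Dbox).toReal * (4 * K ^ 2 * η ^ 2) := by
      rw [integral_add i5 i4,
        integral_add (i1.const_mul 2) (i2.const_mul (4 * K ^ 2)), integral_const_mul,
        integral_const_mul, setIntegral_const, smul_eq_mul]
      rfl
    rw [heq] at hint
    have hp := hCp v hv
    have h0 : 0 ≤ ∫ x in Dbox, ‖∇ v x‖ ^ 2 := integral_nonneg fun x => sq_nonneg _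
    have hp' : ∫ x in Dbox, (v x - pavg v) ^ 2 ≤ max Cp 0 * ∫ x in Dbox, ‖∇ v x‖ ^ 2 :=
      hp.trans (mul_le_mul_of_nonneg_right (le_max_left _ _) h0)
    have hp'' := mul_le_mul_of_nonneg_left hp' (show 0 ≤ 4 * K ^ 2 by positivity)
    linarith

/-- Make a `C¹` function equal to `κ` on all closed cells of level `n`. -/
theorem cut_level : ∃ C₁ C₂ : ℝ, 0 ≤ C₁ ∧ 0 ≤ C₂ ∧ ∀ (n : ℕ) (v : E3 → ℝ) (κ η : ℝ),
    ContDiff ℝ 1 v → (∀ w : List Bool, w.length = n → |pavg (v ∘ simw w) - κ| ≤ η) →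
    ∃ v' : E3 → ℝ, ContDiff ℝ 1 v' ∧ (∀ x ∉ Ln n, v' x = v x) ∧ (∀ x ∉ Ln n, ∇ v' x = ∇ v x) ∧
      (∀ x ∈ Kc n, v' x = κ) ∧
      ∫ x in Ln n, ‖∇ v' x‖ ^ 2 ≤ C₁ * (∫ x in Ln n, ‖∇ v x‖ ^ 2) + C₂ * (6/5 : ℝ) ^ n * η ^ 2 := by
  obtain ⟨C₁, C₂, h1, h2, hbase⟩ := cut_base
  refine ⟨C₁, C₂, h1, h2, fun n => ?_⟩
  induction n with
  | zero =>
    intro v κ η hv hw
    obtain ⟨v', a1, a2, a3, a4, a5⟩ := hbase v κ η hv (by simpa [simw] using hw [] rfl)
    refine ⟨v', a1, a2, a3, a4, ?_⟩
    simpa [Ln] using a5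
  | succ n ih =>
    intro v κ η hv hw
    have hsmooth : ∀ b, ContDiff ℝ 1 (sim b) := by
      intro b
      have : sim b = fun x => ctr b + (simLin : E3 →L[ℝ] E3) x := by
        funext x
        rw [sim_eq]
        congr 1
        exact (simLin_apply x).symm
      rw [this]
      exact contDiff_const.add (ContinuousLinearMap.contDiff _)
    have hsmoothI : ∀ b, ContDiff ℝ 1 (simInv b) := by
      intro b
      have : simInv b = fun x => (simLin.symm : E3 →L[ℝ] E3) (x - ctr b) := by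
        funext x
        have e : simLin ((5/3 : ℝ) • swp (x - ctr b)) = x - ctr b := by
          rw [simLin_apply, swp_smul, swp_swp, smul_smul]; norm_num
        rw [simInv_eq]
        show _ = simLin.symm (x - ctr b)
        rw [← e, ContinuousLinearEquiv.symm_apply_apply, e]
      rw [this]
      exact (ContinuousLinearMap.contDiff _).comp (contDiff_id.sub contDiff_const)
    have hstep : ∀ b, ∃ v' : E3 → ℝ, ContDiff ℝ 1 v' ∧ (∀ x ∉ Ln n, v' x = (v ∘ sim b) x) ∧
      (∀ x ∉ Ln n, ∇ v' x = ∇ (v ∘ sim b) x) ∧ (∀ x ∈ Kc n, v' x = κ) ∧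
      ∫ x in Ln n, ‖∇ v' x‖ ^ 2 ≤ C₁ * (∫ x in Ln n, ‖∇ (v ∘ sim b) x‖ ^ 2) +
        C₂ * (6/5 : ℝ) ^ n * η ^ 2 := by
      intro b
      refine ih (v ∘ sim b) κ η (hv.comp (hsmooth b)) (fun w hwl => ?_)
      have := hw (b :: w) (by simp [hwl])
      simpa [simw, Function.comp_assoc] using this
    choose u u1 u2 u3 u4 u5 using hstep
    -- the new function
    set v' : E3 → ℝ := fun x => v x + ((u true (simInv true x) - v x) +
      (u false (simInv false x) - v x)) with hv'def
    have hv's : ContDiff ℝ 1 v' := by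
      refine hv.add (ContDiff.add ?_ ?_)
      · exact ((u1 true).comp (hsmoothI true)).sub hv
      · exact ((u1 false).comp (hsmoothI false)).sub hv
    have hvd : Differentiable ℝ v := hv.differentiable (by norm_num)
    have hd : ∀ b, Differentiable ℝ (fun x => u b (simInv b x)) := fun b =>
      ((u1 b).comp (hsmoothI b)).differentiable (by norm_num)
    have hgrad : ∀ x, ∇ v' x = ∇ v x +
        ((((5/3 : ℝ) • swp (∇ (u true) (simInv true x))) - ∇ v x) +
        (((5/3 : ℝ) • swp (∇ (u false) (simInv false x))) - ∇ v x)) := by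
      intro x
      rw [← grad_comp_simInv true (u true) x, ← grad_comp_simInv false (u false) x]
      have hf : fderiv ℝ v' x = fderiv ℝ v x +
          ((fderiv ℝ (fun y => u true (simInv true y)) x - fderiv ℝ v x) +
          (fderiv ℝ (fun y => u false (simInv false y)) x - fderiv ℝ v x)) := by
        have h1 := (hd true x).hasFDerivAt
        have h2 := (hd false x).hasFDerivAt
        have h3 := (hvd x).hasFDerivAt
        exact (h3.add ((h1.sub h3).add (h2.sub h3))).fderiv
      unfold gradient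
      rw [hf, map_add, map_add, map_sub, map_sub]
    have hoff : ∀ b x, x ∉ sim b '' Ln n → u b (simInv b x) = v x := by
      intro b x hx
      rw [mem_sim_image] at hx
      rw [u2 b _ hx]
      simp only [Function.comp, sim_simInv]
    have hoffg : ∀ b x, x ∉ sim b '' Ln n →
        (5/3 : ℝ) • swp (∇ (u b) (simInv b x)) = ∇ v x := by
      intro b x hx
      rw [mem_sim_image] at hx
      rw [u3 b _ hx, grad_comp_sim, sim_simInv, swp_smul, swp_swp, smul_smul]
      norm_num
    have hdisj : Disjoint (sim true '' Ln n) (sim false '' Ln n) :=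
      Dbox_disjoint.mono (image_mono (Ln_subset n)) (image_mono (Ln_subset n))
    have hT : ∀ x ∈ sim true '' Ln n, x ∉ sim false '' Ln n := fun x hx hx' =>
      (Set.disjoint_left.1 hdisj hx) hx'
    have hF : ∀ x ∈ sim false '' Ln n, x ∉ sim true '' Ln n := fun x hx hx' =>
      (Set.disjoint_left.1 hdisj hx') hx
    have hKD : ∀ m, Kc m ⊆ Dbox := by
      intro m
      induction m with
      | zero =>
        intro x hx
        have hx' : x ∈ cellBc := hx
        rw [mem_cellBc] at hx'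
        rw [mem_Dbox]
        obtain ⟨h1, h2, h3⟩ := hx'
        have := abs_nonneg (x 2)
        have := abs_nonneg (x 1)
        have := abs_nonneg (x 0)
        refine ⟨by linarith, by linarith, by linarith⟩
      | succ m ihm =>
        exact union_subset ((image_mono ihm).trans (sim_Dbox true))
          ((image_mono ihm).trans (sim_Dbox false))
    have hKT : ∀ x ∈ sim true '' Kc n, x ∉ sim false '' Ln n := by
      intro x hx hx'
      exact (Set.disjoint_left.1 Dbox_disjoint (image_mono (hKD n) hx))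
        (image_mono (Ln_subset n) hx')
    have hKF : ∀ x ∈ sim false '' Kc n, x ∉ sim true '' Ln n := by
      intro x hx hx'
      exact (Set.disjoint_left.1 Dbox_disjoint (image_mono (Ln_subset n) hx'))
        (image_mono (hKD n) hx)
    refine ⟨v', hv's, ?_, ?_, ?_, ?_⟩
    · intro x hx
      have hx1 : x ∉ sim true '' Ln n := fun h => hx (Or.inl h)
      have hx2 : x ∉ sim false '' Ln n := fun h => hx (Or.inr h)
      simp only [hv'def, hoff true x hx1, hoff false x hx2]
      ring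
    · intro x hx
      have hx1 : x ∉ sim true '' Ln n := fun h => hx (Or.inl h)
      have hx2 : x ∉ sim false '' Ln n := fun h => hx (Or.inr h)
      rw [hgrad, hoffg true x hx1, hoffg false x hx2]
      simp
    · rintro x (hx | hx)
      · have e1 := hoff false x (hKT x hx)
        have e2 : u true (simInv true x) = κ := u4 true _ ((mem_sim_image true _ x).1 hx)
        simp only [hv'def, e1, e2]; ring
      · have e1 := hoff true x (hKF x hx)
        have e2 : u false (simInv false x) = κ := u4 false _ ((mem_sim_image false _ x).1 hx)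
        simp only [hv'def, e1, e2]; ring
    · -- energy
      have hLm := Ln_measurable n
      have hmT := measurableSet_sim_image true hLm
      have hmF := measurableSet_sim_image false hLm
      have hsub : ∀ b, sim b '' Ln n ⊆ Dbox := fun b =>
        (image_mono (Ln_subset n)).trans (sim_Dbox b)
      have hgc := cl_grad_continuous hv
      have hgc' := cl_grad_continuous hv's
      have split : ∀ f : E3 → ℝ, Continuous f → ∫ x in Ln (n + 1), f x =
          27/125 * (∫ x in Ln n, f (sim true x)) + 27/125 * (∫ x in Ln n, f (sim false x)) := by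
        intro f hf
        have hU : Ln (n + 1) = sim true '' Ln n ∪ sim false '' Ln n := rfl
        rw [hU, setIntegral_union hdisj hmF (cl_integrableOn hf (hsub true))
          (cl_integrableOn hf (hsub false)), integral_sim true _ hLm, integral_sim false _ hLm]
      rw [split (fun x => ‖∇ v' x‖ ^ 2) (hgc'.norm.pow 2),
        split (fun x => ‖∇ v x‖ ^ 2) (hgc.norm.pow 2)]
      have e1 : ∀ b, ∫ x in Ln n, ‖∇ v' (sim b x)‖ ^ 2 = 25/9 * ∫ x in Ln n, ‖∇ (u b) x‖ ^ 2 := by
        intro b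
        rw [← integral_const_mul]
        refine setIntegral_congr_fun hLm (fun x hx => ?_)
        have hxb : sim b x ∈ sim b '' Ln n := mem_image_of_mem _ hx
        have hval : ∇ v' (sim b x) = (5/3 : ℝ) • swp (∇ (u b) x) := by
          rw [hgrad]
          cases b
          · rw [hoffg true _ (hF _ hxb), simInv_sim]; abel
          · rw [hoffg false _ (hT _ hxb), simInv_sim]; abel
        show ‖∇ v' (sim b x)‖ ^ 2 = 25/9 * ‖∇ (u b) x‖ ^ 2
        rw [hval, norm_smul, norm_swp, mul_pow]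
        norm_num
      have e2 : ∀ b, ∫ x in Ln n, ‖∇ (v ∘ sim b) x‖ ^ 2 =
          9/25 * ∫ x in Ln n, ‖∇ v (sim b x)‖ ^ 2 := by
        intro b
        rw [← integral_const_mul]
        refine setIntegral_congr_fun hLm (fun x hx => ?_)
        show ‖∇ (v ∘ sim b) x‖ ^ 2 = 9/25 * ‖∇ v (sim b x)‖ ^ 2
        rw [grad_comp_sim, norm_smul, norm_swp, mul_pow]
        norm_num
      rw [e1, e1]
      have hT5 := u5 true
      have hF5 := u5 false
      rw [e2] at hT5 hF5
      have hpow : (6/5 : ℝ) ^ (n + 1) = 6/5 * (6/5) ^ n := by rw [pow_succ]; ring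
      rw [hpow]
      nlinarith [hT5, hF5]

end Crest.Agent.R083
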