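import Mathlib
import Crest.Prelude.Def_Conductivity

/-!
Row 83 (S0111): shared definitions.
-/

set_option autoImplicit false

namespace Crest.Agent.R083

open MeasureTheory Set Filter
open scoped Gradient ENNReal NNReal Topology

/-- Euclidean three-space. -/
abbrev E3 := EuclideanSpace ℝ (Fin 3)

/-- Coordinate vectors. -/
noncomputable def ee (i : Fin 3) : E3 := EuclideanSpace.single i (1 : ℝ)

/-- A point from three coordinates. -/
noncomputable def pt (a b c : ℝ) : E3 := WithLp.toLp 2 ![a, b, c]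

/-- Integrable vector field, weakly divergence free on all of space against
Lipschitz test functions. -/
def WDF (R : E3 → E3) : Prop :=
  Integrable R volume ∧
    ∀ (ψ : E3 → ℝ) (K : ℝ≥0), LipschitzWith K ψ → ∫ x, inner ℝ (R x) (∇ ψ x) = 0

/-- The constant tensor `A` can be realised exactly, in every bounded open set, by a scalar
conductivity with values in `[c, C]`: for each coordinate direction there is a small Lipschitz
potential perturbation `v i` and a divergence free flux perturbation `R i`, both vanishing off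
`U`, with `A e_i + R_i = γ (e_i + ∇ v_i)` almost everywhere in `U`. -/
def Resolves (c C : ℝ) (L : ℝ≥0) (A : E3 →L[ℝ] E3) : Prop :=
  ∀ U : Set E3, IsOpen U → Bornology.IsBounded U → ∀ ε : ℝ, 0 < ε →
    ∃ (γ : E3 → ℝ) (v : Fin 3 → E3 → ℝ) (R : Fin 3 → E3 → E3),
      Measurable γ ∧ (∀ x, c ≤ γ x ∧ γ x ≤ C) ∧
      ∀ i, LipschitzWith L (v i) ∧ (∀ x, x ∉ U → v i x = 0) ∧ (∀ x, |v i x| ≤ ε) ∧
        Measurable (R i) ∧ (∀ x, ‖R i x‖ ≤ L) ∧ (∀ x, x ∉ U → R i x = 0) ∧ WDF (R i) ∧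
        ∀ᵐ x ∂(volume.restrict U), A (ee i) + R i x = γ x • (ee i + ∇ (v i) x)

/-- `A` is symmetric with spectrum in `[μ, μ⁻¹]`. -/
def Ell (μ : ℝ) (A : E3 →L[ℝ] E3) : Prop :=
  (∀ x y, inner ℝ (A x) y = inner ℝ x (A y)) ∧
    ∀ x, μ * ‖x‖ ^ 2 ≤ inner ℝ (A x) x ∧ inner ℝ (A x) x ≤ μ⁻¹ * ‖x‖ ^ 2

/-- Divergence of a differentiable vector field, from `fderiv`. -/
noncomputable def dvg (J : E3 → E3) (x : E3) : ℝ := ∑ i : Fin 3, (fderiv ℝ J x (ee i)) i

/-- The horizontal ellipticity inequality between a potential gradient `p` and a flux `j`. -/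
def HEll (δ : ℝ) (p j : E3) : Prop :=
  0 < p 0 ^ 2 + p 1 ^ 2 ∧
    δ * (p 0 ^ 2 + p 1 ^ 2 + j 0 ^ 2 + j 1 ^ 2) ≤ j 0 * p 0 + j 1 * p 1

/-- The three boxes of the model domain. -/
inductive Box | O | P | N
  deriving DecidableEq

/-- The closed model boxes. `p 0`, `p 1` are the flow-line labels, `p 2` the level. -/
def bx : Box → Set E3
  | Box.O => {p | |p 0| ≤ 32/25 ∧ |p 1| ≤ 22/25 ∧ 7/10 ≤ p 2 ∧ p 2 ≤ 1}
  | Box.P => {p | 0 ≤ p 0 ∧ p 0 ≤ 32/25 ∧ |p 1| ≤ 22/25 ∧ 3/5 ≤ p 2 ∧ p 2 ≤ 7/10}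
  | Box.N => {p | -(32/25) ≤ p 0 ∧ p 0 ≤ 0 ∧ |p 1| ≤ 22/25 ∧ 3/5 ≤ p 2 ∧ p 2 ≤ 7/10}

/-- The open model boxes. -/
def bxo : Box → Set E3
  | Box.O => {p | |p 0| < 32/25 ∧ |p 1| < 22/25 ∧ 7/10 < p 2 ∧ p 2 < 1}
  | Box.P => {p | 0 < p 0 ∧ p 0 < 32/25 ∧ |p 1| < 22/25 ∧ 3/5 < p 2 ∧ p 2 < 7/10}
  | Box.N => {p | -(32/25) < p 0 ∧ p 0 < 0 ∧ |p 1| < 22/25 ∧ 3/5 < p 2 ∧ p 2 < 7/10}

/-- Families of functions on the boxes which agree across the level `7/10`. -/
def Matching (χ : Box → E3 → ℝ) : Prop :=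
  (∀ p : E3, p ∈ bx Box.P → p 2 = 7/10 → χ Box.O p = χ Box.P p) ∧
  (∀ p : E3, p ∈ bx Box.N → p 2 = 7/10 → χ Box.O p = χ Box.N p)

/-- Integral over the outer face `{level = 1}`. -/
noncomputable def faceO (χ : E3 → ℝ) : ℝ :=
  ∫ X in (-(32/25:ℝ))..(32/25), ∫ Y in (-(22/25:ℝ))..(22/25), χ (pt X Y 1)

/-- Integral over the right inner face `{level = 3/5, X ≥ 0}`. -/
noncomputable def faceP (χ : E3 → ℝ) : ℝ :=
  ∫ X in (0:ℝ)..(32/25), ∫ Y in (-(22/25:ℝ))..(22/25), χ (pt X Y (3/5))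

/-- Integral over the left inner face `{level = 3/5, X ≤ 0}`. -/
noncomputable def faceN (χ : E3 → ℝ) : ℝ :=
  ∫ X in (-(32/25:ℝ))..0, ∫ Y in (-(22/25:ℝ))..(22/25), χ (pt X Y (3/5))

/-- Distance to the tip line `{X = 0, level = 7/10}` of the slit, squared. -/
noncomputable def tip2 (p : E3) : ℝ := p 0 ^ 2 + (p 2 - 7/10) ^ 2

/-- Curl of a differentiable vector field, from `fderiv`. -/
noncomputable def curlv (Ξ : E3 → E3) (x : E3) : E3 :=
  pt ((fderiv ℝ Ξ x (ee 1)) 2 - (fderiv ℝ Ξ x (ee 2)) 1)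
     ((fderiv ℝ Ξ x (ee 2)) 0 - (fderiv ℝ Ξ x (ee 0)) 2)
     ((fderiv ℝ Ξ x (ee 0)) 1 - (fderiv ℝ Ξ x (ee 1)) 0)

/-! ### Physical geometry -/

/-- Height of the roof of the basic cell over the point `(x, y)`. -/
noncomputable def roof (x y : ℝ) : ℝ := 1 - 5/2 * max 0 (max (|x| - 1) (|y| - 3/5))

/-- The basic cell (open, symmetric under the three coordinate reflections). -/
def cellB : Set E3 := {p | |p 2| < roof (p 0) (p 1)}

/-- The closed basic cell. -/
def cellBc : Set E3 := {p | |p 2| ≤ roof (p 0) (p 1)}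

/-- Sign of a letter. -/
def sg (b : Bool) : ℝ := if b then 1 else -1

/-- The two similarities (ratio `3/5`) defining the tree of cells. -/
noncomputable def sim (b : Bool) (p : E3) : E3 :=
  pt (sg b * (16/25) + 3/5 * p 1) (3/5 * p 0) (3/5 * p 2)

/-- Inverse of `sim`. -/
noncomputable def simInv (b : Bool) (p : E3) : E3 :=
  pt (5/3 * p 1) (5/3 * (p 0 - sg b * (16/25))) (5/3 * p 2)

/-- The module region: the cell minus the two closed child cells. -/
def modQ : Set E3 := cellB \ ((sim true '' cellBc) ∪ (sim false '' cellBc))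

/-- The average of a function over the boundary of the basic cell: both roofs, with respect to
the projected area. -/
noncomputable def pavg (ψ : E3 → ℝ) : ℝ :=
  (∫ x in (-(7/5:ℝ))..(7/5), ∫ y in (-1:ℝ)..1,
    (ψ (pt x y (roof x y)) + ψ (pt x y (-roof x y)))) / (2 * (14/5) * 2)

/-- Sobolev pairs: uniform limits of Lipschitz functions with convergence of the gradients in
`L²`; here for functions on all of space that are eventually zero off a bounded set. -/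
def Sob (u : E3 → ℝ) (G : E3 → E3) : Prop :=
  MemLp G 2 volume ∧ ∃ uj : ℕ → E3 → ℝ,
    (∀ j, ∃ K : ℝ≥0, LipschitzWith K (uj j)) ∧
    (∃ r : ℝ, ∀ j x, r < ‖x‖ → uj j x = 0) ∧
    TendstoUniformly uj u atTop ∧
    Tendsto (fun j => eLpNorm (fun x => ∇ (uj j) x - G x) 2 volume) atTop (𝓝 0)

end Crest.Agent.R083
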