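import Crest.Agent.R083.TreeDefs

/-!
Row 83 (S0111): definitions for the final energy argument.
-/

set_option autoImplicit false

namespace Crest.Agent.R083

open MeasureTheory Set Filter
open scoped Gradient ENNReal NNReal Topology

/-- Union of the level `n` copies of `Dbox`. -/
noncomputable def Ln : ℕ → Set E3
  | 0 => Dbox
  | n + 1 => (sim true '' Ln n) ∪ (sim false '' Ln n)

/-- The Doob function at level `n + 1`. -/
noncomputable def ModData.bn (D : ModData) (τ : ℝ) (n : ℕ) (x : E3) : ℝ := 1 + τ * D.Psi n x

/-- Lipschitz approximants of the Doob function. -/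
noncomputable def ModData.bj (D : ModData) (τ : ℝ) (n j : ℕ) (x : E3) : ℝ :=
  1 + τ * D.PsiJ n j x

end Crest.Agent.R083
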