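import Crest.Agent.R083.Pairing
import Crest.Agent.R083.FinDefs
import Crest.Prelude.Def_Conductivity

/-!
Row 83 (S0111): FIN-e, energy identities for multiplication and division by the Doob function.
-/

set_option autoImplicit false

namespace Crest.Agent.R083

open MeasureTheory Set Filter
open scoped Gradient ENNReal NNReal Topology ContDiff
open Crest.AnalysisR.PDE.Calderon

/-! ### Averages depend only on the closed cells -/

theorem db_pavg_congr {ψ ψ' : E3 → ℝ} (h : ∀ x ∈ cellBc, ψ x = ψ' x) : pavg ψ = pavg ψ' := by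
  have hroof : ∀ x y : ℝ, x ∈ Icc (-(7/5:ℝ)) (7/5) → y ∈ Icc (-1:ℝ) 1 → 0 ≤ roof x y := by
    intro x y hx hy
    unfold roof
    have h1 : |x| ≤ 7/5 := abs_le.2 ⟨by linarith [hx.1], hx.2⟩
    have h2 : |y| ≤ 1 := abs_le.2 ⟨hy.1, hy.2⟩
    have h3 : max 0 (max (|x| - 1) (|y| - 3/5)) ≤ 2/5 :=
      max_le (by norm_num) (max_le (by linarith) (by linarith))
    linarith
  unfold pavg
  congr 1
  refine intervalIntegral.integral_congr fun x hx => ?_
  rw [uIcc_of_le (by norm_num)] at hx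
  refine intervalIntegral.integral_congr fun y hy => ?_
  rw [uIcc_of_le (by norm_num)] at hy
  have hr := hroof x y hx hy
  have e1 : pt x y (roof x y) ∈ cellBc := by
    show |(pt x y (roof x y)) 2| ≤ roof ((pt x y (roof x y)) 0) ((pt x y (roof x y)) 1)
    simp only [pt, PiLp.toLp_apply, Matrix.cons_val]
    exact (abs_of_nonneg hr).le
  have e2 : pt x y (-roof x y) ∈ cellBc := by
    show |(pt x y (-roof x y)) 2| ≤ roof ((pt x y (-roof x y)) 0) ((pt x y (-roof x y)) 1)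
    simp only [pt, PiLp.toLp_apply, Matrix.cons_val]
    rw [abs_neg]
    exact (abs_of_nonneg hr).le
  show ψ _ + ψ _ = ψ' _ + ψ' _
  rw [h _ e1, h _ e2]

theorem db_avgn_congr (n : ℕ) {ψ ψ' : E3 → ℝ} (h : ∀ x ∈ Kc n, ψ x = ψ' x) :
    avgn n ψ = avgn n ψ' := by
  induction n generalizing ψ ψ' with
  | zero => exact db_pavg_congr h
  | succ n ih =>
    rw [pr_avgn_succ, pr_avgn_succ,
      ih (ψ := ψ ∘ sim true) (ψ' := ψ' ∘ sim true) fun x hx => h _ (Or.inl ⟨x, hx, rfl⟩),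
      ih (ψ := ψ ∘ sim false) (ψ' := ψ' ∘ sim false) fun x hx => h _ (Or.inr ⟨x, hx, rfl⟩)]

/-! ### Lipschitz products -/

theorem db_lip_mul {f g : E3 → ℝ} {Kf Kg : ℝ≥0} {A B : ℝ} (hf : LipschitzWith Kf f)
    (hg : LipschitzWith Kg g) (hA : ∀ x, |f x| ≤ A) (hB : ∀ x, |g x| ≤ B) :
    ∃ K : ℝ≥0, LipschitzWith K (fun x => f x * g x) := by
  have hA0 : 0 ≤ A := (abs_nonneg _).trans (hA 0)
  have hB0 : 0 ≤ B := (abs_nonneg _).trans (hB 0)
  refine ⟨Real.toNNReal (A * Kg + B * Kf), LipschitzWith.of_dist_le_mul fun x y => ?_⟩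
  have h1 := hf.dist_le_mul x y
  have h2 := hg.dist_le_mul x y
  rw [Real.dist_eq] at h1 h2 ⊢
  rw [Real.coe_toNNReal _ (by positivity)]
  have e : f x * g x - f y * g y = f x * (g x - g y) + g y * (f x - f y) := by ring
  calc |f x * g x - f y * g y| ≤ |f x| * |g x - g y| + |g y| * |f x - f y| := by
        rw [e]; refine (abs_add_le _ _).trans ?_; rw [abs_mul, abs_mul]
    _ ≤ A * (Kg * dist x y) + B * (Kf * dist x y) := by
        refine add_le_add (mul_le_mul (hA x) h2 (abs_nonneg _) hA0)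
          (mul_le_mul (hB y) h1 (abs_nonneg _) hB0)
    _ = (A * Kg + B * Kf) * dist x y := by ring

theorem db_lip_inv {b : E3 → ℝ} {K : ℝ≥0} (hb : LipschitzWith K b) (h : ∀ x, 1/2 ≤ b x) :
    LipschitzWith (4 * K) (fun x => (b x)⁻¹) := by
  refine LipschitzWith.of_dist_le_mul fun x y => ?_
  have h1 := hb.dist_le_mul x y
  rw [Real.dist_eq] at h1 ⊢
  have hx := h x
  have hy := h y
  have hx0 : b x ≠ 0 := by linarith
  have hy0 : b y ≠ 0 := by linarith
  have e : (b x)⁻¹ - (b y)⁻¹ = (b y - b x) * ((b x)⁻¹ * (b y)⁻¹) := by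
    field_simp
  have h2 : |(b x)⁻¹ * (b y)⁻¹| ≤ 4 := by
    rw [abs_mul, abs_inv, abs_inv, abs_of_pos (by linarith : (0:ℝ) < b x),
      abs_of_pos (by linarith : (0:ℝ) < b y)]
    have h3 : (b x)⁻¹ ≤ 2 := by
      rw [inv_le_comm₀ (by linarith) (by norm_num)]; linarith
    have h4 : (b y)⁻¹ ≤ 2 := by
      rw [inv_le_comm₀ (by linarith) (by norm_num)]; linarith
    calc (b x)⁻¹ * (b y)⁻¹ ≤ 2 * 2 :=
          mul_le_mul h3 h4 (inv_nonneg.2 (by linarith)) (by norm_num)
      _ = 4 := by norm_num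
  rw [e, abs_mul, abs_sub_comm]
  calc |b x - b y| * |(b x)⁻¹ * (b y)⁻¹| ≤ (K * dist x y) * 4 :=
        mul_le_mul h1 h2 (abs_nonneg _) (by positivity)
    _ = ((4 * K : ℝ≥0) : ℝ) * dist x y := by push_cast; ring

theorem db_grad_mul {f g : E3 → ℝ} {x : E3} (hf : DifferentiableAt ℝ f x)
    (hg : DifferentiableAt ℝ g x) :
    ∇ (fun y => f y * g y) x = f x • ∇ g x + g x • ∇ f x := by
  unfold gradient
  rw [fderiv_fun_mul hf hg]
  simp

/-! ### Convergence in `L²` of the ball of radius 3 -/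

/-- Lebesgue measure on the ball. -/
noncomputable abbrev dbμ : Measure E3 := volume.restrict (Metric.ball (0 : E3) 3)

/-- `L²` convergence of vector fields. -/
def DbT (Y : ℕ → E3 → E3) (Z : E3 → E3) : Prop :=
  (∀ᶠ j in atTop, MemLp (Y j) 2 dbμ) ∧ MemLp Z 2 dbμ ∧
    Tendsto (fun j => eLpNorm (fun x => Y j x - Z x) 2 dbμ) atTop (𝓝 0)

theorem DbT.const {Z : E3 → E3} (h : MemLp Z 2 dbμ) : DbT (fun _ => Z) Z :=
  ⟨Eventually.of_forall fun _ => h, h, by simp⟩

theorem DbT.add {Y Y' : ℕ → E3 → E3} {Z Z' : E3 → E3} (h : DbT Y Z) (h' : DbT Y' Z') :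
    DbT (fun j x => Y j x + Y' j x) (fun x => Z x + Z' x) := by
  refine ⟨?_, h.2.1.add h'.2.1, ?_⟩
  · filter_upwards [h.1, h'.1] with j h1 h2 using h1.add h2
  · have h3 := h.2.2.add h'.2.2
    rw [add_zero] at h3
    refine tendsto_of_tendsto_of_tendsto_of_le_of_le' tendsto_const_nhds h3
      (Eventually.of_forall fun _ => zero_le) ?_
    filter_upwards [h.1, h'.1] with j h1 h2
    have e : (fun x => Y j x + Y' j x - (Z x + Z' x)) =
        (fun x => Y j x - Z x) + fun x => Y' j x - Z' x := by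
      funext x; simp only [Pi.add_apply]; abel
    rw [e]
    exact eLpNorm_add_le (h1.sub h.2.1).aestronglyMeasurable
      (h2.sub h'.2.1).aestronglyMeasurable (by norm_num)

theorem DbT.smul {Y : ℕ → E3 → E3} {Z : E3 → E3} (h : DbT Y Z) {a : ℕ → E3 → ℝ} {a' : E3 → ℝ}
    {M : ℝ} (ha : ∀ᶠ j in atTop, Measurable (a j)) (ha' : Measurable a')
    (hM : ∀ x, |a' x| ≤ M) (hu : TendstoUniformly a a' atTop) :
    DbT (fun j x => a j x • Y j x) (fun x => a' x • Z x) := by
  have hM0 : 0 ≤ M := (abs_nonneg _).trans (hM 0)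
  have hb : ∀ᶠ j in atTop, ∀ x, |a j x| ≤ M + 1 := by
    filter_upwards [Metric.tendstoUniformly_iff.1 hu 1 one_pos] with j hj x
    have := hj x
    rw [Real.dist_eq, abs_sub_comm] at this
    have h2 := abs_sub_abs_le_abs_sub (a j x) (a' x)
    linarith [hM x]
  have hmem : ∀ (c : E3 → ℝ) (N : ℝ) (X : E3 → E3), Measurable c → (∀ x, |c x| ≤ N) →
      MemLp X 2 dbμ → MemLp (fun x => c x • X x) 2 dbμ := by
    intro c N X hc hN hX
    refine MemLp.of_le_mul hX (hc.aestronglyMeasurable.smul hX.aestronglyMeasurable)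
      (c := N) (Eventually.of_forall fun x => ?_)
    rw [norm_smul]
    exact mul_le_mul_of_nonneg_right (hN x) (norm_nonneg _)
  refine ⟨?_, hmem a' M Z ha' hM h.2.1, ?_⟩
  · filter_upwards [h.1, ha, hb] with j h1 h2 h3 using hmem _ _ _ h2 h3 h1
  · have key : ∀ ε : ℝ, 0 < ε → ∀ᶠ j in atTop,
        eLpNorm (fun x => a j x • Y j x - a' x • Z x) 2 dbμ ≤
          ENNReal.ofReal (M + 1) * eLpNorm (fun x => Y j x - Z x) 2 dbμ +
            ENNReal.ofReal ε * eLpNorm Z 2 dbμ := by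
      intro ε hε
      filter_upwards [h.1, ha, hb, Metric.tendstoUniformly_iff.1 hu ε hε] with j h1 h2 h3 h4
      have e : (fun x => a j x • Y j x - a' x • Z x) =
          (fun x => a j x • (Y j x - Z x)) + fun x => (a j x - a' x) • Z x := by
        funext x; simp only [Pi.add_apply]; module
      rw [e]
      refine (eLpNorm_add_le ?_ ?_ (by norm_num)).trans (add_le_add ?_ ?_)
      · exact h2.aestronglyMeasurable.smul (h1.sub h.2.1).aestronglyMeasurable
      · exact (h2.sub ha').aestronglyMeasurable.smul h.2.1.aestronglyMeasurable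
      · refine eLpNorm_le_mul_eLpNorm_of_ae_le_mul (Eventually.of_forall fun x => ?_) 2
        rw [norm_smul]
        exact mul_le_mul_of_nonneg_right (h3 x) (norm_nonneg _)
      · refine eLpNorm_le_mul_eLpNorm_of_ae_le_mul (Eventually.of_forall fun x => ?_) 2
        rw [norm_smul]
        have := h4 x
        rw [Real.dist_eq, abs_sub_comm] at this
        exact mul_le_mul_of_nonneg_right this.le (norm_nonneg _)
    rw [ENNReal.tendsto_atTop_zero]
    intro δ hδ
    by_cases hδ' : δ = ⊤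
    · exact ⟨0, fun _ _ => by rw [hδ']; exact le_top⟩
    -- choose ε with ε * ‖Z‖ ≤ δ / 2
    set N : ℝ := (eLpNorm Z 2 dbμ).toReal with hN
    have hZtop : eLpNorm Z 2 dbμ ≠ ⊤ := h.2.1.eLpNorm_lt_top.ne
    set d : ℝ := δ.toReal with hd
    have hd0 : 0 < d := ENNReal.toReal_pos hδ.ne' hδ'
    have hN0 : 0 ≤ N := ENNReal.toReal_nonneg
    have h1 := key (d / (2 * (N + 1))) (by positivity)
    have h2 : Tendsto (fun j => ENNReal.ofReal (M + 1) *
        eLpNorm (fun x => Y j x - Z x) 2 dbμ) atTop (𝓝 0) := by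
      have := ENNReal.Tendsto.const_mul (a := ENNReal.ofReal (M + 1)) h.2.2
        (Or.inr ENNReal.ofReal_ne_top)
      simpa using this
    rw [ENNReal.tendsto_atTop_zero] at h2
    obtain ⟨j0, hj0⟩ := h2 (ENNReal.ofReal (d / 2)) (by simpa using by positivity)
    obtain ⟨j1, hj1⟩ := eventually_atTop.1 h1
    refine ⟨max j0 j1, fun j hj => ?_⟩
    refine (hj1 j (le_of_max_le_right hj)).trans ?_
    have h3 := hj0 j (le_of_max_le_left hj)
    have h4 : ENNReal.ofReal (d / (2 * (N + 1))) * eLpNorm Z 2 dbμ ≤ ENNReal.ofReal (d / 2) := by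
      rw [← ENNReal.ofReal_toReal hZtop, ← hN, ← ENNReal.ofReal_mul (by positivity)]
      refine ENNReal.ofReal_le_ofReal ?_
      rw [div_mul_eq_mul_div, div_le_div_iff₀ (by positivity) (by norm_num)]
      nlinarith
    calc _ ≤ ENNReal.ofReal (d / 2) + ENNReal.ofReal (d / 2) := add_le_add h3 h4
      _ = δ := by
        rw [← ENNReal.ofReal_add (by positivity) (by positivity), add_halves, hd,
          ENNReal.ofReal_toReal hδ']


/-! ### Pairings -/

/-- Cauchy-Schwarz with a bounded weight. -/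
theorem db_cs {γ : E3 → ℝ} {C : ℝ} (hγ : Measurable γ) (hC : ∀ x, |γ x| ≤ C)
    {A B : E3 → E3} (hA : MemLp A 2 dbμ) (hB : MemLp B 2 dbμ) :
    Integrable (fun x => γ x * inner ℝ (A x) (B x)) dbμ ∧
    |∫ x, γ x * inner ℝ (A x) (B x) ∂dbμ| ≤
      C * (eLpNorm A 2 dbμ).toReal * (eLpNorm B 2 dbμ).toReal := by
  have hC0 : 0 ≤ C := (abs_nonneg _).trans (hC 0)
  have hA' : MemLp (fun x => γ x • A x) 2 dbμ := by
    refine MemLp.of_le_mul hA (hγ.aestronglyMeasurable.smul hA.aestronglyMeasurable)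
      (c := C) (Eventually.of_forall fun x => ?_)
    rw [norm_smul]
    exact mul_le_mul_of_nonneg_right (hC x) (norm_nonneg _)
  have he : (fun x => γ x * inner ℝ (A x) (B x)) =ᵐ[dbμ]
      fun x => inner ℝ ((hA'.toLp _ : E3 → E3) x) ((hB.toLp _ : E3 → E3) x) := by
    filter_upwards [hA'.coeFn_toLp, hB.coeFn_toLp] with x h1 h2
    rw [h1, h2, real_inner_smul_left]
  refine ⟨(L2.integrable_inner _ _).congr he.symm, ?_⟩
  rw [integral_congr_ae he, ← L2.inner_def (𝕜 := ℝ)]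
  refine (abs_real_inner_le_norm _ _).trans ?_
  rw [Lp.norm_toLp, Lp.norm_toLp]
  refine mul_le_mul_of_nonneg_right ?_ ENNReal.toReal_nonneg
  have h1 : eLpNorm (fun x => γ x • A x) 2 dbμ ≤ ENNReal.ofReal C * eLpNorm A 2 dbμ := by
    refine eLpNorm_le_mul_eLpNorm_of_ae_le_mul (Eventually.of_forall fun x => ?_) 2
    rw [norm_smul]
    exact mul_le_mul_of_nonneg_right (hC x) (norm_nonneg _)
  have h2 := ENNReal.toReal_mono (ENNReal.mul_ne_top ENNReal.ofReal_ne_top hA.eLpNorm_lt_top.ne) h1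
  rwa [ENNReal.toReal_mul, ENNReal.toReal_ofReal hC0] at h2

theorem DbT.pair {γ : E3 → ℝ} {C : ℝ} (hγ : Measurable γ) (hC : ∀ x, |γ x| ≤ C)
    {Y Y' : ℕ → E3 → E3} {Z Z' : E3 → E3} (h : DbT Y Z) (h' : DbT Y' Z') :
    Tendsto (fun j => ∫ x, γ x * inner ℝ (Y j x) (Y' j x) ∂dbμ) atTop
      (𝓝 (∫ x, γ x * inner ℝ (Z x) (Z' x) ∂dbμ)) := by
  have hC0 : 0 ≤ C := (abs_nonneg _).trans (hC 0)
  set a : ℕ → ℝ := fun j => (eLpNorm (fun x => Y j x - Z x) 2 dbμ).toReal with ha
  set a' : ℕ → ℝ := fun j => (eLpNorm (fun x => Y' j x - Z' x) 2 dbμ).toReal with ha'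
  set z : ℝ := (eLpNorm Z 2 dbμ).toReal with hz
  set z' : ℝ := (eLpNorm Z' 2 dbμ).toReal with hz'
  have hlim : Tendsto a atTop (𝓝 0) := by
    have := (ENNReal.tendsto_toReal ENNReal.zero_ne_top).comp h.2.2
    rw [ENNReal.toReal_zero] at this
    exact this
  have hlim' : Tendsto a' atTop (𝓝 0) := by
    have := (ENNReal.tendsto_toReal ENNReal.zero_ne_top).comp h'.2.2
    rw [ENNReal.toReal_zero] at this
    exact this
  rw [tendsto_iff_norm_sub_tendsto_zero]
  have hbd : ∀ᶠ j in atTop, ‖(∫ x, γ x * inner ℝ (Y j x) (Y' j x) ∂dbμ) -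
      ∫ x, γ x * inner ℝ (Z x) (Z' x) ∂dbμ‖ ≤ C * a j * a' j + C * a j * z' + C * z * a' j := by
    filter_upwards [h.1, h'.1] with j h1 h2
    have e1 := db_cs hγ hC (h1.sub h.2.1) (h2.sub h'.2.1)
    have e2 := db_cs hγ hC (h1.sub h.2.1) h'.2.1
    have e3 := db_cs hγ hC h.2.1 (h2.sub h'.2.1)
    have e4 := db_cs hγ hC h.2.1 h'.2.1
    have e5 := db_cs hγ hC h1 h2
    have key : (∫ x, γ x * inner ℝ (Y j x) (Y' j x) ∂dbμ) -
        ∫ x, γ x * inner ℝ (Z x) (Z' x) ∂dbμ =
        (∫ x, γ x * inner ℝ ((Y j - Z) x) ((Y' j - Z') x) ∂dbμ) +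
        (∫ x, γ x * inner ℝ ((Y j - Z) x) (Z' x) ∂dbμ) +
        ∫ x, γ x * inner ℝ (Z x) ((Y' j - Z') x) ∂dbμ := by
      have e12 : Integrable (fun x => γ x * inner ℝ ((Y j - Z) x) ((Y' j - Z') x) +
        γ x * inner ℝ ((Y j - Z) x) (Z' x)) dbμ := e1.1.add e2.1
      rw [← integral_add e1.1 e2.1, ← integral_add e12 e3.1, ← integral_sub e5.1 e4.1]
      congr 1
      funext x
      simp only [Pi.sub_apply, inner_sub_left, inner_sub_right]
      ring
    rw [key]
    refine (norm_add_le _ _).trans (add_le_add ((norm_add_le _ _).trans (add_le_add ?_ ?_)) ?_)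
    · exact e1.2
    · exact e2.2
    · exact e3.2
  refine squeeze_zero' (Eventually.of_forall fun _ => norm_nonneg _) hbd ?_
  have := ((hlim.const_mul C).mul hlim').add (((hlim.const_mul C).mul_const z').add
    (hlim'.const_mul (C * z)))
  simpa [add_assoc] using this


theorem db_cell_sub : cellBc ⊆ Metric.ball (0 : E3) 3 := fun x hx => by
  have := cellBc_norm x hx
  rw [mem_ball_zero_iff]; linarith

theorem db_memLp_lip {f : E3 → ℝ} {K : ℝ≥0} (hf : LipschitzWith K f) : MemLp (∇ f) 2 dbμ := by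
  have : IsFiniteMeasure dbμ :=
    ⟨by rw [Measure.restrict_apply_univ]; exact Metric.isBounded_ball.measure_lt_top⟩
  exact MemLp.of_bound (pr_grad_measurable f).aestronglyMeasurable K
    (Eventually.of_forall fun x => pr_grad_norm f K hf x)

theorem db_integral_ball (g : E3 → ℝ) (h : ∀ᵐ x, x ∉ cellBc → g x = 0) :
    ∫ x, g x = ∫ x, g x ∂dbμ := by
  refine (setIntegral_eq_integral_of_ae_compl_eq_zero ?_).symm
  filter_upwards [h] with x hx hx'
  exact hx fun h => hx' (db_cell_sub h)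

section D
variable (D : ModData) (n : ℕ)

theorem db_H_off : ∀ᵐ x, x ∉ cellBc → D.PsiG n x = 0 := by
  have h := pr_limit_zero (fun j => D.PsiJ n j) (D.PsiG n) (PsiG_mem D n) (PsiJ_grad D n)
    cellBcᶜ cellBc_compact.isClosed.measurableSet.compl
    (fun j x hx => pr_grad_off _ (fun y hy => PsiJ_off D n j y hy) x hx)
  filter_upwards [h] with x hx hx' using hx hx'

theorem db_T : DbT (fun j => ∇ (D.PsiJ n j)) (D.PsiG n) := by
  refine ⟨Eventually.of_forall fun j => ?_, (PsiG_mem D n).restrict _, ?_⟩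
  · obtain ⟨K, hK⟩ := PsiJ_lipschitz D n j
    exact db_memLp_lip hK
  · refine tendsto_of_tendsto_of_tendsto_of_le_of_le tendsto_const_nhds (PsiJ_grad D n)
      (fun _ => zero_le) (fun j => eLpNorm_mono_measure _ Measure.restrict_le_self)

/-- bound for a Lipschitz function vanishing off the cell -/
theorem db_bdd {f : E3 → ℝ} (hf : ∃ K : ℝ≥0, LipschitzWith K f) (h0 : ∀ x, x ∉ cellB → f x = 0) :
    ∃ B : ℝ, ∀ x, |f x| ≤ B := by
  obtain ⟨K, hK⟩ := hf
  obtain ⟨B, hB⟩ := cellBc_compact.exists_bound_of_continuousOn hK.continuous.continuousOn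
  refine ⟨max B 0, fun x => ?_⟩
  by_cases hx : x ∈ cellBc
  · exact (hB x hx).trans (le_max_left _ _)
  · rw [h0 x fun h => hx (cellB_subset h), abs_zero]
    exact le_max_right _ _

theorem db_Psi_bdd : ∃ B : ℝ, ∀ x, |D.Psi n x| ≤ B := by
  obtain ⟨j, hj⟩ := (Metric.tendstoUniformly_iff.1 (PsiJ_unif D n) 1 one_pos).exists
  obtain ⟨B, hB⟩ := db_bdd (PsiJ_lipschitz D n j) (fun x hx => PsiJ_off D n j x hx)
  refine ⟨B + 1, fun x => ?_⟩
  have h1 := hj x
  rw [Real.dist_eq] at h1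
  have h2 := abs_sub_abs_le_abs_sub (D.Psi n x) (D.PsiJ n j x)
  linarith [hB x]

theorem db_Psi_cont : Continuous (D.Psi n) :=
  (PsiJ_unif D n).continuous (Frequently.of_forall fun j => by
    obtain ⟨K, hK⟩ := PsiJ_lipschitz D n j
    exact hK.continuous)

variable (τ : ℝ)

theorem db_bj_lip (j : ℕ) : ∃ K : ℝ≥0, LipschitzWith K (D.bj τ n j) := by
  obtain ⟨K, hK⟩ := PsiJ_lipschitz D n j
  refine ⟨Real.toNNReal |τ| * K, LipschitzWith.of_dist_le_mul fun x y => ?_⟩
  have h := hK.dist_le_mul x y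
  rw [Real.dist_eq] at h ⊢
  have e : D.bj τ n j x - D.bj τ n j y = τ * (D.PsiJ n j x - D.PsiJ n j y) := by
    unfold ModData.bj; ring
  rw [e, abs_mul, NNReal.coe_mul, Real.coe_toNNReal _ (abs_nonneg τ), mul_assoc]
  exact mul_le_mul_of_nonneg_left h (abs_nonneg _)

theorem db_bj_bdd (j : ℕ) : ∃ B : ℝ, ∀ x, |D.bj τ n j x| ≤ B := by
  obtain ⟨B, hB⟩ := db_bdd (PsiJ_lipschitz D n j) (fun x hx => PsiJ_off D n j x hx)
  refine ⟨1 + |τ| * B, fun x => ?_⟩
  unfold ModData.bj
  refine (abs_add_le _ _).trans ?_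
  rw [abs_one, abs_mul]
  have := mul_le_mul_of_nonneg_left (hB x) (abs_nonneg τ)
  linarith

theorem db_bn_bdd : ∃ B : ℝ, ∀ x, |D.bn τ n x| ≤ B := by
  obtain ⟨B, hB⟩ := db_Psi_bdd D n
  refine ⟨1 + |τ| * B, fun x => ?_⟩
  unfold ModData.bn
  refine (abs_add_le _ _).trans ?_
  rw [abs_one, abs_mul]
  have := mul_le_mul_of_nonneg_left (hB x) (abs_nonneg τ)
  linarith

theorem db_bj_unif : TendstoUniformly (D.bj τ n) (D.bn τ n) atTop := by
  rw [Metric.tendstoUniformly_iff]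
  intro ε hε
  filter_upwards [Metric.tendstoUniformly_iff.1 (PsiJ_unif D n) (ε / (|τ| + 1))
    (by positivity)] with j hj x
  have h := hj x
  rw [Real.dist_eq] at h ⊢
  have e : D.bn τ n x - D.bj τ n j x = τ * (D.Psi n x - D.PsiJ n j x) := by
    unfold ModData.bj ModData.bn; ring
  rw [e, abs_mul]
  rw [lt_div_iff₀ (by positivity)] at h
  nlinarith [abs_nonneg (D.Psi n x - D.PsiJ n j x), abs_nonneg τ]

theorem db_bj_Kc (j : ℕ) (b : Bool) (x : E3) (hx : x ∈ sim b '' Kc n) :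
    D.bj τ n j x = D.bn τ n x := by
  unfold ModData.bj ModData.bn
  rw [PsiJ_Kc D n j b x hx, Psi_Kc D n b x hx]

theorem db_bn_cont : Continuous (D.bn τ n) := by
  unfold ModData.bn
  exact continuous_const.add (continuous_const.mul (db_Psi_cont D n))

theorem db_grad_bj (j : ℕ) (x : E3) : ∇ (D.bj τ n j) x = τ • ∇ (D.PsiJ n j) x := by
  have h : D.bj τ n j = fun y => 1 + τ * D.PsiJ n j y := rfl
  rw [← pr_grad_const_mul, h]
  unfold gradient
  rw [fderiv_const_add]

theorem db_pair_lim {ψ : ℕ → E3 → ℝ} (hψ : ∀ᶠ j in atTop, ∃ K : ℝ≥0, LipschitzWith K (ψ j))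
    {V : E3 → E3} (hV : DbT (fun j => ∇ (ψ j)) V) {r : ℝ}
    (hr : ∀ᶠ j in atTop, (avgn n (ψ j ∘ sim true) - avgn n (ψ j ∘ sim false)) / 2 = r) :
    ∫ x, D.gam0 x * inner ℝ (D.PsiG n x) (V x) ∂dbμ = r := by
  obtain ⟨c, C, hc, hb⟩ := gam0_bounds D
  have hC : ∀ x, |D.gam0 x| ≤ C := fun x => by
    rw [abs_of_pos (hc.trans_le (hb x).1)]; exact (hb x).2
  have h1 := DbT.pair (gam0_measurable D) hC (DbT.const (db_T D n).2.1) hV
  refine tendsto_nhds_unique h1 (tendsto_const_nhds.congr' ?_)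
  filter_upwards [hψ, hr] with j hj hrj
  obtain ⟨K, hK⟩ := hj
  rw [← hrj, ← Psi_pair D n (ψ j) K hK]
  refine db_integral_ball _ ?_
  filter_upwards [db_H_off D n] with x hx hx'
  rw [hx hx', inner_zero_left, mul_zero]

end D


theorem DbT.congr {Y Y' : ℕ → E3 → E3} {Z : E3 → E3} (h : DbT Y Z)
    (he : ∀ᶠ j in atTop, Y' j =ᵐ[volume] Y j) : DbT Y' Z := by
  have he' : ∀ᶠ j in atTop, Y' j =ᵐ[dbμ] Y j := by
    filter_upwards [he] with j hj using ae_restrict_of_ae hj
  refine ⟨?_, h.2.1, ?_⟩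
  · filter_upwards [h.1, he'] with j h1 h2 using h1.ae_eq h2.symm
  · refine h.2.2.congr' ?_
    filter_upwards [he'] with j h2
    refine eLpNorm_congr_ae ?_
    filter_upwards [h2] with x hx
    rw [hx]

theorem db_unif_mul {a : ℕ → E3 → ℝ} {a' : E3 → ℝ} (h : TendstoUniformly a a' atTop)
    {c : E3 → ℝ} {M : ℝ} (hM : ∀ x, |c x| ≤ M) :
    TendstoUniformly (fun j x => c x * a j x) (fun x => c x * a' x) atTop := by
  have hM0 : 0 ≤ M := (abs_nonneg _).trans (hM 0)
  rw [Metric.tendstoUniformly_iff]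
  intro ε hε
  filter_upwards [Metric.tendstoUniformly_iff.1 h (ε / (M + 1)) (by positivity)] with j hj x
  have h1 := hj x
  rw [Real.dist_eq] at h1 ⊢
  rw [← mul_sub, abs_mul]
  rw [lt_div_iff₀ (by positivity)] at h1
  nlinarith [abs_nonneg (a' x - a j x), abs_nonneg (c x), hM x]

theorem db_unif_const (c : E3 → ℝ) : TendstoUniformly (fun _ : ℕ => c) c atTop := by
  rw [Metric.tendstoUniformly_iff]
  intro ε hε
  exact Eventually.of_forall fun j x => by rw [dist_self]; exact hε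

theorem db_energy (γ : E3 → ℝ) {u : E3 → ℝ} {Y : E3 → E3} (h : ∇ u =ᵐ[volume] Y) :
    ballEnergy γ u = ∫ x, γ x * inner ℝ (Y x) (Y x) ∂dbμ := by
  unfold ballEnergy
  refine integral_congr_ae (ae_restrict_of_ae ?_)
  filter_upwards [h] with x hx
  rw [hx, real_inner_self_eq_norm_sq]

/-- Energy identity for multiplication by the Doob function. -/
theorem doob_mul (D : ModData) (τ : ℝ) (n : ℕ) (f : E3 → ℝ) (K : ℝ≥0) (M : ℝ)
    (hf : LipschitzWith K f) (hM : ∀ x, |f x| ≤ M) :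
    Tendsto (fun j => ballEnergy D.gam0 (fun x => D.bj τ n j x * f x)) atTop
      (𝓝 (ballEnergy (fun x => D.bn τ n x ^ 2 * D.gam0 x) f +
        τ / 2 * (avgn n ((fun x => D.bn τ n x * f x ^ 2) ∘ sim true) -
          avgn n ((fun x => D.bn τ n x * f x ^ 2) ∘ sim false)))) := by
  obtain ⟨c, C, hc, hbd⟩ := gam0_bounds D
  have hC0 : 0 ≤ C := (hc.trans_le (hbd 0).1).le.trans (hbd 0).2
  have hC : ∀ x, |D.gam0 x| ≤ C := fun x => by
    rw [abs_of_pos (hc.trans_le (hbd x).1)]; exact (hbd x).2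
  obtain ⟨B, hB⟩ := db_bn_bdd D n τ
  have hM0 : 0 ≤ M := (abs_nonneg _).trans (hM 0)
  have hB0 : 0 ≤ B := (abs_nonneg _).trans (hB 0)
  have hfc : Continuous f := hf.continuous
  have hbc : ∀ j, Continuous (D.bj τ n j) := fun j => by
    obtain ⟨K, hK⟩ := db_bj_lip D n τ j
    exact hK.continuous
  have hbn : Continuous (D.bn τ n) := db_bn_cont D n τ
  -- almost everywhere differentiability
  have hae : ∀ j, ∀ᵐ x, DifferentiableAt ℝ f x ∧ DifferentiableAt ℝ (D.bj τ n j) x := by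
    intro j
    filter_upwards [pr_lip_diff f ⟨K, hf⟩, pr_lip_diff _ (db_bj_lip D n τ j)] with x h1 h2
      using ⟨h1, h2⟩
  -- the gradients of `b_j f`
  set Y : E3 → E3 := fun x => D.bn τ n x • ∇ f x + (τ * f x) • D.PsiG n x with hY
  have hYT : DbT (fun j => ∇ (fun x => D.bj τ n j x * f x)) Y := by
    have h1 : DbT (fun j x => D.bj τ n j x • ∇ f x) (fun x => D.bn τ n x • ∇ f x) :=
      DbT.smul (DbT.const (db_memLp_lip hf)) (Eventually.of_forall fun j => (hbc j).measurable)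
        hbn.measurable hB (db_bj_unif D n τ)
    have h2 : DbT (fun j x => (τ * f x) • ∇ (D.PsiJ n j) x) (fun x => (τ * f x) • D.PsiG n x) :=
      DbT.smul (db_T D n) (Eventually.of_forall fun j => (hfc.measurable.const_mul τ))
        (hfc.measurable.const_mul τ) (M := |τ| * M)
        (fun x => by rw [abs_mul]; exact mul_le_mul_of_nonneg_left (hM x) (abs_nonneg _))
        (db_unif_const _)
    refine (h1.add h2).congr (Eventually.of_forall fun j => ?_)
    filter_upwards [hae j] with x hx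
    rw [db_grad_mul hx.2 hx.1, db_grad_bj, smul_smul, mul_comm (f x) τ]
  -- the gradients of `b_j f²`
  set V : E3 → E3 := fun x => (2 * f x * D.bn τ n x) • ∇ f x +
    (τ * (f x * f x)) • D.PsiG n x with hV
  have hVT : DbT (fun j => ∇ (fun x => D.bj τ n j x * (f x * f x))) V := by
    have h1 : DbT (fun j x => (2 * f x * D.bj τ n j x) • ∇ f x)
        (fun x => (2 * f x * D.bn τ n x) • ∇ f x) := by
      refine DbT.smul (DbT.const (db_memLp_lip hf)) (Eventually.of_forall fun j =>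
        ((hfc.const_mul 2).mul (hbc j)).measurable)
        ((hfc.const_mul 2).mul hbn).measurable (M := 2 * M * B) (fun x => ?_)
        (db_unif_mul (db_bj_unif D n τ) (M := 2 * M) fun x => ?_)
      · rw [abs_mul, abs_mul, abs_two]
        exact mul_le_mul (mul_le_mul_of_nonneg_left (hM x) (by norm_num)) (hB x)
          (abs_nonneg _) (by positivity)
      · rw [abs_mul, abs_two]
        exact mul_le_mul_of_nonneg_left (hM x) (by norm_num)
    have h2 : DbT (fun j x => (τ * (f x * f x)) • ∇ (D.PsiJ n j) x)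
        (fun x => (τ * (f x * f x)) • D.PsiG n x) :=
      DbT.smul (db_T D n) (Eventually.of_forall fun j => ((hfc.mul hfc).measurable.const_mul τ))
        ((hfc.mul hfc).measurable.const_mul τ) (M := |τ| * (M * M))
        (fun x => by
          rw [abs_mul, abs_mul]
          exact mul_le_mul_of_nonneg_left (mul_le_mul (hM x) (hM x) (abs_nonneg _) hM0)
            (abs_nonneg _))
        (db_unif_const _)
    refine (h1.add h2).congr (Eventually.of_forall fun j => ?_)
    filter_upwards [hae j] with x hx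
    have hff : DifferentiableAt ℝ (fun y => f y * f y) x := hx.1.fun_mul hx.1
    rw [db_grad_mul hx.2 hff, db_grad_mul hx.1 hx.1, db_grad_bj]
    module
  -- the pairing
  have hpair := db_pair_lim D n
    (ψ := fun j x => D.bj τ n j x * (f x * f x))
    (Eventually.of_forall fun j => by
      obtain ⟨Kb, hKb⟩ := db_bj_lip D n τ j
      obtain ⟨Bb, hBb⟩ := db_bj_bdd D n τ j
      obtain ⟨K2, hK2⟩ := db_lip_mul hf hf hM hM
      exact db_lip_mul hKb hK2 hBb (B := M * M) fun x => by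
        rw [abs_mul]; exact mul_le_mul (hM x) (hM x) (abs_nonneg _) hM0)
    hVT (r := (avgn n ((fun x => D.bn τ n x * f x ^ 2) ∘ sim true) -
          avgn n ((fun x => D.bn τ n x * f x ^ 2) ∘ sim false)) / 2)
    (Eventually.of_forall fun j => by
      rw [db_avgn_congr n (ψ := (fun x => D.bj τ n j x * (f x * f x)) ∘ sim true)
          (ψ' := (fun x => D.bn τ n x * f x ^ 2) ∘ sim true),
        db_avgn_congr n (ψ := (fun x => D.bj τ n j x * (f x * f x)) ∘ sim false)
          (ψ' := (fun x => D.bn τ n x * f x ^ 2) ∘ sim false)]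
      · intro x hx
        simp only [Function.comp_apply]
        rw [db_bj_Kc D n τ j false _ ⟨x, hx, rfl⟩, pow_two]
      · intro x hx
        simp only [Function.comp_apply]
        rw [db_bj_Kc D n τ j true _ ⟨x, hx, rfl⟩, pow_two])
  -- conclusion
  have hlim := DbT.pair (gam0_measurable D) hC hYT hYT
  have he : ∀ j, ballEnergy D.gam0 (fun x => D.bj τ n j x * f x) =
      ∫ x, D.gam0 x * inner ℝ (∇ (fun x => D.bj τ n j x * f x) x)
        (∇ (fun x => D.bj τ n j x * f x) x) ∂dbμ := fun j => db_energy _ (ae_eq_refl _)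
  simp only [he]
  convert hlim using 2
  have hw : ∀ x, |D.bn τ n x ^ 2 * D.gam0 x| ≤ B ^ 2 * C := by
    intro x
    rw [abs_mul, abs_pow]
    exact mul_le_mul (pow_le_pow_left₀ (abs_nonneg _) (hB x) 2) (hC x) (abs_nonneg _)
      (by positivity)
  have hwm : Measurable fun x => D.bn τ n x ^ 2 * D.gam0 x :=
    (hbn.measurable.pow_const 2).mul (gam0_measurable D)
  have i1 := (db_cs hwm hw (db_memLp_lip hf) (db_memLp_lip hf)).1
  have i2 := (db_cs (gam0_measurable D) hC (db_T D n).2.1 hVT.2.1).1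
  have i3 := i2.const_mul τ
  rw [db_energy _ (ae_eq_refl (∇ f))]
  have e1 : τ / 2 * (avgn n ((fun x => D.bn τ n x * f x ^ 2) ∘ sim true) -
          avgn n ((fun x => D.bn τ n x * f x ^ 2) ∘ sim false)) =
      ∫ x, τ * (D.gam0 x * inner ℝ (D.PsiG n x) (V x)) ∂dbμ := by
    rw [integral_const_mul, hpair]; ring
  rw [e1, ← integral_add i1 i3]
  refine integral_congr_ae (Eventually.of_forall fun x => ?_)
  simp only [hY, hV, inner_add_left, inner_add_right, real_inner_smul_left,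
    real_inner_smul_right]
  rw [real_inner_comm (D.PsiG n x) (∇ f x)]
  ring


theorem db_inv_sub {a b : ℝ} (ha : 1/2 ≤ a) (hb : 1/2 ≤ b) : |a⁻¹ - b⁻¹| ≤ 4 * |a - b| := by
  have ha0 : a ≠ 0 := by linarith
  have hb0 : b ≠ 0 := by linarith
  have e : a⁻¹ - b⁻¹ = (b - a) * (a⁻¹ * b⁻¹) := by field_simp
  have h3 : a⁻¹ ≤ 2 := by
    rw [inv_le_comm₀ (by linarith) (by norm_num)]; linarith
  have h4 : b⁻¹ ≤ 2 := by
    rw [inv_le_comm₀ (by linarith) (by norm_num)]; linarith
  have h5 : 0 < a⁻¹ := inv_pos.2 (by linarith)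
  have h6 : 0 < b⁻¹ := inv_pos.2 (by linarith)
  have h2 : |a⁻¹ * b⁻¹| ≤ 4 := by
    rw [abs_of_pos (mul_pos h5 h6)]
    nlinarith
  rw [e, abs_mul, abs_sub_comm]
  nlinarith [abs_nonneg (a - b)]

theorem db_inv_sq_sub {a b : ℝ} (ha : 1/2 ≤ a) (hb : 1/2 ≤ b) :
    |a⁻¹ ^ 2 - b⁻¹ ^ 2| ≤ 16 * |a - b| := by
  have h3 : a⁻¹ ≤ 2 := by
    rw [inv_le_comm₀ (by linarith) (by norm_num)]; linarith
  have h4 : b⁻¹ ≤ 2 := by
    rw [inv_le_comm₀ (by linarith) (by norm_num)]; linarith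
  have h5 : 0 < a⁻¹ := inv_pos.2 (by linarith)
  have h6 : 0 < b⁻¹ := inv_pos.2 (by linarith)
  have h1 := db_inv_sub ha hb
  have e : a⁻¹ ^ 2 - b⁻¹ ^ 2 = (a⁻¹ + b⁻¹) * (a⁻¹ - b⁻¹) := by ring
  rw [e, abs_mul, abs_of_pos (add_pos h5 h6)]
  have h7 : a⁻¹ + b⁻¹ ≤ 4 := by linarith
  calc (a⁻¹ + b⁻¹) * |a⁻¹ - b⁻¹| ≤ 4 * (4 * |a - b|) :=
        mul_le_mul h7 h1 (abs_nonneg _) (by norm_num)
    _ = 16 * |a - b| := by ring

/-- Energy identity for division by the Doob function. -/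
theorem doob_div (D : ModData) (τ : ℝ) (n : ℕ) (f : E3 → ℝ) (K : ℝ≥0) (M : ℝ)
    (hf : LipschitzWith K f) (hM : ∀ x, |f x| ≤ M) (hK : ∀ x ∈ Kc (n + 1), f x = 0)
    (hb : ∀ᶠ j in atTop, ∀ x, 1/2 ≤ D.bj τ n j x) :
    Tendsto (fun j => ballEnergy (fun x => D.bn τ n x ^ 2 * D.gam0 x)
        (fun x => f x / D.bj τ n j x)) atTop (𝓝 (ballEnergy D.gam0 f)) := by
  obtain ⟨c, C, hc, hbd⟩ := gam0_bounds D
  have hC0 : 0 ≤ C := (hc.trans_le (hbd 0).1).le.trans (hbd 0).2
  have hC : ∀ x, |D.gam0 x| ≤ C := fun x => by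
    rw [abs_of_pos (hc.trans_le (hbd x).1)]; exact (hbd x).2
  obtain ⟨B, hB⟩ := db_bn_bdd D n τ
  have hM0 : 0 ≤ M := (abs_nonneg _).trans (hM 0)
  have hB0 : 0 ≤ B := (abs_nonneg _).trans (hB 0)
  have hfc : Continuous f := hf.continuous
  have hbc : ∀ j, Continuous (D.bj τ n j) := fun j => by
    obtain ⟨K, hK⟩ := db_bj_lip D n τ j
    exact hK.continuous
  have hbn : Continuous (D.bn τ n) := db_bn_cont D n τ
  have hbn2 : ∀ x, 1/2 ≤ D.bn τ n x := by
    intro x
    refine ge_of_tendsto ((db_bj_unif D n τ).tendsto_at x) ?_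
    filter_upwards [hb] with j hj using hj x
  -- inverses
  have hw2 : ∀ x, |(D.bn τ n x)⁻¹| ≤ 2 := by
    intro x
    rw [abs_of_pos (inv_pos.2 (by linarith [hbn2 x])), inv_le_comm₀ (by linarith [hbn2 x])
      (by norm_num)]
    linarith [hbn2 x]
  have hwc : Continuous fun x => (D.bn τ n x)⁻¹ :=
    hbn.inv₀ fun x => by linarith [hbn2 x]
  have hwjc : ∀ᶠ j in atTop, Continuous fun x => (D.bj τ n j x)⁻¹ := by
    filter_upwards [hb] with j hj
    exact (hbc j).inv₀ fun x => by linarith [hj x]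
  have hwu : TendstoUniformly (fun j x => (D.bj τ n j x)⁻¹) (fun x => (D.bn τ n x)⁻¹) atTop := by
    rw [Metric.tendstoUniformly_iff]
    intro ε hε
    filter_upwards [hb, Metric.tendstoUniformly_iff.1 (db_bj_unif D n τ) (ε / 4) (by positivity)]
      with j hj h1 x
    have h2 := h1 x
    have h3 := db_inv_sub (hbn2 x) (hj x)
    rw [Real.dist_eq] at h2 ⊢
    linarith
  have hwu2 : TendstoUniformly (fun j x => (D.bj τ n j x)⁻¹ ^ 2)
      (fun x => (D.bn τ n x)⁻¹ ^ 2) atTop := by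
    rw [Metric.tendstoUniformly_iff]
    intro ε hε
    filter_upwards [hb, Metric.tendstoUniformly_iff.1 (db_bj_unif D n τ) (ε / 16) (by positivity)]
      with j hj h1 x
    have h2 := h1 x
    have h3 := db_inv_sq_sub (hbn2 x) (hj x)
    rw [Real.dist_eq] at h2 ⊢
    linarith
  -- the quotients are Lipschitz
  have hwL : ∀ᶠ j in atTop, ∃ K' : ℝ≥0, LipschitzWith K' (fun x => f x * (D.bj τ n j x)⁻¹) := by
    filter_upwards [hb] with j hj
    obtain ⟨Kb, hKb⟩ := db_bj_lip D n τ j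
    refine db_lip_mul hf (db_lip_inv hKb hj) hM (B := 2) fun x => ?_
    rw [abs_of_pos (inv_pos.2 (by linarith [hj x])), inv_le_comm₀ (by linarith [hj x])
      (by norm_num)]
    linarith [hj x]
  have hwLb : ∀ᶠ j in atTop, ∀ x, |f x * (D.bj τ n j x)⁻¹| ≤ M * 2 := by
    filter_upwards [hb] with j hj x
    rw [abs_mul]
    refine mul_le_mul (hM x) ?_ (abs_nonneg _) hM0
    rw [abs_of_pos (inv_pos.2 (by linarith [hj x])), inv_le_comm₀ (by linarith [hj x])
      (by norm_num)]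
    linarith [hj x]
  -- gradients of the quotients
  have hgr : ∀ᶠ j in atTop, ∀ᵐ x, DifferentiableAt ℝ f x ∧
      DifferentiableAt ℝ (fun x => f x * (D.bj τ n j x)⁻¹) x ∧
      ∇ (fun x => f x * (D.bj τ n j x)⁻¹) x = (D.bj τ n j x)⁻¹ • ∇ f x +
        (-(τ * (f x * (D.bj τ n j x)⁻¹ ^ 2))) • ∇ (D.PsiJ n j) x := by
    filter_upwards [hb, hwL] with j hj hL
    filter_upwards [pr_lip_diff f ⟨K, hf⟩, pr_lip_diff _ (db_bj_lip D n τ j), pr_lip_diff _ hL]
      with x h1 h2 h3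
    refine ⟨h1, h3, ?_⟩
    have hne : ∀ y, D.bj τ n j y ≠ 0 := fun y => by linarith [hj y]
    have e1 : (fun y => D.bj τ n j y * (f y * (D.bj τ n j y)⁻¹)) = f := by
      funext y
      field_simp [hne y]
    have e2 := db_grad_mul h2 h3
    rw [e1, db_grad_bj] at e2
    have e3 : ∇ (fun x => f x * (D.bj τ n j x)⁻¹) x = (D.bj τ n j x)⁻¹ •
        (∇ f x - (f x * (D.bj τ n j x)⁻¹) • τ • ∇ (D.PsiJ n j) x) := by
      rw [e2, add_sub_cancel_right, smul_smul, inv_mul_cancel₀ (hne x), one_smul]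
    rw [e3]
    module
  set Y : E3 → E3 := fun x => (D.bn τ n x)⁻¹ • ∇ f x +
    (-(τ * (f x * (D.bn τ n x)⁻¹ ^ 2))) • D.PsiG n x with hY
  have hYT : DbT (fun j => ∇ (fun x => f x * (D.bj τ n j x)⁻¹)) Y := by
    have h1 : DbT (fun j x => (D.bj τ n j x)⁻¹ • ∇ f x) (fun x => (D.bn τ n x)⁻¹ • ∇ f x) :=
      DbT.smul (DbT.const (db_memLp_lip hf))
        (by filter_upwards [hwjc] with j hj using hj.measurable) hwc.measurable hw2 hwu
    have h2 : DbT (fun j x => (-(τ * (f x * (D.bj τ n j x)⁻¹ ^ 2))) • ∇ (D.PsiJ n j) x)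
        (fun x => (-(τ * (f x * (D.bn τ n x)⁻¹ ^ 2))) • D.PsiG n x) := by
      refine DbT.smul (db_T D n) ?_ ?_ (M := |τ| * (M * 4)) (fun x => ?_) ?_
      · filter_upwards [hwjc] with j hj
        exact ((hfc.mul (hj.pow 2)).measurable.const_mul τ).neg
      · exact ((hfc.mul (hwc.pow 2)).measurable.const_mul τ).neg
      · rw [abs_neg, abs_mul, abs_mul, abs_pow]
        refine mul_le_mul_of_nonneg_left (mul_le_mul (hM x) ?_ (by positivity) hM0)
          (abs_nonneg _)
        have := pow_le_pow_left₀ (abs_nonneg _) (hw2 x) 2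
        linarith
      · have := db_unif_mul hwu2 (c := fun x => -(τ * f x)) (M := |τ| * M) fun x => by
          rw [abs_neg, abs_mul]; exact mul_le_mul_of_nonneg_left (hM x) (abs_nonneg _)
        convert this using 2
        · funext x; ring
        · ring
    refine (h1.add h2).congr ?_
    filter_upwards [hgr] with j hj
    filter_upwards [hj] with x hx using hx.2.2
  -- the gradients of `f² / b_j`
  set V : E3 → E3 := fun x => (2 * f x * (D.bn τ n x)⁻¹) • ∇ f x +
    (-(τ * (f x * f x * (D.bn τ n x)⁻¹ ^ 2))) • D.PsiG n x with hV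
  have hVT : DbT (fun j => ∇ (fun x => f x * (f x * (D.bj τ n j x)⁻¹))) V := by
    have h1 : DbT (fun j x => (2 * f x * (D.bj τ n j x)⁻¹) • ∇ f x)
        (fun x => (2 * f x * (D.bn τ n x)⁻¹) • ∇ f x) := by
      refine DbT.smul (DbT.const (db_memLp_lip hf)) ?_
        ((hfc.const_mul 2).mul hwc).measurable (M := 2 * M * 2) (fun x => ?_)
        (db_unif_mul hwu (M := 2 * M) fun x => ?_)
      · filter_upwards [hwjc] with j hj
        exact ((hfc.const_mul 2).mul hj).measurable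
      · rw [abs_mul, abs_mul, abs_two]
        exact mul_le_mul (mul_le_mul_of_nonneg_left (hM x) (by norm_num)) (hw2 x)
          (abs_nonneg _) (by positivity)
      · rw [abs_mul, abs_two]
        exact mul_le_mul_of_nonneg_left (hM x) (by norm_num)
    have h2 : DbT (fun j x => (-(τ * (f x * f x * (D.bj τ n j x)⁻¹ ^ 2))) • ∇ (D.PsiJ n j) x)
        (fun x => (-(τ * (f x * f x * (D.bn τ n x)⁻¹ ^ 2))) • D.PsiG n x) := by
      refine DbT.smul (db_T D n) ?_ ?_ (M := |τ| * (M * M * 4)) (fun x => ?_) ?_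
      · filter_upwards [hwjc] with j hj
        exact (((hfc.mul hfc).mul (hj.pow 2)).measurable.const_mul τ).neg
      · exact (((hfc.mul hfc).mul (hwc.pow 2)).measurable.const_mul τ).neg
      · rw [abs_neg, abs_mul, abs_mul, abs_pow, abs_mul]
        refine mul_le_mul_of_nonneg_left (mul_le_mul (mul_le_mul (hM x) (hM x) (abs_nonneg _) hM0)
          ?_ (by positivity) (by positivity)) (abs_nonneg _)
        have := pow_le_pow_left₀ (abs_nonneg _) (hw2 x) 2
        linarith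
      · have := db_unif_mul hwu2 (c := fun x => -(τ * (f x * f x))) (M := |τ| * (M * M)) fun x => by
          rw [abs_neg, abs_mul, abs_mul]
          exact mul_le_mul_of_nonneg_left (mul_le_mul (hM x) (hM x) (abs_nonneg _) hM0)
            (abs_nonneg _)
        convert this using 2
        · funext x; ring
        · ring
    refine (h1.add h2).congr ?_
    filter_upwards [hgr] with j hj
    filter_upwards [hj] with x hx
    rw [db_grad_mul hx.1 hx.2.1, hx.2.2]
    module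
  have hpair := db_pair_lim D n
    (ψ := fun j x => f x * (f x * (D.bj τ n j x)⁻¹))
    (by
      filter_upwards [hwL, hwLb] with j hj hj2
      obtain ⟨K', hK'⟩ := hj
      exact db_lip_mul hf hK' hM hj2)
    hVT (r := 0)
    (Eventually.of_forall fun j => by
      have hz : ∀ b, ∀ x ∈ Kc n,
          ((fun x => f x * (f x * (D.bj τ n j x)⁻¹)) ∘ sim b) x = (fun _ => (0:ℝ)) x := by
        intro b x hx
        have : sim b x ∈ Kc (n + 1) := by
          cases b with
          | true => exact Or.inl ⟨x, hx, rfl⟩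
          | false => exact Or.inr ⟨x, hx, rfl⟩
        simp only [Function.comp_apply]
        rw [hK _ this, zero_mul]
      rw [db_avgn_congr n (hz true), db_avgn_congr n (hz false), sub_self, zero_div])
  -- conclusion
  have hw : ∀ x, |D.bn τ n x ^ 2 * D.gam0 x| ≤ B ^ 2 * C := by
    intro x
    rw [abs_mul, abs_pow]
    exact mul_le_mul (pow_le_pow_left₀ (abs_nonneg _) (hB x) 2) (hC x) (abs_nonneg _)
      (by positivity)
  have hwm : Measurable fun x => D.bn τ n x ^ 2 * D.gam0 x :=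
    (hbn.measurable.pow_const 2).mul (gam0_measurable D)
  have hlim := DbT.pair hwm hw hYT hYT
  have he : ∀ j, ballEnergy (fun x => D.bn τ n x ^ 2 * D.gam0 x)
      (fun x => f x / D.bj τ n j x) =
      ∫ x, D.bn τ n x ^ 2 * D.gam0 x * inner ℝ (∇ (fun x => f x * (D.bj τ n j x)⁻¹) x)
        (∇ (fun x => f x * (D.bj τ n j x)⁻¹) x) ∂dbμ := by
    intro j
    have : (fun x => f x / D.bj τ n j x) = fun x => f x * (D.bj τ n j x)⁻¹ := by
      funext x; rw [div_eq_mul_inv]
    rw [this]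
    exact db_energy _ (ae_eq_refl _)
  simp only [he]
  convert hlim using 2
  have i1 := (db_cs (gam0_measurable D) hC (db_memLp_lip hf) (db_memLp_lip hf)).1
  have i2 := (db_cs (gam0_measurable D) hC (db_T D n).2.1 hVT.2.1).1
  have i3 := i2.const_mul (-τ)
  rw [db_energy _ (ae_eq_refl (∇ f))]
  have e1 : (0:ℝ) = ∫ x, -τ * (D.gam0 x * inner ℝ (D.PsiG n x) (V x)) ∂dbμ := by
    rw [integral_const_mul, hpair, mul_zero]
  rw [← add_zero (∫ x, D.gam0 x * inner ℝ (∇ f x) (∇ f x) ∂dbμ), e1, ← integral_add i1 i3]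
  refine integral_congr_ae (Eventually.of_forall fun x => ?_)
  have hne : D.bn τ n x ≠ 0 := by linarith [hbn2 x]
  simp only [hY, hV, inner_add_left, inner_add_right, real_inner_smul_left,
    real_inner_smul_right]
  rw [real_inner_comm (D.PsiG n x) (∇ f x)]
  field_simp
  ring

end Crest.Agent.R083
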