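import Crest.Agent.R083.Defs

/-!
Row 83 (S0111), LIB-3: gluing of Lipschitz functions.
-/

set_option autoImplicit false

namespace Crest.Agent.R083

open MeasureTheory Set Filter
open scoped Gradient ENNReal NNReal Topology

/-- value of the sum of disjointly supported functions at a point of one of the supports -/
theorem tsum_eq_of_mem {ι : Type*} {E : Type*} (f : ι → E → ℝ) (U : ι → Set E)
    (hU : Pairwise (Function.onFun Disjoint U))
    (h0 : ∀ i x, x ∉ U i → f i x = 0) {i : ι} {x : E} (hx : x ∈ U i) :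
    ∑' j, f j x = f i x := by
  refine tsum_eq_single i fun j hj => h0 j x fun hxj => ?_
  exact Set.disjoint_left.1 (hU hj) hxj hx

/-- value of the sum of disjointly supported functions off all the supports -/
theorem tsum_eq_zero_of_notMem {ι : Type*} {E : Type*} (f : ι → E → ℝ) (U : ι → Set E)
    (h0 : ∀ i x, x ∉ U i → f i x = 0) {x : E} (hx : ∀ i, x ∉ U i) :
    ∑' j, f j x = 0 := by
  have : (fun j => f j x) = fun _ => 0 := funext fun j => h0 j x (hx j)
  rw [this, tsum_zero]

/-- File `Glue.lean`. Disjointly supported Lipschitz functions add up to a Lipschitz function. -/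
theorem lip_tsum {ι : Type*} (f : ι → E3 → ℝ) (K : ℝ≥0) (hf : ∀ i, LipschitzWith K (f i))
    (U : ι → Set E3) (hU : Pairwise (Function.onFun Disjoint U))
    (h0 : ∀ i x, x ∉ U i → f i x = 0) : LipschitzWith (2 * K) (fun x => ∑' i, f i x) := by
  refine LipschitzWith.of_dist_le_mul fun x y => ?_
  have hd : 0 ≤ (K : ℝ) * dist x y := by positivity
  have hK : ((2 * K : ℝ≥0) : ℝ) * dist x y = K * dist x y + K * dist x y := by
    push_cast; ring
  rw [hK]
  have hfd : ∀ i, |f i x - f i y| ≤ K * dist x y := fun i => by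
    rw [← Real.dist_eq]; exact (hf i).dist_le_mul x y
  show dist (∑' i, f i x) (∑' i, f i y) ≤ _
  rw [Real.dist_eq]
  by_cases hx : ∃ i, x ∈ U i
  · obtain ⟨i, hi⟩ := hx
    rw [tsum_eq_of_mem f U hU h0 hi]
    by_cases hy : ∃ j, y ∈ U j
    · obtain ⟨j, hj⟩ := hy
      rw [tsum_eq_of_mem f U hU h0 hj]
      by_cases hij : i = j
      · subst hij
        linarith [hfd i]
      · have h1 : f i y = 0 := h0 i y fun h => Set.disjoint_left.1 (hU hij) h hj
        have h2 : f j x = 0 := h0 j x fun h => Set.disjoint_left.1 (hU hij) hi h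
        have e : f i x - f j y = (f i x - f i y) + (f j x - f j y) := by rw [h1, h2]; ring
        rw [e]
        exact (abs_add_le _ _).trans (add_le_add (hfd i) (hfd j))
    · push Not at hy
      rw [tsum_eq_zero_of_notMem f U h0 hy]
      have h1 : f i y = 0 := h0 i y (hy i)
      have := hfd i
      rw [h1] at this
      linarith
  · push Not at hx
    rw [tsum_eq_zero_of_notMem f U h0 hx]
    by_cases hy : ∃ j, y ∈ U j
    · obtain ⟨j, hj⟩ := hy
      rw [tsum_eq_of_mem f U hU h0 hj]
      have h1 : f j x = 0 := h0 j x (hx j)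
      have := hfd j
      rw [h1] at this
      linarith
    · push Not at hy
      rw [tsum_eq_zero_of_notMem f U h0 hy]
      simp only [sub_self, abs_zero]
      linarith

/-- File `Glue.lean`. -/
theorem lip_cover {ι : Type*} [Finite ι] (f : E3 → ℝ) (hf : Continuous f) (K : ℝ≥0)
    (C : ι → Set E3) (hC : ∀ i, IsClosed (C i)) (hcov : ⋃ i, C i = univ)
    (hL : ∀ i, LipschitzOnWith K f (C i)) : LipschitzWith K f := by
  refine LipschitzWith.of_dist_le_mul fun x y => ?_
  let c : ℝ → E3 := fun t => x + t • (y - x)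
  have hc : Continuous c := by fun_prop
  have hcd : ∀ s t, dist (c s) (c t) = |s - t| * dist x y := by
    intro s t
    have : c s - c t = (s - t) • (y - x) := by
      simp only [c]; module
    rw [dist_eq_norm, this, norm_smul, Real.norm_eq_abs, dist_comm x y, dist_eq_norm]
  let S : Set ℝ := {t | dist (f (c t)) (f (c 0)) ≤ K * dist x y * t}
  have hS : IsClosed S := by
    refine isClosed_le ?_ (by fun_prop)
    exact (hf.comp hc).dist continuous_const
  have h0 : (0 : ℝ) ∈ S := by simp [S]
  have hsub : Icc (0 : ℝ) 1 ⊆ S := by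
    refine IsClosed.Icc_subset_of_forall_exists_gt (hS.inter isClosed_Icc) h0 ?_
    rintro t ⟨htS, ht⟩ s hs
    have hts : t < s := hs
    -- pigeonhole
    have hfreq : ∃ i, ∃ᶠ t' in 𝓝[>] t, c t' ∈ C i := by
      by_contra hcon
      push Not at hcon
      have hall : ∀ᶠ t' in 𝓝[>] t, ∀ i, c t' ∉ C i := by
        rw [eventually_all]
        exact hcon
      obtain ⟨t', ht'⟩ := hall.exists
      have : c t' ∈ ⋃ i, C i := by rw [hcov]; trivial
      obtain ⟨i, hi⟩ := mem_iUnion.1 this
      exact ht' i hi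
    obtain ⟨i, hi⟩ := hfreq
    have hct : c t ∈ C i := by
      have h1 : ∃ᶠ t' in 𝓝 t, c t' ∈ C i := hi.filter_mono nhdsWithin_le_nhds
      have h2 : t ∈ closure (c ⁻¹' C i) := mem_closure_iff_frequently.2 h1
      rw [((hC i).preimage hc).closure_eq] at h2
      exact h2
    have hev : ∀ᶠ t' in 𝓝[>] t, t' ∈ Ioc t s := Ioc_mem_nhdsGT hts
    obtain ⟨t', ht', hmem⟩ := (hi.and_eventually hev).exists
    refine ⟨t', ?_, hmem⟩
    have h1 : dist (f (c t')) (f (c t)) ≤ K * dist (c t') (c t) := (hL i).dist_le_mul _ ht' _ hct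
    rw [hcd, abs_of_pos (sub_pos.2 hmem.1)] at h1
    have h2 : dist (f (c t)) (f (c 0)) ≤ K * dist x y * t := htS
    show dist (f (c t')) (f (c 0)) ≤ K * dist x y * t'
    calc dist (f (c t')) (f (c 0)) ≤ dist (f (c t')) (f (c t)) + dist (f (c t)) (f (c 0)) :=
          dist_triangle _ _ _
      _ ≤ K * ((t' - t) * dist x y) + K * dist x y * t := add_le_add h1 h2
      _ = K * dist x y * t' := by ring
  have h1 := hsub (right_mem_Icc.2 zero_le_one)
  have h2 : dist (f (c 1)) (f (c 0)) ≤ K * dist x y * 1 := h1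
  have e1 : c 1 = y := by simp [c]
  have e0 : c 0 = x := by simp [c]
  rw [e1, e0, mul_one, dist_comm] at h2
  exact h2

end Crest.Agent.R083
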