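import Crest.Agent.R083.WdfOps
import Crest.Agent.R083.Glue

/-!
Row 83, RES-b: Vitali filling and rotation invariance.
-/

set_option autoImplicit false

namespace Crest.Agent.R083

open MeasureTheory Set Filter
open scoped Gradient ENNReal NNReal Topology

theorem measurable_glue {ι β : Type*} [Countable ι] [MeasurableSpace β] (B : ι → Set E3)
    (hB : ∀ i, MeasurableSet (B i)) (f : ι → E3 → β) (hf : ∀ i, Measurable (f i)) (g : E3 → β)
    (hg : Measurable g) (F : E3 → β) (hF1 : ∀ i, ∀ x ∈ B i, F x = f i x)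
    (hF2 : ∀ x, (∀ i, x ∉ B i) → F x = g x) : Measurable F := by
  intro S hS
  have h : F ⁻¹' S = (⋃ i, (B i ∩ f i ⁻¹' S)) ∪ ((⋃ i, B i)ᶜ ∩ g ⁻¹' S) := by
    ext x
    simp only [mem_preimage, mem_union, mem_iUnion, mem_inter_iff, mem_compl_iff, not_exists]
    constructor
    · intro hx
      by_cases h : ∃ i, x ∈ B i
      · obtain ⟨i, hi⟩ := h
        exact Or.inl ⟨i, hi, hF1 i x hi ▸ hx⟩
      · push Not at h
        exact Or.inr ⟨h, hF2 x h ▸ hx⟩
    · rintro (⟨i, hi, hx⟩ | ⟨h, hx⟩)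
      · rw [hF1 i x hi]; exact hx
      · rw [hF2 x h]; exact hx
  rw [h]
  exact (MeasurableSet.iUnion fun i => (hB i).inter (hf i hS)).union
    ((MeasurableSet.iUnion hB).compl.inter (hg hS))

/-- the affine homeomorphism `x ↦ s⁻¹ (x - a)` -/
noncomputable def sclH (a : E3) (s : ℝ) (hs : s ≠ 0) : E3 ≃ₜ E3 :=
  (Homeomorph.subRight a).trans (Homeomorph.smulOfNeZero s⁻¹ (inv_ne_zero hs))

theorem sclH_apply (a : E3) (s : ℝ) (hs : s ≠ 0) (x : E3) : sclH a s hs x = s⁻¹ • (x - a) := rfl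

theorem volume_preimage_scl (a : E3) {s : ℝ} (hs : 0 < s) (S : Set E3) :
    volume ((fun x : E3 => s⁻¹ • (x - a)) ⁻¹' S) = ENNReal.ofReal (s ^ 3) * volume S := by
  have h1 : (fun x : E3 => s⁻¹ • (x - a)) ⁻¹' S
      = (fun x : E3 => x + (-a)) ⁻¹' ((fun x : E3 => s⁻¹ • x) ⁻¹' S) := by
    ext x
    simp only [mem_preimage, sub_eq_add_neg]
  rw [h1, measure_preimage_add_right, Measure.addHaar_preimage_smul _ (inv_ne_zero hs.ne')]
  congr 2
  rw [show Module.finrank ℝ E3 = 3 by simp]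
  rw [abs_of_pos (by positivity)]
  simp

/-- Vitali filling: exact data in one compact cell `D` give `Resolves`. -/
theorem fill_core (c C : ℝ) (L : ℝ≥0) (A : E3 →L[ℝ] E3) (D : Set E3) (hDc : IsCompact D)
    (hDi : (interior D).Nonempty) (hDf : volume (frontier D) = 0)
    (h : ∃ (γ : E3 → ℝ) (v : Fin 3 → E3 → ℝ) (R : Fin 3 → E3 → E3),
      Measurable γ ∧ (∀ x, c ≤ γ x ∧ γ x ≤ C) ∧
      ∀ i, LipschitzWith L (v i) ∧ (∀ x, x ∉ D → v i x = 0) ∧
        Measurable (R i) ∧ (∀ x, ‖R i x‖ ≤ L) ∧ (∀ x, x ∉ D → R i x = 0) ∧ WDF (R i) ∧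
        ∀ᵐ x ∂(volume.restrict D), A (ee i) + R i x = γ x • (ee i + ∇ (v i) x)) :
    Resolves c C (2 * L) A := by
  classical
  obtain ⟨γ, v, R, hγm, hγb, hvR⟩ := h
  intro U hU hUb ε hε
  obtain ⟨ρ, hρ, hDρ⟩ : ∃ ρ : ℝ, 0 < ρ ∧ D ⊆ Metric.closedBall 0 ρ :=
    hDc.isBounded.subset_closedBall_lt 0 0
  -- bound on `v`
  obtain ⟨M, hM, hvM⟩ : ∃ M : ℝ, 0 < M ∧ ∀ i x, |v i x| ≤ M := by
    have h1 : ∀ i, ∃ M : ℝ, ∀ x ∈ D, ‖v i x‖ ≤ M := fun i =>
      hDc.exists_bound_of_continuousOn (hvR i).1.continuous.continuousOn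
    choose M hM using h1
    refine ⟨1 + ∑ i, |M i|, by positivity, fun i x => ?_⟩
    by_cases hx : x ∈ D
    · have h2 := hM i x hx
      rw [Real.norm_eq_abs] at h2
      have h3 : |M i| ≤ ∑ i, |M i| :=
        Finset.single_le_sum (f := fun i => |M i|) (fun i _ => abs_nonneg _) (Finset.mem_univ i)
      linarith [le_abs_self (M i)]
    · rw [(hvR i).2.1 x hx, abs_zero]
      positivity
  set T : E3 × ℝ → E3 → E3 := fun a x => a.2⁻¹ • (x - a.1) with hT
  have hTc : ∀ a, Continuous (T a) := fun a => by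
    simp only [hT]; fun_prop
  set B : E3 × ℝ → Set E3 := fun a => T a ⁻¹' D with hB
  set t : Set (E3 × ℝ) :=
    {a | 0 < a.2 ∧ a.2 * M ≤ ε ∧ Metric.closedBall a.1 (a.2 * ρ) ⊆ U} with ht
  have hBcl : ∀ a, IsClosed (B a) := fun a => hDc.isClosed.preimage (hTc a)
  have hBball : ∀ a ∈ t, B a ⊆ Metric.closedBall a.1 (a.2 * ρ) := by
    intro a ha x hx
    have h1 := hDρ hx
    rw [mem_closedBall_zero_iff, hT] at h1
    simp only [norm_smul, norm_inv, Real.norm_eq_abs, abs_of_pos ha.1] at h1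
    rw [mem_closedBall_iff_norm]
    have h2 := ha.1
    field_simp at h1
    linarith
  have hDpos : volume D ≠ 0 := by
    intro h0
    have h1 : volume (interior D) = 0 := measure_mono_null interior_subset h0
    exact hDi.ne_empty ((isOpen_interior.measure_eq_zero_iff volume).1 h1)
  have hDfin : volume D ≠ ∞ := hDc.measure_lt_top.ne
  have hvolB : ∀ a ∈ t, ∀ S : Set E3, volume (T a ⁻¹' S) = ENNReal.ofReal (a.2 ^ 3) * volume S :=
    fun a ha S => volume_preimage_scl a.1 ha.1 S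
  obtain ⟨u, hut, huc, hud, huU⟩ := Vitali.exists_disjoint_covering_ae (volume : Measure E3) U t
    (volume (Metric.closedBall (0 : E3) (3 * ρ)) / volume D).toNNReal (fun a => a.2 * ρ)
    (fun a => a.1) B hBball (by
      intro a ha
      have h1 : Metric.closedBall a.1 (3 * (a.2 * ρ)) = T a ⁻¹' Metric.closedBall 0 (3 * ρ) := by
        ext x
        have h2 := ha.1
        rw [mem_preimage, mem_closedBall_zero_iff, mem_closedBall_iff_norm, hT]
        simp only [norm_smul, norm_inv, Real.norm_eq_abs, abs_of_pos ha.1]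
        rw [inv_mul_le_iff₀ h2]
        constructor <;> intro h <;> linarith
      rw [h1, hvolB a ha, hvolB a ha]
      rw [ENNReal.coe_toNNReal]
      · rw [mul_left_comm, ENNReal.div_mul_cancel hDpos hDfin]
      · exact ENNReal.div_ne_top measure_closedBall_lt_top.ne hDpos)
    (by
      intro a ha
      obtain ⟨y, hy⟩ := hDi
      have h1 : (fun x => T a x) = sclH a.1 a.2 ha.1.ne' := rfl
      have h2 : B a = (sclH a.1 a.2 ha.1.ne') ⁻¹' D := rfl
      rw [h2, ← Homeomorph.preimage_interior]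
      exact ⟨(sclH a.1 a.2 ha.1.ne').symm y, by
        rw [mem_preimage, Homeomorph.apply_symm_apply]; exact hy⟩)
    (fun a _ => hBcl a)
    (by
      intro x hx ε' hε'
      obtain ⟨r, hr, hrU⟩ := Metric.isOpen_iff.1 hU x hx
      refine ⟨(x, min (ε / M) (min (ε' / ρ) (r / 2 / ρ))), ⟨?_, ?_, ?_⟩, ?_, rfl⟩
      · have : 0 < ε / M := by positivity
        have : 0 < ε' / ρ := by positivity
        have : 0 < r / 2 / ρ := by positivity
        simp only [lt_min_iff]
        refine ⟨by positivity, by positivity, by positivity⟩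
      · have h1 : min (ε / M) (min (ε' / ρ) (r / 2 / ρ)) ≤ ε / M := min_le_left _ _
        calc _ ≤ ε / M * M := mul_le_mul_of_nonneg_right h1 hM.le
          _ = ε := by field_simp
      · refine (Metric.closedBall_subset_ball ?_).trans hrU
        have h1 : min (ε / M) (min (ε' / ρ) (r / 2 / ρ)) ≤ r / 2 / ρ :=
          (min_le_right _ _).trans (min_le_right _ _)
        calc _ ≤ r / 2 / ρ * ρ := mul_le_mul_of_nonneg_right h1 hρ.le
          _ = r / 2 := by field_simp
          _ < r := by linarith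
      · have h1 : min (ε / M) (min (ε' / ρ) (r / 2 / ρ)) ≤ ε' / ρ :=
          (min_le_right _ _).trans (min_le_left _ _)
        calc _ ≤ ε' / ρ * ρ := mul_le_mul_of_nonneg_right h1 hρ.le
          _ = ε' := by field_simp)
  have : Countable u := huc.to_subtype
  have hdis : Pairwise (Function.onFun Disjoint fun a : u => B a.1) := by
    intro a b hab
    exact hud a.2 b.2 (fun h => hab (Subtype.ext h))
  have hBU : ∀ a : u, B a.1 ⊆ U := fun a => (hBball a.1 (hut a.2)).trans (hut a.2).2.2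
  have hpos : ∀ a : u, 0 < a.1.2 := fun a => (hut a.2).1
  -- the glued objects
  have hnot : ∀ (a b : u), a ≠ b → ∀ x ∈ B a.1, x ∉ B b.1 := fun a b hab x hxa hxb =>
    Set.disjoint_left.1 (hdis hab) hxa hxb
  let γ' : E3 → ℝ := fun x => if h : ∃ a : u, x ∈ B a.1 then γ (T h.choose.1 x) else γ 0
  let v' : Fin 3 → E3 → ℝ := fun i x => ∑' a : u, a.1.2 * v i (T a.1 x)
  let R' : Fin 3 → E3 → E3 := fun i x => ∑' a : u, R i (T a.1 x)
  have hγ1 : ∀ a : u, ∀ x ∈ B a.1, γ' x = γ (T a.1 x) := by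
    intro a x hx
    have h : ∃ a : u, x ∈ B a.1 := ⟨a, hx⟩
    have h2 : h.choose = a := by
      by_contra hne
      exact hnot _ _ hne x h.choose_spec hx
    simp only [γ', dif_pos h, h2]
  have hγ2 : ∀ x, (∀ a : u, x ∉ B a.1) → γ' x = γ 0 := by
    intro x hx
    have h : ¬ ∃ a : u, x ∈ B a.1 := by push Not; exact hx
    simp only [γ', dif_neg h]
  have hv0 : ∀ i (a : u) x, x ∉ B a.1 → a.1.2 * v i (T a.1 x) = 0 := by
    intro i a x hx
    rw [(hvR i).2.1 _ hx, mul_zero]
  have hR0 : ∀ i (a : u) x, x ∉ B a.1 → R i (T a.1 x) = 0 := fun i a x hx =>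
    (hvR i).2.2.2.2.1 _ hx
  have hv1 : ∀ i (a : u), ∀ x ∈ B a.1, v' i x = a.1.2 * v i (T a.1 x) := fun i a x hx =>
    tsum_eq_of_mem (fun (a : u) x => a.1.2 * v i (T a.1 x)) (fun a => B a.1) hdis (hv0 i) hx
  have hv2 : ∀ i x, (∀ a : u, x ∉ B a.1) → v' i x = 0 := fun i x hx =>
    tsum_eq_zero_of_notMem (fun (a : u) x => a.1.2 * v i (T a.1 x)) (fun a => B a.1) (hv0 i) hx
  have hR1 : ∀ i (a : u), ∀ x ∈ B a.1, R' i x = R i (T a.1 x) := fun i a x hx =>
    tsum_eq_single a fun b hb => hR0 i b x (hnot a b hb.symm x hx)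
  have hR2 : ∀ i x, (∀ a : u, x ∉ B a.1) → R' i x = 0 := by
    intro i x hx
    have : (fun a : u => R i (T a.1 x)) = fun _ => 0 := funext fun a => hR0 i a x (hx a)
    simp only [R', this, tsum_zero]
  have hRL : ∀ i x, ‖R' i x‖ ≤ L := by
    intro i x
    by_cases hx : ∃ a : u, x ∈ B a.1
    · obtain ⟨a, ha⟩ := hx
      rw [hR1 i a x ha]
      exact (hvR i).2.2.2.1 _
    · push Not at hx
      rw [hR2 i x hx, norm_zero]
      exact L.2
  refine ⟨γ', v', R', ?_, ?_, fun i => ⟨?_, ?_, ?_, ?_, ?_, ?_, ?_, ?_⟩⟩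
  · exact measurable_glue (fun a : u => B a.1) (fun a => (hBcl a.1).measurableSet)
      (fun a x => γ (T a.1 x)) (fun a => hγm.comp (hTc a.1).measurable) (fun _ => γ 0)
      measurable_const γ' hγ1 hγ2
  · intro x
    by_cases hx : ∃ a : u, x ∈ B a.1
    · obtain ⟨a, ha⟩ := hx
      rw [hγ1 a x ha]
      exact hγb _
    · push Not at hx
      rw [hγ2 x hx]
      exact hγb _
  · refine lip_tsum (fun (a : u) x => a.1.2 * v i (T a.1 x)) L ?_ (fun a => B a.1) hdis (hv0 i)
    intro a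
    refine LipschitzWith.of_dist_le_mul fun x y => ?_
    have h1 := (hvR i).1.dist_le_mul (T a.1 x) (T a.1 y)
    have h2 : dist (T a.1 x) (T a.1 y) = a.1.2⁻¹ * dist x y := by
      simp only [hT]
      rw [dist_smul₀, dist_sub_right, Real.norm_eq_abs, abs_of_pos (inv_pos.2 (hpos a))]
    rw [Real.dist_eq, ← mul_sub, abs_mul, abs_of_pos (hpos a), ← Real.dist_eq]
    rw [h2] at h1
    have h3 := hpos a
    calc a.1.2 * dist (v i (T a.1 x)) (v i (T a.1 y))
        ≤ a.1.2 * (L * (a.1.2⁻¹ * dist x y)) := mul_le_mul_of_nonneg_left h1 h3.le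
      _ = L * dist x y := by field_simp
  · intro x hx
    exact hv2 i x fun a ha => hx (hBU a ha)
  · intro x
    by_cases hx : ∃ a : u, x ∈ B a.1
    · obtain ⟨a, ha⟩ := hx
      rw [hv1 i a x ha, abs_mul, abs_of_pos (hpos a)]
      calc a.1.2 * |v i (T a.1 x)| ≤ a.1.2 * M :=
            mul_le_mul_of_nonneg_left (hvM i _) (hpos a).le
        _ ≤ ε := (hut a.2).2.1
    · push Not at hx
      rw [hv2 i x hx, abs_zero]
      exact hε.le
  · exact measurable_glue (fun a : u => B a.1) (fun a => (hBcl a.1).measurableSet)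
      (fun a x => R i (T a.1 x)) (fun a => (hvR i).2.2.1.comp (hTc a.1).measurable) (fun _ => 0)
      measurable_const (R' i) (hR1 i) (hR2 i)
  · intro x
    refine (hRL i x).trans ?_
    push_cast
    linarith [L.2]
  · intro x hx
    exact hR2 i x fun a ha => hx (hBU a ha)
  · refine WDF.tsum (fun (a : u) x => R i (T a.1 x))
      (fun a => (hvR i).2.2.2.2.2.1.scale a.1.1 (hpos a)) ?_
    have hsum : ∑' a : u, volume (B a.1) ≠ ∞ := by
      rw [← measure_iUnion hdis (fun a => (hBcl a.1).measurableSet)]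
      refine ((measure_mono (iUnion_subset hBU)).trans_lt ?_).ne
      exact hUb.measure_lt_top
    have hs1 : Summable fun a : u => (volume (B a.1)).toReal := ENNReal.summable_toReal hsum
    refine Summable.of_nonneg_of_le (fun a => integral_nonneg fun x => norm_nonneg _) ?_
      (hs1.mul_left (L : ℝ))
    intro a
    have h1 : ∫ x, ‖R i (T a.1 x)‖ = ∫ x in B a.1, ‖R i (T a.1 x)‖ := by
      rw [setIntegral_eq_integral_of_forall_compl_eq_zero]
      intro x hx
      rw [hR0 i a x hx, norm_zero]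
    have hBfin : volume (B a.1) < ∞ :=
      (measure_mono (hBU a)).trans_lt hUb.measure_lt_top
    rw [h1]
    have h2 := norm_setIntegral_le_of_norm_le_const (f := fun x => ‖R i (T a.1 x)‖) (C := (L : ℝ))
      hBfin (fun x _ => by
        rw [norm_norm]; exact (hvR i).2.2.2.1 _)
    rw [Real.norm_eq_abs, abs_of_nonneg (integral_nonneg fun x => norm_nonneg _)] at h2
    exact h2
  · -- the pointwise relation
    have hA1 : ∀ᵐ x ∂(volume : Measure E3), x ∈ U → ∃ a : u, x ∈ B a.1 := by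
      have h1 : ∀ᵐ x ∂(volume : Measure E3), x ∉ U \ ⋃ a ∈ u, B a := measure_eq_zero_iff_ae_notMem.1 huU
      filter_upwards [h1] with x hx hxU
      by_contra hne
      apply hx
      refine ⟨hxU, ?_⟩
      simp only [mem_iUnion, not_exists]
      intro a ha hxa
      exact hne ⟨⟨a, ha⟩, hxa⟩
    have hA2 : ∀ᵐ x ∂(volume : Measure E3), ∀ a : u, x ∈ B a.1 → x ∈ interior (B a.1) := by
      rw [ae_all_iff]
      intro a
      have h1 : volume (T a.1 ⁻¹' frontier D) = 0 := by
        rw [hvolB a.1 (hut a.2), hDf, mul_zero]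
      have h2 : ∀ᵐ x ∂(volume : Measure E3), x ∉ T a.1 ⁻¹' frontier D :=
        measure_eq_zero_iff_ae_notMem.1 h1
      filter_upwards [h2] with x hx hxB
      have h3 : B a.1 = (sclH a.1.1 a.1.2 (hpos a).ne') ⁻¹' D := rfl
      rw [h3, ← Homeomorph.preimage_interior]
      by_contra hne
      apply hx
      exact ⟨subset_closure hxB, hne⟩
    have hA3 : ∀ᵐ x ∂(volume : Measure E3), ∀ a : u, x ∈ B a.1 →
        A (ee i) + R i (T a.1 x) = γ (T a.1 x) • (ee i + ∇ (v i) (T a.1 x)) := by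
      rw [ae_all_iff]
      intro a
      have h1 := (hvR i).2.2.2.2.2.2
      rw [ae_restrict_iff' hDc.measurableSet, ae_iff] at h1
      have h2 : volume (T a.1 ⁻¹' {x | ¬ (x ∈ D → A (ee i) + R i x = γ x • (ee i + ∇ (v i) x))})
          = 0 := by
        rw [hvolB a.1 (hut a.2), h1, mul_zero]
      have h3 := measure_eq_zero_iff_ae_notMem.1 h2
      filter_upwards [h3] with x hx hxB
      simp only [mem_preimage, Set.mem_ofPred_eq, not_not] at hx
      exact hx hxB
    rw [ae_restrict_iff' hU.measurableSet]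
    filter_upwards [hA1, hA2, hA3] with x h1 h2 h3 hxU
    obtain ⟨a, ha⟩ := h1 hxU
    have hgrad : ∇ (v' i) x = ∇ (v i) (T a.1 x) := by
      have h4 : v' i =ᶠ[𝓝 x] fun z => a.1.2 * (fun z => v i (a.1.2⁻¹ • (z - a.1.1))) z := by
        filter_upwards [isOpen_interior.mem_nhds (h2 a ha)] with z hz
        exact hv1 i a z (interior_subset hz)
      rw [grad_def, h4.fderiv_eq, ← grad_def, grad_const_mul, grad_comp_smul_sub, smul_smul,
        mul_inv_cancel₀ (hpos a).ne', one_smul]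
    rw [hR1 i a x ha, hγ1 a x ha, hgrad]
    exact h3 a ha

/-- `Resolves` in all directions at once. -/
theorem Resolves.dir {c C : ℝ} {L : ℝ≥0} {A : E3 →L[ℝ] E3} (h : Resolves c C L A)
    (U : Set E3) (hU : IsOpen U) (hUb : Bornology.IsBounded U) (ε : ℝ) (hε : 0 < ε) :
    ∃ (γ : E3 → ℝ) (v : E3 → E3 → ℝ) (R : E3 → E3 → E3),
      Measurable γ ∧ (∀ x, c ≤ γ x ∧ γ x ≤ C) ∧
      ∀ g : E3, LipschitzWith (2 * L * ‖g‖₊) (v g) ∧ (∀ x, x ∉ U → v g x = 0) ∧
        (∀ x, |v g x| ≤ ε * ‖g‖) ∧ Measurable (R g) ∧ (∀ x, ‖R g x‖ ≤ 2 * L * ‖g‖) ∧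
        (∀ x, x ∉ U → R g x = 0) ∧ WDF (R g) ∧
        ∀ᵐ x ∂(volume.restrict U), A g + R g x = γ x • (g + ∇ (v g) x) := by
  obtain ⟨γ, v, R, hγm, hγb, hvR⟩ := h U hU hUb (ε / 3) (by positivity)
  have hgi : ∀ (g : E3) i, |g i| ≤ ‖g‖ := fun g i => by
    rw [← Real.norm_eq_abs]; exact PiLp.norm_apply_le g i
  have hsum2 : ∀ g : E3, ∑ i, |g i| ≤ 2 * ‖g‖ := fun g => by
    have h1 : ‖g‖ ^ 2 = |g 0| ^ 2 + |g 1| ^ 2 + |g 2| ^ 2 := by
      rw [EuclideanSpace.norm_sq_eq, Fin.sum_univ_three]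
      simp only [Real.norm_eq_abs]
    rw [Fin.sum_univ_three]
    refine abs_le_of_sq_le_sq' ?_ (by positivity) |>.2
    nlinarith [sq_nonneg (|g 0| - |g 1|), sq_nonneg (|g 0| - |g 2|), sq_nonneg (|g 1| - |g 2|),
      sq_nonneg (|g 0|), sq_nonneg (|g 1|), sq_nonneg (|g 2|)]
  have hge : ∀ g : E3, g = ∑ i, g i • ee i := fun g => by
    ext j
    fin_cases j <;> simp [ee, Fin.sum_univ_three]
  refine ⟨γ, fun g x => ∑ i, g i * v i x, fun g x => ∑ i, g i • R i x, hγm, hγb, fun g =>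
    ⟨?_, ?_, ?_, ?_, ?_, ?_, ?_, ?_⟩⟩
  · refine LipschitzWith.of_dist_le_mul fun x y => ?_
    rw [Real.dist_eq, ← Finset.sum_sub_distrib]
    calc |∑ i, (g i * v i x - g i * v i y)| ≤ ∑ i, |g i * v i x - g i * v i y| :=
          Finset.abs_sum_le_sum_abs _ _
      _ ≤ ∑ i : Fin 3, |g i| * (L * dist x y) := by
          refine Finset.sum_le_sum fun i _ => ?_
          rw [← mul_sub, abs_mul]
          have h1 := (hvR i).1.dist_le_mul x y
          rw [Real.dist_eq] at h1
          exact mul_le_mul_of_nonneg_left h1 (abs_nonneg _)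
      _ ≤ 2 * ‖g‖ * (L * dist x y) := by
          rw [← Finset.sum_mul]
          exact mul_le_mul_of_nonneg_right (hsum2 g) (by positivity)
      _ = _ := by
          push_cast
          ring
  · intro x hx
    refine Finset.sum_eq_zero fun i _ => ?_
    rw [(hvR i).2.1 x hx, mul_zero]
  · intro x
    calc |∑ i, g i * v i x| ≤ ∑ i, |g i * v i x| := Finset.abs_sum_le_sum_abs _ _
      _ ≤ ∑ _i : Fin 3, ‖g‖ * (ε / 3) := by
          refine Finset.sum_le_sum fun i _ => ?_
          rw [abs_mul]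
          exact mul_le_mul (hgi g i) ((hvR i).2.2.1 x) (abs_nonneg _) (norm_nonneg _)
      _ = _ := by
          simp only [Finset.sum_const, Finset.card_univ, Fintype.card_fin, nsmul_eq_mul]
          push_cast
          ring
  · exact Finset.measurable_sum _ fun i _ => (hvR i).2.2.2.1.const_smul (g i)
  · intro x
    calc ‖∑ i, g i • R i x‖ ≤ ∑ i, ‖g i • R i x‖ := norm_sum_le _ _
      _ ≤ ∑ i : Fin 3, |g i| * L := by
          refine Finset.sum_le_sum fun i _ => ?_
          rw [norm_smul, Real.norm_eq_abs]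
          exact mul_le_mul_of_nonneg_left ((hvR i).2.2.2.2.1 x) (abs_nonneg _)
      _ ≤ 2 * ‖g‖ * L := by
          rw [← Finset.sum_mul]
          exact mul_le_mul_of_nonneg_right (hsum2 g) L.2
      _ = _ := by ring
  · intro x hx
    refine Finset.sum_eq_zero fun i _ => ?_
    rw [(hvR i).2.2.2.2.2.1 x hx, smul_zero]
  · exact WDF.sum _ _ fun i _ => ((hvR i).2.2.2.2.2.2.1).const_smul (g i)
  · have hrel : ∀ᵐ x ∂(volume.restrict U), ∀ i : Fin 3,
        A (ee i) + R i x = γ x • (ee i + ∇ (v i) x) := by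
      rw [ae_all_iff]
      exact fun i => (hvR i).2.2.2.2.2.2.2
    have hdiff : ∀ᵐ x ∂(volume.restrict U), ∀ i : Fin 3, DifferentiableAt ℝ (v i) x := by
      rw [ae_all_iff]
      exact fun i => ae_restrict_of_ae (hvR i).1.ae_differentiableAt
    filter_upwards [hrel, hdiff] with x hx hd
    have h1 : ∇ (fun x => ∑ i, g i * v i x) x = ∑ i, g i • ∇ (v i) x := by
      have h2 : fderiv ℝ (fun x => ∑ i, g i * v i x) x = ∑ i, g i • fderiv ℝ (v i) x := by
        rw [fderiv_fun_sum fun i _ => (hd i).const_mul (g i)]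
        refine Finset.sum_congr rfl fun i _ => ?_
        exact fderiv_const_mul (hd i) (g i)
      rw [grad_def, h2, map_sum]
      simp only [map_smul, grad_def]
    rw [h1]
    conv_lhs => rw [hge g]
    conv_rhs => rw [hge g]
    rw [map_sum]
    simp only [map_smul]
    have h3 : ∀ i, (∑ j, g j • ee j).ofLp i = g i := fun i => by rw [← hge g]
    simp only [h3]
    rw [← Finset.sum_add_distrib, ← Finset.sum_add_distrib, Finset.smul_sum]
    refine Finset.sum_congr rfl fun i _ => ?_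
    rw [← smul_add, hx i, smul_comm, smul_add]

/-- Rotation invariance. -/
theorem resolves_conj (c C : ℝ) (L : ℝ≥0) (A : E3 →L[ℝ] E3) (h : Resolves c C L A)
    (O : E3 ≃ₗᵢ[ℝ] E3) :
    Resolves c C (2 * L)
      ((O.toContinuousLinearEquiv : E3 →L[ℝ] E3) ∘L A ∘L
        (O.symm.toContinuousLinearEquiv : E3 →L[ℝ] E3)) := by
  intro U hU hUb ε hε
  have hOc : Continuous O := O.continuous
  have hOsc : Continuous O.symm := O.symm.continuous
  have hU'b : Bornology.IsBounded (O ⁻¹' U) := by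
    have h1 : O ⁻¹' U = O.symm '' U := by
      ext x
      constructor
      · intro hx
        exact ⟨O x, hx, O.symm_apply_apply x⟩
      · rintro ⟨y, hy, rfl⟩
        rw [mem_preimage, O.apply_symm_apply]
        exact hy
    rw [h1]
    exact O.symm.lipschitz.isBounded_image hUb
  obtain ⟨γ, v, R, hγm, hγb, hvR⟩ := h.dir (O ⁻¹' U) (hU.preimage hOc) hU'b ε hε
  have hee : ∀ i, ‖O.symm (ee i)‖ = 1 := fun i => by
    rw [LinearIsometryEquiv.norm_map]
    simp [ee]
  have hee' : ∀ i, ‖O.symm (ee i)‖₊ = 1 := fun i => by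
    apply NNReal.eq
    rw [coe_nnnorm, hee i]
    rfl
  refine ⟨fun x => γ (O.symm x), fun i x => v (O.symm (ee i)) (O.symm x),
    fun i x => O (R (O.symm (ee i)) (O.symm x)), hγm.comp hOsc.measurable, fun x => hγb _,
    fun i => ?_⟩
  obtain ⟨h1, h2, h3, h4, h5, h6, h7, h8⟩ := hvR (O.symm (ee i))
  have hmem : ∀ x, x ∉ U → O.symm x ∉ O ⁻¹' U := fun x hx => by
    rw [mem_preimage, O.apply_symm_apply]
    exact hx
  refine ⟨?_, fun x hx => h2 _ (hmem x hx), fun x => ?_, ?_, fun x => ?_, fun x hx => ?_,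
    h7.rot O, ?_⟩
  · rw [hee' i, mul_one] at h1
    have := h1.comp O.symm.lipschitz
    rw [mul_one] at this
    exact this
  · have := h3 (O.symm x)
    rwa [hee i, mul_one] at this
  · exact hOc.measurable.comp (h4.comp hOsc.measurable)
  · rw [LinearIsometryEquiv.norm_map]
    have := h5 (O.symm x)
    rw [hee i, mul_one] at this
    push_cast
    exact this
  · beta_reduce
    rw [h6 _ (hmem x hx), map_zero]
  · rw [ae_restrict_iff' (hU.preimage hOc).measurableSet] at h8
    rw [ae_restrict_iff' hU.measurableSet]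
    have hmp : MeasurePreserving O.symm volume volume := O.symm.measurePreserving
    have h9 := hmp.quasiMeasurePreserving.ae h8
    filter_upwards [h9] with x hx hxU
    have h10 := hx (by rw [mem_preimage, O.apply_symm_apply]; exact hxU)
    have h11 : ∇ (fun x => v (O.symm (ee i)) (O.symm x)) x
        = O (∇ (v (O.symm (ee i))) (O.symm x)) := by
      have := grad_comp_isometry (v (O.symm (ee i))) O.symm x
      rw [this]
      rfl
    rw [h11]
    have h12 := congrArg O h10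
    rw [map_add, map_smul, map_add, O.apply_symm_apply] at h12
    exact h12

/-- scalar tensors are resolved trivially -/
theorem fl_scalar (c C : ℝ) (L : ℝ≥0) (a : ℝ) (hc : c ≤ a) (hC : a ≤ C) :
    Resolves c C L (a • ContinuousLinearMap.id ℝ E3) := by
  intro U hU hUb ε hε
  refine ⟨fun _ => a, fun _ _ => 0, fun _ _ => 0, measurable_const, fun _ => ⟨hc, hC⟩,
    fun i => ⟨LipschitzWith.const' 0, fun _ _ => rfl, fun x => by simpa using hε.le,
      measurable_const, fun x => by simp, fun _ _ => rfl, WDF.zero, ?_⟩⟩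
  refine Filter.Eventually.of_forall fun x => ?_
  have : ∇ (fun _ : E3 => (0 : ℝ)) x = 0 := by
    rw [grad_def]
    simp
  rw [this]
  simp

theorem fl_mono {c C c' C' : ℝ} {L L' : ℝ≥0} {A : E3 →L[ℝ] E3} (h : Resolves c C L A)
    (hc : c' ≤ c) (hC : C ≤ C') (hL : L ≤ L') : Resolves c' C' L' A := by
  intro U hU hUb ε hε
  obtain ⟨γ, v, R, hγm, hγb, hvR⟩ := h U hU hUb ε hε
  refine ⟨γ, v, R, hγm, fun x => ⟨hc.trans (hγb x).1, (hγb x).2.trans hC⟩, fun i => ?_⟩
  obtain ⟨h1, h2, h3, h4, h5, h6, h7, h8⟩ := hvR i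
  exact ⟨h1.weaken hL, h2, h3, h4, fun x => (h5 x).trans (by exact_mod_cast hL), h6, h7, h8⟩

end Crest.Agent.R083
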