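import Crest.Agent.R083.ResDefs
import Crest.Agent.R083.Fill

/-!
Row 83, RES-b: the statements of `ResIface.lean` for `Fill`.
-/

set_option autoImplicit false

namespace Crest.Agent.R083

open MeasureTheory Set Filter
open scoped Gradient ENNReal NNReal Topology

/-- Vitali filling by scaled translates of one cell. -/
theorem fill (c C : ℝ) (L : ℝ≥0) (A : E3 →L[ℝ] E3) (D : Set E3) (hD : IsCompact D)
    (h0 : (0 : E3) ∈ interior D) (hfr : volume (frontier D) = 0)
    (h : CellData c C L A D) : Resolves c C (2 * L) A :=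
  fill_core c C L A D hD ⟨0, h0⟩ hfr h

/-- Rotation invariance. -/
theorem resolves_rot (c C : ℝ) (L : ℝ≥0) (A : E3 →L[ℝ] E3) (O : E3 ≃ₗᵢ[ℝ] E3)
    (h : Resolves c C L A) : Resolves c C (2 * L) (rotT O A) :=
  resolves_conj c C L A h O

end Crest.Agent.R083
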