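import Crest.Agent.R083.NearMin
import Crest.Agent.R083.FinDefs

/-!
Row 83 (S0111): elementary facts on energies of Lipschitz functions.
-/

set_option autoImplicit false

namespace Crest.Agent.R083

open MeasureTheory Set Filter
open scoped Gradient ENNReal NNReal Topology ContDiff
open Crest.AnalysisR.PDE.Calderon

/-- Bounded measurable vector fields. -/
def Bd (X : E3 → E3) : Prop := Measurable X ∧ ∃ K : ℝ, ∀ x, ‖X x‖ ≤ K

theorem bd_grad {f : E3 → ℝ} {K : ℝ≥0} (hf : LipschitzWith K f) : Bd (∇ f) :=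
  ⟨NearMin.measurable_grad f, K, fun x => NearMin.norm_grad_le hf x⟩

theorem bd_int {γ : E3 → ℝ} {C : ℝ} (hγ : Measurable γ) (hb : ∀ x, |γ x| ≤ C) {X Z : E3 → E3}
    (hX : Bd X) (hZ : Bd Z) :
    IntegrableOn (fun x => γ x * inner ℝ (X x) (Z x)) (Metric.ball (0 : E3) 3) := by
  obtain ⟨hXm, KX, hKX⟩ := hX
  obtain ⟨hZm, KZ, hKZ⟩ := hZ
  refine Measure.integrableOn_of_bounded (M := C * (KX * KZ)) measure_ball_lt_top.ne
    (hγ.mul (hXm.inner hZm)).aestronglyMeasurable (Eventually.of_forall fun x => ?_)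
  rw [norm_mul, Real.norm_eq_abs, Real.norm_eq_abs]
  have h1 : |inner ℝ (X x) (Z x)| ≤ KX * KZ := by
    refine (abs_real_inner_le_norm _ _).trans ?_
    exact mul_le_mul (hKX x) (hKZ x) (norm_nonneg _) ((norm_nonneg _).trans (hKX x))
  exact mul_le_mul (hb x) h1 (abs_nonneg _) ((abs_nonneg _).trans (hb x))

theorem bd_int_sq {γ : E3 → ℝ} {C : ℝ} (hγ : Measurable γ) (hb : ∀ x, |γ x| ≤ C) {X : E3 → E3}
    (hX : Bd X) :
    IntegrableOn (fun x => γ x * ‖X x‖ ^ 2) (Metric.ball (0 : E3) 3) := by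
  have := bd_int hγ hb hX hX
  simpa only [real_inner_self_eq_norm_sq] using this

/-- Expansion of the energy. -/
theorem energy_expand {γ : E3 → ℝ} {C : ℝ} (hγ : Measurable γ) (hb : ∀ x, |γ x| ≤ C)
    {X Z : E3 → E3} (hX : Bd X) (hZ : Bd Z) (t : ℝ) :
    ∫ x in Metric.ball (0 : E3) 3, γ x * ‖X x + t • Z x‖ ^ 2 =
      (∫ x in Metric.ball (0 : E3) 3, γ x * ‖X x‖ ^ 2) +
      2 * t * (∫ x in Metric.ball (0 : E3) 3, γ x * inner ℝ (X x) (Z x)) +
      t ^ 2 * (∫ x in Metric.ball (0 : E3) 3, γ x * ‖Z x‖ ^ 2) := by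
  rw [← integral_const_mul, ← integral_const_mul, ← integral_add, ← integral_add]
  · refine integral_congr_ae (Eventually.of_forall fun x => ?_)
    change γ x * ‖X x + t • Z x‖ ^ 2 = γ x * ‖X x‖ ^ 2 + 2 * t * (γ x * inner ℝ (X x) (Z x)) +
      t ^ 2 * (γ x * ‖Z x‖ ^ 2)
    rw [norm_add_sq_real, norm_smul, real_inner_smul_right, mul_pow, Real.norm_eq_abs, sq_abs]
    ring
  · exact (bd_int_sq hγ hb hX).add ((bd_int hγ hb hX hZ).const_mul _)
  · exact (bd_int_sq hγ hb hZ).const_mul _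
  · exact bd_int_sq hγ hb hX
  · exact (bd_int hγ hb hX hZ).const_mul _

/-- Quadratic lower bound at a near-minimiser. -/
theorem energy_lower {γ : E3 → ℝ} {C : ℝ} (hγ : Measurable γ) (hb : ∀ x, |γ x| ≤ C)
    (hpos : ∀ x, 0 ≤ γ x)
    {X Z : E3 → E3} (hX : Bd X) (hZ : Bd Z) (m η : ℝ)
    (hm : ∀ t : ℝ, m ≤ ∫ x in Metric.ball (0 : E3) 3, γ x * ‖X x + t • Z x‖ ^ 2)
    (hη : ∫ x in Metric.ball (0 : E3) 3, γ x * ‖X x‖ ^ 2 ≤ m + η) (θ : ℝ) (hθ : 0 < θ) :
    m - η / θ + (1 - θ) * (∫ x in Metric.ball (0 : E3) 3, γ x * ‖Z x‖ ^ 2) ≤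
      ∫ x in Metric.ball (0 : E3) 3, γ x * ‖X x + Z x‖ ^ 2 := by
  set E := ∫ x in Metric.ball (0 : E3) 3, γ x * ‖X x‖ ^ 2 with hE
  set A := ∫ x in Metric.ball (0 : E3) 3, γ x * inner ℝ (X x) (Z x) with hA
  set B := ∫ x in Metric.ball (0 : E3) 3, γ x * ‖Z x‖ ^ 2 with hB
  have h1 := energy_expand hγ hb hX hZ 1
  simp only [one_smul] at h1
  rw [h1, ← hE, ← hA, ← hB]
  have h0 : m ≤ E := by
    have := hm 0
    simpa using this
  have hB0 : 0 ≤ B := integral_nonneg fun x => mul_nonneg (hpos x) (sq_nonneg _)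
  have hq : ∀ t : ℝ, 0 ≤ B * (t * t) + (2 * A) * t + η := fun t => by
    have := hm t
    rw [energy_expand hγ hb hX hZ t, ← hE, ← hA, ← hB] at this
    nlinarith
  have hd := discrim_le_zero hq
  rw [discrim] at hd
  have hη0 : 0 ≤ η := by linarith
  -- A ^ 2 ≤ η B, so 2 |A| ≤ η / θ + θ B
  have h2 : -(η / θ + θ * B) ≤ 2 * A := by
    have h3 : (2 * A) ^ 2 ≤ (η / θ + θ * B) ^ 2 := by
      have h4 : (η / θ + θ * B) ^ 2 = (η / θ - θ * B) ^ 2 + 4 * (η * B) := by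
        field_simp; ring
      nlinarith [sq_nonneg (η / θ - θ * B)]
    have h5 : 0 ≤ η / θ + θ * B := by positivity
    exact (abs_le.1 (abs_le_of_sq_le_sq h3 h5)).1
  nlinarith

theorem energy_mono {γ γ' : E3 → ℝ} {C : ℝ} (hγ : Measurable γ) (hb : ∀ x, |γ x| ≤ C)
    (hγ' : Measurable γ') (hb' : ∀ x, |γ' x| ≤ C) {X : E3 → E3} (hX : Bd X)
    (h : ∀ x, γ x ≤ γ' x) :
    ∫ x in Metric.ball (0 : E3) 3, γ x * ‖X x‖ ^ 2 ≤
      ∫ x in Metric.ball (0 : E3) 3, γ' x * ‖X x‖ ^ 2 :=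
  integral_mono (bd_int_sq hγ hb hX) (bd_int_sq hγ' hb' hX)
    fun x => mul_le_mul_of_nonneg_right (h x) (sq_nonneg _)

/-- A competitor may be multiplied by a cutoff function. -/
theorem compact_competitor (φ u : E3 → ℝ) (hu : IsCompetitor φ u) :
    ∃ u' : E3 → ℝ, IsCompetitor φ u' ∧ HasCompactSupport u' ∧ (∃ K : ℝ≥0, LipschitzWith K u') ∧
      ∀ γ : E3 → ℝ, ballEnergy γ u' = ballEnergy γ u := by
  let g : ContDiffBump (0 : E3) := ⟨4, 5, by norm_num, by norm_num⟩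
  have hg1 : ContDiff ℝ 1 (fun x => g x * u x) := g.contDiff.mul hu.1
  have hgs : HasCompactSupport (fun x => g x * u x) := g.hasCompactSupport.mul_right
  have hgball : ∀ x ∈ Metric.ball (0 : E3) 4, g x * u x = u x := fun x hx => by
    rw [g.one_of_mem_closedBall (Metric.ball_subset_closedBall hx), one_mul]
  refine ⟨fun x => g x * u x, ⟨hg1, fun x hx => ?_⟩, hgs, ?_, fun γ => ?_⟩
  · exact (hgball x (by rw [mem_ball_zero_iff, hx]; norm_num)).trans (hu.2 x hx)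
  · obtain ⟨K, hK⟩ := hg1.lipschitzWith_of_hasCompactSupport hgs (by norm_num)
    exact ⟨K, hK⟩
  · unfold ballEnergy
    refine setIntegral_congr_fun measurableSet_ball fun x hx => ?_
    change γ x * ‖∇ (fun x => g x * u x) x‖ ^ 2 = γ x * ‖∇ u x‖ ^ 2
    have h4 : x ∈ Metric.ball (0 : E3) 4 :=
      Metric.ball_subset_ball (by norm_num) hx
    have he : (fun x => g x * u x) =ᶠ[𝓝 x] u := by
      filter_upwards [Metric.isOpen_ball.mem_nhds h4] with y hy using hgball y hy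
    have : ∇ (fun x => g x * u x) x = ∇ u x := by
      unfold gradient; rw [he.fderiv_eq]
    rw [this]

/-- A Lipschitz perturbation of a competitor supported in a smaller ball. -/
theorem lip_competitor (γ : E3 → ℝ) (c C : ℝ) (hc : 0 < c) (hγ : Measurable γ)
    (hb : ∀ x, c ≤ γ x ∧ γ x ≤ C) (φ v : E3 → ℝ) (hv : IsCompetitor φ v)
    (z : E3 → ℝ) (K : ℝ≥0) (hz : LipschitzWith K z) (h0 : ∀ x, 2 < ‖x‖ → z x = 0)
    (ε : ℝ) (hε : 0 < ε) :
    ∃ u, IsCompetitor φ u ∧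
      ballEnergy γ u < (∫ x in Metric.ball (0 : E3) 3, γ x * ‖∇ v x + ∇ z x‖ ^ 2) + ε := by
  refine approx_competitor γ c C hc hγ hb φ v hv 2 (by norm_num) (∇ z) ⟨?_, fun _ => z,
    fun _ => ⟨K, hz⟩, fun _ x hx => h0 x hx, ?_⟩ ε hε
  · have h1 : MemLp (∇ z) 2 (volume.restrict (Metric.closedBall (0 : E3) 2)) := by
      have : IsFiniteMeasure (volume.restrict (Metric.closedBall (0 : E3) 2)) := ⟨by
        rw [Measure.restrict_apply_univ]; exact measure_closedBall_lt_top⟩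
      exact MemLp.of_bound (NearMin.measurable_grad z).aestronglyMeasurable K
        (Eventually.of_forall fun x => NearMin.norm_grad_le hz x)
    have h2 : (Metric.closedBall (0 : E3) 2).indicator (∇ z) = ∇ z := by
      funext x
      by_cases hx : x ∈ Metric.closedBall (0 : E3) 2
      · rw [indicator_of_mem hx]
      · rw [indicator_of_notMem hx]
        rw [mem_closedBall_zero_iff, not_le] at hx
        exact (NearMin.grad_zero_off h0 x hx).symm
    rw [← h2]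
    exact (memLp_indicator_iff_restrict Metric.isClosed_closedBall.measurableSet).2 h1
  · simp

end Crest.Agent.R083
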