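import Crest.Agent.R083.FlatMinCore
import Crest.Agent.R083.CellCharge
import Crest.Agent.R083.CutLevel

/-!
Row 83 (S0111), FIN-c: near-minimisers which are constant on all cells of a deep level.
-/

set_option autoImplicit false

namespace Crest.Agent.R083

open MeasureTheory Set Filter
open scoped Gradient ENNReal NNReal Topology ContDiff
open Crest.AnalysisR.PDE.Calderon

/-- Near-minimisers which are constant on all closed cells of some deep level. -/
theorem flat_near_min (D : ModData) (φ : E3 → ℝ) (m : ℝ)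
    (hm : ∀ u, IsCompetitor φ u → m ≤ ballEnergy D.gam0 u)
    (hm' : ∀ δ : ℝ, 0 < δ → ∃ u, IsCompetitor φ u ∧ ballEnergy D.gam0 u ≤ m + δ)
    (η : ℝ) (hη : 0 < η) (n0 : ℕ) :
    ∃ n, n0 ≤ n ∧ ∃ (κ : ℝ) (v : E3 → ℝ), IsCompetitor φ v ∧ HasCompactSupport v ∧
      (∀ x ∈ Kc n, v x = κ) ∧ ballEnergy D.gam0 v ≤ m + η :=
  FlatMin.core D (cell_charge D) Ln_measurable Ln_subset volume_Ln cut_level φ m hm hm' η hη n0

end Crest.Agent.R083
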