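import Crest.Agent.R083.TreeGeom

/-!
Row 83 (S0111), task TREE-b: the self-similar medium `gam0` (helper552).
-/

set_option autoImplicit false

namespace Crest.Agent.R083

open MeasureTheory Set Filter
open scoped Gradient ENNReal NNReal Topology

theorem not_cellB_simInv_of_ne {b b' : Bool} (hb : b' ≠ b) {x : E3} (hx : x ∈ sim b '' cellBc) :
    simInv b' x ∉ cellB := by
  intro h
  have h1 : x ∈ sim b' '' cellBc := ⟨simInv b' x, cellB_subset h, sim_simInv b' x⟩
  have hd := children_disjoint
  rw [Set.disjoint_left] at hd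
  cases b <;> cases b'
  · exact hb rfl
  · exact hd h1 hx
  · exact hd hx h1
  · exact hb rfl

theorem simInv_mem_cellB {b : Bool} {x : E3} (h : simInv b x ∈ cellB) : x ∈ cellB :=
  sim_cell_subset b ⟨simInv b x, cellB_subset h, sim_simInv b x⟩

theorem simInv_mem_image {b : Bool} {x : E3} (h : simInv b x ∈ cellB) : x ∈ sim b '' cellBc :=
  ⟨simInv b x, cellB_subset h, sim_simInv b x⟩

theorem modQ_not_image {b : Bool} {x : E3} (hx : x ∈ modQ) : x ∉ sim b '' cellBc := by
  intro h
  apply hx.2
  cases b
  · exact Or.inr h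
  · exact Or.inl h

theorem measurableSet_modQ : MeasurableSet modQ := by
  refine cellB_open.measurableSet.diff (MeasurableSet.union ?_ ?_)
  · exact (cellBc_compact.image (sim_lipschitz true).continuous).isClosed.measurableSet
  · exact (cellBc_compact.image (sim_lipschitz false).continuous).isClosed.measurableSet

namespace ModData

variable (D : ModData)

theorem q_off (n : ℕ) (x : E3) (hx : x ∉ cellB) : D.q n x = 0 := by
  induction n generalizing x with
  | zero => exact Set.indicator_of_notMem (fun h => hx h.1) _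
  | succ n ih =>
    have h1 := ih (simInv true x) (fun h => hx (simInv_mem_cellB h))
    have h2 := ih (simInv false x) (fun h => hx (simInv_mem_cellB h))
    change D.q n (simInv true x) + D.q n (simInv false x) = 0
    rw [h1, h2, add_zero]

theorem q_succ_image (n : ℕ) {b : Bool} {x : E3} (hx : x ∈ sim b '' cellBc) :
    D.q (n + 1) x = D.q n (simInv b x) := by
  change D.q n (simInv true x) + D.q n (simInv false x) = _
  cases b
  · rw [D.q_off n _ (not_cellB_simInv_of_ne (b := false) (b' := true) (by decide) hx), zero_add]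
  · rw [D.q_off n _ (not_cellB_simInv_of_ne (b := true) (b' := false) (by decide) hx), add_zero]

theorem q_succ_sim (n : ℕ) (b : Bool) {x : E3} (hx : x ∈ cellBc) :
    D.q (n + 1) (sim b x) = D.q n x := by
  rw [D.q_succ_image n (b := b) ⟨x, hx, rfl⟩, simInv_sim]

theorem q_zero_image {b : Bool} {x : E3} (hx : x ∈ sim b '' cellBc) : D.q 0 x = 0 :=
  Set.indicator_of_notMem (fun h => modQ_not_image h hx) _

/-- a point where `q (n+1)` does not vanish lies in a child -/
theorem exists_image_of_q_succ_ne {n : ℕ} {x : E3} (h : D.q (n + 1) x ≠ 0) :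
    ∃ b, x ∈ sim b '' cellBc := by
  by_contra hcon
  push Not at hcon
  apply h
  change D.q n (simInv true x) + D.q n (simInv false x) = 0
  rw [D.q_off n _ (fun h => hcon true (simInv_mem_image h)),
    D.q_off n _ (fun h => hcon false (simInv_mem_image h)), add_zero]

theorem q_unique {n m : ℕ} {x : E3} (hn : D.q n x ≠ 0) (hm : D.q m x ≠ 0) : n = m := by
  induction n generalizing m x with
  | zero =>
    cases m with
    | zero => rfl
    | succ m =>
      obtain ⟨b, hb⟩ := D.exists_image_of_q_succ_ne hm
      exact absurd (D.q_zero_image hb) hn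
  | succ n ih =>
    cases m with
    | zero =>
      obtain ⟨b, hb⟩ := D.exists_image_of_q_succ_ne hn
      exact absurd (D.q_zero_image hb) hm
    | succ m =>
      obtain ⟨b, hb⟩ := D.exists_image_of_q_succ_ne hn
      rw [D.q_succ_image _ hb] at hn hm
      rw [ih hn hm]

theorem q_summable (x : E3) : Summable fun n => D.q n x := by
  by_cases h : ∃ n, D.q n x ≠ 0
  · obtain ⟨n, hn⟩ := h
    refine summable_of_ne_finset_zero (s := {n}) fun m hm => ?_
    by_contra h'
    exact hm (Finset.mem_singleton.2 (D.q_unique h' hn))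
  · push Not at h
    simp only [h]
    exact summable_zero

theorem tsum_q (x : E3) : (∑' n, D.q n x) = 0 ∨ ∃ n, (∑' n, D.q n x) = D.q n x := by
  by_cases h : ∃ n, D.q n x ≠ 0
  · obtain ⟨n, hn⟩ := h
    right
    refine ⟨n, tsum_eq_single n fun m hm => ?_⟩
    by_contra h'
    exact hm (D.q_unique h' hn)
  · push Not at h
    left
    simp only [h, tsum_zero]

theorem q_range (n : ℕ) (x : E3) : D.q n x = 0 ∨ ∃ y, D.q n x = D.γ y - 1 := by
  induction n generalizing x with
  | zero =>
    by_cases hx : x ∈ modQ
    · right; exact ⟨x, Set.indicator_of_mem hx _⟩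
    · left; exact Set.indicator_of_notMem hx _
  | succ n ih =>
    by_cases h : D.q (n + 1) x = 0
    · left; exact h
    · obtain ⟨b, hb⟩ := D.exists_image_of_q_succ_ne h
      rw [D.q_succ_image n hb]
      exact ih _

theorem q_measurable (n : ℕ) : Measurable (D.q n) := by
  induction n with
  | zero => exact (D.γm.sub_const 1).indicator measurableSet_modQ
  | succ n ih =>
    exact (ih.comp (simInv_lipschitz true).continuous.measurable).add
      (ih.comp (simInv_lipschitz false).continuous.measurable)

end ModData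

/-! ### File `Medium.lean` -/

theorem gam0_measurable (D : ModData) : Measurable D.gam0 := by
  have h : Measurable fun x => ∑' n, D.q n x := by
    refine measurable_of_tendsto_metrizable
      (f := fun N x => ∑ n ∈ Finset.range N, D.q n x) (fun N => ?_) ?_
    · exact Finset.measurable_sum _ fun n _ => D.q_measurable n
    · rw [tendsto_pi_nhds]
      intro x
      exact (D.q_summable x).hasSum.tendsto_sum_nat
  exact h.const_add 1

theorem gam0_bounds (D : ModData) : ∃ c C : ℝ, 0 < c ∧ ∀ x, c ≤ D.gam0 x ∧ D.gam0 x ≤ C := by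
  refine ⟨min D.c 1, max D.C 1, lt_min D.hc one_pos, fun x => ?_⟩
  have key : D.gam0 x = 1 ∨ ∃ y, D.gam0 x = D.γ y := by
    rcases D.tsum_q x with h | ⟨n, h⟩
    · left; simp only [ModData.gam0, h, add_zero]
    · rcases D.q_range n x with h' | ⟨y, h'⟩
      · left; simp only [ModData.gam0, h, h', add_zero]
      · right; exact ⟨y, by simp only [ModData.gam0, h, h']; ring⟩
  rcases key with h | ⟨y, h⟩
  · rw [h]; exact ⟨min_le_right _ _, le_max_right _ _⟩
  · rw [h]
    exact ⟨(min_le_left _ _).trans (D.γb y).1, (D.γb y).2.trans (le_max_left _ _)⟩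

theorem gam0_off (D : ModData) (x : E3) (hx : x ∉ cellB) : D.gam0 x = 1 := by
  simp only [ModData.gam0, D.q_off _ x hx, tsum_zero, add_zero]

theorem gam0_mod (D : ModData) (x : E3) (hx : x ∈ modQ) : D.gam0 x = D.γ x := by
  have h : ∀ n, n ≠ 0 → D.q n x = 0 := by
    intro n hn
    obtain ⟨m, rfl⟩ := Nat.exists_eq_succ_of_ne_zero hn
    by_contra h
    obtain ⟨b, hb⟩ := D.exists_image_of_q_succ_ne h
    exact modQ_not_image hx hb
  rw [ModData.gam0, tsum_eq_single 0 h]
  have : D.q 0 x = D.γ x - 1 := Set.indicator_of_mem hx _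
  rw [this]; ring

theorem gam0_sim_closed (D : ModData) (b : Bool) (x : E3) (hx : x ∈ cellBc) :
    D.gam0 (sim b x) = D.gam0 x := by
  rw [ModData.gam0, ModData.gam0, (D.q_summable (sim b x)).tsum_eq_zero_add,
    D.q_zero_image (b := b) ⟨x, hx, rfl⟩, zero_add]
  congr 1
  exact tsum_congr fun n => D.q_succ_sim n b hx

theorem gam0_sim (D : ModData) (b : Bool) (x : E3) (hx : x ∈ cellB) :
    D.gam0 (sim b x) = D.gam0 x := gam0_sim_closed D b x (cellB_subset hx)

end Crest.Agent.R083
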