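import Crest.Agent.R083.FinDefs
import Crest.Agent.R083.TreeGeom
import Crest.Agent.R083.Medium
import Crest.Agent.R083.Pairing
import Crest.Agent.R083.BoxFubini

/-!
Row 83 (S0111), FIN-d (task 952, helper286): Friedrichs inequality for the average over the boundary
of the cell, and the uniform trace inequality.
-/

set_option autoImplicit false

namespace Crest.Agent.R083

open MeasureTheory Set Filter
open scoped Gradient ENNReal NNReal Topology ContDiff

/-! ### one dimension -/

/-- `(u b - u a)² ≤ (b - a) ∫ u'²`. -/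
theorem trc_cs {u u' : ℝ → ℝ} {a b : ℝ} (hab : a ≤ b) (hu : ∀ t, HasDerivAt u (u' t) t)
    (hc : Continuous u') : (u b - u a) ^ 2 ≤ (b - a) * ∫ t in a..b, u' t ^ 2 := by
  have hI : ∫ t in a..b, u' t = u b - u a :=
    intervalIntegral.integral_eq_sub_of_hasDerivAt (fun t _ => hu t) (hc.intervalIntegrable _ _)
  rcases eq_or_lt_of_le hab with h | h
  · subst h; simp
  · have hpos : 0 < b - a := by linarith
    set lam := (u b - u a) / (b - a) with hlam
    have h1 : 0 ≤ ∫ t in a..b, (u' t - lam) ^ 2 :=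
      intervalIntegral.integral_nonneg hab fun t _ => sq_nonneg _
    have h2 : ∫ t in a..b, (u' t - lam) ^ 2 =
        (∫ t in a..b, u' t ^ 2) - 2 * lam * (∫ t in a..b, u' t) + lam ^ 2 * (b - a) := by
      have e : ∀ t, (u' t - lam) ^ 2 = (u' t ^ 2 - 2 * lam * u' t) + lam ^ 2 := fun t => by ring
      simp only [e]
      rw [intervalIntegral.integral_add, intervalIntegral.integral_sub,
        intervalIntegral.integral_const_mul, intervalIntegral.integral_const]
      · simp only [smul_eq_mul]; ring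
      · exact (hc.pow 2).intervalIntegrable _ _
      · exact (hc.const_mul _).intervalIntegrable _ _
      · exact ((hc.pow 2).sub (hc.const_mul _)).intervalIntegrable _ _
      · exact intervalIntegrable_const
    rw [h2, hI] at h1
    have h3 : lam * (b - a) = u b - u a := by rw [hlam]; field_simp
    have h4 : 0 ≤ (b - a) * ((∫ t in a..b, u' t ^ 2) - 2 * lam * (u b - u a)
        + lam ^ 2 * (b - a)) := mul_nonneg hpos.le h1
    have h5 : (b - a) * ((∫ t in a..b, u' t ^ 2) - 2 * lam * (u b - u a) + lam ^ 2 * (b - a))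
        = (b - a) * (∫ t in a..b, u' t ^ 2) - 2 * (lam * (b - a)) * (u b - u a)
          + (lam * (b - a)) ^ 2 := by ring
    rw [h5, h3] at h4
    nlinarith

/-! ### slices of bounded measurable functions -/

section slices

variable {g : E3 → ℝ} {B : ℝ}

theorem trc_meas_pt : Measurable (fun q : ℝ × ℝ × ℝ => pt q.1 q.2.1 q.2.2) := by
  have := ptE.measurable
  have e : (fun q : ℝ × ℝ × ℝ => pt q.1 q.2.1 q.2.2) = ptE := by
    funext q; rw [ptE_apply]
  rw [e]; exact this

theorem trc_slice_meas (hg : Measurable g) (c d : ℝ) (hcd : c ≤ d) :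
    Measurable (fun q : ℝ × ℝ => ∫ t in c..d, g (pt q.1 q.2 t)) := by
  have h1 : Measurable (fun q : (ℝ × ℝ) × ℝ => g (pt q.1.1 q.1.2 q.2)) :=
    hg.comp (trc_meas_pt.comp (measurable_fst.fst.prodMk (measurable_fst.snd.prodMk measurable_snd)))
  have h2 : StronglyMeasurable (fun q : ℝ × ℝ => ∫ t, g (pt q.1 q.2 t) ∂(volume.restrict (Ioc c d))) :=
    h1.stronglyMeasurable.integral_prod_right'
  have e : (fun q : ℝ × ℝ => ∫ t in c..d, g (pt q.1 q.2 t)) =
      fun q : ℝ × ℝ => ∫ t, g (pt q.1 q.2 t) ∂(volume.restrict (Ioc c d)) := by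
    funext q; rw [intervalIntegral.integral_of_le hcd]
  rw [e]; exact h2.measurable

theorem trc_slice_bound (hB : ∀ x, |g x| ≤ B) (c d : ℝ) (hcd : c ≤ d) (x y : ℝ) :
    |∫ t in c..d, g (pt x y t)| ≤ B * (d - c) := by
  have := intervalIntegral.norm_integral_le_of_norm_le_const (a := c) (b := d)
    (f := fun t => g (pt x y t)) (C := B) (fun t _ => by
      rw [Real.norm_eq_abs]; exact hB _)
  rw [Real.norm_eq_abs, abs_of_nonneg (by linarith : 0 ≤ d - c)] at this
  exact this

theorem trc_slice_int (hg : Measurable g) (hB : ∀ x, |g x| ≤ B) (c d : ℝ) (hcd : c ≤ d)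
    (x a b : ℝ) : IntervalIntegrable (fun y => ∫ t in c..d, g (pt x y t)) volume a b := by
  have h1 : Measurable (fun y => ∫ t in c..d, g (pt x y t)) :=
    (trc_slice_meas hg c d hcd).comp (measurable_const.prodMk measurable_id)
  refine (intervalIntegrable_const (c := B * (d - c))).mono_fun h1.aestronglyMeasurable ?_
  refine Eventually.of_forall fun y => ?_
  simp only [Real.norm_eq_abs]
  exact (trc_slice_bound hB c d hcd x y).trans (le_abs_self _)

theorem trc_slice_int2 (hg : Measurable g) (hB : ∀ x, |g x| ≤ B) (c d : ℝ) (hcd : c ≤ d)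
    (c' d' : ℝ) (hcd' : c' ≤ d') (a b : ℝ) :
    IntervalIntegrable (fun x => ∫ y in c'..d', ∫ t in c..d, g (pt x y t)) volume a b := by
  have h1 : Measurable (fun x => ∫ y in c'..d', ∫ t in c..d, g (pt x y t)) := by
    have h2 : StronglyMeasurable (fun x : ℝ => ∫ y, (fun q : ℝ × ℝ => ∫ t in c..d,
        g (pt q.1 q.2 t)) (x, y) ∂(volume.restrict (Ioc c' d'))) :=
      (trc_slice_meas hg c d hcd).stronglyMeasurable.integral_prod_right'
    have e : (fun x => ∫ y in c'..d', ∫ t in c..d, g (pt x y t)) =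
        fun x : ℝ => ∫ y, (fun q : ℝ × ℝ => ∫ t in c..d,
        g (pt q.1 q.2 t)) (x, y) ∂(volume.restrict (Ioc c' d')) := by
      funext x; rw [intervalIntegral.integral_of_le hcd']
    rw [e]; exact h2.measurable
  refine (intervalIntegrable_const (c := B * (d - c) * (d' - c'))).mono_fun
    h1.aestronglyMeasurable ?_
  refine Eventually.of_forall fun x => ?_
  have := intervalIntegral.norm_integral_le_of_norm_le_const (a := c') (b := d')
    (f := fun y => ∫ t in c..d, g (pt x y t)) (C := B * (d - c)) (fun y _ => by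
      rw [Real.norm_eq_abs]; exact trc_slice_bound hB c d hcd x y)
  rw [abs_of_nonneg (by linarith : 0 ≤ d' - c')] at this
  simp only [Real.norm_eq_abs] at this ⊢
  exact this.trans (le_abs_self _)

end slices

/-! ### Friedrichs inequality -/

theorem trc_roof_nonneg {x y : ℝ} (hx : |x| ≤ 7/5) (hy : |y| ≤ 1) : 0 ≤ roof x y := by
  unfold roof
  have : max 0 (max (|x| - 1) (|y| - 3/5)) ≤ 2/5 :=
    max_le (by norm_num) (max_le (by linarith) (by linarith))
  linarith

theorem trc_roof_le (x y : ℝ) : roof x y ≤ 1 := by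
  unfold roof
  have : 0 ≤ max 0 (max (|x| - 1) (|y| - 3/5)) := le_max_left _ _
  linarith

theorem trc_roof_continuous : Continuous (fun q : ℝ × ℝ => roof q.1 q.2) := by
  unfold roof
  fun_prop

theorem trc_norm_sq_pt (x y t : ℝ) : ‖pt x y t‖ ^ 2 = x ^ 2 + y ^ 2 + t ^ 2 := by
  rw [tg_norm_sq]; rfl

theorem trc_norm_ee (i : Fin 3) : ‖ee i‖ = 1 := by simp [ee]

/-- vertical estimate -/
theorem trc_vertical {f : E3 → ℝ} (hf : ContDiff ℝ 1 f) (h0 : ∀ x, ‖x‖ = 3 → f x = 0)
    {x y : ℝ} (hx : |x| ≤ 7/5) (hy : |y| ≤ 1) :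
    f (pt x y (roof x y)) ^ 2 + f (pt x y (-roof x y)) ^ 2 ≤
      3 * ∫ t in (-3:ℝ)..3, (Metric.ball (0 : E3) 3 \ cellB).indicator (fun p => ‖∇ f p‖ ^ 2)
        (pt x y t) := by
  set g : E3 → ℝ := (Metric.ball (0 : E3) 3 \ cellB).indicator (fun p => ‖∇ f p‖ ^ 2) with hg
  set ρ := roof x y with hρ
  have hρ0 : 0 ≤ ρ := trc_roof_nonneg hx hy
  have hρ1 : ρ ≤ 1 := trc_roof_le x y
  have hx2 : x ^ 2 ≤ 49/25 := by
    have := abs_le.mp hx
    nlinarith
  have hy2 : y ^ 2 ≤ 1 := by
    have := abs_le.mp hy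
    nlinarith
  set s := √(9 - x ^ 2 - y ^ 2) with hs
  have hs2 : s ^ 2 = 9 - x ^ 2 - y ^ 2 := Real.sq_sqrt (by linarith)
  have hs0 : 0 ≤ s := Real.sqrt_nonneg _
  have hs1 : 1 ≤ s := by nlinarith
  have hs3 : s ≤ 3 := by nlinarith [sq_nonneg x, sq_nonneg y]
  -- zero on the sphere
  have z1 : f (pt x y s) = 0 := by
    apply h0
    have h1 : ‖pt x y s‖ ^ 2 = 3 ^ 2 := by rw [trc_norm_sq_pt, hs2]; ring
    exact (pow_left_inj₀ (norm_nonneg _) (by norm_num) two_ne_zero).mp h1
  have z2 : f (pt x y (-s)) = 0 := by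
    apply h0
    have h1 : ‖pt x y (-s)‖ ^ 2 = 3 ^ 2 := by rw [trc_norm_sq_pt, neg_sq, hs2]; ring
    exact (pow_left_inj₀ (norm_nonneg _) (by norm_num) two_ne_zero).mp h1
  -- derivative along the line
  have hd : ∀ t, HasDerivAt (fun t => f (pt x y t)) (fderiv ℝ f (pt x y t) (ee 2)) t :=
    fun t => hasDerivAt_pt_two f x y t (hf.differentiable one_ne_zero _)
  have hptc : Continuous (fun t : ℝ => pt x y t) := by
    unfold pt
    fun_prop
  have hfc : Continuous (fderiv ℝ f) := hf.continuous_fderiv one_ne_zero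
  have hc : Continuous (fun t => fderiv ℝ f (pt x y t) (ee 2)) :=
    (hfc.comp hptc).clm_apply continuous_const
  have hgm : Measurable g := by
    refine ((measurable_gradient f).norm.pow_const 2).indicator ?_
    exact measurableSet_ball.diff cellB_open.measurableSet
  -- bound of `g`
  obtain ⟨B, hB⟩ := (isCompact_closedBall (0 : E3) 3).exists_bound_of_continuousOn
    (f := fun p => ‖fderiv ℝ f p‖ ^ 2) (by fun_prop)
  have hgB : ∀ p, |g p| ≤ max B 0 := by
    intro p
    rw [hg]
    by_cases hp : p ∈ Metric.ball (0 : E3) 3 \ cellB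
    · rw [indicator_of_mem hp, norm_gradient]
      have := hB p (Metric.ball_subset_closedBall hp.1)
      rw [Real.norm_eq_abs] at this
      exact this.trans (le_max_left _ _)
    · rw [indicator_of_notMem hp, abs_zero]
      exact le_max_right _ _
  have hg0 : ∀ p, 0 ≤ g p := fun p => indicator_nonneg (fun _ _ => sq_nonneg _) p
  have hgi : ∀ a b, IntervalIntegrable (fun t => g (pt x y t)) volume a b := by
    intro a b
    refine (intervalIntegrable_const (c := max B 0)).mono_fun
      (hgm.comp hptc.measurable).aestronglyMeasurable ?_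
    refine Eventually.of_forall fun t => ?_
    simp only [Real.norm_eq_abs]
    exact (hgB _).trans (le_abs_self _)
  -- pointwise comparison
  have hcmp : ∀ t, ρ ≤ |t| → |t| < s → fderiv ℝ f (pt x y t) (ee 2) ^ 2 ≤ g (pt x y t) := by
    intro t ht1 ht2
    have hmem : pt x y t ∈ Metric.ball (0 : E3) 3 \ cellB := by
      refine ⟨?_, ?_⟩
      · rw [mem_ball_zero_iff]
        have h1 : ‖pt x y t‖ ^ 2 < 3 ^ 2 := by
          rw [trc_norm_sq_pt]
          have : t ^ 2 < s ^ 2 := by
            rw [← sq_abs t]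
            exact pow_lt_pow_left₀ ht2 (abs_nonneg t) two_ne_zero
          linarith
        exact lt_of_pow_lt_pow_left₀ 2 (by norm_num) h1
      · intro h
        have h2 : |t| < roof x y := h
        linarith
    rw [hg, indicator_of_mem hmem, norm_gradient]
    have h1 : |fderiv ℝ f (pt x y t) (ee 2)| ≤ ‖fderiv ℝ f (pt x y t)‖ := by
      have := (fderiv ℝ f (pt x y t)).le_opNorm (ee 2)
      rwa [trc_norm_ee, mul_one, Real.norm_eq_abs] at this
    rw [← sq_abs]
    exact pow_le_pow_left₀ (abs_nonneg _) h1 2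
  have hint2 : ∀ a b, IntervalIntegrable (fun t => fderiv ℝ f (pt x y t) (ee 2) ^ 2) volume a b :=
    fun a b => (hc.pow 2).intervalIntegrable _ _
  -- upper half
  have hup : f (pt x y ρ) ^ 2 ≤ 3 * ∫ t in ρ..s, g (pt x y t) := by
    have h1 := trc_cs (a := ρ) (b := s) (by linarith) hd hc
    simp only [z1, zero_sub, neg_sq] at h1
    have h2 : ∫ t in ρ..s, fderiv ℝ f (pt x y t) (ee 2) ^ 2 ≤ ∫ t in ρ..s, g (pt x y t) := by
      refine intervalIntegral.integral_mono_on_of_le_Ioo (by linarith) (hint2 _ _) (hgi _ _) ?_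
      intro t ht
      exact hcmp t (by rw [abs_of_nonneg (by linarith [ht.1])]; exact ht.1.le)
        (by rw [abs_of_nonneg (by linarith [ht.1])]; exact ht.2)
    have h3 : 0 ≤ ∫ t in ρ..s, g (pt x y t) :=
      intervalIntegral.integral_nonneg (by linarith) fun t _ => hg0 _
    calc f (pt x y ρ) ^ 2 ≤ (s - ρ) * ∫ t in ρ..s, fderiv ℝ f (pt x y t) (ee 2) ^ 2 := h1
      _ ≤ (s - ρ) * ∫ t in ρ..s, g (pt x y t) := mul_le_mul_of_nonneg_left h2 (by linarith)
      _ ≤ 3 * ∫ t in ρ..s, g (pt x y t) := mul_le_mul_of_nonneg_right (by linarith) h3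
  have hlo : f (pt x y (-ρ)) ^ 2 ≤ 3 * ∫ t in (-s)..(-ρ), g (pt x y t) := by
    have h1 := trc_cs (a := -s) (b := -ρ) (by linarith) hd hc
    simp only [z2, sub_zero] at h1
    have h2 : ∫ t in (-s)..(-ρ), fderiv ℝ f (pt x y t) (ee 2) ^ 2 ≤
        ∫ t in (-s)..(-ρ), g (pt x y t) := by
      refine intervalIntegral.integral_mono_on_of_le_Ioo (by linarith) (hint2 _ _) (hgi _ _) ?_
      intro t ht
      exact hcmp t (by rw [abs_of_nonpos (by linarith [ht.2])]; linarith [ht.2])
        (by rw [abs_of_nonpos (by linarith [ht.2])]; linarith [ht.1])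
    have h3 : 0 ≤ ∫ t in (-s)..(-ρ), g (pt x y t) :=
      intervalIntegral.integral_nonneg (by linarith) fun t _ => hg0 _
    calc f (pt x y (-ρ)) ^ 2 ≤ (-ρ - -s) * ∫ t in (-s)..(-ρ), fderiv ℝ f (pt x y t) (ee 2) ^ 2 := h1
      _ ≤ (-ρ - -s) * ∫ t in (-s)..(-ρ), g (pt x y t) := mul_le_mul_of_nonneg_left h2 (by linarith)
      _ ≤ 3 * ∫ t in (-s)..(-ρ), g (pt x y t) := mul_le_mul_of_nonneg_right (by linarith) h3
  -- collect
  have hsum : (∫ t in ρ..s, g (pt x y t)) + (∫ t in (-s)..(-ρ), g (pt x y t)) ≤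
      ∫ t in (-3:ℝ)..3, g (pt x y t) := by
    have e : ∫ t in (-3:ℝ)..3, g (pt x y t) = (∫ t in (-3:ℝ)..(-s), g (pt x y t)) +
        (∫ t in (-s)..(-ρ), g (pt x y t)) + (∫ t in (-ρ)..ρ, g (pt x y t)) +
        (∫ t in ρ..s, g (pt x y t)) + (∫ t in s..3, g (pt x y t)) := by
      rw [intervalIntegral.integral_add_adjacent_intervals (hgi _ _) (hgi _ _),
        intervalIntegral.integral_add_adjacent_intervals (hgi _ _) (hgi _ _),
        intervalIntegral.integral_add_adjacent_intervals (hgi _ _) (hgi _ _),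
        intervalIntegral.integral_add_adjacent_intervals (hgi _ _) (hgi _ _)]
    have n1 : 0 ≤ ∫ t in (-3:ℝ)..(-s), g (pt x y t) :=
      intervalIntegral.integral_nonneg (by linarith) fun t _ => hg0 _
    have n2 : 0 ≤ ∫ t in (-ρ)..ρ, g (pt x y t) :=
      intervalIntegral.integral_nonneg (by linarith) fun t _ => hg0 _
    have n3 : 0 ≤ ∫ t in s..3, g (pt x y t) :=
      intervalIntegral.integral_nonneg (by linarith) fun t _ => hg0 _
    linarith
  linarith

/-- Friedrichs inequality for the average over the boundary of the cell. -/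
theorem friedrichs_cell : ∃ Cf : ℝ, 0 ≤ Cf ∧ ∀ f : E3 → ℝ, ContDiff ℝ 1 f →
    (∀ x, ‖x‖ = 3 → f x = 0) →
    pavg (fun x => f x ^ 2) ≤ Cf * ∫ x in Metric.ball (0 : E3) 3 \ cellB, ‖∇ f x‖ ^ 2 := by
  refine ⟨3, by norm_num, fun f hf h0 => ?_⟩
  set g : E3 → ℝ := (Metric.ball (0 : E3) 3 \ cellB).indicator (fun p => ‖∇ f p‖ ^ 2) with hg
  have hms : MeasurableSet (Metric.ball (0 : E3) 3 \ cellB) :=
    measurableSet_ball.diff cellB_open.measurableSet
  have hgm : Measurable g := ((measurable_gradient f).norm.pow_const 2).indicator hms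
  have hfc : Continuous (fderiv ℝ f) := hf.continuous_fderiv one_ne_zero
  obtain ⟨B, hB⟩ := (isCompact_closedBall (0 : E3) 3).exists_bound_of_continuousOn
    (f := fun p => ‖fderiv ℝ f p‖ ^ 2) (by fun_prop)
  have hgB : ∀ p, |g p| ≤ max B 0 := by
    intro p
    rw [hg]
    by_cases hp : p ∈ Metric.ball (0 : E3) 3 \ cellB
    · rw [indicator_of_mem hp, norm_gradient]
      have := hB p (Metric.ball_subset_closedBall hp.1)
      rw [Real.norm_eq_abs] at this
      exact this.trans (le_max_left _ _)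
    · rw [indicator_of_notMem hp, abs_zero]
      exact le_max_right _ _
  have hg0 : ∀ p, 0 ≤ g p := fun p => indicator_nonneg (fun _ _ => sq_nonneg _) p
  have hgI : Integrable g volume := by
    rw [hg, integrable_indicator_iff hms]
    refine Measure.integrableOn_of_bounded (M := max B 0)
      (lt_of_le_of_lt (measure_mono sdiff_subset) measure_ball_lt_top).ne ?_ ?_
    · exact ((measurable_gradient f).norm.pow_const 2).aestronglyMeasurable
    · filter_upwards [ae_restrict_mem hms] with p hp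
      have := hgB p
      rw [hg, indicator_of_mem hp] at this
      simpa using this
  have hcont : Continuous (fun q : ℝ × ℝ => f (pt q.1 q.2 (roof q.1 q.2)) ^ 2 +
      f (pt q.1 q.2 (-roof q.1 q.2)) ^ 2) := by
    have hr := trc_roof_continuous
    have hp : Continuous (fun q : ℝ × ℝ × ℝ => pt q.1 q.2.1 q.2.2) := by
      unfold pt; fun_prop
    have h1 : Continuous (fun q : ℝ × ℝ => pt q.1 q.2 (roof q.1 q.2)) :=
      hp.comp (continuous_fst.prodMk (continuous_snd.prodMk hr))
    have h2 : Continuous (fun q : ℝ × ℝ => pt q.1 q.2 (-roof q.1 q.2)) :=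
      hp.comp (continuous_fst.prodMk (continuous_snd.prodMk hr.neg))
    exact ((hf.continuous.comp h1).pow 2).add ((hf.continuous.comp h2).pow 2)
  have key : (∫ x in (-(7/5:ℝ))..(7/5), ∫ y in (-1:ℝ)..1,
      (f (pt x y (roof x y)) ^ 2 + f (pt x y (-roof x y)) ^ 2)) ≤
      3 * ∫ x in (-(7/5:ℝ))..(7/5), ∫ y in (-1:ℝ)..1, ∫ t in (-3:ℝ)..3, g (pt x y t) := by
    rw [← intervalIntegral.integral_const_mul]
    refine intervalIntegral.integral_mono_on (by norm_num) ?_ ?_ ?_
    · exact (intervalIntegral.continuous_parametric_intervalIntegral_of_continuous'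
        (f := fun x y => f (pt x y (roof x y)) ^ 2 + f (pt x y (-roof x y)) ^ 2)
        hcont (-1) 1).intervalIntegrable _ _
    · exact (trc_slice_int2 hgm hgB (-3) 3 (by norm_num) (-1) 1 (by norm_num) _ _).const_mul 3
    · intro x hx
      rw [← intervalIntegral.integral_const_mul]
      refine intervalIntegral.integral_mono_on (by norm_num) ?_ ?_ ?_
      · exact (hcont.comp (continuous_const.prodMk continuous_id)).intervalIntegrable _ _
      · exact (trc_slice_int hgm hgB (-3) 3 (by norm_num) x _ _).const_mul 3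
      · intro y hy
        exact trc_vertical hf h0 (abs_le.mpr ⟨by linarith [hx.1], hx.2⟩)
          (abs_le.mpr ⟨by linarith [hy.1], hy.2⟩)
  have hbox := integral_cbox (-(7/5)) (7/5) (-1) 1 (-3) 3 (by norm_num) (by norm_num)
    (by norm_num) g hgI.integrableOn
  rw [← hbox] at key
  have hle : ∫ x in cbox (-(7/5)) (7/5) (-1) 1 (-3) 3, g x ≤ ∫ x, g x :=
    setIntegral_le_integral hgI (Eventually.of_forall hg0)
  have hfin : ∫ x, g x = ∫ x in Metric.ball (0 : E3) 3 \ cellB, ‖∇ f x‖ ^ 2 := by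
    rw [hg, integral_indicator hms]
  have hnn : 0 ≤ ∫ x, g x := integral_nonneg hg0
  unfold pavg
  rw [← hfin]
  have h56 : (2 * (14/5) * 2 : ℝ) = 56/5 := by norm_num
  rw [h56, div_le_iff₀ (by norm_num)]
  linarith

/-! ### averages -/

theorem trc_pt_continuous : Continuous (fun q : ℝ × ℝ × ℝ => pt q.1 q.2.1 q.2.2) := by
  unfold pt; fun_prop

theorem trc_bd_continuous {ψ : E3 → ℝ} (hψ : Continuous ψ) :
    Continuous (fun q : ℝ × ℝ => ψ (pt q.1 q.2 (roof q.1 q.2)) +
      ψ (pt q.1 q.2 (-roof q.1 q.2))) := by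
  have hr := trc_roof_continuous
  have h1 : Continuous (fun q : ℝ × ℝ => pt q.1 q.2 (roof q.1 q.2)) :=
    trc_pt_continuous.comp (continuous_fst.prodMk (continuous_snd.prodMk hr))
  have h2 : Continuous (fun q : ℝ × ℝ => pt q.1 q.2 (-roof q.1 q.2)) :=
    trc_pt_continuous.comp (continuous_fst.prodMk (continuous_snd.prodMk hr.neg))
  exact (hψ.comp h1).add (hψ.comp h2)

theorem trc_pavg_mono {ψ φ : E3 → ℝ} (hψ : Continuous ψ) (hφ : Continuous φ)
    (h : ∀ x, ψ x ≤ φ x) : pavg ψ ≤ pavg φ := by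
  unfold pavg
  refine div_le_div_of_nonneg_right ?_ (by norm_num)
  refine intervalIntegral.integral_mono_on (by norm_num) ?_ ?_ ?_
  · exact (intervalIntegral.continuous_parametric_intervalIntegral_of_continuous'
        (f := fun x y => ψ (pt x y (roof x y)) + ψ (pt x y (-roof x y)))
        (trc_bd_continuous hψ) (-1) 1).intervalIntegrable _ _
  · exact (intervalIntegral.continuous_parametric_intervalIntegral_of_continuous'
        (f := fun x y => φ (pt x y (roof x y)) + φ (pt x y (-roof x y)))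
        (trc_bd_continuous hφ) (-1) 1).intervalIntegrable _ _
  · intro x _
    refine intervalIntegral.integral_mono_on (by norm_num) ?_ ?_ ?_
    · exact ((trc_bd_continuous hψ).comp
        (continuous_const.prodMk continuous_id)).intervalIntegrable _ _
    · exact ((trc_bd_continuous hφ).comp
        (continuous_const.prodMk continuous_id)).intervalIntegrable _ _
    · intro y _
      exact add_le_add (h _) (h _)

theorem trc_pavg_const_mul (c : ℝ) (ψ : E3 → ℝ) : pavg (fun x => c * ψ x) = c * pavg ψ := by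
  unfold pavg
  simp only [← mul_add, intervalIntegral.integral_const_mul]
  ring

theorem trc_avgn_mono (n : ℕ) : ∀ {ψ φ : E3 → ℝ}, Continuous ψ → Continuous φ →
    (∀ x, ψ x ≤ φ x) → avgn n ψ ≤ avgn n φ := by
  induction n with
  | zero => intro ψ φ hψ hφ h; exact trc_pavg_mono hψ hφ h
  | succ n ih =>
    intro ψ φ hψ hφ h
    have h1 := ih (hψ.comp (sim_continuous true)) (hφ.comp (sim_continuous true))
      (fun x => h (sim true x))
    have h2 := ih (hψ.comp (sim_continuous false)) (hφ.comp (sim_continuous false))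
      (fun x => h (sim false x))
    show (avgn n (ψ ∘ sim true) + avgn n (ψ ∘ sim false)) / 2 ≤
      (avgn n (φ ∘ sim true) + avgn n (φ ∘ sim false)) / 2
    linarith

theorem trc_avgn_const_mul (n : ℕ) (c : ℝ) : ∀ (ψ : E3 → ℝ),
    avgn n (fun x => c * ψ x) = c * avgn n ψ := by
  induction n with
  | zero => intro ψ; exact trc_pavg_const_mul c ψ
  | succ n ih =>
    intro ψ
    have h1 := ih (ψ ∘ sim true)
    have h2 := ih (ψ ∘ sim false)
    show (avgn n (fun x => c * (ψ ∘ sim true) x) + avgn n (fun x => c * (ψ ∘ sim false) x)) / 2 =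
      c * ((avgn n (ψ ∘ sim true) + avgn n (ψ ∘ sim false)) / 2)
    rw [h1, h2]; ring

/-- the average over the boundary only sees points outside `cellB` -/
theorem trc_pavg_congr {ψ φ : E3 → ℝ} (h : ∀ x, x ∉ cellB → ψ x = φ x) : pavg ψ = pavg φ := by
  have h1 : ∀ x y : ℝ, pt x y (roof x y) ∉ cellB := fun x y hm => by
    have : |roof x y| < roof x y := hm
    exact absurd (le_abs_self _) (not_le.mpr this)
  have h2 : ∀ x y : ℝ, pt x y (-roof x y) ∉ cellB := fun x y hm => by
    have : |-roof x y| < roof x y := hm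
    rw [abs_neg] at this
    exact absurd (le_abs_self _) (not_le.mpr this)
  unfold pavg
  simp only [h _ (h1 _ _), h _ (h2 _ _)]

/-! ### the ground state substitution -/

/-- `⟨∇h, ∇(z²/h)⟩ ≤ |∇z|²` at a point of differentiability -/
theorem trc_pointwise {z h : E3 → ℝ} {x : E3} (hz : DifferentiableAt ℝ z x)
    (hh : DifferentiableAt ℝ h x) (hpos : 0 < h x) :
    inner ℝ (∇ h x) (∇ (fun y => z y ^ 2 / h y) x) ≤ ‖∇ z x‖ ^ 2 := by
  have hd : HasFDerivAt (fun y => z y ^ 2 / h y)
      ((h x ^ 2)⁻¹ • (h x • ((2 * z x) • fderiv ℝ z x) - (z x ^ 2) • fderiv ℝ h x)) x := by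
    have h1 : HasFDerivAt (fun y => z y ^ 2) ((2 * z x) • fderiv ℝ z x) x := by
      have := hz.hasFDerivAt.pow 2
      refine this.congr_fderiv ?_
      ext v
      simp
    have h2 : HasFDerivAt (fun y => (h y)⁻¹) (-(h x ^ 2)⁻¹ • fderiv ℝ h x) x :=
      (hasDerivAt_inv hpos.ne').comp_hasFDerivAt x hh.hasFDerivAt
    have h3 := h1.mul h2
    have e3 : (fun y => z y ^ 2 / h y) = fun y => z y ^ 2 * (h y)⁻¹ := by
      funext y; rw [div_eq_mul_inv]
    rw [e3]
    refine h3.congr_fderiv ?_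
    ext v
    simp only [add_apply, smul_apply, smul_eq_mul, sub_apply]
    field_simp
    ring
  have e : ∇ (fun y => z y ^ 2 / h y) x =
      (h x ^ 2)⁻¹ • (h x • ((2 * z x) • ∇ z x) - (z x ^ 2) • ∇ h x) := by
    unfold gradient
    rw [hd.fderiv]
    simp
  rw [e, inner_smul_right, inner_sub_right, inner_smul_right, inner_smul_right, inner_smul_right,
    real_inner_self_eq_norm_sq]
  have hsq : 0 ≤ ‖∇ z x - (z x / h x) • ∇ h x‖ ^ 2 := sq_nonneg _
  rw [@norm_sub_sq_real, inner_smul_right, norm_smul, mul_pow, Real.norm_eq_abs, sq_abs,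
    real_inner_comm] at hsq
  have e2 : (h x ^ 2)⁻¹ * (h x * (2 * z x * inner ℝ (∇ h x) (∇ z x)) - z x ^ 2 * ‖∇ h x‖ ^ 2)
      = 2 * ((z x / h x) * inner ℝ (∇ h x) (∇ z x)) - (z x / h x) ^ 2 * ‖∇ h x‖ ^ 2 := by
    field_simp
  rw [e2]
  linarith

theorem trc_lip_quot {z h : E3 → ℝ} {K K' : ℝ≥0} {M : ℝ} (hz : LipschitzWith K z)
    (hh : LipschitzWith K' h) (hM : ∀ x, |z x| ≤ M) (h1 : ∀ x, 1 ≤ h x) :
    LipschitzWith (Real.toNNReal (2 * M * K + M ^ 2 * K')) (fun y => z y ^ 2 / h y) := by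
  have hM0 : 0 ≤ M := (abs_nonneg _).trans (hM 0)
  refine LipschitzWith.of_dist_le_mul fun x y => ?_
  rw [Real.coe_toNNReal _ (by positivity)]
  have d1 := hz.dist_le_mul x y
  have d2 := hh.dist_le_mul x y
  rw [Real.dist_eq] at d1 d2 ⊢
  have hx := h1 x
  have hy := h1 y
  have hx0 : 0 < h x := by linarith
  have hy0 : 0 < h y := by linarith
  have e : z x ^ 2 / h x - z y ^ 2 / h y =
      (z x + z y) * (z x - z y) / h x - z y ^ 2 * (h x - h y) / (h x * h y) := by
    field_simp
    ring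
  rw [e]
  refine (abs_sub _ _).trans ?_
  have hs : |z x + z y| ≤ 2 * M := (abs_add_le _ _).trans (by linarith [hM x, hM y])
  have t1 : |(z x + z y) * (z x - z y) / h x| ≤ 2 * M * (K * dist x y) := by
    rw [abs_div, abs_mul, abs_of_pos hx0]
    refine (div_le_self (by positivity) hx).trans ?_
    exact mul_le_mul hs d1 (abs_nonneg _) (by positivity)
  have hz2 : z y ^ 2 ≤ M ^ 2 := by
    rw [← sq_abs]
    exact pow_le_pow_left₀ (abs_nonneg _) (hM y) 2
  have t2 : |z y ^ 2 * (h x - h y) / (h x * h y)| ≤ M ^ 2 * (K' * dist x y) := by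
    rw [abs_div, abs_mul, abs_of_nonneg (sq_nonneg (z y)), abs_of_pos (mul_pos hx0 hy0)]
    refine (div_le_self (by positivity) (by nlinarith)).trans ?_
    exact mul_le_mul hz2 d2 (abs_nonneg _) (by positivity)
  calc _ ≤ 2 * M * (K * dist x y) + M ^ 2 * (K' * dist x y) := add_le_add t1 t2
    _ = (2 * M * K + M ^ 2 * K') * dist x y := by ring

/-- Trace inequality, uniform in the level (ground state substitution with `M + P n`). -/
theorem trace_unif (D : ModData) : ∃ Ct : ℝ, 0 < Ct ∧ ∀ (n : ℕ) (z0 z : E3 → ℝ) (K : ℝ≥0) (M : ℝ),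
    ContDiff ℝ 1 z0 → (∀ x, ‖x‖ = 3 → z0 x = 0) → LipschitzWith K z → (∀ x, |z x| ≤ M) →
    (∀ x, x ∉ cellB → z x = z0 x) →
    avgn n (fun x => z x ^ 2) ≤
      Ct * ∫ x in Metric.ball (0 : E3) 3, D.gam0 x * ‖∇ z x‖ ^ 2 := by
  obtain ⟨B, hB0, hB⟩ := pr_F_bdd D
  obtain ⟨Cf, hCf0, hCf⟩ := friedrichs_cell
  obtain ⟨c, C, hc, hγ⟩ := gam0_bounds D
  refine ⟨(1 + 12 * B) * (1 + Cf), by positivity, fun n z0 z K M hz0 hz00 hz hM hzz => ?_⟩
  -- the weight
  have hP : ∀ x, |D.P n x| ≤ 6 * B := by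
    intro x
    have h1 := pr_P_cauchy D B hB0 hB 0 n x
    rw [zero_add] at h1
    have h2 : D.P 0 x = 0 := rfl
    rw [h2, sub_zero, pow_zero] at h1
    have h3 : 0 ≤ (5/6 : ℝ) ^ n := by positivity
    nlinarith
  set h : E3 → ℝ := fun x => (1 + 6 * B) + D.P n x with hh
  have h1 : ∀ x, 1 ≤ h x := fun x => by
    have := (abs_le.mp (hP x)).1
    simp only [hh]; linarith
  have h2 : ∀ x, h x ≤ 1 + 12 * B := fun x => by
    have := (abs_le.mp (hP x)).2
    simp only [hh]; linarith
  obtain ⟨KP, hKP⟩ := P_lipschitz D n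
  have hhL : LipschitzWith KP h := by
    refine LipschitzWith.of_dist_le_mul fun x y => ?_
    have := hKP.dist_le_mul x y
    simpa [hh, Real.dist_eq] using this
  set ψ : E3 → ℝ := fun y => z y ^ 2 / h y with hψ
  have hψL := trc_lip_quot hz hhL hM h1
  have hψ0 : ∀ x, 0 ≤ ψ x := fun x => div_nonneg (sq_nonneg _) (by linarith [h1 x])
  have hzc : Continuous (fun x => z x ^ 2) := hz.continuous.pow 2
  -- the pairing
  have hpair := P_pair D n ψ _ hψL
  set E := ∫ x in Metric.ball (0 : E3) 3, D.gam0 x * ‖∇ z x‖ ^ 2 with hE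
  have hgradh : ∀ x, ∇ h x = ∇ (D.P n) x := fun x => by
    unfold gradient
    simp only [hh]
    rw [fderiv_const_add]
  have hball : ∀ x, x ∉ Metric.ball (0 : E3) 3 → D.gam0 x * inner ℝ (∇ (D.P n) x) (∇ ψ x) = 0 := by
    intro x hx
    have hx' : x ∉ cellBc := fun hc' => by
      apply hx
      rw [mem_ball_zero_iff]
      linarith [cellBc_norm x hc']
    rw [pr_grad_zero (D.P n) x 0, inner_zero_left, mul_zero]
    filter_upwards [cellBc_closed.isOpen_compl.mem_nhds hx'] with y hy
    exact pr_P_off_c D n y hy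
  have hset : ∫ x in Metric.ball (0 : E3) 3, D.gam0 x * inner ℝ (∇ (D.P n) x) (∇ ψ x) =
      ∫ x, D.gam0 x * inner ℝ (∇ (D.P n) x) (∇ ψ x) :=
    setIntegral_eq_integral_of_forall_compl_eq_zero hball
  have hfinball : volume (Metric.ball (0 : E3) 3) ≠ (⊤ : ℝ≥0∞) := measure_ball_lt_top.ne
  have hγm := gam0_measurable D
  have hC0 : 0 ≤ C := by
    have := hγ 0; linarith [this.1, this.2]
  have hEint : IntegrableOn (fun x => D.gam0 x * ‖∇ z x‖ ^ 2) (Metric.ball (0 : E3) 3) := by
    refine Measure.integrableOn_of_bounded (M := C * K ^ 2) hfinball ?_ ?_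
    · exact (hγm.mul ((measurable_gradient z).norm.pow_const 2)).aestronglyMeasurable
    · filter_upwards with x
      rw [Real.norm_eq_abs, abs_mul, abs_of_nonneg (by linarith [(hγ x).1] : 0 ≤ D.gam0 x),
        abs_of_nonneg (sq_nonneg _)]
      exact mul_le_mul (hγ x).2 (pow_le_pow_left₀ (norm_nonneg _) (norm_gradient_le z K hz x) 2)
        (sq_nonneg _) hC0
  have hPint : IntegrableOn (fun x => D.gam0 x * inner ℝ (∇ (D.P n) x) (∇ ψ x))
      (Metric.ball (0 : E3) 3) := by
    refine Measure.integrableOn_of_bounded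
      (M := C * (KP * (Real.toNNReal (2 * M * K + M ^ 2 * KP) : ℝ≥0))) hfinball ?_ ?_
    · exact (hγm.mul ((measurable_gradient (D.P n)).inner
        (measurable_gradient ψ))).aestronglyMeasurable
    · filter_upwards with x
      rw [Real.norm_eq_abs, abs_mul, abs_of_nonneg (by linarith [(hγ x).1] : 0 ≤ D.gam0 x)]
      refine mul_le_mul (hγ x).2 ?_ (abs_nonneg _) hC0
      refine (abs_real_inner_le_norm _ _).trans ?_
      exact mul_le_mul (norm_gradient_le _ _ hKP x) (norm_gradient_le _ _ hψL x) (norm_nonneg _)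
        (by positivity)
  have hle : ∫ x in Metric.ball (0 : E3) 3, D.gam0 x * inner ℝ (∇ (D.P n) x) (∇ ψ x) ≤ E := by
    refine integral_mono_ae hPint hEint ?_
    have a1 : ∀ᵐ x ∂(volume.restrict (Metric.ball (0 : E3) 3)), DifferentiableAt ℝ z x :=
      ae_restrict_of_ae hz.ae_differentiableAt
    have a2 : ∀ᵐ x ∂(volume.restrict (Metric.ball (0 : E3) 3)), DifferentiableAt ℝ h x :=
      ae_restrict_of_ae hhL.ae_differentiableAt
    filter_upwards [a1, a2] with x hx1 hx2
    rw [← hgradh x]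
    exact mul_le_mul_of_nonneg_left (trc_pointwise hx1 hx2 (by linarith [h1 x]))
      (by linarith [(hγ x).1])
  rw [hset, hpair] at hle
  -- the average over the boundary
  have hE0 : 0 ≤ E := setIntegral_nonneg measurableSet_ball fun x _ =>
    mul_nonneg (by linarith [(hγ x).1]) (sq_nonneg _)
  have hpav : pavg ψ ≤ Cf * E := by
    have p1 : pavg ψ ≤ pavg (fun x => z x ^ 2) := by
      refine trc_pavg_mono hψL.continuous hzc fun x => ?_
      exact div_le_self (sq_nonneg _) (h1 x)
    have p2 : pavg (fun x => z x ^ 2) = pavg (fun x => z0 x ^ 2) :=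
      trc_pavg_congr fun x hx => by rw [hzz x hx]
    have p3 := hCf z0 hz0 hz00
    have hms : MeasurableSet (Metric.ball (0 : E3) 3 \ cellB) :=
      measurableSet_ball.diff cellB_open.measurableSet
    have p4 : ∫ x in Metric.ball (0 : E3) 3 \ cellB, ‖∇ z0 x‖ ^ 2 =
        ∫ x in Metric.ball (0 : E3) 3 \ cellB, D.gam0 x * ‖∇ z x‖ ^ 2 := by
      refine setIntegral_congr_ae hms ?_
      have hnull : ∀ᵐ x : E3, x ∉ cellBc \ cellB := measure_eq_zero_iff_ae_notMem.mp volume_bdry
      filter_upwards [hnull] with x hx hx'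
      have hxc : x ∉ cellBc := fun hc' => hx ⟨hc', hx'.2⟩
      have he : z0 =ᶠ[𝓝 x] z := by
        filter_upwards [cellBc_closed.isOpen_compl.mem_nhds hxc] with y hy
        exact (hzz y fun hy' => hy (cellB_subset hy')).symm
      rw [he.gradient_eq, gam0_off D x hx'.2, one_mul]
    have p5 : ∫ x in Metric.ball (0 : E3) 3 \ cellB, D.gam0 x * ‖∇ z x‖ ^ 2 ≤ E :=
      setIntegral_mono_set hEint (Eventually.of_forall fun x =>
        mul_nonneg (by linarith [(hγ x).1]) (sq_nonneg _)) sdiff_subset.eventuallyLE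
    rw [p4] at p3
    have := mul_le_mul_of_nonneg_left p5 hCf0
    linarith
  -- conclusion
  have hav : avgn n (fun x => z x ^ 2) ≤ (1 + 12 * B) * avgn n ψ := by
    rw [← trc_avgn_const_mul]
    refine trc_avgn_mono n hzc (hψL.continuous.const_mul _) fun x => ?_
    have hx0 : 0 < h x := by linarith [h1 x]
    have e : z x ^ 2 = h x * ψ x := by
      simp only [hψ]; field_simp
    rw [e]
    exact mul_le_mul_of_nonneg_right (h2 x) (hψ0 x)
  have hfin : avgn n ψ ≤ (1 + Cf) * E := by linarith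
  calc avgn n (fun x => z x ^ 2) ≤ (1 + 12 * B) * avgn n ψ := hav
    _ ≤ (1 + 12 * B) * ((1 + Cf) * E) := mul_le_mul_of_nonneg_left hfin (by positivity)
    _ = (1 + 12 * B) * (1 + Cf) * E := by ring

end Crest.Agent.R083
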