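import Crest.Agent.R083.PsiLim
import Crest.Agent.R083.FinEnergy
import Crest.Agent.R083.Medium
import Crest.Agent.R083.FlatMin
import Crest.Agent.R083.Trace
import Crest.Agent.R083.Doob

/-!
Row 83 (S0111): final assembly.
-/

set_option autoImplicit false

namespace Crest.Agent.R083

open MeasureTheory Set Filter
open scoped Gradient ENNReal NNReal Topology ContDiff
open Crest.AnalysisR.PDE.Calderon

theorem fa_off (x : E3) (hx : 2 < ‖x‖) : x ∉ cellB := fun h => by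
  have := cellBc_norm x (cellB_subset h)
  linarith

theorem fa_grad_ext {f g : E3 → ℝ} (h : ∀ x, f x = g x) : ∇ f = ∇ g := by
  have : f = g := funext h
  rw [this]

theorem fa_grad_add_const (f : E3 → ℝ) (c : ℝ) (x : E3) : ∇ (fun y => f y + c) x = ∇ f x := by
  unfold gradient
  rw [fderiv_add_const]

theorem fa_grad_add {f g : E3 → ℝ} {x : E3} (hf : DifferentiableAt ℝ f x)
    (hg : DifferentiableAt ℝ g x) : ∇ (fun y => f y + g y) x = ∇ f x + ∇ g x := by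
  unfold gradient
  rw [fderiv_fun_add hf hg, map_add]

theorem fa_mul_lip {f g : E3 → ℝ} {Kf Kg : ℝ≥0} {Mf Mg : ℝ} (hf : LipschitzWith Kf f)
    (hg : LipschitzWith Kg g) (hMf : ∀ x, |f x| ≤ Mf) (hMg : ∀ x, |g x| ≤ Mg) :
    ∃ K : ℝ≥0, LipschitzWith K (fun x => f x * g x) := by
  have h0 : 0 ≤ Mf := (abs_nonneg _).trans (hMf 0)
  have h1 : 0 ≤ Mg := (abs_nonneg _).trans (hMg 0)
  refine ⟨Mf.toNNReal * Kg + Mg.toNNReal * Kf, ?_⟩
  rw [lipschitzWith_iff_dist_le_mul]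
  intro x y
  have a := hf.dist_le_mul x y
  have b := hg.dist_le_mul x y
  rw [Real.dist_eq] at a b ⊢
  push_cast
  rw [Real.coe_toNNReal _ h0, Real.coe_toNNReal _ h1]
  have h2 : f x * g x - f y * g y = f x * (g x - g y) + g y * (f x - f y) := by ring
  rw [h2]
  refine (abs_add_le _ _).trans ?_
  rw [abs_mul, abs_mul]
  have e1 : |f x| * |g x - g y| ≤ Mf * (Kg * dist x y) :=
    mul_le_mul (hMf x) b (abs_nonneg _) h0
  have e2 : |g y| * |f x - f y| ≤ Mg * (Kf * dist x y) :=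
    mul_le_mul (hMg y) a (abs_nonneg _) h1
  nlinarith

theorem fa_inv_lip {f : E3 → ℝ} {K : ℝ≥0} (hf : LipschitzWith K f) (hb : ∀ x, 1/2 ≤ f x) :
    LipschitzWith (4 * K) (fun x => (f x)⁻¹) := by
  rw [lipschitzWith_iff_dist_le_mul]
  intro x y
  have a := hf.dist_le_mul x y
  rw [Real.dist_eq] at a ⊢
  have hx : 0 < f x := by linarith [hb x]
  have hy : 0 < f y := by linarith [hb y]
  have h1 : (f x)⁻¹ - (f y)⁻¹ = (f y - f x) / (f x * f y) := by
    field_simp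
  rw [h1, abs_div, abs_of_pos (mul_pos hx hy), div_le_iff₀ (mul_pos hx hy), abs_sub_comm]
  push_cast
  have h2 : 1/4 ≤ f x * f y := by nlinarith [hb x, hb y]
  have h3 : 0 ≤ (K : ℝ) * dist x y := by positivity
  nlinarith

/-- A compactly supported continuous function is bounded. -/
theorem fa_bdd {f : E3 → ℝ} (hf : Continuous f) (hs : HasCompactSupport f) :
    ∃ M : ℝ, ∀ x, |f x| ≤ M := by
  obtain ⟨M, hM⟩ := hs.exists_bound_of_continuous hf
  exact ⟨M, fun x => by simpa [Real.norm_eq_abs] using hM x⟩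

/-- Upper bound: near-minimal energies for the weight at level `n`, then for the limit weight. -/
theorem fa_upper (D : ModData) (c C B τ : ℝ) (Φ : E3 → ℝ) (hc : 0 < c)
    (hb : ∀ x, c ≤ D.gam0 x ∧ D.gam0 x ≤ C) (hB : 0 < B)
    (hPb : ∀ n x, |D.Psi n x| ≤ B) (hPJ : ∀ n, ∀ᶠ j in atTop, ∀ x, |D.PsiJ n j x| ≤ B)
    (hΦc : Continuous Φ) (hΦ : ∀ n x, |Φ x - D.Psi n x| ≤ B * (5/6 : ℝ) ^ n)
    (hτ : 0 < τ) (hτB : τ * B ≤ 1/4)
    (φ : E3 → ℝ) (m : ℝ)
    (hm : ∀ u, IsCompetitor φ u → m ≤ ballEnergy D.gam0 u)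
    (hm' : ∀ δ : ℝ, 0 < δ → ∃ u, IsCompetitor φ u ∧ ballEnergy D.gam0 u ≤ m + δ)
    (hΦb : ∀ x, |Φ x| ≤ 2 * B)
    (η : ℝ) (hη : 0 < η) :
    ∃ w, IsCompetitor φ w ∧
      ballEnergy (fun x => (1 + τ * Φ x) ^ 2 * D.gam0 x) w < m + η := by
  -- choose the level
  have hlim : Tendsto (fun n : ℕ => (1 + (5/6 : ℝ) ^ n) ^ 2 * (m + η / 2)) atTop
      (𝓝 ((1 + 0) ^ 2 * (m + η / 2))) :=
    (((tendsto_pow_atTop_nhds_zero_of_lt_one (by norm_num) (by norm_num)).const_add 1).pow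
      2).mul_const _
  have hlt : (1 + 0) ^ 2 * (m + η / 2) < m + 3 * η / 4 := by linarith
  obtain ⟨n0, hn0⟩ := (eventually_atTop.1 (hlim.eventually_lt_const hlt))
  obtain ⟨n', hn', κ, v, hv, hvs, hvK, hvE⟩ := flat_near_min D φ m hm hm' (η / 4) (by positivity)
    (n0 + 1)
  obtain ⟨n, rfl⟩ : ∃ n, n' = n + 1 := ⟨n' - 1, by omega⟩
  have hnn : n0 ≤ n := by omega
  obtain ⟨Kv, hKv⟩ := hv.1.lipschitzWith_of_hasCompactSupport hvs (by norm_num)
  obtain ⟨Mv, hMv⟩ := fa_bdd hv.1.continuous hvs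
  set f : E3 → ℝ := fun x => v x + (-κ) with hf
  have hfL : LipschitzWith Kv f := by
    rw [lipschitzWith_iff_dist_le_mul]
    intro x y
    have := hKv.dist_le_mul x y
    rw [Real.dist_eq] at this ⊢
    simpa [hf] using this
  have hfM : ∀ x, |f x| ≤ Mv + |κ| := fun x => by
    have h1 := abs_add_le (v x) (-κ)
    rw [abs_neg] at h1
    have := hMv x
    change |v x + -κ| ≤ _
    linarith
  have hfgrad : ∀ x, ∇ f x = ∇ v x := fun x => fa_grad_add_const v (-κ) x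
  have hfE : ballEnergy D.gam0 f = ballEnergy D.gam0 v := by
    unfold ballEnergy; simp only [hfgrad]
  have hbjlow : ∀ᶠ j in atTop, ∀ x, 1/2 ≤ D.bj τ n j x := by
    filter_upwards [hPJ n] with j hj x
    have h1 := (abs_le.1 (hj x)).1
    unfold ModData.bj
    nlinarith
  have hdiv := doob_div D τ n f Kv (Mv + |κ|) hfL hfM
    (fun x hx => by change v x + -κ = 0; rw [hvK x hx]; ring) hbjlow
  have hlt2 : ballEnergy D.gam0 f < m + η / 2 := by rw [hfE]; linarith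
  obtain ⟨j, hj1, hj2⟩ := ((hdiv.eventually_lt_const hlt2).and hbjlow).exists
  -- the Lipschitz perturbation
  obtain ⟨Kb, hKb⟩ := bj_lip D τ n j
  have hinvL := fa_inv_lip hKb hj2
  have hinvL1 : LipschitzWith (4 * Kb) (fun x => (D.bj τ n j x)⁻¹ - 1) := by
    rw [lipschitzWith_iff_dist_le_mul]
    intro x y
    have := hinvL.dist_le_mul x y
    rw [Real.dist_eq] at this ⊢
    simpa using this
  have hinvb : ∀ x, |(D.bj τ n j x)⁻¹ - 1| ≤ 2 := fun x => by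
    have h1 : 0 < D.bj τ n j x := by linarith [hj2 x]
    have h2 : (D.bj τ n j x)⁻¹ ≤ 2 := by
      rw [inv_le_comm₀ h1 (by norm_num)]; linarith [hj2 x]
    have h3 : 0 < (D.bj τ n j x)⁻¹ := inv_pos.2 h1
    rw [abs_le]; constructor <;> linarith
  obtain ⟨Kz, hKz⟩ := fa_mul_lip hfL hinvL1 hfM hinvb
  set z : E3 → ℝ := fun x => f x * ((D.bj τ n j x)⁻¹ - 1) with hz
  have hz0 : ∀ x, 2 < ‖x‖ → z x = 0 := fun x hx => by
    change f x * ((D.bj τ n j x)⁻¹ - 1) = 0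
    rw [bj_off D τ n j x (fa_off x hx)]; simp
  -- the weight
  have hgm : Measurable D.gam0 := gam0_measurable D
  set γ1 : E3 → ℝ := fun x => (1 + τ * Φ x) ^ 2 * D.gam0 x with hγ1
  have hγ1m : Measurable γ1 := by
    have : Measurable (fun x => (1 + τ * Φ x) ^ 2) :=
      ((continuous_const.add (continuous_const.mul hΦc)).pow 2).measurable
    exact this.mul hgm
  have hC : 0 < C := hc.trans_le ((hb 0).1.trans (hb 0).2)
  have hcx : ∀ x, 1/2 ≤ 1 + τ * Φ x ∧ 1 + τ * Φ x ≤ 3/2 := fun x => by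
    have h1 := abs_le.1 (hΦb x)
    constructor <;> nlinarith
  have hγ1b : ∀ x, c / 4 ≤ γ1 x ∧ γ1 x ≤ 9 / 4 * C := fun x => by
    have h1 := hcx x
    have h2 := hb x
    have h3 : 1/4 ≤ (1 + τ * Φ x) ^ 2 := by nlinarith
    have h4 : (1 + τ * Φ x) ^ 2 ≤ 9/4 := by nlinarith
    have h5 : 0 < D.gam0 x := hc.trans_le h2.1
    constructor
    · change c / 4 ≤ (1 + τ * Φ x) ^ 2 * D.gam0 x
      nlinarith
    · change (1 + τ * Φ x) ^ 2 * D.gam0 x ≤ 9 / 4 * C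
      nlinarith
  obtain ⟨w, hw, hwE⟩ := lip_competitor γ1 (c / 4) (9 / 4 * C) (by positivity) hγ1m hγ1b φ v hv z Kz
    hKz hz0 (η / 8) (by positivity)
  refine ⟨w, hw, ?_⟩
  -- identify the energy of the perturbed function
  have hq : ∀ᵐ x, ∇ v x + ∇ z x = ∇ (fun y => f y / D.bj τ n j y) x := by
    filter_upwards [hKz.ae_differentiableAt] with x hx
    have h1 : DifferentiableAt ℝ f x :=
      ((hv.1.differentiable (by norm_num)) x).add_const _
    rw [← hfgrad x, ← fa_grad_add h1 hx]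
    congr 1
    funext y
    change f y + f y * ((D.bj τ n j y)⁻¹ - 1) = f y / D.bj τ n j y
    ring
  have hqL : ∃ K : ℝ≥0, LipschitzWith K (fun y => f y / D.bj τ n j y) := by
    have hinvb' : ∀ x, |(D.bj τ n j x)⁻¹| ≤ 2 := fun x => by
      have h1 : 0 < D.bj τ n j x := by linarith [hj2 x]
      rw [abs_of_pos (inv_pos.2 h1), inv_le_comm₀ h1 (by norm_num)]; linarith [hj2 x]
    simpa only [div_eq_mul_inv] using fa_mul_lip hfL hinvL hfM hinvb'
  obtain ⟨Kq, hKq⟩ := hqL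
  have hE1 : ∫ x in Metric.ball (0 : E3) 3, γ1 x * ‖∇ v x + ∇ z x‖ ^ 2 =
      ∫ x in Metric.ball (0 : E3) 3, γ1 x * ‖∇ (fun y => f y / D.bj τ n j y) x‖ ^ 2 := by
    refine integral_congr_ae (ae_restrict_of_ae ?_)
    filter_upwards [hq] with x hx
    rw [hx]
  -- compare the weights
  have hbnx : ∀ x, 1/2 ≤ D.bn τ n x ∧ D.bn τ n x ≤ 3/2 := fun x => by
    have h1 := abs_le.1 (hPb n x)
    unfold ModData.bn
    constructor <;> nlinarith
  have hcomp : ∀ x, γ1 x ≤ (1 + (5/6 : ℝ) ^ n) ^ 2 * (D.bn τ n x ^ 2 * D.gam0 x) := fun x => by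
    have h1 := hbnx x
    have h2 := hcx x
    have h3 := (abs_le.1 (hΦ n x)).2
    have h4 : 1 + τ * Φ x ≤ (1 + (5/6 : ℝ) ^ n) * D.bn τ n x := by
      have h5 : τ * (Φ x - D.Psi n x) ≤ 1/4 * (5/6 : ℝ) ^ n := by
        calc τ * (Φ x - D.Psi n x) ≤ τ * (B * (5/6 : ℝ) ^ n) := by gcongr
          _ = (τ * B) * (5/6 : ℝ) ^ n := by ring
          _ ≤ 1/4 * (5/6 : ℝ) ^ n := by gcongr
      have h6 : 1 + τ * Φ x = D.bn τ n x + τ * (Φ x - D.Psi n x) := by
        unfold ModData.bn; ring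
      have h7 : 0 < (5/6 : ℝ) ^ n := by positivity
      rw [h6]
      nlinarith
    have h8 : (1 + τ * Φ x) ^ 2 ≤ ((1 + (5/6 : ℝ) ^ n) * D.bn τ n x) ^ 2 :=
      pow_le_pow_left₀ (by linarith) h4 2
    have h9 : 0 < D.gam0 x := hc.trans_le (hb x).1
    calc γ1 x = (1 + τ * Φ x) ^ 2 * D.gam0 x := rfl
      _ ≤ ((1 + (5/6 : ℝ) ^ n) * D.bn τ n x) ^ 2 * D.gam0 x :=
          mul_le_mul_of_nonneg_right h8 h9.le
      _ = (1 + (5/6 : ℝ) ^ n) ^ 2 * (D.bn τ n x ^ 2 * D.gam0 x) := by ring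
  have hγnm : Measurable (fun x => D.bn τ n x ^ 2 * D.gam0 x) :=
    ((bn_continuous D τ n).pow 2).measurable.mul hgm
  have hγnb : ∀ x, |D.bn τ n x ^ 2 * D.gam0 x| ≤ 9 / 4 * C := fun x => by
    have h1 := hbnx x
    have h2 := hb x
    have h4 : (D.bn τ n x) ^ 2 ≤ 9/4 := by nlinarith
    have h5 : 0 < D.gam0 x := hc.trans_le h2.1
    rw [abs_of_nonneg (by positivity)]
    nlinarith [sq_nonneg (D.bn τ n x)]
  have hE2 : ∫ x in Metric.ball (0 : E3) 3, γ1 x * ‖∇ (fun y => f y / D.bj τ n j y) x‖ ^ 2 ≤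
      (1 + (5/6 : ℝ) ^ n) ^ 2 * ballEnergy (fun x => D.bn τ n x ^ 2 * D.gam0 x)
        (fun y => f y / D.bj τ n j y) := by
    unfold ballEnergy
    rw [← integral_const_mul]
    refine integral_mono ?_ ?_ fun x => ?_
    · exact bd_int_sq (C := 9 / 4 * C) hγ1m (fun x => by
        rw [abs_of_nonneg ((by positivity : 0 ≤ c / 4).trans (hγ1b x).1)]; exact (hγ1b x).2)
        (bd_grad hKq)
    · exact (bd_int_sq hγnm hγnb (bd_grad hKq)).const_mul _
    · have := mul_le_mul_of_nonneg_right (hcomp x)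
        (sq_nonneg ‖∇ (fun y => f y / D.bj τ n j y) x‖)
      change γ1 x * ‖∇ (fun y => f y / D.bj τ n j y) x‖ ^ 2 ≤
        (1 + (5/6 : ℝ) ^ n) ^ 2 * ((D.bn τ n x ^ 2 * D.gam0 x) *
          ‖∇ (fun y => f y / D.bj τ n j y) x‖ ^ 2)
      linarith
  have hE3 : (1 + (5/6 : ℝ) ^ n) ^ 2 * ballEnergy (fun x => D.bn τ n x ^ 2 * D.gam0 x)
        (fun y => f y / D.bj τ n j y) ≤ (1 + (5/6 : ℝ) ^ n) ^ 2 * (m + η / 2) := by
    gcongr
  have hE4 := hn0 n hnn
  rw [hE1] at hwE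
  linarith

set_option maxHeartbeats 4000000 in
/-- Lower bound for the energy of a competitor for the weighted conductivity. -/
theorem fa_lower (D : ModData) (c C B τ Ct : ℝ) (Φ : E3 → ℝ) (hc : 0 < c)
    (hb : ∀ x, c ≤ D.gam0 x ∧ D.gam0 x ≤ C) (hB : 0 < B)
    (hPb : ∀ n x, |D.Psi n x| ≤ B) (hPJ : ∀ n, ∀ᶠ j in atTop, ∀ x, |D.PsiJ n j x| ≤ B)
    (hΦc : Continuous Φ) (hΦ : ∀ n x, |Φ x - D.Psi n x| ≤ B * (5/6 : ℝ) ^ n)
    (hτ : 0 < τ) (hτB : τ * B ≤ 1/4) (hCt : 0 < Ct) (hτC : τ * Ct ≤ 1/8)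
    (htr : ∀ (n : ℕ) (z0 z : E3 → ℝ) (K : ℝ≥0) (M : ℝ),
      ContDiff ℝ 1 z0 → (∀ x, ‖x‖ = 3 → z0 x = 0) → LipschitzWith K z → (∀ x, |z x| ≤ M) →
      (∀ x, x ∉ cellB → z x = z0 x) →
      avgn n (fun x => z x ^ 2) ≤
        Ct * ∫ x in Metric.ball (0 : E3) 3, D.gam0 x * ‖∇ z x‖ ^ 2)
    (φ : E3 → ℝ) (m : ℝ)
    (hm : ∀ u, IsCompetitor φ u → m ≤ ballEnergy D.gam0 u)
    (hm' : ∀ δ : ℝ, 0 < δ → ∃ u, IsCompetitor φ u ∧ ballEnergy D.gam0 u ≤ m + δ)
    (hΦb : ∀ x, |Φ x| ≤ 2 * B)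
    (η : ℝ) (hη : 0 < η) (u₀ : E3 → ℝ) (hu₀ : IsCompetitor φ u₀) :
    m ≤ ballEnergy (fun x => (1 + τ * Φ x) ^ 2 * D.gam0 x) u₀ + 4 * η := by
  obtain ⟨u, hu, hus, ⟨Ku, hKu⟩, huE⟩ := compact_competitor φ u₀ hu₀
  rw [← huE]
  clear huE hu₀
  set γ1 : E3 → ℝ := fun x => (1 + τ * Φ x) ^ 2 * D.gam0 x with hγ1
  -- choose the level
  have hlim : Tendsto (fun n : ℕ => (1 + (5/6 : ℝ) ^ n) ^ 2 * ballEnergy γ1 u) atTop
      (𝓝 ((1 + 0) ^ 2 * ballEnergy γ1 u)) :=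
    (((tendsto_pow_atTop_nhds_zero_of_lt_one (by norm_num) (by norm_num)).const_add 1).pow
      2).mul_const _
  have hlt : (1 + 0) ^ 2 * ballEnergy γ1 u < ballEnergy γ1 u + η := by linarith
  obtain ⟨n0, hn0⟩ := (eventually_atTop.1 (hlim.eventually_lt_const hlt))
  obtain ⟨n', hn', κ, v, hv, hvs, hvK, hvE⟩ := flat_near_min D φ m hm hm' η hη (n0 + 1)
  obtain ⟨n, rfl⟩ : ∃ n, n' = n + 1 := ⟨n' - 1, by omega⟩
  have hnn : n0 ≤ n := by omega
  obtain ⟨Kv, hKv⟩ := hv.1.lipschitzWith_of_hasCompactSupport hvs (by norm_num)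
  obtain ⟨Mv, hMv⟩ := fa_bdd hv.1.continuous hvs
  obtain ⟨Mu, hMu⟩ := fa_bdd hu.1.continuous hus
  set f : E3 → ℝ := fun x => u x + (-κ) with hf
  have hfL : LipschitzWith Ku f := by
    rw [lipschitzWith_iff_dist_le_mul]
    intro x y
    have := hKu.dist_le_mul x y
    rw [Real.dist_eq] at this ⊢
    simpa [hf] using this
  have hfM : ∀ x, |f x| ≤ Mu + |κ| := fun x => by
    have h1 := abs_add_le (u x) (-κ)
    rw [abs_neg] at h1
    have := hMu x
    change |u x + -κ| ≤ _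
    linarith
  have hfgrad : ∀ x, ∇ f x = ∇ u x := fun x => fa_grad_add_const u (-κ) x
  have hgm : Measurable D.gam0 := gam0_measurable D
  have hC : 0 < C := hc.trans_le ((hb 0).1.trans (hb 0).2)
  have hgpos : ∀ x, 0 ≤ D.gam0 x := fun x => hc.le.trans (hb x).1
  have hgabs : ∀ x, |D.gam0 x| ≤ C := fun x => by rw [abs_of_nonneg (hgpos x)]; exact (hb x).2
  -- the limit
  have hmul := doob_mul D τ n f Ku (Mu + |κ|) hfL hfM
  set En := ballEnergy (fun x => D.bn τ n x ^ 2 * D.gam0 x) f with hEn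
  set Δ := avgn n ((fun x => D.bn τ n x * f x ^ 2) ∘ sim true) -
          avgn n ((fun x => D.bn τ n x * f x ^ 2) ∘ sim false) with hΔ
  obtain ⟨j, hj1, hj2⟩ := ((hmul.eventually_lt_const
    (show En + τ / 2 * Δ < En + τ / 2 * Δ + η by linarith)).and (hPJ n)).exists
  obtain ⟨Kb, hKb⟩ := bj_lip D τ n j
  have hb1L : LipschitzWith Kb (fun x => D.bj τ n j x - 1) := by
    rw [lipschitzWith_iff_dist_le_mul]
    intro x y
    have := hKb.dist_le_mul x y
    rw [Real.dist_eq] at this ⊢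
    simpa using this
  have hb1b : ∀ x, |D.bj τ n j x - 1| ≤ 1 := fun x => by
    have h1 := abs_le.1 (hj2 x)
    unfold ModData.bj
    rw [abs_le]; constructor <;> nlinarith
  obtain ⟨Ky, hKy⟩ := fa_mul_lip hb1L hfL hb1b hfM
  set y : E3 → ℝ := fun x => (D.bj τ n j x - 1) * f x with hy
  have hy0 : ∀ x, x ∉ cellB → y x = 0 := fun x hx => by
    change (D.bj τ n j x - 1) * f x = 0
    rw [bj_off D τ n j x hx]; simp
  have hyb : ∀ x, |y x| ≤ Mu + |κ| := fun x => by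
    change |(D.bj τ n j x - 1) * f x| ≤ _
    rw [abs_mul]
    calc |D.bj τ n j x - 1| * |f x| ≤ 1 * (Mu + |κ|) :=
          mul_le_mul (hb1b x) (hfM x) (abs_nonneg _) zero_le_one
      _ = _ := one_mul _
  set z0 : E3 → ℝ := fun x => u x - v x with hz0
  have hz0C : ContDiff ℝ 1 z0 := hu.1.sub hv.1
  have hz0S : ∀ x, ‖x‖ = 3 → z0 x = 0 := fun x hx => by
    change u x - v x = 0
    rw [hu.2 x hx, hv.2 x hx, sub_self]
  set z : E3 → ℝ := fun x => z0 x + y x with hz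
  have hz0L : LipschitzWith (Ku + Kv) z0 := hKu.sub hKv
  have hzL : LipschitzWith (Ku + Kv + Ky) z := hz0L.add hKy
  have hzb : ∀ x, |z x| ≤ Mu + Mv + (Mu + |κ|) := fun x => by
    have h1 := abs_add_le (z0 x) (y x)
    have h2 : |z0 x| ≤ |u x| + |v x| := abs_sub (u x) (v x)
    have h3 := hMu x
    have h4 := hMv x
    have h5 := hyb x
    change |z0 x + y x| ≤ _
    linarith
  have hzoff : ∀ x, x ∉ cellB → z x = z0 x := fun x hx => by
    change z0 x + y x = z0 x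
    rw [hy0 x hx, add_zero]
  -- differentiability
  have hud : ∀ x, DifferentiableAt ℝ u x := fun x => hu.1.differentiable (by norm_num) x
  have hvd : ∀ x, DifferentiableAt ℝ v x := fun x => hv.1.differentiable (by norm_num) x
  have hz0g : ∀ x, ∇ z0 x = ∇ u x - ∇ v x := fun x => by
    change ∇ (fun x => u x - v x) x = _
    unfold gradient
    rw [fderiv_fun_sub (hud x) (hvd x), map_sub]
  have hzg : ∀ᵐ x, ∇ z x = ∇ u x - ∇ v x + ∇ y x := by
    filter_upwards [hKy.ae_differentiableAt] with x hx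
    rw [← hz0g]
    exact fa_grad_add ((hz0C.differentiable (by norm_num)) x) hx
  -- energy of the product
  have hprod : ballEnergy D.gam0 (fun x => D.bj τ n j x * f x) =
      ∫ x in Metric.ball (0 : E3) 3, D.gam0 x * ‖∇ v x + ∇ z x‖ ^ 2 := by
    unfold ballEnergy
    refine integral_congr_ae (ae_restrict_of_ae ?_)
    filter_upwards [hKy.ae_differentiableAt, hzg] with x hx hx2
    have h1 : ∇ (fun x => D.bj τ n j x * f x) x = ∇ v x + ∇ z x := by
      have h2 : (fun x => D.bj τ n j x * f x) = fun x => f x + y x := by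
        funext x
        change D.bj τ n j x * f x = f x + (D.bj τ n j x - 1) * f x
        ring
      rw [h2, fa_grad_add ((hud x).add_const _) hx, hx2, hfgrad]
      abel
    rw [h1]
  -- near minimality
  have hX : Bd (∇ v) := bd_grad hKv
  have hZ : Bd (∇ z) := bd_grad hzL
  have hcomp : ∀ t : ℝ, m ≤ ∫ x in Metric.ball (0 : E3) 3, D.gam0 x * ‖∇ v x + t • ∇ z x‖ ^ 2 := by
    intro t
    refine le_of_forall_pos_lt_add fun ε hε => ?_
    have hvt : IsCompetitor φ (fun x => v x + t * z0 x) :=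
      NearMin.competitor_add hv hz0C hz0S t
    have hyt : LipschitzWith (‖t‖₊ * Ky) (fun x => t * y x) := by
      rw [lipschitzWith_iff_dist_le_mul]
      intro a b
      have := hKy.dist_le_mul a b
      rw [Real.dist_eq] at this ⊢
      rw [← mul_sub, abs_mul, NNReal.coe_mul, coe_nnnorm, Real.norm_eq_abs, mul_assoc]
      exact mul_le_mul_of_nonneg_left this (abs_nonneg _)
    obtain ⟨w, hw, hwE⟩ := lip_competitor D.gam0 c C hc hgm hb φ _ hvt (fun x => t * y x) _ hyt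
      (fun x hx => by rw [hy0 x (fa_off x hx), mul_zero]) ε hε
    have h1 := hm w hw
    have h2 : ∫ x in Metric.ball (0 : E3) 3, D.gam0 x *
        ‖∇ (fun x => v x + t * z0 x) x + ∇ (fun x => t * y x) x‖ ^ 2 =
        ∫ x in Metric.ball (0 : E3) 3, D.gam0 x * ‖∇ v x + t • ∇ z x‖ ^ 2 := by
      refine integral_congr_ae (ae_restrict_of_ae ?_)
      filter_upwards [hKy.ae_differentiableAt, hzg] with x hx hx2
      have h3 : ∇ (fun x => v x + t * z0 x) x = ∇ v x + t • (∇ u x - ∇ v x) := by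
        rw [NearMin.grad_add_smul hv.1 hz0C, hz0g]
      have h4 : ∇ (fun x => t * y x) x = t • ∇ y x := by
        unfold gradient
        rw [fderiv_const_mul hx, map_smulₛₗ]
        simp
      rw [h3, h4, hx2, smul_add]
      congr 3
      abel
    rw [h2] at hwE
    linarith
  have hlow := energy_lower hgm hgabs hgpos hX hZ m η hcomp hvE (1/2) (by norm_num)
  rw [← hprod] at hlow
  set Bz := ∫ x in Metric.ball (0 : E3) 3, D.gam0 x * ‖∇ z x‖ ^ 2 with hBz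
  have hBz0 : 0 ≤ Bz := integral_nonneg fun x => mul_nonneg (hgpos x) (sq_nonneg _)
  -- the trace term
  have htrz := htr (n + 1) z0 z _ _ hz0C hz0S hzL hzb hzoff
  rw [← hBz] at htrz
  have hbnx : ∀ x, 1/2 ≤ D.bn τ n x ∧ D.bn τ n x ≤ 3/2 := fun x => by
    have h1 := abs_le.1 (hPb n x)
    unfold ModData.bn
    constructor <;> nlinarith
  have hzK : ∀ x ∈ Kc (n + 1), z x = D.bn τ n x * f x := fun x hx => by
    change u x - v x + (D.bj τ n j x - 1) * (u x + -κ) = D.bn τ n x * (u x + -κ)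
    rw [bn_Kc D τ n j x hx, hvK x hx]; ring
  have hzsq : ∀ x ∈ Kc (n + 1), |D.bn τ n x * f x ^ 2| ≤ 2 * z x ^ 2 := fun x hx => by
    rw [hzK x hx, abs_of_nonneg (mul_nonneg (by linarith [(hbnx x).1]) (sq_nonneg _))]
    have := (hbnx x).1
    nlinarith [mul_nonneg (mul_nonneg (show (0:ℝ) ≤ D.bn τ n x by linarith) (sq_nonneg (f x)))
      (show (0:ℝ) ≤ 2 * D.bn τ n x - 1 by linarith)]
  have hfc : Continuous f := hfL.continuous
  have hzc : Continuous z := hzL.continuous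
  have hc1 : Continuous (fun x => D.bn τ n x * f x ^ 2) := (bn_continuous D τ n).mul (hfc.pow 2)
  have hc2 : Continuous (fun x => 2 * z x ^ 2) := continuous_const.mul (hzc.pow 2)
  have ht := abs_avgn_le n (ψ := (fun x => D.bn τ n x * f x ^ 2) ∘ sim true)
    (ψ' := (fun x => 2 * z x ^ 2) ∘ sim true) (hc1.comp (sim_continuous _))
    (hc2.comp (sim_continuous _)) fun x hx => hzsq _ (Or.inl (mem_image_of_mem _ hx))
  have hff := abs_avgn_le n (ψ := (fun x => D.bn τ n x * f x ^ 2) ∘ sim false)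
    (ψ' := (fun x => 2 * z x ^ 2) ∘ sim false) (hc1.comp (sim_continuous _))
    (hc2.comp (sim_continuous _)) fun x hx => hzsq _ (Or.inr (mem_image_of_mem _ hx))
  have hsum : (avgn n ((fun x => 2 * z x ^ 2) ∘ sim true) +
      avgn n ((fun x => 2 * z x ^ 2) ∘ sim false)) / 2 = 2 * avgn (n + 1) (fun x => z x ^ 2) := by
    rw [← avgn_const_mul (n + 1) 2]
    rfl
  have hΔb : |Δ| ≤ 4 * (Ct * Bz) := by
    have h1 := abs_sub (avgn n ((fun x => D.bn τ n x * f x ^ 2) ∘ sim true))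
      (avgn n ((fun x => D.bn τ n x * f x ^ 2) ∘ sim false))
    rw [← hΔ] at h1
    linarith
  have hτΔ : τ / 2 * Δ ≤ 1/4 * Bz := by
    have h1 : τ / 2 * Δ ≤ τ / 2 * (4 * (Ct * Bz)) :=
      mul_le_mul_of_nonneg_left ((le_abs_self _).trans hΔb) (by positivity)
    have h2 : τ / 2 * (4 * (Ct * Bz)) = 2 * (τ * Ct) * Bz := by ring
    rw [h2] at h1
    nlinarith
  have hEnlow : m - 3 * η ≤ En := by
    have h1 : η / (1/2) = 2 * η := by ring
    rw [h1] at hlow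
    linarith
  -- compare the weights
  have hγ1m : Measurable γ1 := by
    have : Measurable (fun x => (1 + τ * Φ x) ^ 2) :=
      ((continuous_const.add (continuous_const.mul hΦc)).pow 2).measurable
    exact this.mul hgm
  have hcx : ∀ x, 1/2 ≤ 1 + τ * Φ x ∧ 1 + τ * Φ x ≤ 3/2 := fun x => by
    have h1 := abs_le.1 (hΦb x)
    constructor <;> nlinarith
  have hγ1b : ∀ x, |γ1 x| ≤ 9 / 4 * C := fun x => by
    have h1 := hcx x
    have h2 := hb x
    have h4 : (1 + τ * Φ x) ^ 2 ≤ 9/4 := by nlinarith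
    have h5 : 0 < D.gam0 x := hc.trans_le h2.1
    change |(1 + τ * Φ x) ^ 2 * D.gam0 x| ≤ 9 / 4 * C
    rw [abs_of_nonneg (by positivity)]
    nlinarith [sq_nonneg (1 + τ * Φ x)]
  have hcompw : ∀ x, D.bn τ n x ^ 2 * D.gam0 x ≤ (1 + (5/6 : ℝ) ^ n) ^ 2 * γ1 x := fun x => by
    have h1 := hbnx x
    have h2 := hcx x
    have h3 := (abs_le.1 (hΦ n x)).1
    have h4 : D.bn τ n x ≤ (1 + (5/6 : ℝ) ^ n) * (1 + τ * Φ x) := by
      have h5 : τ * (D.Psi n x - Φ x) ≤ 1/4 * (5/6 : ℝ) ^ n := by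
        calc τ * (D.Psi n x - Φ x) ≤ τ * (B * (5/6 : ℝ) ^ n) := by gcongr; linarith
          _ = (τ * B) * (5/6 : ℝ) ^ n := by ring
          _ ≤ 1/4 * (5/6 : ℝ) ^ n := by gcongr
      have h6 : D.bn τ n x = (1 + τ * Φ x) + τ * (D.Psi n x - Φ x) := by
        unfold ModData.bn; ring
      have h7 : 0 < (5/6 : ℝ) ^ n := by positivity
      rw [h6]
      nlinarith
    have h8 : (D.bn τ n x) ^ 2 ≤ ((1 + (5/6 : ℝ) ^ n) * (1 + τ * Φ x)) ^ 2 :=
      pow_le_pow_left₀ (by linarith) h4 2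
    have h9 : 0 < D.gam0 x := hc.trans_le (hb x).1
    calc D.bn τ n x ^ 2 * D.gam0 x ≤ ((1 + (5/6 : ℝ) ^ n) * (1 + τ * Φ x)) ^ 2 * D.gam0 x :=
          mul_le_mul_of_nonneg_right h8 h9.le
      _ = (1 + (5/6 : ℝ) ^ n) ^ 2 * γ1 x := by simp only [hγ1]; ring
  have hγnm : Measurable (fun x => D.bn τ n x ^ 2 * D.gam0 x) :=
    ((bn_continuous D τ n).pow 2).measurable.mul hgm
  have hγnb : ∀ x, |D.bn τ n x ^ 2 * D.gam0 x| ≤ 9 / 4 * C := fun x => by
    have h1 := hbnx x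
    have h2 := hb x
    have h4 : (D.bn τ n x) ^ 2 ≤ 9/4 := by nlinarith
    have h5 : 0 < D.gam0 x := hc.trans_le h2.1
    rw [abs_of_nonneg (by positivity)]
    nlinarith [sq_nonneg (D.bn τ n x)]
  have hE2 : En ≤ (1 + (5/6 : ℝ) ^ n) ^ 2 * ballEnergy γ1 u := by
    rw [hEn]
    unfold ballEnergy
    simp only [hfgrad]
    rw [← integral_const_mul]
    refine integral_mono (bd_int_sq hγnm hγnb (bd_grad hKu))
      ((bd_int_sq hγ1m hγ1b (bd_grad hKu)).const_mul _) fun x => ?_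
    have := mul_le_mul_of_nonneg_right (hcompw x) (sq_nonneg ‖∇ u x‖)
    change (D.bn τ n x ^ 2 * D.gam0 x) * ‖∇ u x‖ ^ 2 ≤
      (1 + (5/6 : ℝ) ^ n) ^ 2 * (γ1 x * ‖∇ u x‖ ^ 2)
    linarith
  have hE4 := hn0 n hnn
  linarith

/-- The final statement from a module. -/
theorem fa_main (D : ModData) :
    ∃ γ₀ γ₁ : EuclideanSpace ℝ (Fin 3) → ℝ, ∃ c C : ℝ, 0 < c ∧ Measurable γ₀ ∧ Measurable γ₁ ∧
      (∀ x, c ≤ γ₀ x ∧ γ₀ x ≤ C ∧ c ≤ γ₁ x ∧ γ₁ x ≤ C) ∧
      (∃ r : ℝ, r < 3 ∧ ∀ x : EuclideanSpace ℝ (Fin 3), r < ‖x‖ → γ₀ x = 1 ∧ γ₁ x = 1) ∧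
      0 < volume {x : EuclideanSpace ℝ (Fin 3) | γ₀ x ≠ γ₁ x} ∧
      SameBoundaryEnergies γ₀ γ₁ := by
  obtain ⟨c, C, hc, hb⟩ := gam0_bounds D
  obtain ⟨B1, hB1, hPb1, hPJ1⟩ := psi_bound D
  obtain ⟨B2, Φ, hB2, hΦc, hΦ2, hΦoff, x₀, hx₀⟩ := psi_limit D
  obtain ⟨Ct, hCt, htr⟩ := trace_unif D
  set B := max B1 B2 with hBdef
  have hB : 0 < B := lt_max_of_lt_left hB1
  have hPb : ∀ n x, |D.Psi n x| ≤ B := fun n x => (hPb1 n x).trans (le_max_left _ _)
  have hPJ : ∀ n, ∀ᶠ j in atTop, ∀ x, |D.PsiJ n j x| ≤ B := fun n => by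
    filter_upwards [hPJ1 n] with j hj x using (hj x).trans (le_max_left _ _)
  have hΦ : ∀ n x, |Φ x - D.Psi n x| ≤ B * (5/6 : ℝ) ^ n := fun n x =>
    (hΦ2 n x).trans (mul_le_mul_of_nonneg_right (le_max_right _ _) (by positivity))
  have hΦb : ∀ x, |Φ x| ≤ 2 * B := fun x => by
    have h1 := hΦ 0 x
    rw [pow_zero, mul_one] at h1
    have h2 := hPb 0 x
    have h3 := abs_add_le (Φ x - D.Psi 0 x) (D.Psi 0 x)
    simp only [sub_add_cancel] at h3
    linarith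
  set τ : ℝ := min (1 / (4 * B)) (1 / (8 * Ct)) with hτdef
  have hτ : 0 < τ := lt_min (by positivity) (by positivity)
  have hτB : τ * B ≤ 1/4 := by
    have h1 : τ ≤ 1 / (4 * B) := min_le_left _ _
    calc τ * B ≤ 1 / (4 * B) * B := mul_le_mul_of_nonneg_right h1 hB.le
      _ = 1/4 := by field_simp
  have hτC : τ * Ct ≤ 1/8 := by
    have h1 : τ ≤ 1 / (8 * Ct) := min_le_right _ _
    calc τ * Ct ≤ 1 / (8 * Ct) * Ct := mul_le_mul_of_nonneg_right h1 hCt.le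
      _ = 1/8 := by field_simp
  have hgm : Measurable D.gam0 := gam0_measurable D
  have hC : 0 < C := hc.trans_le ((hb 0).1.trans (hb 0).2)
  set γ1 : E3 → ℝ := fun x => (1 + τ * Φ x) ^ 2 * D.gam0 x with hγ1
  have hγ1m : Measurable γ1 := by
    have : Measurable (fun x => (1 + τ * Φ x) ^ 2) :=
      ((continuous_const.add (continuous_const.mul hΦc)).pow 2).measurable
    exact this.mul hgm
  have hcx : ∀ x, 1/2 ≤ 1 + τ * Φ x ∧ 1 + τ * Φ x ≤ 3/2 := fun x => by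
    have h1 := abs_le.1 (hΦb x)
    constructor <;> nlinarith
  have hγ1b : ∀ x, c / 4 ≤ γ1 x ∧ γ1 x ≤ 9 / 4 * C := fun x => by
    have h1 := hcx x
    have h2 := hb x
    have h3 : 1/4 ≤ (1 + τ * Φ x) ^ 2 := by nlinarith
    have h4 : (1 + τ * Φ x) ^ 2 ≤ 9/4 := by nlinarith
    have h5 : 0 < D.gam0 x := hc.trans_le h2.1
    constructor
    · change c / 4 ≤ (1 + τ * Φ x) ^ 2 * D.gam0 x
      nlinarith
    · change (1 + τ * Φ x) ^ 2 * D.gam0 x ≤ 9 / 4 * C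
      nlinarith
  refine ⟨D.gam0, γ1, c / 4, 9 / 4 * C, by positivity, hgm, hγ1m, fun x => ⟨?_, ?_, (hγ1b x).1,
    (hγ1b x).2⟩, ⟨2, by norm_num, fun x hx => ⟨gam0_off D x (fa_off x hx), ?_⟩⟩, ?_, ?_⟩
  · linarith [(hb x).1]
  · linarith [(hb x).2]
  · change (1 + τ * Φ x) ^ 2 * D.gam0 x = 1
    rw [gam0_off D x (fa_off x hx), hΦoff x (fa_off x hx)]; norm_num
  · -- the conductivities differ on a nonempty open set
    have hopen : IsOpen {x : E3 | 0 < Φ x} := isOpen_lt continuous_const hΦc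
    have hne : ({x : E3 | 0 < Φ x}).Nonempty := ⟨x₀, hx₀⟩
    refine lt_of_lt_of_le (hopen.measure_pos volume hne) (measure_mono fun x hx => ?_)
    have hx' : 0 < Φ x := hx
    have h5 : 0 < D.gam0 x := hc.trans_le (hb x).1
    have h6 : 0 < τ * Φ x := mul_pos hτ hx'
    change D.gam0 x ≠ (1 + τ * Φ x) ^ 2 * D.gam0 x
    have h7 : 1 < (1 + τ * Φ x) ^ 2 := by nlinarith
    nlinarith [mul_lt_mul_of_pos_right h7 h5] 
  · intro φ hφ
    -- the infimum
    set S : Set ℝ := {E | ∃ u, IsCompetitor φ u ∧ E = ballEnergy D.gam0 u} with hS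
    have hSne : S.Nonempty := ⟨_, φ, ⟨hφ, fun _ _ => rfl⟩, rfl⟩
    have hSb : BddBelow S := ⟨0, by
      rintro E ⟨u, _, rfl⟩
      exact integral_nonneg fun x => mul_nonneg (hc.le.trans (hb x).1) (sq_nonneg _)⟩
    set m := sInf S with hm_def
    have hm : ∀ u, IsCompetitor φ u → m ≤ ballEnergy D.gam0 u := fun u hu =>
      csInf_le hSb ⟨u, hu, rfl⟩
    have hmlt : ∀ δ : ℝ, 0 < δ → ∃ u, IsCompetitor φ u ∧ ballEnergy D.gam0 u < m + δ := by
      intro δ hδ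
      obtain ⟨E, ⟨u, hu, rfl⟩, hE⟩ := exists_lt_of_csInf_lt hSne
        (show sInf S < m + δ by linarith)
      exact ⟨u, hu, hE⟩
    have hm' : ∀ δ : ℝ, 0 < δ → ∃ u, IsCompetitor φ u ∧ ballEnergy D.gam0 u ≤ m + δ :=
      fun δ hδ => by
        obtain ⟨u, hu, hE⟩ := hmlt δ hδ
        exact ⟨u, hu, hE.le⟩
    constructor
    · intro u hu ε hε
      obtain ⟨w, hw, hwE⟩ := fa_upper D c C B τ Φ hc hb hB hPb hPJ hΦc hΦ hτ hτB φ m hm hm' hΦb
        ε hε
      exact ⟨w, hw, hwE.trans_le (by linarith [hm u hu])⟩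
    · intro u hu ε hε
      have h1 := fa_lower D c C B τ Ct Φ hc hb hB hPb hPJ hΦc hΦ hτ hτB hCt hτC htr φ m hm hm' hΦb
        (ε / 8) (by positivity) u hu
      obtain ⟨w, hw, hwE⟩ := hmlt (ε / 4) (by positivity)
      refine ⟨w, hw, ?_⟩
      linarith

end Crest.Agent.R083
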