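import Crest.Agent.R083.Defs

/-!
Row 83 (S0111): smooth approximation of Lipschitz functions.
-/

set_option autoImplicit false

namespace Crest.Agent.R083

open MeasureTheory Set Filter
open scoped Gradient ENNReal NNReal Topology ContDiff Convolution

/-- The unit bump. -/
noncomputable def molBump : ContDiffBump (0 : E3) := ⟨1/2, 1, by norm_num, by norm_num⟩

/-- The smoothing kernel: smooth, nonnegative, of integral one, supported in the unit ball. -/
noncomputable def molRho : E3 → ℝ := molBump.normed volume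

lemma molRho_contDiff : ContDiff ℝ ∞ molRho := molBump.contDiff_normed

lemma molRho_contDiff_one : ContDiff ℝ 1 molRho := molRho_contDiff.of_le (by simp)

lemma molRho_nonneg (y : E3) : 0 ≤ molRho y := molBump.nonneg_normed y

lemma molRho_hcs : HasCompactSupport molRho := molBump.hasCompactSupport_normed

lemma molRho_integral : ∫ y, molRho y = 1 := molBump.integral_normed

lemma molRho_integrable : Integrable molRho volume := molBump.integrable_normed

lemma molRho_eq_zero (y : E3) (h : 1 ≤ ‖y‖) : molRho y = 0 := by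
  by_contra hne
  have : y ∈ Function.support molRho := hne
  rw [molRho, molBump.support_normed_eq, mem_ball_zero_iff] at this
  exact absurd this (not_lt.2 h)

/-- The smoothing operator. -/
noncomputable def molOp (g : E3 → ℝ) (z : E3) : ℝ := ∫ y, molRho y * g (z - y)

lemma molOp_eq (g : E3 → ℝ) :
    molOp g = (molRho ⋆[ContinuousLinearMap.lsmul ℝ ℝ, volume] g) := by
  ext z
  simp [molOp, convolution]

lemma molOp_contDiff (g : E3 → ℝ) (hg : Continuous g) : ContDiff ℝ ∞ (molOp g) := by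
  rw [molOp_eq]
  exact molRho_hcs.contDiff_convolution_left _ molRho_contDiff hg.locallyIntegrable

lemma molOp_hasFDerivAt (g : E3 → ℝ) (hg : Continuous g) (z : E3) :
    HasFDerivAt (molOp g) (∫ y, g (z - y) • fderiv ℝ molRho y) z := by
  rw [molOp_eq]
  have h := molRho_hcs.hasFDerivAt_convolution_left (ContinuousLinearMap.lsmul ℝ ℝ)
    molRho_contDiff_one (hg.locallyIntegrable (μ := volume)) z
  refine h.congr_fderiv ?_
  simp only [convolution]
  congr 1
  ext y v
  simp [ContinuousLinearMap.precompL_apply, mul_comm]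

lemma molRho_mul_integrable (g : E3 → ℝ) (hg : Continuous g) :
    Integrable (fun y => molRho y * g y) volume :=
  (molRho_contDiff.continuous.mul hg).integrable_of_hasCompactSupport
    (molRho_hcs.mul_right)

lemma fderiv_molRho_hcs : HasCompactSupport (fderiv ℝ molRho) := molRho_hcs.fderiv ℝ

lemma fderiv_molRho_cont : Continuous (fderiv ℝ molRho) :=
  molRho_contDiff_one.continuous_fderiv one_ne_zero

lemma smul_fderiv_integrable (g : E3 → ℝ) (hg : Continuous g) :
    Integrable (fun y => g y • fderiv ℝ molRho y) volume :=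
  (hg.smul fderiv_molRho_cont).integrable_of_hasCompactSupport
    (fderiv_molRho_hcs.smul_left)

/-- The smoothed functions. -/
noncomputable def molSeq (ψ : E3 → ℝ) (n : ℕ) (x : E3) : ℝ :=
  molOp (fun z => ψ (((n : ℝ) + 1)⁻¹ • z)) (((n : ℝ) + 1) • x)

lemma molSeq_apply (ψ : E3 → ℝ) (n : ℕ) (x : E3) :
    molSeq ψ n x = ∫ y, molRho y * ψ (x - ((n : ℝ) + 1)⁻¹ • y) := by
  have h : ((n : ℝ) + 1) ≠ 0 := by positivity
  simp only [molSeq, molOp, smul_sub, smul_smul, inv_mul_cancel₀ h, one_smul]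

lemma molSeq_contDiff (ψ : E3 → ℝ) (hψ : Continuous ψ) (n : ℕ) : ContDiff ℝ ∞ (molSeq ψ n) := by
  have h := molOp_contDiff (fun z => ψ (((n : ℝ) + 1)⁻¹ • z)) (by fun_prop)
  exact h.comp (contDiff_const_smul _)

lemma molSeq_hasFDerivAt (ψ : E3 → ℝ) (hψ : Continuous ψ) (n : ℕ) (x : E3) :
    HasFDerivAt (molSeq ψ n)
      (((n : ℝ) + 1) • ∫ y, ψ (x - ((n : ℝ) + 1)⁻¹ • y) • fderiv ℝ molRho y) x := by
  have hn : ((n : ℝ) + 1) ≠ 0 := by positivity
  have h := molOp_hasFDerivAt (fun z => ψ (((n : ℝ) + 1)⁻¹ • z)) (by fun_prop)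
    (((n : ℝ) + 1) • x)
  have h2 : HasFDerivAt (fun x : E3 => ((n : ℝ) + 1) • x)
      (((n : ℝ) + 1) • ContinuousLinearMap.id ℝ E3) x :=
    (hasFDerivAt_id x).const_smul ((n : ℝ) + 1)
  have h3 := h.comp x h2
  simp only [smul_sub, smul_smul, inv_mul_cancel₀ hn, one_smul] at h3
  refine HasFDerivAt.congr_fderiv (f := molSeq ψ n) h3 ?_
  ext v
  simp

/-- The integral of the derivative of the kernel vanishes. -/
lemma integral_fderiv_molRho : ∫ y, fderiv ℝ molRho y = 0 := by
  have h := molOp_hasFDerivAt (fun _ => (1 : ℝ)) continuous_const 0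
  have h2 : molOp (fun _ => (1 : ℝ)) = fun _ => (1 : ℝ) := by
    ext z
    simp [molOp, molRho_integral]
  rw [h2] at h
  have h3 := h.unique (hasFDerivAt_const (1 : ℝ) (0 : E3))
  simpa using h3

/-- Integration by parts for a linear function. -/
lemma integral_linear_fderiv_molRho (T : E3 →L[ℝ] ℝ) :
    ∫ y, (-(T y)) • fderiv ℝ molRho y = T := by
  have h := molOp_hasFDerivAt T T.continuous 0
  have h2 : molOp T = fun z => T z - ∫ y, molRho y * T y := by
    ext z
    have h1 : Integrable (fun y => molRho y * T z) volume := molRho_integrable.mul_const _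
    have h1' := molRho_mul_integrable T T.continuous
    simp only [molOp, map_sub, mul_sub]
    rw [integral_sub h1 h1', integral_mul_const, molRho_integral, one_mul]
  rw [h2] at h
  have h3 := h.unique (T.hasFDerivAt.sub_const _)
  simpa using h3

lemma molSeq_lipschitz (ψ : E3 → ℝ) (K : ℝ≥0) (hψ : LipschitzWith K ψ) (n : ℕ) :
    LipschitzWith K (molSeq ψ n) := by
  refine LipschitzWith.of_dist_le_mul fun x x' => ?_
  have hc := hψ.continuous
  have hi : ∀ x : E3, Integrable (fun y => molRho y * ψ (x - ((n : ℝ) + 1)⁻¹ • y)) volume :=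
    fun x => molRho_mul_integrable _ (by fun_prop)
  rw [Real.dist_eq, molSeq_apply, molSeq_apply, ← integral_sub (hi x) (hi x')]
  calc |∫ y, (molRho y * ψ (x - ((n : ℝ) + 1)⁻¹ • y) - molRho y * ψ (x' - ((n : ℝ) + 1)⁻¹ • y))|
      ≤ ∫ y, molRho y * (K * dist x x') := by
        rw [← Real.norm_eq_abs]
        refine norm_integral_le_of_norm_le (molRho_integrable.mul_const _) ?_
        refine Eventually.of_forall fun y => ?_
        rw [← mul_sub, norm_mul, Real.norm_of_nonneg (molRho_nonneg y)]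
        refine mul_le_mul_of_nonneg_left ?_ (molRho_nonneg y)
        have := hψ.dist_le_mul (x - ((n : ℝ) + 1)⁻¹ • y) (x' - ((n : ℝ) + 1)⁻¹ • y)
        rwa [Real.dist_eq, dist_sub_right] at this
    _ = K * dist x x' := by rw [integral_mul_const, molRho_integral, one_mul]

lemma molSeq_close (ψ : E3 → ℝ) (K : ℝ≥0) (hψ : LipschitzWith K ψ) (n : ℕ) (x : E3) :
    |molSeq ψ n x - ψ x| ≤ K / (n + 1) := by
  have hc := hψ.continuous
  have hn : (0 : ℝ) < (n : ℝ) + 1 := by positivity
  have hi : Integrable (fun y => molRho y * ψ (x - ((n : ℝ) + 1)⁻¹ • y)) volume :=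
    molRho_mul_integrable _ (by fun_prop)
  have h1 : ψ x = ∫ y, molRho y * ψ x := by
    rw [integral_mul_const, molRho_integral, one_mul]
  rw [molSeq_apply, h1, ← integral_sub hi (molRho_integrable.mul_const _)]
  calc |∫ y, (molRho y * ψ (x - ((n : ℝ) + 1)⁻¹ • y) - molRho y * ψ x)|
      ≤ ∫ y, molRho y * (K / (n + 1)) := by
        rw [← Real.norm_eq_abs]
        refine norm_integral_le_of_norm_le (molRho_integrable.mul_const _) ?_
        refine Eventually.of_forall fun y => ?_
        rw [← mul_sub, norm_mul, Real.norm_of_nonneg (molRho_nonneg y)]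
        rcases le_or_gt 1 ‖y‖ with hy | hy
        · rw [molRho_eq_zero y hy]; simp
        refine mul_le_mul_of_nonneg_left ?_ (molRho_nonneg y)
        have := hψ.dist_le_mul (x - ((n : ℝ) + 1)⁻¹ • y) x
        rw [Real.dist_eq, dist_eq_norm] at this
        refine this.trans ?_
        have h2 : ‖x - ((n : ℝ) + 1)⁻¹ • y - x‖ ≤ ((n : ℝ) + 1)⁻¹ := by
          rw [sub_sub_cancel_left, norm_neg, norm_smul, Real.norm_of_nonneg (by positivity)]
          exact mul_le_of_le_one_right (by positivity) hy.le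
        rw [div_eq_mul_inv]
        exact mul_le_mul_of_nonneg_left h2 K.2
    _ = K / (n + 1) := by rw [integral_mul_const, molRho_integral, one_mul]

lemma molSeq_zero (ψ : E3 → ℝ) (n : ℕ) (x : E3)
    (h : ∀ y ∈ Metric.closedBall x (1 / ((n : ℝ) + 1)), ψ y = 0) : molSeq ψ n x = 0 := by
  rw [molSeq_apply]
  have : (fun y => molRho y * ψ (x - ((n : ℝ) + 1)⁻¹ • y)) = fun _ => 0 := by
    ext y
    rcases le_or_gt 1 ‖y‖ with hy | hy
    · rw [molRho_eq_zero y hy]; simp
    rw [h _ ?_, mul_zero]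
    rw [mem_closedBall_iff_norm, sub_sub_cancel_left, norm_neg, norm_smul,
      Real.norm_of_nonneg (by positivity), one_div]
    exact mul_le_of_le_one_right (by positivity) hy.le
  rw [this, integral_zero]

lemma molSeq_fderiv_tendsto (ψ : E3 → ℝ) (K : ℝ≥0) (hψ : LipschitzWith K ψ) (x : E3)
    (hx : DifferentiableAt ℝ ψ x) :
    Tendsto (fun n => fderiv ℝ (molSeq ψ n) x) atTop (𝓝 (fderiv ℝ ψ x)) := by
  have hc := hψ.continuous
  have h1 : ∀ n : ℕ, fderiv ℝ (molSeq ψ n) x =
      ∫ y, (((n : ℝ) + 1) * (ψ (x - ((n : ℝ) + 1)⁻¹ • y) - ψ x)) • fderiv ℝ molRho y := by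
    intro n
    rw [(molSeq_hasFDerivAt ψ hc n x).fderiv]
    have h2 : ∫ y, (ψ (x - ((n : ℝ) + 1)⁻¹ • y) - ψ x) • fderiv ℝ molRho y =
        ∫ y, ψ (x - ((n : ℝ) + 1)⁻¹ • y) • fderiv ℝ molRho y := by
      simp only [sub_smul]
      rw [integral_sub (smul_fderiv_integrable _ (by fun_prop))
        (smul_fderiv_integrable _ continuous_const), integral_smul, integral_fderiv_molRho,
        smul_zero, sub_zero]
    rw [← h2, ← integral_smul]
    simp only [smul_smul]
  simp only [h1]
  rw [← integral_linear_fderiv_molRho (fderiv ℝ ψ x)]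
  refine tendsto_integral_of_dominated_convergence
    (fun y => (K * ‖y‖) * ‖fderiv ℝ molRho y‖) ?_ ?_ ?_ ?_
  · intro n
    exact (smul_fderiv_integrable _ (by fun_prop)).aestronglyMeasurable
  · have : Integrable (fun y : E3 => ((K : ℝ) * ‖y‖) • fderiv ℝ molRho y) volume :=
      smul_fderiv_integrable _ (by fun_prop)
    refine this.norm.congr (Eventually.of_forall fun y => ?_)
    simp only [norm_smul, norm_mul, norm_norm, NNReal.norm_eq]
  · intro n
    refine Eventually.of_forall fun y => ?_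
    have hn : (0 : ℝ) < (n : ℝ) + 1 := by positivity
    rw [norm_smul]
    refine mul_le_mul_of_nonneg_right ?_ (norm_nonneg _)
    rw [norm_mul, Real.norm_of_nonneg hn.le]
    have h := hψ.dist_le_mul (x - ((n : ℝ) + 1)⁻¹ • y) x
    rw [dist_eq_norm, dist_eq_norm, sub_sub_cancel_left, norm_neg, norm_smul,
      Real.norm_of_nonneg (inv_nonneg.2 hn.le)] at h
    calc ((n : ℝ) + 1) * ‖ψ (x - ((n : ℝ) + 1)⁻¹ • y) - ψ x‖
        ≤ ((n : ℝ) + 1) * (K * (((n : ℝ) + 1)⁻¹ * ‖y‖)) :=
          mul_le_mul_of_nonneg_left h hn.le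
      _ = K * ‖y‖ := by field_simp
  · refine Eventually.of_forall fun y => ?_
    refine Tendsto.smul_const ?_ _
    have hd : HasFDerivAt ψ (fderiv ℝ ψ x) x := hx.hasFDerivAt
    have hcl : Tendsto (fun n : ℕ => (n : ℝ) + 1) atTop atTop :=
      tendsto_atTop_add_const_right _ _ tendsto_natCast_atTop_atTop
    have hl := hd.lim (-y) (c := fun n : ℕ => (n : ℝ) + 1) (l := atTop) (by
      refine hcl.congr fun n => ?_
      rw [Real.norm_of_nonneg (by positivity)])
    simp only [map_neg, smul_eq_mul, smul_neg] at hl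
    simpa only [sub_eq_add_neg] using hl

theorem mollify (ψ : E3 → ℝ) (K : ℝ≥0) (hψ : LipschitzWith K ψ) :
    ∃ f : ℕ → E3 → ℝ, (∀ n, ContDiff ℝ ∞ (f n)) ∧ (∀ n, LipschitzWith K (f n)) ∧
      (∀ (n : ℕ) x, |f n x - ψ x| ≤ K / (n + 1)) ∧
      (∀ (n : ℕ) x, (∀ y ∈ Metric.closedBall x (1 / ((n : ℝ) + 1)), ψ y = 0) → f n x = 0) ∧
      (∀ x, DifferentiableAt ℝ ψ x → Tendsto (fun n => ∇ (f n) x) atTop (𝓝 (∇ ψ x))) := by
  refine ⟨molSeq ψ, molSeq_contDiff ψ hψ.continuous, molSeq_lipschitz ψ K hψ,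
    molSeq_close ψ K hψ, molSeq_zero ψ, fun x hx => ?_⟩
  have h := molSeq_fderiv_tendsto ψ K hψ x hx
  exact ((InnerProductSpace.toDual ℝ E3).symm.continuous.tendsto _).comp h

end Crest.Agent.R083
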