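import Crest.Agent.R083.TreeDefs
import Crest.Agent.R083.Mollify

/-!
Row 83 (S0111): near-minimisers nearly satisfy the weak equation; Sobolev competitors can be
replaced by `C¹` competitors.
-/

set_option autoImplicit false

namespace Crest.Agent.R083

open MeasureTheory Set Filter
open scoped Gradient ENNReal NNReal Topology ContDiff
open Crest.AnalysisR.PDE.Calderon

namespace NearMin

theorem measurable_grad (f : E3 → ℝ) : Measurable (∇ f) := by
  have h1 : Measurable (fderiv ℝ f) := measurable_fderiv ℝ f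
  have h2 : Continuous (InnerProductSpace.toDual ℝ E3).symm :=
    (InnerProductSpace.toDual ℝ E3).symm.continuous
  exact h2.measurable.comp h1

theorem norm_grad_le {f : E3 → ℝ} {K : ℝ≥0} (hf : LipschitzWith K f) (x : E3) :
    ‖∇ f x‖ ≤ K := by
  have : ‖∇ f x‖ = ‖fderiv ℝ f x‖ := by
    simp [gradient]
  rw [this]
  exact norm_fderiv_le_of_lipschitz ℝ hf

theorem grad_zero_of_eventually {f : E3 → ℝ} {x : E3} (h : ∀ᶠ y in 𝓝 x, f y = 0) :
    ∇ f x = 0 := by
  have h1 : f =ᶠ[𝓝 x] (fun _ => (0 : ℝ)) := h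
  have h2 : fderiv ℝ f x = 0 := by
    rw [h1.fderiv_eq]; simp
  simp [gradient, h2]

theorem grad_zero_off {f : E3 → ℝ} {r : ℝ} (h : ∀ x, r < ‖x‖ → f x = 0) (x : E3)
    (hx : r < ‖x‖) : ∇ f x = 0 := by
  apply grad_zero_of_eventually
  have : IsOpen {y : E3 | r < ‖y‖} := isOpen_lt continuous_const continuous_norm
  filter_upwards [this.mem_nhds hx] with y hy using h y hy

theorem continuous_grad {f : E3 → ℝ} (hf : ContDiff ℝ 1 f) : Continuous (∇ f) := by
  have h1 : Continuous (fderiv ℝ f) := hf.continuous_fderiv (by norm_num)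
  have h2 : Continuous (InnerProductSpace.toDual ℝ E3).symm :=
    (InnerProductSpace.toDual ℝ E3).symm.continuous
  exact h2.comp h1

theorem grad_add_smul {v z : E3 → ℝ} (hv : ContDiff ℝ 1 v) (hz : ContDiff ℝ 1 z) (t : ℝ) (x : E3) :
    ∇ (fun y => v y + t * z y) x = ∇ v x + t • ∇ z x := by
  have hv' : DifferentiableAt ℝ v x := hv.differentiable (by norm_num) x
  have hz' : DifferentiableAt ℝ z x := hz.differentiable (by norm_num) x
  have : fderiv ℝ (fun y => v y + t * z y) x = fderiv ℝ v x + t • fderiv ℝ z x := by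
    rw [fderiv_fun_add hv' (hz'.const_mul t), fderiv_const_mul hz']
  simp [gradient, this]

/-- the mollified functions converge in the Sobolev sense -/
theorem tendsto_grad_mollify {ψ : E3 → ℝ} {K : ℝ≥0} (hψ : LipschitzWith K ψ) {f : ℕ → E3 → ℝ}
    (hL : ∀ n, LipschitzWith K (f n)) {R : ℝ} (h0 : ∀ x, R < ‖x‖ → ψ x = 0)
    (hf0 : ∀ n x, R < ‖x‖ → f n x = 0)
    (hlim : ∀ x, DifferentiableAt ℝ ψ x → Tendsto (fun n => ∇ (f n) x) atTop (𝓝 (∇ ψ x))) :
    Tendsto (fun n => eLpNorm (fun x => ∇ (f n) x - ∇ ψ x) 2 volume) atTop (𝓝 0) := by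
  have key : Tendsto (fun n => ∫⁻ x, ‖∇ (f n) x - ∇ ψ x‖ₑ ^ (2 : ℝ)) atTop
      (𝓝 (∫⁻ _ : E3, 0)) := by
    apply tendsto_lintegral_of_dominated_convergence
      ((Metric.closedBall (0 : E3) R).indicator (fun _ => (ENNReal.ofReal (2 * K)) ^ (2 : ℝ)))
    · intro n
      exact (((measurable_grad (f n)).sub (measurable_grad ψ)).enorm).pow_const _
    · intro n
      refine Eventually.of_forall fun x => ?_
      beta_reduce
      by_cases hx : x ∈ Metric.closedBall (0 : E3) R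
      · rw [indicator_of_mem hx]
        apply ENNReal.rpow_le_rpow _ (by norm_num)
        rw [← ofReal_norm]
        apply ENNReal.ofReal_le_ofReal
        calc ‖∇ (f n) x - ∇ ψ x‖ ≤ ‖∇ (f n) x‖ + ‖∇ ψ x‖ := norm_sub_le _ _
          _ ≤ K + K := add_le_add (norm_grad_le (hL n) x) (norm_grad_le hψ x)
          _ = 2 * K := by ring
      · rw [indicator_of_notMem hx]
        have hx' : R < ‖x‖ := by
          simpa [Metric.mem_closedBall, dist_zero_right] using hx
        rw [grad_zero_off (hf0 n) x hx', grad_zero_off h0 x hx']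
        simp
    · rw [lintegral_indicator Metric.isClosed_closedBall.measurableSet]
      simp only [lintegral_const, Measure.restrict_apply, MeasurableSet.univ, univ_inter]
      apply ENNReal.mul_ne_top
      · exact ENNReal.rpow_ne_top_of_nonneg (by norm_num) ENNReal.ofReal_ne_top
      · exact measure_closedBall_lt_top.ne
    · filter_upwards [hψ.ae_differentiableAt] with x hx
      have h1 : Tendsto (fun n => ∇ (f n) x - ∇ ψ x) atTop (𝓝 0) := by
        simpa using (hlim x hx).sub_const (∇ ψ x)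
      have h2 : Tendsto (fun n => ‖∇ (f n) x - ∇ ψ x‖ₑ) atTop (𝓝 0) := by
        simpa using h1.enorm
      have h3 := h2.ennrpow_const (2 : ℝ)
      simpa using h3
  simp only [lintegral_const, zero_mul] at key
  have h2 := key.ennrpow_const (1 / (2 : ℝ))
  simp only [one_div] at h2
  have h3 : (fun n => eLpNorm (fun x => ∇ (f n) x - ∇ ψ x) 2 volume) =
      fun n => (∫⁻ x, ‖∇ (f n) x - ∇ ψ x‖ₑ ^ (2 : ℝ)) ^ ((2 : ℝ)⁻¹) := by
    funext n
    rw [eLpNorm_eq_lintegral_rpow_enorm_toReal (by norm_num) (by norm_num)]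
    simp
  rw [h3]
  simpa using h2

/-- smooth compactly supported approximation -/
theorem smooth_approx {r : ℝ} (hr : r < 3) {G : E3 → E3} (hG : SobZ r G) {η : ℝ≥0∞} (hη : 0 < η) :
    ∃ z : E3 → ℝ, ContDiff ℝ 1 z ∧ (∀ x, ‖x‖ = 3 → z x = 0) ∧ (∃ K : ℝ≥0, LipschitzWith K z) ∧
      eLpNorm (fun x => ∇ z x - G x) 2 volume < η := by
  obtain ⟨hGm, zj, hzL, hz0, hzG⟩ := hG
  have hη2 : 0 < η / 2 := ENNReal.half_pos hη.ne'
  obtain ⟨j, hj⟩ := ((tendsto_order.1 hzG).2 _ hη2).exists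
  obtain ⟨K, hK⟩ := hzL j
  obtain ⟨f, hfs, hfL, -, hf0, hflim⟩ := mollify (zj j) K hK
  -- a common radius
  obtain ⟨N, hN⟩ := exists_nat_one_div_lt (sub_pos.2 hr)
  have hsupp : ∀ n, N ≤ n → ∀ x : E3, r + 1 / ((N : ℝ) + 1) < ‖x‖ → f n x = 0 := by
    intro n hn x hx
    apply hf0 n x
    intro y hy
    apply hz0 j y
    have h1 : dist y x ≤ 1 / ((n : ℝ) + 1) := Metric.mem_closedBall.1 hy
    have h2 : (1 : ℝ) / ((n : ℝ) + 1) ≤ 1 / ((N : ℝ) + 1) := by
      apply one_div_le_one_div_of_le (by positivity)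
      have : (N : ℝ) ≤ n := by exact_mod_cast hn
      linarith
    have h3 : ‖x‖ ≤ ‖y‖ + dist y x := by
      rw [dist_comm, dist_eq_norm]
      calc ‖x‖ = ‖y + (x - y)‖ := by congr 1; abel
        _ ≤ ‖y‖ + ‖x - y‖ := norm_add_le _ _
    linarith
  have hconv := tendsto_grad_mollify (f := fun n => f (n + N)) hK (fun n => hfL _)
    (R := r + 1 / ((N : ℝ) + 1))
    (fun x hx => hz0 j x (lt_of_le_of_lt (by have : (0 : ℝ) ≤ 1 / ((N : ℝ) + 1) := by positivity
                                             linarith) hx))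
    (fun n x hx => hsupp _ (Nat.le_add_left _ _) x hx)
    (fun x hx => (hflim x hx).comp (tendsto_add_atTop_nat N))
  obtain ⟨n, hn⟩ := ((tendsto_order.1 hconv).2 _ hη2).exists
  refine ⟨f (n + N), (hfs _).of_le (by exact_mod_cast le_top), ?_, ⟨K, hfL _⟩, ?_⟩
  · intro x hx
    apply hsupp _ (Nat.le_add_left _ _) x
    rw [hx]; linarith
  · have hmeas1 : AEStronglyMeasurable (fun x => ∇ (f (n + N)) x - ∇ (zj j) x) volume :=
      ((measurable_grad _).sub (measurable_grad _)).aestronglyMeasurable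
    have hmeas2 : AEStronglyMeasurable (fun x => ∇ (zj j) x - G x) volume :=
      (measurable_grad _).aestronglyMeasurable.sub hGm.1
    have heq : (fun x => ∇ (f (n + N)) x - G x) =
        (fun x => ∇ (f (n + N)) x - ∇ (zj j) x) + (fun x => ∇ (zj j) x - G x) := by
      funext x; simp
    rw [heq]
    calc eLpNorm ((fun x => ∇ (f (n + N)) x - ∇ (zj j) x) + (fun x => ∇ (zj j) x - G x)) 2 volume
        ≤ eLpNorm (fun x => ∇ (f (n + N)) x - ∇ (zj j) x) 2 volume +
          eLpNorm (fun x => ∇ (zj j) x - G x) 2 volume :=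
          eLpNorm_add_le hmeas1 hmeas2 (by norm_num)
      _ < η / 2 + η / 2 := ENNReal.add_lt_add hn hj
      _ = η := ENNReal.add_halves η

/-- the weighted field -/
noncomputable def wt (γ : E3 → ℝ) (X : E3 → E3) : E3 → E3 := fun x => √(γ x) • X x

noncomputable abbrev μ3 : Measure E3 := volume.restrict (Metric.ball (0 : E3) 3)

section

variable {γ : E3 → ℝ} {c C : ℝ} (hc : 0 < c) (hγ : Measurable γ) (hb : ∀ x, c ≤ γ x ∧ γ x ≤ C)

include hγ hb

theorem wt_mem {X : E3 → E3} (hX : MemLp X 2 μ3) : MemLp (wt γ X) 2 μ3 := by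
  refine MemLp.of_le_mul (c := √C) hX ?_ ?_
  · exact (Real.continuous_sqrt.measurable.comp hγ).aestronglyMeasurable.smul hX.1
  · refine Eventually.of_forall fun x => ?_
    rw [wt, norm_smul, Real.norm_of_nonneg (Real.sqrt_nonneg _)]
    gcongr
    exact (hb x).2

include hc

omit hγ in
theorem inner_wt (X Z : E3 → E3) (x : E3) :
    inner ℝ (wt γ X x) (wt γ Z x) = γ x * inner ℝ (X x) (Z x) := by
  have h0 : 0 ≤ γ x := hc.le.trans (hb x).1
  rw [wt, wt, real_inner_smul_left, real_inner_smul_right, ← mul_assoc, Real.mul_self_sqrt h0]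

theorem inner_toLp {X Z : E3 → E3} (hX : MemLp X 2 μ3) (hZ : MemLp Z 2 μ3) :
    inner ℝ ((wt_mem hγ hb hX).toLp (wt γ X)) ((wt_mem hγ hb hZ).toLp (wt γ Z)) =
      ∫ x in Metric.ball (0 : E3) 3, γ x * inner ℝ (X x) (Z x) := by
  rw [L2.inner_def]
  apply integral_congr_ae
  filter_upwards [(wt_mem hγ hb hX).coeFn_toLp, (wt_mem hγ hb hZ).coeFn_toLp] with x h1 h2
  rw [h1, h2, inner_wt hc hb]

theorem norm_sq_toLp {X : E3 → E3} (hX : MemLp X 2 μ3) :
    ‖(wt_mem hγ hb hX).toLp (wt γ X)‖ ^ 2 =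
      ∫ x in Metric.ball (0 : E3) 3, γ x * ‖X x‖ ^ 2 := by
  rw [← real_inner_self_eq_norm_sq, inner_toLp hc hγ hb hX hX]
  simp only [real_inner_self_eq_norm_sq]

omit hγ hb hc in
theorem memLp_grad {v : E3 → ℝ} (hv : ContDiff ℝ 1 v) : MemLp (∇ v) 2 μ3 := by
  have hcomp : IsCompact (Metric.closedBall (0 : E3) 3) := isCompact_closedBall _ _
  obtain ⟨M, hM⟩ := hcomp.exists_bound_of_continuousOn (continuous_grad hv).continuousOn
  have : IsFiniteMeasure μ3 := ⟨by
    rw [Measure.restrict_apply_univ]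
    exact measure_ball_lt_top⟩
  refine MemLp.of_bound (continuous_grad hv).aestronglyMeasurable M ?_
  refine (ae_restrict_iff' measurableSet_ball).2 (Eventually.of_forall fun x hx => ?_)
  exact hM x (Metric.ball_subset_closedBall hx)

end

section

variable {γ : E3 → ℝ} {c C : ℝ} (hc : 0 < c) (hγ : Measurable γ) (hb : ∀ x, c ≤ γ x ∧ γ x ≤ C)

/-- The set of `L²` elements given by admissible perturbations. -/
def PS : Set (Lp E3 2 μ3) :=
  {b | ∃ z : E3 → ℝ, ∃ hz : ContDiff ℝ 1 z, (∀ x, ‖x‖ = 3 → z x = 0) ∧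
    b = (wt_mem hγ hb (memLp_grad hz)).toLp (wt γ (∇ z))}

include hγ hb

/-- The weighted field of a Sobolev gradient is in the closure of the admissible ones. -/
theorem mem_closure {r : ℝ} (hr : r < 3) {G : E3 → E3} (hG : SobZ r G) :
    (wt_mem hγ hb (hG.1.restrict _)).toLp (wt γ G) ∈ closure (PS hγ hb) := by
  rw [EMetric.mem_closure_iff]
  intro ε hε
  -- scale
  set s : ℝ≥0 := Real.toNNReal √C + 1 with hs
  have hs0 : s ≠ 0 := by positivity
  have hη : 0 < ε / s := ENNReal.div_pos hε.ne' ENNReal.coe_ne_top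
  obtain ⟨z, hz, hz0, -, hzG⟩ := smooth_approx hr hG hη
  refine ⟨_, ⟨z, hz, hz0, rfl⟩, ?_⟩
  rw [Lp.edist_toLp_toLp]
  have h1 : eLpNorm (wt γ G - wt γ (∇ z)) 2 μ3 ≤
      s * eLpNorm (fun x => ∇ z x - G x) 2 volume := by
    calc eLpNorm (wt γ G - wt γ (∇ z)) 2 μ3 ≤ s * eLpNorm (fun x => ∇ z x - G x) 2 μ3 := by
          have := eLpNorm_le_nnreal_smul_eLpNorm_of_ae_le_mul (μ := μ3) (c := s)
            (f := wt γ G - wt γ (∇ z)) (g := fun x => ∇ z x - G x) (Eventually.of_forall fun x => ?_) 2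
          · simpa [ENNReal.smul_def] using this
          · rw [Pi.sub_apply, wt, wt, ← smul_sub, nnnorm_smul, ← neg_sub (∇ z x) (G x), nnnorm_neg]
            gcongr
            rw [← NNReal.coe_le_coe, coe_nnnorm, Real.norm_of_nonneg (Real.sqrt_nonneg _), hs]
            push_cast
            rw [Real.coe_toNNReal _ (Real.sqrt_nonneg _)]
            have := Real.sqrt_le_sqrt (hb x).2
            linarith
      _ ≤ s * eLpNorm (fun x => ∇ z x - G x) 2 volume := by
          gcongr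
          exact Measure.restrict_le_self
  calc eLpNorm (wt γ G - wt γ (∇ z)) 2 μ3 ≤ s * eLpNorm (fun x => ∇ z x - G x) 2 volume := h1
    _ < s * (ε / s) := by
        gcongr
        exact ENNReal.coe_ne_top
    _ ≤ ε := ENNReal.mul_div_le

omit hγ hb in
theorem competitor_add {φ v z : E3 → ℝ} (hv : IsCompetitor φ v) (hz : ContDiff ℝ 1 z)
    (hz0 : ∀ x, ‖x‖ = 3 → z x = 0) (t : ℝ) : IsCompetitor φ (fun y => v y + t * z y) := by
  refine ⟨hv.1.add (contDiff_const.mul hz), fun x hx => ?_⟩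
  beta_reduce
  rw [hz0 x hx, hv.2 x hx]; ring

include hc

theorem energy_add {v z : E3 → ℝ} (hv : ContDiff ℝ 1 v) (hz : ContDiff ℝ 1 z) (t : ℝ) :
    ballEnergy γ (fun y => v y + t * z y) =
      ‖(wt_mem hγ hb (memLp_grad hv)).toLp (wt γ (∇ v)) +
        t • (wt_mem hγ hb (memLp_grad hz)).toLp (wt γ (∇ z))‖ ^ 2 := by
  have hvz : ContDiff ℝ 1 (fun y => v y + t * z y) := hv.add (contDiff_const.mul hz)
  rw [ballEnergy, ← norm_sq_toLp hc hγ hb (memLp_grad hvz)]
  congr 2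
  rw [← MemLp.toLp_const_smul, ← MemLp.toLp_add]
  apply MemLp.toLp_congr
  refine Eventually.of_forall fun x => ?_
  simp only [wt, Pi.add_apply, Pi.smul_apply]
  rw [grad_add_smul hv hz, smul_add, smul_comm]

theorem energy_eq {v : E3 → ℝ} (hv : ContDiff ℝ 1 v) :
    ballEnergy γ v = ‖(wt_mem hγ hb (memLp_grad hv)).toLp (wt γ (∇ v))‖ ^ 2 := by
  rw [ballEnergy, ← norm_sq_toLp hc hγ hb (memLp_grad hv)]

end

end NearMin

open NearMin

/-- Near-minimisers nearly satisfy the weak equation. -/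
theorem near_min (γ : E3 → ℝ) (c C : ℝ) (hc : 0 < c) (hγ : Measurable γ)
    (hb : ∀ x, c ≤ γ x ∧ γ x ≤ C) (φ v : E3 → ℝ) (hv : IsCompetitor φ v) (m δ : ℝ)
    (hm : ∀ u, IsCompetitor φ u → m ≤ ballEnergy γ u) (hvm : ballEnergy γ v ≤ m + δ)
    (r : ℝ) (hr : r < 3) (G : E3 → E3) (hG : SobZ r G) :
    |∫ x in Metric.ball (0 : E3) 3, γ x * inner ℝ (∇ v x) (G x)| ≤
      √(δ * ∫ x in Metric.ball (0 : E3) 3, γ x * ‖G x‖ ^ 2) := by
  have hGr : MemLp G 2 μ3 := hG.1.restrict _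
  rw [← inner_toLp hc hγ hb (memLp_grad hv.1) hGr, ← norm_sq_toLp hc hγ hb hGr]
  set a := (wt_mem hγ hb (memLp_grad hv.1)).toLp (wt γ (∇ v)) with ha
  set b := (wt_mem hγ hb hGr).toLp (wt γ G) with hbdef
  have hδ : ∀ t : ℝ, 0 ≤ ‖b‖ ^ 2 * (t * t) + (2 * inner ℝ a b) * t + δ := by
    intro t
    have hcl : IsClosed {y : Lp E3 2 μ3 | 0 ≤ ‖y‖ ^ 2 * (t * t) + (2 * inner ℝ a y) * t + δ} := by
      apply isClosed_le continuous_const
      fun_prop
    have hsub : PS hγ hb ⊆ {y : Lp E3 2 μ3 | 0 ≤ ‖y‖ ^ 2 * (t * t) + (2 * inner ℝ a y) * t + δ} := by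
      rintro y ⟨z, hz, hz0, rfl⟩
      have h1 := hm _ (competitor_add hv hz hz0 t)
      rw [energy_add hc hγ hb hv.1 hz t, ← ha, norm_add_sq_real, norm_smul, mul_pow,
        real_inner_smul_right] at h1
      rw [energy_eq hc hγ hb hv.1, ← ha] at hvm
      simp only [Set.mem_ofPred_eq]
      have h2 : ‖t‖ ^ 2 = t * t := by rw [Real.norm_eq_abs, sq_abs]; ring
      rw [h2] at h1
      nlinarith
    exact closure_minimal hsub hcl (mem_closure hγ hb hr hG)
  have hdisc := discrim_le_zero hδ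
  rw [discrim] at hdisc
  apply Real.abs_le_sqrt
  nlinarith

/-- Sobolev competitors can be replaced by `C¹` competitors. -/
theorem approx_competitor (γ : E3 → ℝ) (c C : ℝ) (hc : 0 < c) (hγ : Measurable γ)
    (hb : ∀ x, c ≤ γ x ∧ γ x ≤ C) (φ v : E3 → ℝ) (hv : IsCompetitor φ v)
    (r : ℝ) (hr : r < 3) (G : E3 → E3) (hG : SobZ r G) (ε : ℝ) (hε : 0 < ε) :
    ∃ u, IsCompetitor φ u ∧
      ballEnergy γ u < (∫ x in Metric.ball (0 : E3) 3, γ x * ‖∇ v x + G x‖ ^ 2) + ε := by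
  have hGr : MemLp G 2 μ3 := hG.1.restrict _
  have hsum : MemLp (fun x => ∇ v x + G x) 2 μ3 := (memLp_grad hv.1).add hGr
  rw [← norm_sq_toLp hc hγ hb hsum]
  set a := (wt_mem hγ hb (memLp_grad hv.1)).toLp (wt γ (∇ v)) with ha
  set b := (wt_mem hγ hb hGr).toLp (wt γ G) with hbdef
  have hab : (wt_mem hγ hb hsum).toLp (wt γ (fun x => ∇ v x + G x)) = a + b := by
    rw [ha, hbdef, ← MemLp.toLp_add]
    apply MemLp.toLp_congr
    refine Eventually.of_forall fun x => ?_
    simp only [wt, Pi.add_apply]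
    rw [smul_add]
  rw [hab]
  have hopen : IsOpen {y : Lp E3 2 μ3 | ‖a + y‖ ^ 2 < ‖a + b‖ ^ 2 + ε} := by
    apply isOpen_lt _ continuous_const
    fun_prop
  have hbm : b ∈ {y : Lp E3 2 μ3 | ‖a + y‖ ^ 2 < ‖a + b‖ ^ 2 + ε} := by
    simp only [Set.mem_ofPred_eq]; linarith
  obtain ⟨y, hy1, z, hz, hz0, rfl⟩ :=
    mem_closure_iff.1 (mem_closure hγ hb hr hG) _ hopen hbm
  refine ⟨fun y => v y + 1 * z y, competitor_add hv hz hz0 1, ?_⟩
  rw [energy_add hc hγ hb hv.1 hz 1, one_smul]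
  exact hy1

end Crest.Agent.R083
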