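import Crest.Agent.R083.FinDefs
import Crest.Agent.R083.NearMin
import Crest.Agent.R083.TreeGeom
import Crest.Agent.R083.Medium

/-!
Row 83 (S0111), FIN-c: near-minimisers which are constant on all cells of a deep level
(core argument, with `cell_charge` and `cut_level` as hypotheses).
-/

set_option autoImplicit false

namespace Crest.Agent.R083

open MeasureTheory Set Filter
open scoped Gradient ENNReal NNReal Topology ContDiff
open Crest.AnalysisR.PDE.Calderon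

namespace FlatMin

open NearMin

theorem dbox_norm {x : E3} (hx : x ∈ Dbox) : ‖x‖ < 3 := by
  have h := mem_Dbox.1 hx
  have h2 := tg_norm_sq x
  have h0 := abs_lt.1 h.1
  have h1 := abs_lt.1 h.2.1
  have h3 := abs_lt.1 h.2.2
  have : ‖x‖ ^ 2 < 3 ^ 2 := by
    rw [h2]
    nlinarith
  exact lt_of_pow_lt_pow_left₀ 2 (by norm_num) this

theorem dbox_subset : Dbox ⊆ Metric.ball (0 : E3) 3 := fun x hx => by
  rw [mem_ball_zero_iff]
  exact dbox_norm hx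

theorem volume_dbox_lt : volume Dbox < (⊤ : ℝ≥0∞) :=
  (measure_mono dbox_subset).trans_lt measure_ball_lt_top

/-- two near-minimisers are close in energy -/
theorem close_of_near {γ : E3 → ℝ} {c C : ℝ} (hc : 0 < c) (hγ : Measurable γ)
    (hb : ∀ x, c ≤ γ x ∧ γ x ≤ C) {φ v₁ v₂ : E3 → ℝ} (h₁ : IsCompetitor φ v₁)
    (h₂ : IsCompetitor φ v₂) {m δ₁ δ₂ : ℝ} (hm : ∀ u, IsCompetitor φ u → m ≤ ballEnergy γ u)
    (e₁ : ballEnergy γ v₁ ≤ m + δ₁) (e₂ : ballEnergy γ v₂ ≤ m + δ₂) :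
    ballEnergy γ (fun x => v₂ x - v₁ x) ≤ 2 * (δ₁ + δ₂) := by
  have hz : ContDiff ℝ 1 (fun x => v₂ x - v₁ x) := h₂.1.sub h₁.1
  have hz0 : ∀ x : E3, ‖x‖ = 3 → v₂ x - v₁ x = 0 := fun x hx => by
    rw [h₁.2 x hx, h₂.2 x hx, sub_self]
  have a1 := energy_add hc hγ hb h₁.1 hz 1
  have a2 := energy_add hc hγ hb h₁.1 hz (1 / 2)
  have a3 := energy_eq hc hγ hb h₁.1
  have a4 := energy_eq hc hγ hb hz
  have a5 := hm _ (competitor_add h₁ hz hz0 (1 / 2))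
  have a6 : (fun y => v₁ y + 1 * (v₂ y - v₁ y)) = v₂ := by
    funext y; ring
  rw [a6] at a1
  set V := (wt_mem hγ hb (memLp_grad h₁.1)).toLp (wt γ (∇ v₁)) with hV
  set Z := (wt_mem hγ hb (memLp_grad hz)).toLp (wt γ (∇ (fun x => v₂ x - v₁ x))) with hZ
  rw [a1] at e₂
  rw [a3] at e₁
  rw [a2] at a5
  rw [a4]
  have b1 : ‖V + (1 : ℝ) • Z‖ ^ 2 = ‖V‖ ^ 2 + 2 * inner ℝ V Z + ‖Z‖ ^ 2 := by
    rw [one_smul, norm_add_sq_real]
  have b2 : ‖V + (1 / 2 : ℝ) • Z‖ ^ 2 = ‖V‖ ^ 2 + inner ℝ V Z + ‖Z‖ ^ 2 / 4 := by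
    rw [norm_add_sq_real, real_inner_smul_right, norm_smul]
    rw [Real.norm_of_nonneg (by norm_num : (0 : ℝ) ≤ 1 / 2)]
    ring
  rw [b1] at e₂
  rw [b2] at a5
  linarith

theorem integrableOn_mul {γ : E3 → ℝ} {c C : ℝ} (hc : 0 < c) (hγ : Measurable γ)
    (hb : ∀ x, c ≤ γ x ∧ γ x ≤ C) {g : E3 → ℝ} (hg : Continuous g) {S : Set E3}
    (hS : S ⊆ Metric.closedBall 0 3) : IntegrableOn (fun x => γ x * g x) S volume := by
  have h1 : IntegrableOn g S volume :=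
    (hg.continuousOn.integrableOn_compact (isCompact_closedBall (0 : E3) 3)).mono_set hS
  refine Integrable.bdd_mul (c := C) h1 hγ.aestronglyMeasurable ?_
  refine Eventually.of_forall fun x => ?_
  rw [Real.norm_of_nonneg (hc.le.trans (hb x).1)]
  exact (hb x).2

theorem integrableOn_cont {g : E3 → ℝ} (hg : Continuous g) {S : Set E3}
    (hS : S ⊆ Metric.closedBall 0 3) : IntegrableOn g S volume :=
  (hg.continuousOn.integrableOn_compact (isCompact_closedBall (0 : E3) 3)).mono_set hS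

theorem continuous_sq_grad {v : E3 → ℝ} (hv : ContDiff ℝ 1 v) : Continuous fun x => ‖∇ v x‖ ^ 2 :=
  (continuous_grad hv).norm.pow 2

/-- the integral of the squared gradient over a subset of the ball is controlled by the energy -/
theorem setIntegral_le_energy {γ : E3 → ℝ} {c C : ℝ} (hc : 0 < c) (hγ : Measurable γ)
    (hb : ∀ x, c ≤ γ x ∧ γ x ≤ C) {v : E3 → ℝ} (hv : ContDiff ℝ 1 v) {S : Set E3}
    (hSm : MeasurableSet S) (hS : S ⊆ Metric.ball 0 3) :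
    ∫ x in S, ‖∇ v x‖ ^ 2 ≤ c⁻¹ * ballEnergy γ v := by
  have hS' : S ⊆ Metric.closedBall 0 3 := hS.trans Metric.ball_subset_closedBall
  have h1 : ∫ x in S, ‖∇ v x‖ ^ 2 ≤ ∫ x in S, c⁻¹ * (γ x * ‖∇ v x‖ ^ 2) := by
    refine setIntegral_mono_on (integrableOn_cont (continuous_sq_grad hv) hS')
      ((integrableOn_mul hc hγ hb (continuous_sq_grad hv) hS').const_mul _) hSm fun x _ => ?_
    have h2 : 1 ≤ c⁻¹ * γ x := by
      rw [inv_mul_eq_div, le_div_iff₀ hc, one_mul]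
      exact (hb x).1
    calc ‖∇ v x‖ ^ 2 = 1 * ‖∇ v x‖ ^ 2 := (one_mul _).symm
      _ ≤ c⁻¹ * γ x * ‖∇ v x‖ ^ 2 := mul_le_mul_of_nonneg_right h2 (by positivity)
      _ = _ := by ring
  refine h1.trans ?_
  rw [integral_const_mul]
  refine mul_le_mul_of_nonneg_left ?_ (inv_pos.2 hc).le
  refine setIntegral_mono_set (integrableOn_mul hc hγ hb (continuous_sq_grad hv)
    Metric.ball_subset_closedBall) (Eventually.of_forall fun x => ?_) hS.eventuallyLE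
  exact mul_nonneg (hc.le.trans (hb x).1) (sq_nonneg _)

theorem energy_split {γ : E3 → ℝ} {c C : ℝ} (hc : 0 < c) (hγ : Measurable γ)
    (hb : ∀ x, c ≤ γ x ∧ γ x ≤ C) {v v' : E3 → ℝ} (hv : ContDiff ℝ 1 v) (hv' : ContDiff ℝ 1 v')
    {S : Set E3} (hSm : MeasurableSet S) (hS : S ⊆ Metric.ball 0 3)
    (heq : ∀ x ∉ S, ∇ v' x = ∇ v x) :
    ballEnergy γ v' ≤ ballEnergy γ v + C * ∫ x in S, ‖∇ v' x‖ ^ 2 := by
  have hS' : S ⊆ Metric.closedBall 0 3 := hS.trans Metric.ball_subset_closedBall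
  have i1 := integrableOn_mul hc hγ hb (continuous_sq_grad hv')
    (Metric.ball_subset_closedBall (x := (0 : E3)) (ε := 3))
  have i2 := integrableOn_mul hc hγ hb (continuous_sq_grad hv)
    (Metric.ball_subset_closedBall (x := (0 : E3)) (ε := 3))
  have h1 := integral_inter_add_sdiff hSm i1
  have h2 := integral_inter_add_sdiff hSm i2
  have hin : Metric.ball (0 : E3) 3 ∩ S = S := inter_eq_right.2 hS
  rw [hin] at h1 h2
  have h3 : ∫ x in Metric.ball (0 : E3) 3 \ S, γ x * ‖∇ v' x‖ ^ 2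
      = ∫ x in Metric.ball (0 : E3) 3 \ S, γ x * ‖∇ v x‖ ^ 2 := by
    refine setIntegral_congr_fun (measurableSet_ball.diff hSm) fun x hx => ?_
    simp only [heq x hx.2]
  have h4 : 0 ≤ ∫ x in S, γ x * ‖∇ v x‖ ^ 2 := by
    refine integral_nonneg fun x => ?_
    exact mul_nonneg (hc.le.trans (hb x).1) (sq_nonneg _)
  have h5 : ∫ x in S, γ x * ‖∇ v' x‖ ^ 2 ≤ C * ∫ x in S, ‖∇ v' x‖ ^ 2 := by
    rw [← integral_const_mul]
    refine setIntegral_mono_on (integrableOn_mul hc hγ hb (continuous_sq_grad hv') hS')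
      ((integrableOn_cont (continuous_sq_grad hv') hS').const_mul _) hSm fun x _ => ?_
    exact mul_le_mul_of_nonneg_right (hb x).2 (by positivity)
  rw [ballEnergy, ballEnergy, ← h1, ← h2, h3]
  linarith

/-- cut a competitor off outside the ball -/
theorem cut_competitor {γ : E3 → ℝ} {φ v : E3 → ℝ} (hv : IsCompetitor φ v) :
    ∃ v' : E3 → ℝ, IsCompetitor φ v' ∧ HasCompactSupport v' ∧ (∃ K : ℝ≥0, LipschitzWith K v') ∧
      ballEnergy γ v' = ballEnergy γ v := by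
  let ζ : ContDiffBump (0 : E3) := ⟨4, 5, by norm_num, by norm_num⟩
  have hζc : HasCompactSupport (fun x => ζ x * v x) := ζ.hasCompactSupport.mul_right
  have hζd : ContDiff ℝ 1 (fun x => ζ x * v x) := ζ.contDiff.mul hv.1
  have h1 : ∀ x ∈ Metric.ball (0 : E3) 4, ζ x = 1 := fun x hx =>
    ζ.one_of_mem_closedBall (Metric.ball_subset_closedBall hx)
  refine ⟨fun x => ζ x * v x, ⟨hζd, fun x hx => ?_⟩, hζc,
    hζd.lipschitzWith_of_hasCompactSupport hζc one_ne_zero, ?_⟩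
  · beta_reduce
    rw [h1 x (by rw [mem_ball_zero_iff, hx]; norm_num), one_mul, hv.2 x hx]
  · refine setIntegral_congr_fun measurableSet_ball fun x hx => ?_
    have h2 : (fun x => ζ x * v x) =ᶠ[𝓝 x] v := by
      have h3 : Metric.ball (0 : E3) 4 ∈ 𝓝 x := by
        refine Metric.isOpen_ball.mem_nhds ?_
        rw [mem_ball_zero_iff] at hx ⊢
        linarith
      filter_upwards [h3] with y hy
      rw [h1 y hy, one_mul]
    have h4 : ∇ (fun x => ζ x * v x) x = ∇ v x := by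
      simp only [gradient, h2.fderiv_eq]
    simp only [h4]

theorem core (D : ModData)
    (hcc : ∀ w : List Bool, ∃ G : E3 → E3, SobZ 2 G ∧ (∀ x, 2 < ‖x‖ → G x = 0) ∧
      ∀ (ψ : E3 → ℝ) (K : ℝ≥0), LipschitzWith K ψ →
        ∫ x, D.gam0 x * inner ℝ (G x) (∇ ψ x) = pavg (ψ ∘ simw w) - pavg ψ)
    (hLm : ∀ n, MeasurableSet (Ln n)) (hLs : ∀ n, Ln n ⊆ Dbox)
    (hLv : ∀ n, volume (Ln n) ≤ ENNReal.ofReal ((54/125 : ℝ) ^ n) * volume Dbox)
    (hcut : ∃ C₁ C₂ : ℝ, 0 ≤ C₁ ∧ 0 ≤ C₂ ∧ ∀ (n : ℕ) (v : E3 → ℝ) (κ η : ℝ),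
      ContDiff ℝ 1 v → (∀ w : List Bool, w.length = n → |pavg (v ∘ simw w) - κ| ≤ η) →
      ∃ v' : E3 → ℝ, ContDiff ℝ 1 v' ∧ (∀ x ∉ Ln n, v' x = v x) ∧ (∀ x ∉ Ln n, ∇ v' x = ∇ v x) ∧
        (∀ x ∈ Kc n, v' x = κ) ∧
        ∫ x in Ln n, ‖∇ v' x‖ ^ 2 ≤ C₁ * (∫ x in Ln n, ‖∇ v x‖ ^ 2) + C₂ * (6/5 : ℝ) ^ n * η ^ 2)
    (φ : E3 → ℝ) (m : ℝ)
    (hm : ∀ u, IsCompetitor φ u → m ≤ ballEnergy D.gam0 u)
    (hm' : ∀ δ : ℝ, 0 < δ → ∃ u, IsCompetitor φ u ∧ ballEnergy D.gam0 u ≤ m + δ)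
    (η : ℝ) (hη : 0 < η) (n0 : ℕ) :
    ∃ n, n0 ≤ n ∧ ∃ (κ : ℝ) (v : E3 → ℝ), IsCompetitor φ v ∧ HasCompactSupport v ∧
      (∀ x ∈ Kc n, v x = κ) ∧ ballEnergy D.gam0 v ≤ m + η := by
  obtain ⟨c, C, hc, hb⟩ := gam0_bounds D
  have hγ := gam0_measurable D
  have hC : 0 < C := hc.trans_le ((hb 0).1.trans (hb 0).2)
  obtain ⟨C₁, C₂, hC₁, hC₂, hcut⟩ := hcut
  choose G hG hG0 hGp using hcc
  -- parameters
  set δ₁ : ℝ := η / (4 * (C * C₁ * (4 / c) + 1)) with hδ₁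
  have hδ₁p : 0 < δ₁ := by positivity
  have hδ₁le : C * C₁ * (4 / c) * δ₁ ≤ η / 4 := by
    have h1 : (C * C₁ * (4 / c) + 1) * δ₁ = η / 4 := by
      rw [hδ₁]; field_simp
    nlinarith
  obtain ⟨v₁, hv₁, e₁⟩ := hm' δ₁ hδ₁p
  set θ : ℝ := η / (4 * (2 * C * C₁ + 1)) with hθ
  have hθp : 0 < θ := by positivity
  have hθle : 2 * C * C₁ * θ ≤ η / 4 := by
    have h1 : (2 * C * C₁ + 1) * θ = η / 4 := by
      rw [hθ]; field_simp
    nlinarith
  -- the level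
  obtain ⟨B, hB⟩ := (isCompact_closedBall (0 : E3) 3).exists_bound_of_continuousOn
    (continuous_sq_grad hv₁.1).continuousOn
  have hB0 : 0 ≤ B := (norm_nonneg _).trans (hB 0 (by simp))
  obtain ⟨n, hn0, hn⟩ : ∃ n, n0 ≤ n ∧ ∫ x in Ln n, ‖∇ v₁ x‖ ^ 2 ≤ θ := by
    have h1 : Tendsto (fun n : ℕ => B * ((54/125 : ℝ) ^ n * (volume Dbox).toReal)) atTop
        (𝓝 (B * (0 * (volume Dbox).toReal))) :=
      ((tendsto_pow_atTop_nhds_zero_of_lt_one (by norm_num) (by norm_num)).mul_const _).const_mul _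
    rw [zero_mul, mul_zero] at h1
    obtain ⟨n, hn, hn0⟩ := (((tendsto_order.1 h1).2 θ hθp).and (eventually_ge_atTop n0)).exists
    refine ⟨n, hn0, ?_⟩
    have hfin : volume (Ln n) < (⊤ : ℝ≥0∞) := (measure_mono (hLs n)).trans_lt volume_dbox_lt
    have h2 := norm_setIntegral_le_of_norm_le_const (f := fun x => ‖∇ v₁ x‖ ^ 2) (C := B) hfin
      (fun x hx => hB x (Metric.ball_subset_closedBall (dbox_subset (hLs n hx))))
    have h3 : volume.real (Ln n) ≤ (54/125 : ℝ) ^ n * (volume Dbox).toReal := by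
      have h4 := ENNReal.toReal_mono (ENNReal.mul_ne_top ENNReal.ofReal_ne_top
        volume_dbox_lt.ne) (hLv n)
      rw [ENNReal.toReal_mul, ENNReal.toReal_ofReal (by positivity)] at h4
      exact h4
    calc ∫ x in Ln n, ‖∇ v₁ x‖ ^ 2 ≤ ‖∫ x in Ln n, ‖∇ v₁ x‖ ^ 2‖ := le_abs_self _
      _ ≤ B * volume.real (Ln n) := h2
      _ ≤ B * ((54/125 : ℝ) ^ n * (volume Dbox).toReal) := mul_le_mul_of_nonneg_left h3 hB0
      _ ≤ θ := hn.le
  -- the constant `M_n`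
  have hfinite : Set.Finite {w : List Bool | w.length = n} := List.finite_length_eq Bool n
  set W : Finset (List Bool) := hfinite.toFinset with hW
  have hWmem : ∀ w, w ∈ W ↔ w.length = n := fun w => by simp [hW]
  set Eg : List Bool → ℝ := fun w =>
    ∫ x in Metric.ball (0 : E3) 3, D.gam0 x * ‖G w x‖ ^ 2 with hEg
  have hEg0 : ∀ w, 0 ≤ Eg w := fun w => by
    refine integral_nonneg fun x => ?_
    exact mul_nonneg (hc.le.trans (hb x).1) (sq_nonneg _)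
  set M : ℝ := ∑ w ∈ W, Eg w with hM
  have hM0 : 0 ≤ M := Finset.sum_nonneg fun w _ => hEg0 w
  have hMw : ∀ w ∈ W, Eg w ≤ M := fun w hw =>
    Finset.single_le_sum (f := Eg) (fun w _ => hEg0 w) hw
  set A : ℝ := 1 + C * C₁ * (4 / c) + C * (C₂ * (6/5 : ℝ) ^ n * M) with hA
  have hA0 : 0 < A := by positivity
  set δ₂ : ℝ := η / (2 * A) with hδ₂
  have hδ₂p : 0 < δ₂ := by positivity
  have hδ₂A : A * δ₂ = η / 2 := by rw [hδ₂]; field_simp
  obtain ⟨v₂', hv₂', e₂'⟩ := hm' δ₂ hδ₂p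
  obtain ⟨v₂, hv₂, hv₂c, ⟨K, hK⟩, hv₂e⟩ := cut_competitor (γ := D.gam0) hv₂'
  have e₂ : ballEnergy D.gam0 v₂ ≤ m + δ₂ := by rw [hv₂e]; exact e₂'
  have hclose := close_of_near hc hγ hb hv₁ hv₂ hm e₁ e₂
  have hzC : ContDiff ℝ 1 (fun x => v₂ x - v₁ x) := hv₂.1.sub hv₁.1
  -- gradient of `v₂` on the level
  have hLball : Ln n ⊆ Metric.ball (0 : E3) 3 := (hLs n).trans dbox_subset
  have hLcb : Ln n ⊆ Metric.closedBall (0 : E3) 3 := hLball.trans Metric.ball_subset_closedBall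
  have hgrad2 : ∫ x in Ln n, ‖∇ v₂ x‖ ^ 2 ≤ 2 * θ + 2 * (c⁻¹ * (2 * (δ₁ + δ₂))) := by
    have h1 : ∫ x in Ln n, ‖∇ v₂ x‖ ^ 2 ≤
        ∫ x in Ln n, (2 * ‖∇ v₁ x‖ ^ 2 + 2 * ‖∇ (fun x => v₂ x - v₁ x) x‖ ^ 2) := by
      refine setIntegral_mono_on (integrableOn_cont (continuous_sq_grad hv₂.1) hLcb)
        (((integrableOn_cont (continuous_sq_grad hv₁.1) hLcb).const_mul 2).add
          ((integrableOn_cont (continuous_sq_grad hzC) hLcb).const_mul 2)) (hLm n) fun x _ => ?_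
      have h2 : ∇ v₂ x = ∇ v₁ x + ∇ (fun x => v₂ x - v₁ x) x := by
        have h3 := grad_add_smul hv₁.1 hzC 1 x
        have h4 : (fun y => v₁ y + 1 * (v₂ y - v₁ y)) = v₂ := by funext y; ring
        rw [h4, one_smul] at h3
        exact h3
      rw [h2]
      have h5 := norm_add_le (∇ v₁ x) (∇ (fun x => v₂ x - v₁ x) x)
      have h6 : ‖∇ v₁ x + ∇ (fun x => v₂ x - v₁ x) x‖ ^ 2 ≤
          (‖∇ v₁ x‖ + ‖∇ (fun x => v₂ x - v₁ x) x‖) ^ 2 :=
        pow_le_pow_left₀ (norm_nonneg _) h5 2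
      nlinarith [sq_nonneg (‖∇ v₁ x‖ - ‖∇ (fun x => v₂ x - v₁ x) x‖)]
    rw [integral_add ((integrableOn_cont (continuous_sq_grad hv₁.1) hLcb).const_mul 2)
      ((integrableOn_cont (continuous_sq_grad hzC) hLcb).const_mul 2), integral_const_mul,
      integral_const_mul] at h1
    have h7 := setIntegral_le_energy hc hγ hb hzC (hLm n) hLball
    have h8 : c⁻¹ * ballEnergy D.gam0 (fun x => v₂ x - v₁ x) ≤ c⁻¹ * (2 * (δ₁ + δ₂)) :=
      mul_le_mul_of_nonneg_left hclose (inv_pos.2 hc).le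
    linarith
  -- averages
  set κ : ℝ := pavg v₂ with hκ
  have havg : ∀ w : List Bool, w.length = n → |pavg (v₂ ∘ simw w) - κ| ≤ √(δ₂ * M) := by
    intro w hw
    have h1 := hGp w v₂ K hK
    have h2 := near_min D.gam0 c C hc hγ hb φ v₂ hv₂ m δ₂ hm e₂ 2 (by norm_num) (G w) (hG w)
    have h3 : ∫ x, D.gam0 x * inner ℝ (G w x) (∇ v₂ x)
        = ∫ x in Metric.ball (0 : E3) 3, D.gam0 x * inner ℝ (∇ v₂ x) (G w x) := by
      rw [← setIntegral_eq_integral_of_forall_compl_eq_zero (s := Metric.ball (0 : E3) 3)]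
      · refine setIntegral_congr_fun measurableSet_ball fun x _ => ?_
        simp only [real_inner_comm]
      · intro x hx
        rw [mem_ball_zero_iff, not_lt] at hx
        rw [hG0 w x (by linarith), inner_zero_left, mul_zero]
    rw [← h1, h3]
    refine h2.trans (Real.sqrt_le_sqrt ?_)
    exact mul_le_mul_of_nonneg_left (hMw w ((hWmem w).2 hw)) hδ₂p.le
  obtain ⟨v', hv'C, hv'1, hv'2, hv'3, hv'4⟩ := hcut n v₂ κ (√(δ₂ * M)) hv₂.1 havg
  refine ⟨n, hn0, κ, v', ⟨hv'C, fun x hx => ?_⟩, ?_, hv'3, ?_⟩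
  · have hxL : x ∉ Ln n := fun h => by
      have := dbox_norm (hLs n h)
      linarith
    rw [hv'1 x hxL, hv₂.2 x hx]
  · obtain ⟨r, hr⟩ := hv₂c.isCompact.isBounded.subset_closedBall (0 : E3)
    refine HasCompactSupport.intro (isCompact_closedBall (0 : E3) (max r 3)) fun x hx => ?_
    rw [mem_closedBall_zero_iff, not_le, max_lt_iff] at hx
    have hxL : x ∉ Ln n := fun h => by
      have := dbox_norm (hLs n h)
      linarith [hx.2]
    rw [hv'1 x hxL]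
    by_contra hne
    have h1 := hr (subset_tsupport v₂ hne)
    rw [mem_closedBall_zero_iff] at h1
    linarith [hx.1]
  · have h1 := energy_split hc hγ hb hv₂.1 hv'C (hLm n) hLball hv'2
    rw [Real.sq_sqrt (mul_nonneg hδ₂p.le hM0)] at hv'4
    have h2 : C₁ * ∫ x in Ln n, ‖∇ v₂ x‖ ^ 2 ≤ C₁ * (2 * θ + 2 * (c⁻¹ * (2 * (δ₁ + δ₂)))) :=
      mul_le_mul_of_nonneg_left hgrad2 hC₁
    have h3 : C * ∫ x in Ln n, ‖∇ v' x‖ ^ 2 ≤
        C * (C₁ * (2 * θ + 2 * (c⁻¹ * (2 * (δ₁ + δ₂)))) + C₂ * (6/5 : ℝ) ^ n * (δ₂ * M)) :=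
      mul_le_mul_of_nonneg_left (hv'4.trans (add_le_add_left h2 _)) hC.le
    have h4 : m + δ₂ + C * (C₁ * (2 * θ + 2 * (c⁻¹ * (2 * (δ₁ + δ₂)))) +
        C₂ * (6/5 : ℝ) ^ n * (δ₂ * M)) =
        m + 2 * C * C₁ * θ + C * C₁ * (4 / c) * δ₁ + A * δ₂ := by
      rw [hA, div_eq_mul_inv]
      ring
    linarith

end FlatMin

end Crest.Agent.R083
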