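import Crest.Agent.R083.Defs

/-!
Row 83 (S0111), ISO-a (task 901, helper286): local second order potentials.

For smooth fields `(w, J)` with `∂₂ w = J₂` and `div J = 0` there are, near every point, smooth
functions `Zx`, `Zy` with `w = ∂₁ Zx - ∂₀ Zy`, `J₀ = ∂₂∂₂ Zy`, `J₁ = -∂₂∂₂ Zx`.
-/

set_option autoImplicit false

namespace Crest.Agent.R083

open MeasureTheory Set Filter
open scoped Gradient ENNReal NNReal Topology ContDiff

/-- (only to create the namespace) -/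
theorem Pot.trivial_ns : True := trivial

open Pot

/-! ### parametric integrals of smooth functions -/

section param

variable {E : Type} [NormedAddCommGroup E] [NormedSpace ℝ E] [ProperSpace E]

theorem Pot.hasFDerivAt_param {F : Type} [NormedAddCommGroup F] [NormedSpace ℝ F] [CompleteSpace F]
    {g : E × ℝ → F} (hg : ContDiff ℝ 1 g) (x₀ : E) :
    HasFDerivAt (fun x => ∫ s in (0:ℝ)..1, g (x, s))
      (∫ s in (0:ℝ)..1, (fderiv ℝ g (x₀, s)).comp (ContinuousLinearMap.inl ℝ E ℝ)) x₀ := by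
  have hgc : Continuous g := hg.continuous
  have hfc : Continuous (fderiv ℝ g) := hg.continuous_fderiv one_ne_zero
  have hf'c : Continuous (fun p : E × ℝ =>
      (fderiv ℝ g p).comp (ContinuousLinearMap.inl ℝ E ℝ)) :=
    hfc.clm_comp continuous_const
  -- bound on a compact set
  obtain ⟨C, hC⟩ := ((isCompact_closedBall x₀ 1).prod (isCompact_Icc (a := (0:ℝ)) (b := 1))).exists_bound_of_continuousOn
    hf'c.continuousOn
  refine intervalIntegral.hasFDerivAt_integral_of_dominated_of_fderiv_le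
    (F := fun x s => g (x, s))
    (F' := fun x s => (fderiv ℝ g (x, s)).comp (ContinuousLinearMap.inl ℝ E ℝ))
    (bound := fun _ => C) (s := Metric.closedBall x₀ 1)
    (Metric.closedBall_mem_nhds x₀ one_pos) ?_ ?_ ?_ ?_ ?_ ?_
  · exact Eventually.of_forall fun x =>
      (hgc.comp (Continuous.prodMk_right x)).aestronglyMeasurable
  · exact (hgc.comp (Continuous.prodMk_right x₀)).intervalIntegrable _ _
  · exact (hf'c.comp (Continuous.prodMk_right x₀)).aestronglyMeasurable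
  · refine Eventually.of_forall fun s hs x hx => hC (x, s) ⟨hx, ?_⟩
    rw [uIoc_of_le zero_le_one] at hs
    exact ⟨hs.1.le, hs.2⟩
  · exact intervalIntegrable_const
  · refine Eventually.of_forall fun s _ x _ => ?_
    have h1 : HasFDerivAt g (fderiv ℝ g (x, s)) (x, s) :=
      (hg.differentiable one_ne_zero _).hasFDerivAt
    exact h1.comp x (hasFDerivAt_prodMk_left x s)

theorem Pot.contDiff_param_nat (n : ℕ) : ∀ {F : Type} [NormedAddCommGroup F] [NormedSpace ℝ F]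
    [CompleteSpace F] {g : E × ℝ → F}, ContDiff ℝ n g →
    ContDiff ℝ n (fun x => ∫ s in (0:ℝ)..1, g (x, s)) := by
  induction n with
  | zero =>
    intro F _ _ _ g hg
    refine contDiff_zero.mpr ?_
    have := contDiff_zero.mp hg
    exact intervalIntegral.continuous_parametric_intervalIntegral_of_continuous'
      (f := fun x s => g (x, s)) (by simpa [Function.uncurry_def] using this) 0 1
  | succ n ih =>
    intro F _ _ _ g hg
    have hg1 : ContDiff ℝ 1 g := hg.of_le (by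
      push_cast
      exact le_add_self)
    refine contDiff_succ_iff_hasFDerivAt.mpr ⟨_, ?_, fun x => hasFDerivAt_param hg1 x⟩
    have h2 : ContDiff ℝ n (fderiv ℝ g) := hg.fderiv_right (by push_cast; exact le_rfl)
    exact ih (g := fun p => (fderiv ℝ g p).comp (ContinuousLinearMap.inl ℝ E ℝ))
      (h2.clm_comp contDiff_const)

theorem Pot.contDiff_param {F : Type} [NormedAddCommGroup F] [NormedSpace ℝ F] [CompleteSpace F]
    {g : E × ℝ → F} (hg : ContDiff ℝ ∞ g) :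
    ContDiff ℝ ∞ (fun x => ∫ s in (0:ℝ)..1, g (x, s)) := by
  rw [contDiff_infty] at hg ⊢
  exact fun n => contDiff_param_nat n (hg n)

end param

/-! ### coordinates -/

theorem Pot.ee_apply (i j : Fin 3) : ee i j = if j = i then 1 else 0 := by
  simp [ee]

theorem Pot.ee_self (i : Fin 3) : ee i i = 1 := by simp [ee_apply]

theorem Pot.ee_ne {i j : Fin 3} (h : j ≠ i) : ee i j = 0 := by simp [ee_apply, h]

theorem Pot.contDiff_coord (j : Fin 3) {n : WithTop ℕ∞} : ContDiff ℝ n (fun x : E3 => x j) :=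
  (EuclideanSpace.proj (𝕜 := ℝ) j).contDiff

/-- the projection as a continuous linear map -/
theorem Pot.hasFDerivAt_coord (j : Fin 3) (x : E3) :
    HasFDerivAt (fun x : E3 => x j) (EuclideanSpace.proj (𝕜 := ℝ) j : E3 →L[ℝ] ℝ) x :=
  (EuclideanSpace.proj (𝕜 := ℝ) j : E3 →L[ℝ] ℝ).hasFDerivAt

/-! ### the operators `P j a` (primitive in direction `j` from the level `a`) -/

/-- move towards the plane `x j = a`: parameter `s = 1` gives the projection. -/
noncomputable def mv (j : Fin 3) (a : ℝ) (x : E3) (s : ℝ) : E3 := x + (s * (a - x j)) • ee j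

/-- restriction to the plane `x j = a` -/
noncomputable def Qr (j : Fin 3) (a : ℝ) (f : E3 → ℝ) (x : E3) : ℝ := f (mv j a x 1)

/-- primitive in direction `j`, from the plane `x j = a` -/
noncomputable def Pr (j : Fin 3) (a : ℝ) (f : E3 → ℝ) (x : E3) : ℝ :=
  (x j - a) * ∫ s in (0:ℝ)..1, f (mv j a x s)

theorem contDiff_mv (j : Fin 3) (a : ℝ) :
    ContDiff ℝ ∞ (fun p : E3 × ℝ => mv j a p.1 p.2) := by
  unfold mv
  refine contDiff_fst.add (ContDiff.smul (contDiff_snd.mul (contDiff_const.sub ?_)) contDiff_const)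
  exact (contDiff_coord j).comp contDiff_fst

theorem contDiff_Pr (j : Fin 3) (a : ℝ) {f : E3 → ℝ} (hf : ContDiff ℝ ∞ f) :
    ContDiff ℝ ∞ (Pr j a f) := by
  unfold Pr
  refine ((contDiff_coord j).sub contDiff_const).mul ?_
  exact contDiff_param (g := fun p : E3 × ℝ => f (mv j a p.1 p.2)) (hf.comp (contDiff_mv j a))

theorem contDiff_Qr (j : Fin 3) (a : ℝ) {f : E3 → ℝ} (hf : ContDiff ℝ ∞ f) :
    ContDiff ℝ ∞ (Qr j a f) := by
  unfold Qr
  exact hf.comp ((contDiff_mv j a).comp (contDiff_id.prodMk contDiff_const))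

theorem mv_apply_self (j : Fin 3) (a : ℝ) (x : E3) (s : ℝ) :
    mv j a x s j = x j + s * (a - x j) := by
  simp [mv, ee_self]

theorem mv_apply_ne (j : Fin 3) (a : ℝ) (x : E3) (s : ℝ) {i : Fin 3} (h : i ≠ j) :
    mv j a x s i = x i := by
  simp [mv, ee_ne h]

/-- derivative of `mv` in the space variable -/
theorem hasFDerivAt_mv (j : Fin 3) (a : ℝ) (s : ℝ) (x : E3) :
    HasFDerivAt (fun x => mv j a x s)
      (ContinuousLinearMap.id ℝ E3 +
        (-(s • (EuclideanSpace.proj (𝕜 := ℝ) j : E3 →L[ℝ] ℝ))).smulRight (ee j)) x := by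
  unfold mv
  refine (hasFDerivAt_id x).add ?_
  have h1 : HasFDerivAt (fun x : E3 => s * (a - x j))
      (-(s • (EuclideanSpace.proj (𝕜 := ℝ) j : E3 →L[ℝ] ℝ))) x := by
    have := ((hasFDerivAt_coord j x).const_sub a).const_mul s
    refine this.congr_fderiv ?_
    ext
    simp
  exact h1.smul_const (ee j)

/-- (2) the primitive commutes with the derivatives in the other directions -/
theorem fderiv_Pr_ne {i j : Fin 3} (hij : i ≠ j) (a : ℝ) {f : E3 → ℝ} (hf : ContDiff ℝ ∞ f)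
    (x : E3) : fderiv ℝ (Pr j a f) x (ee i) = Pr j a (fun y => fderiv ℝ f y (ee i)) x := by
  have hg : ContDiff ℝ 1 (fun p : E3 × ℝ => f (mv j a p.1 p.2)) :=
    (hf.comp (contDiff_mv j a)).of_le (by exact_mod_cast le_top)
  have h1 := hasFDerivAt_param hg x
  have h2 : HasFDerivAt (fun x : E3 => x j - a)
      (EuclideanSpace.proj (𝕜 := ℝ) j : E3 →L[ℝ] ℝ) x := (hasFDerivAt_coord j x).sub_const a
  have h3 := h2.mul h1
  have h4 : fderiv ℝ (Pr j a f) x = _ := h3.fderiv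
  rw [h4]
  have hpi : (EuclideanSpace.proj (𝕜 := ℝ) j : E3 →L[ℝ] ℝ) (ee i) = 0 := by
    show ee i j = 0
    exact ee_ne hij.symm
  simp only [add_apply, smul_apply, smul_eq_mul, hpi,
    mul_zero, add_zero]
  unfold Pr
  congr 1
  have hfc : Continuous (fderiv ℝ (fun p : E3 × ℝ => f (mv j a p.1 p.2))) :=
    hg.continuous_fderiv one_ne_zero
  have hint : IntervalIntegrable (fun s => (fderiv ℝ (fun p : E3 × ℝ => f (mv j a p.1 p.2))
      (x, s)).comp (ContinuousLinearMap.inl ℝ E3 ℝ)) volume 0 1 :=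
    ((hfc.comp (Continuous.prodMk_right x)).clm_comp continuous_const).intervalIntegrable _ _
  rw [ContinuousLinearMap.intervalIntegral_apply hint]
  refine intervalIntegral.integral_congr fun s _ => ?_
  simp only
  -- compute the partial derivative
  have hd1 : HasFDerivAt (fun y => f (mv j a y s))
      ((fderiv ℝ (fun p : E3 × ℝ => f (mv j a p.1 p.2)) (x, s)).comp
        (ContinuousLinearMap.inl ℝ E3 ℝ)) x := by
    have h0 : HasFDerivAt (fun p : E3 × ℝ => f (mv j a p.1 p.2))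
        (fderiv ℝ (fun p : E3 × ℝ => f (mv j a p.1 p.2)) (x, s)) (x, s) :=
      (hg.differentiable one_ne_zero (x, s)).hasFDerivAt
    exact HasFDerivAt.comp (g := fun p : E3 × ℝ => f (mv j a p.1 p.2))
      (f := fun e : E3 => (e, s)) x h0 (hasFDerivAt_prodMk_left x s)
  have hd2 : HasFDerivAt (fun y => f (mv j a y s)) ((fderiv ℝ f (mv j a x s)).comp
      (ContinuousLinearMap.id ℝ E3 +
        (-(s • (EuclideanSpace.proj (𝕜 := ℝ) j : E3 →L[ℝ] ℝ))).smulRight (ee j))) x :=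
    ((hf.differentiable (by simp) _).hasFDerivAt).comp x (hasFDerivAt_mv j a s x)
  rw [hd1.unique hd2]
  simp [hpi]

/-- `Pr` as an integral over `a..x j` -/
theorem Pr_eq (j : Fin 3) (a : ℝ) (f : E3 → ℝ) (x : E3) :
    Pr j a f x = ∫ τ in a..(x j), f (x + (τ - x j) • ee j) := by
  unfold Pr mv
  have h := intervalIntegral.smul_integral_comp_mul_add
    (fun τ => f (x + (τ - x j) • ee j)) (a := 0) (b := 1) (a - x j) (x j)
  simp only [smul_eq_mul, mul_zero, zero_add, mul_one, sub_add_cancel] at h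
  rw [intervalIntegral.integral_symm (x j) a, ← h, ← neg_mul, neg_sub]
  congr 1
  refine intervalIntegral.integral_congr fun s _ => ?_
  simp only
  congr 3
  ring

/-- (1) the derivative of the primitive in its own direction -/
theorem fderiv_Pr_self (j : Fin 3) (a : ℝ) {f : E3 → ℝ} (hf : ContDiff ℝ ∞ f) (x : E3) :
    fderiv ℝ (Pr j a f) x (ee j) = f x := by
  have hd : HasFDerivAt (Pr j a f) (fderiv ℝ (Pr j a f) x) x :=
    ((contDiff_Pr j a hf).differentiable (by simp) x).hasFDerivAt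
  have hline : HasDerivAt (fun h : ℝ => x + h • ee j) (ee j) 0 := by
    have := ((hasDerivAt_id (0:ℝ)).smul_const (ee j)).const_add x
    simpa using this
  have hd' : HasFDerivAt (Pr j a f) (fderiv ℝ (Pr j a f) x) (x + (0:ℝ) • ee j) := by
    simpa using hd
  have h1 := hd'.comp_hasDerivAt (0:ℝ) hline
  -- the same function as a primitive
  have h2 : (Pr j a f) ∘ (fun h : ℝ => x + h • ee j) =
      fun h : ℝ => ∫ τ in a..(x j + h), f (x + (τ - x j) • ee j) := by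
    funext h
    simp only [Function.comp_apply]
    rw [Pr_eq]
    have e1 : (x + h • ee j) j = x j + h := by simp [ee_self]
    rw [e1]
    refine intervalIntegral.integral_congr fun τ _ => ?_
    simp only
    congr 1
    rw [add_assoc, ← add_smul]
    congr 2
    ring
  rw [h2] at h1
  have hc : Continuous (fun τ : ℝ => f (x + (τ - x j) • ee j)) := by
    have := hf.continuous
    fun_prop
  have h3 : HasDerivAt (fun h : ℝ => ∫ τ in a..(x j + h), f (x + (τ - x j) • ee j)) (f x) 0 := by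
    have h4 := intervalIntegral.integral_hasDerivAt_right (a := a) (b := x j + 0)
      (f := fun τ : ℝ => f (x + (τ - x j) • ee j)) (hc.intervalIntegrable _ _)
      (hc.stronglyMeasurableAtFilter _ _) hc.continuousAt
    have h5 : HasDerivAt (fun h : ℝ => x j + h) 1 0 := (hasDerivAt_id (0:ℝ)).const_add (x j)
    have h6 : HasDerivAt (fun h : ℝ => ∫ τ in a..(x j + h), f (x + (τ - x j) • ee j))
        (f (x + ((x j + 0) - x j) • ee j) * 1) 0 := h4.comp (0:ℝ) h5
    simpa using h6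
  exact h1.unique h3

/-- derivative of the restriction, in its own direction -/
theorem fderiv_Qr_self (j : Fin 3) (a : ℝ) {f : E3 → ℝ} (hf : ContDiff ℝ ∞ f) (x : E3) :
    fderiv ℝ (Qr j a f) x (ee j) = 0 := by
  have hd2 : HasFDerivAt (fun y => f (mv j a y 1)) ((fderiv ℝ f (mv j a x 1)).comp
      (ContinuousLinearMap.id ℝ E3 +
        (-((1:ℝ) • (EuclideanSpace.proj (𝕜 := ℝ) j : E3 →L[ℝ] ℝ))).smulRight (ee j))) x :=
    ((hf.differentiable (by simp) _).hasFDerivAt).comp x (hasFDerivAt_mv j a 1 x)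
  have : fderiv ℝ (Qr j a f) x = _ := hd2.fderiv
  rw [this]
  have hpi : (EuclideanSpace.proj (𝕜 := ℝ) j : E3 →L[ℝ] ℝ) (ee j) = 1 := by
    show ee j j = 1
    exact ee_self j
  simp [hpi]

/-- FTC: `Pr j a (∂ⱼ f) = f - Qr j a f` -/
theorem Pr_fderiv (j : Fin 3) (a : ℝ) {f : E3 → ℝ} (hf : ContDiff ℝ ∞ f) (x : E3) :
    Pr j a (fun y => fderiv ℝ f y (ee j)) x = f x - Qr j a f x := by
  rw [Pr_eq]
  have hd : ∀ τ : ℝ, HasDerivAt (fun τ : ℝ => f (x + (τ - x j) • ee j))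
      (fderiv ℝ f (x + (τ - x j) • ee j) (ee j)) τ := by
    intro τ
    have hline : HasDerivAt (fun τ : ℝ => x + (τ - x j) • ee j) (ee j) τ := by
      have := (((hasDerivAt_id τ).sub_const (x j)).smul_const (ee j)).const_add x
      simpa using this
    exact ((hf.differentiable (by simp) _).hasFDerivAt).comp_hasDerivAt τ hline
  have hc : Continuous (fun τ : ℝ => fderiv ℝ f (x + (τ - x j) • ee j) (ee j)) := by
    have h1 := (hf.continuous_fderiv (by simp))
    have h2 : Continuous (fun τ : ℝ => x + (τ - x j) • ee j) := by fun_prop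
    exact (h1.comp h2).clm_apply continuous_const
  rw [intervalIntegral.integral_eq_sub_of_hasDerivAt (fun τ _ => hd τ) (hc.intervalIntegrable _ _)]
  unfold Qr mv
  simp

/-- the restriction has a constant primitive in its own direction -/
theorem Pr_Qr (j : Fin 3) (a : ℝ) (f : E3 → ℝ) (x : E3) :
    Pr j a (Qr j a f) x = (x j - a) * Qr j a f x := by
  unfold Pr Qr
  congr 1
  have : ∀ s : ℝ, mv j a (mv j a x s) 1 = mv j a x 1 := by
    intro s
    ext i
    rcases eq_or_ne i j with h | h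
    · subst h
      rw [mv_apply_self, mv_apply_self, mv_apply_self]
      ring
    · rw [mv_apply_ne j a _ _ h, mv_apply_ne j a _ _ h, mv_apply_ne j a _ _ h]
  simp only [this]
  simp

/-! ### locality -/

/-- moving towards a plane through the centre stays in the ball -/
theorem mv_mem_ball {x₀ x : E3} {r : ℝ} (hx : x ∈ Metric.ball x₀ r) (j : Fin 3) {s : ℝ}
    (h0 : 0 ≤ s) (h1 : s ≤ 1) : mv j (x₀ j) x s ∈ Metric.ball x₀ r := by
  rw [Metric.mem_ball] at hx ⊢
  refine lt_of_le_of_lt ?_ hx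
  rw [EuclideanSpace.dist_eq, EuclideanSpace.dist_eq]
  refine Real.sqrt_le_sqrt (Finset.sum_le_sum fun i _ => ?_)
  rcases eq_or_ne i j with h | h
  · subst h
    rw [mv_apply_self, Real.dist_eq, Real.dist_eq, sq_abs, sq_abs]
    have e : x i + s * (x₀ i - x i) - x₀ i = (1 - s) * (x i - x₀ i) := by ring
    rw [e, mul_pow]
    have : (1 - s) ^ 2 ≤ 1 := by nlinarith
    nlinarith [sq_nonneg (x i - x₀ i)]
  · rw [mv_apply_ne _ _ _ _ h]

theorem Pr_congr {x₀ : E3} {r : ℝ} {f g : E3 → ℝ} (h : ∀ x ∈ Metric.ball x₀ r, f x = g x)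
    (j : Fin 3) {x : E3} (hx : x ∈ Metric.ball x₀ r) : Pr j (x₀ j) f x = Pr j (x₀ j) g x := by
  unfold Pr
  congr 1
  refine intervalIntegral.integral_congr fun s hs => ?_
  rw [uIcc_of_le zero_le_one] at hs
  exact h _ (mv_mem_ball hx j hs.1 hs.2)

theorem Pr_sub (j : Fin 3) (a : ℝ) {f g : E3 → ℝ} (hf : Continuous f) (hg : Continuous g)
    (x : E3) : Pr j a (fun y => f y - g y) x = Pr j a f x - Pr j a g x := by
  unfold Pr
  have hm : Continuous (fun s : ℝ => mv j a x s) := by unfold mv; fun_prop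
  have h := intervalIntegral.integral_sub (μ := volume)
    ((hf.comp hm).intervalIntegrable (μ := volume) 0 1)
    ((hg.comp hm).intervalIntegrable (μ := volume) 0 1)
  simp only [Function.comp_apply] at h
  rw [← mul_sub, ← h]

theorem Pr_neg (j : Fin 3) (a : ℝ) (f : E3 → ℝ) (x : E3) :
    Pr j a (fun y => - f y) x = - Pr j a f x := by
  unfold Pr
  rw [intervalIntegral.integral_neg, mul_neg]

/-! ### potential fields -/

/-- the potential `w` of a second order potential -/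
noncomputable def pw (Zx Zy : E3 → ℝ) (x : E3) : ℝ :=
  fderiv ℝ Zx x (ee 1) - fderiv ℝ Zy x (ee 0)

/-- the flux of a second order potential -/
noncomputable def pJ (Zx Zy : E3 → ℝ) (x : E3) : E3 :=
  pt (fderiv ℝ (fun y => fderiv ℝ Zy y (ee 2)) x (ee 2))
    (-(fderiv ℝ (fun y => fderiv ℝ Zx y (ee 2)) x (ee 2)))
    (fderiv ℝ (pw Zx Zy) x (ee 2))

theorem Pot.pt_zero (a b c : ℝ) : pt a b c 0 = a := rfl
theorem Pot.pt_one (a b c : ℝ) : pt a b c 1 = b := rfl
theorem Pot.pt_two (a b c : ℝ) : pt a b c 2 = c := rfl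

theorem Pot.contDiff_pd {f : E3 → ℝ} (hf : ContDiff ℝ ∞ f) (e : E3) :
    ContDiff ℝ ∞ (fun y => fderiv ℝ f y e) := by
  have : ContDiff ℝ ∞ (fderiv ℝ f) := hf.fderiv_right (by simp)
  exact this.clm_apply contDiff_const

/-- cutting off: a globally smooth function equal to `f` on a ball, for `f` smooth on `V`. -/
theorem Pot.exists_global {V : Set E3} (hV : IsOpen V) {x₀ : E3} (hx₀ : x₀ ∈ V) :
    ∃ r > 0, Metric.ball x₀ r ⊆ V ∧ ∃ χ : E3 → ℝ, (∀ x ∈ Metric.ball x₀ r, χ x = 1) ∧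
      ∀ f : E3 → ℝ, ContDiffOn ℝ ∞ f V → ContDiff ℝ ∞ (fun x => χ x * f x) := by
  obtain ⟨ρ, hρ, hρV⟩ := Metric.isOpen_iff.mp hV x₀ hx₀
  let b : ContDiffBump x₀ := ⟨ρ / 3, ρ / 2, by positivity, by linarith⟩
  refine ⟨ρ / 3, by positivity, (Metric.ball_subset_ball (by linarith)).trans hρV, b, ?_, ?_⟩
  · intro x hx
    exact b.one_of_mem_closedBall (Metric.ball_subset_closedBall hx)
  · intro f hf
    rw [contDiff_iff_contDiffAt]
    intro x
    by_cases hx : x ∈ tsupport b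
    · rw [b.tsupport_eq] at hx
      have hxV : x ∈ V := hρV (Metric.closedBall_subset_ball (by
        show ρ / 2 < ρ
        linarith) hx)
      exact (b.contDiff.contDiffAt).mul (hf.contDiffAt (hV.mem_nhds hxV))
    · have h0 : (fun x => b x * f x) =ᶠ[𝓝 x] fun _ => 0 := by
        have := (isClosed_tsupport b).isOpen_compl.mem_nhds hx
        filter_upwards [this] with y hy
        rw [image_eq_zero_of_notMem_tsupport hy, zero_mul]
      exact (contDiffAt_const (c := (0:ℝ))).congr_of_eventuallyEq h0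

theorem fderiv_Pr_Qr {i j : Fin 3} (hij : i ≠ j) (a b : ℝ) {f : E3 → ℝ} (hf : ContDiff ℝ ∞ f)
    (x : E3) : fderiv ℝ (Pr j a (Qr i b f)) x (ee i) = 0 := by
  rw [fderiv_Pr_ne hij a (contDiff_Qr i b hf)]
  have : (fun y => fderiv ℝ (Qr i b f) y (ee i)) = fun _ => 0 :=
    funext fun y => fderiv_Qr_self i b hf y
  rw [this]
  simp [Pr]

theorem Pot.fderiv_coord_apply {J : E3 → E3} {x : E3} (hJ : DifferentiableAt ℝ J x) (i : Fin 3)
    (e : E3) : fderiv ℝ (fun y => J y i) x e = (fderiv ℝ J x e) i := by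
  have h := (hasFDerivAt_coord i (J x)).comp x hJ.hasFDerivAt
  have h2 : fderiv ℝ (fun y => J y i) x = _ := h.fderiv
  rw [h2]
  rfl

/-- **local potentials**, with globally smooth potential functions. -/
theorem local_potential_global {V : Set E3} (hV : IsOpen V) {w : E3 → ℝ} {J : E3 → E3}
    (hw : ContDiffOn ℝ ∞ w V) (hJ : ContDiffOn ℝ ∞ J V)
    (h2 : ∀ x ∈ V, fderiv ℝ w x (ee 2) = J x 2) (hdiv : ∀ x ∈ V, dvg J x = 0)
    {x₀ : E3} (hx₀ : x₀ ∈ V) :
    ∃ r > 0, Metric.ball x₀ r ⊆ V ∧ ∃ Zx Zy : E3 → ℝ, ContDiff ℝ ∞ Zx ∧ ContDiff ℝ ∞ Zy ∧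
      ∀ x ∈ Metric.ball x₀ r, w x = pw Zx Zy x ∧ J x = pJ Zx Zy x := by
  obtain ⟨r, hr, hrV, χ, hχ, hχf⟩ := exists_global hV hx₀
  refine ⟨r, hr, hrV, ?_⟩
  set B := Metric.ball x₀ r with hB
  have hBo : IsOpen B := Metric.isOpen_ball
  set W : E3 → ℝ := fun x => χ x * w x with hWdef
  set A : Fin 3 → E3 → ℝ := fun i x => χ x * J x i with hAdef
  have hW : ContDiff ℝ ∞ W := hχf w hw
  have hA : ∀ i, ContDiff ℝ ∞ (A i) := fun i =>
    hχf (fun x => J x i) ((contDiff_coord i).comp_contDiffOn hJ)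
  have hWB : ∀ x ∈ B, W x = w x := fun x hx => by
    simp only [hWdef]; rw [hχ x hx, one_mul]
  have hAB : ∀ i, ∀ x ∈ B, A i x = J x i := fun i x hx => by
    simp only [hAdef]; rw [hχ x hx, one_mul]
  have hWB' : ∀ x ∈ B, W =ᶠ[𝓝 x] w := fun x hx => by
    filter_upwards [hBo.mem_nhds hx] with y hy using hWB y hy
  have hAB' : ∀ i, ∀ x ∈ B, A i =ᶠ[𝓝 x] fun y => J y i := fun i x hx => by
    filter_upwards [hBo.mem_nhds hx] with y hy using hAB i y hy
  have hJd : ∀ x ∈ B, DifferentiableAt ℝ J x := fun x hx =>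
    (hJ.contDiffAt (hV.mem_nhds (hrV hx))).differentiableAt (by simp)
  have hW2 : ∀ x ∈ B, fderiv ℝ W x (ee 2) = A 2 x := fun x hx => by
    rw [(hWB' x hx).fderiv_eq, h2 x (hrV hx), hAB 2 x hx]
  have hAdiv : ∀ x ∈ B, fderiv ℝ (A 0) x (ee 0) + fderiv ℝ (A 1) x (ee 1)
      + fderiv ℝ (A 2) x (ee 2) = 0 := fun x hx => by
    rw [(hAB' 0 x hx).fderiv_eq, (hAB' 1 x hx).fderiv_eq, (hAB' 2 x hx).fderiv_eq,
      fderiv_coord_apply (hJd x hx), fderiv_coord_apply (hJd x hx),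
      fderiv_coord_apply (hJd x hx)]
    have := hdiv x (hrV hx)
    unfold dvg at this
    rwa [Fin.sum_univ_three] at this
  set t := x₀ 2 with ht
  set a := x₀ 0 with ha
  set PA1 := Pr 2 t (Pr 2 t (A 1)) with hPA1
  set PA0 := Pr 2 t (Pr 2 t (A 0)) with hPA0
  set G0 := Pr 0 a (Qr 2 t W) with hG0
  set G1 := Pr 0 a (Qr 2 t (A 2)) with hG1
  have cPA1 : ContDiff ℝ ∞ PA1 := contDiff_Pr _ _ (contDiff_Pr _ _ (hA 1))
  have cPA0 : ContDiff ℝ ∞ PA0 := contDiff_Pr _ _ (contDiff_Pr _ _ (hA 0))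
  have cG0 : ContDiff ℝ ∞ G0 := contDiff_Pr _ _ (contDiff_Qr _ _ hW)
  have cG1 : ContDiff ℝ ∞ G1 := contDiff_Pr _ _ (contDiff_Qr _ _ (hA 2))
  have dd : ∀ {f : E3 → ℝ}, ContDiff ℝ ∞ f → ∀ x, HasFDerivAt f (fderiv ℝ f x) x :=
    fun hf x => (hf.differentiable (by simp) x).hasFDerivAt
  have cZx : ContDiff ℝ ∞ (fun x => - PA1 x) := cPA1.neg
  have cZy : ContDiff ℝ ∞ (fun x : E3 => PA0 x - G0 x - (x 2 - t) * G1 x) :=
    (cPA0.sub cG0).sub (((contDiff_coord 2).sub contDiff_const).mul cG1)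
  refine ⟨fun x => - PA1 x, fun x => PA0 x - G0 x - (x 2 - t) * G1 x, cZx, cZy, ?_⟩
  -- first derivatives
  have dZx : ∀ x e, fderiv ℝ (fun x => - PA1 x) x e = - fderiv ℝ PA1 x e := fun x e => by
    have h : HasFDerivAt (fun x => - PA1 x) (-(fderiv ℝ PA1 x)) x := (dd cPA1 x).neg
    rw [h.fderiv]; rfl
  have dZy : ∀ x e, fderiv ℝ (fun x : E3 => PA0 x - G0 x - (x 2 - t) * G1 x) x e =
      fderiv ℝ PA0 x e - fderiv ℝ G0 x e - ((x 2 - t) * fderiv ℝ G1 x e + e 2 * G1 x) :=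
    fun x e => by
    have h : HasFDerivAt (fun x : E3 => PA0 x - G0 x - (x 2 - t) * G1 x) _ x :=
      ((dd cPA0 x).sub (dd cG0 x)).sub
        ((((hasFDerivAt_coord 2 x).sub_const t)).mul (dd cG1 x))
    rw [h.fderiv]
    simp only [sub_apply, add_apply, smul_apply, smul_eq_mul]
    have : (EuclideanSpace.proj (𝕜 := ℝ) 2 : E3 →L[ℝ] ℝ) e = e 2 := rfl
    rw [this]
    ring
  -- the `∂₂` derivatives
  have e22 : (ee 2 : E3) 2 = 1 := ee_self 2
  have e02 : (ee 0 : E3) 2 = 0 := ee_ne (by decide)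
  have d2Zx : (fun y => fderiv ℝ (fun x => - PA1 x) y (ee 2)) = fun y => - Pr 2 t (A 1) y :=
    funext fun y => by
      rw [dZx, hPA1, fderiv_Pr_self 2 t (contDiff_Pr _ _ (hA 1))]
  have d2Zy : (fun y => fderiv ℝ (fun x : E3 => PA0 x - G0 x - (x 2 - t) * G1 x) y (ee 2)) =
      fun y => Pr 2 t (A 0) y - G1 y :=
    funext fun y => by
      rw [dZy, hPA0, fderiv_Pr_self 2 t (contDiff_Pr _ _ (hA 0)), hG0,
        fderiv_Pr_Qr (by decide) a t hW, e22]
      have : fderiv ℝ G1 y (ee 2) = 0 := by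
        rw [hG1]; exact fderiv_Pr_Qr (by decide) a t (hA 2) y
      rw [this]
      ring
  have hPw : ∀ x ∈ B, w x = pw (fun x => - PA1 x) (fun x => PA0 x - G0 x - (x 2 - t) * G1 x) x := by
    intro x hx
    unfold pw
    rw [dZx, dZy, e02]
    -- `∂₁ PA1`, `∂₀ PA0`
    have i1 : fderiv ℝ PA1 x (ee 1) = Pr 2 t (Pr 2 t (fun y => fderiv ℝ (A 1) y (ee 1))) x := by
      rw [hPA1, fderiv_Pr_ne (by decide) t (contDiff_Pr _ _ (hA 1))]
      congr 1
      funext y
      exact fderiv_Pr_ne (by decide) t (hA 1) y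
    have i0 : fderiv ℝ PA0 x (ee 0) = Pr 2 t (Pr 2 t (fun y => fderiv ℝ (A 0) y (ee 0))) x := by
      rw [hPA0, fderiv_Pr_ne (by decide) t (contDiff_Pr _ _ (hA 0))]
      congr 1
      funext y
      exact fderiv_Pr_ne (by decide) t (hA 0) y
    have iG0 : fderiv ℝ G0 x (ee 0) = Qr 2 t W x := by
      rw [hG0, fderiv_Pr_self 0 a (contDiff_Qr _ _ hW)]
    have iG1 : fderiv ℝ G1 x (ee 0) = Qr 2 t (A 2) x := by
      rw [hG1, fderiv_Pr_self 0 a (contDiff_Qr _ _ (hA 2))]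
    rw [i1, i0, iG0, iG1]
    -- the double primitive of the divergence
    have c1 := contDiff_pd (hA 1) (ee 1)
    have c0 := contDiff_pd (hA 0) (ee 0)
    have c2 := contDiff_pd (hA 2) (ee 2)
    have k1 : ∀ y ∈ B, Pr 2 t (fun z => fderiv ℝ (A 1) z (ee 1)) y
        = - Pr 2 t (fun z => fderiv ℝ (A 0) z (ee 0)) y - (A 2 y - Qr 2 t (A 2) y) := by
      intro y hy
      have e1 := Pr_sub 2 t (f := fun z => -(fderiv ℝ (A 0) z (ee 0)))
        (g := fun z => fderiv ℝ (A 2) z (ee 2)) c0.continuous.neg c2.continuous y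
      rw [← Pr_fderiv 2 t (hA 2) y, ← Pr_neg, ← e1]
      refine Pr_congr (fun z hz => ?_) 2 hy
      have := hAdiv z hz
      linarith
    have k2 : Pr 2 t (Pr 2 t (fun z => fderiv ℝ (A 1) z (ee 1))) x
        = - Pr 2 t (Pr 2 t (fun z => fderiv ℝ (A 0) z (ee 0))) x
          - (Pr 2 t (A 2) x - (x 2 - t) * Qr 2 t (A 2) x) := by
      have e1 := Pr_sub 2 t (f := A 2) (g := Qr 2 t (A 2)) (hA 2).continuous
        (contDiff_Qr 2 t (hA 2)).continuous x
      have e2 := Pr_sub 2 t (f := fun y => -(Pr 2 t (fun z => fderiv ℝ (A 0) z (ee 0)) y))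
        (g := fun y => A 2 y - Qr 2 t (A 2) y) (contDiff_Pr 2 t c0).continuous.neg
        ((hA 2).continuous.sub (contDiff_Qr 2 t (hA 2)).continuous) x
      rw [← Pr_Qr 2 t (A 2) x, ← Pr_neg, ← e1, ← e2]
      exact Pr_congr k1 2 hx
    have k3 : Pr 2 t (A 2) x = W x - Qr 2 t W x := by
      rw [← Pr_fderiv 2 t hW x]
      exact Pr_congr (fun z hz => (hW2 z hz).symm) 2 hx
    rw [k2, k3, hWB x hx]
    ring
  intro x hx
  refine ⟨hPw x hx, ?_⟩
  unfold pJ
  rw [d2Zx, d2Zy]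
  have j0 : fderiv ℝ (fun y => Pr 2 t (A 0) y - G1 y) x (ee 2) = J x 0 := by
    have h : HasFDerivAt (fun y => Pr 2 t (A 0) y - G1 y) _ x :=
      (dd (contDiff_Pr 2 t (hA 0)) x).sub (dd cG1 x)
    rw [h.fderiv, sub_apply, fderiv_Pr_self 2 t (hA 0), hG1,
      fderiv_Pr_Qr (by decide) a t (hA 2), sub_zero, hAB 0 x hx]
  have j1 : fderiv ℝ (fun y => - Pr 2 t (A 1) y) x (ee 2) = - J x 1 := by
    have h : HasFDerivAt (fun y => - Pr 2 t (A 1) y) _ x := (dd (contDiff_Pr 2 t (hA 1)) x).neg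
    rw [h.fderiv, neg_apply, fderiv_Pr_self 2 t (hA 1), hAB 1 x hx]
  have j2 : fderiv ℝ (pw (fun x => - PA1 x) (fun x => PA0 x - G0 x - (x 2 - t) * G1 x)) x (ee 2)
      = J x 2 := by
    have he : pw (fun x => - PA1 x) (fun x => PA0 x - G0 x - (x 2 - t) * G1 x) =ᶠ[𝓝 x] w := by
      filter_upwards [hBo.mem_nhds hx] with y hy using (hPw y hy).symm
    rw [he.fderiv_eq, h2 x (hrV hx)]
  rw [j0, j1, j2, neg_neg]
  ext i
  fin_cases i
  · exact (pt_zero _ _ _).symm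
  · exact (pt_one _ _ _).symm
  · exact (pt_two _ _ _).symm

/-- local potentials, in the form used by `Flatten.lean`. -/
theorem local_potential (V : Set E3) (hV : IsOpen V) (w : E3 → ℝ) (J : E3 → E3)
    (hw : ContDiffOn ℝ ∞ w V) (hJ : ContDiffOn ℝ ∞ J V)
    (h2 : ∀ x ∈ V, fderiv ℝ w x (ee 2) = J x 2) (hd : ∀ x ∈ V, dvg J x = 0)
    (x₀ : E3) (hx : x₀ ∈ V) :
    ∃ ρ : ℝ, 0 < ρ ∧ Metric.ball x₀ ρ ⊆ V ∧ ∃ Zx Zy : E3 → ℝ,
      ContDiffOn ℝ ∞ Zx (Metric.ball x₀ ρ) ∧ ContDiffOn ℝ ∞ Zy (Metric.ball x₀ ρ) ∧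
      ∀ x ∈ Metric.ball x₀ ρ, w x = fderiv ℝ Zx x (ee 1) - fderiv ℝ Zy x (ee 0) ∧
        J x 0 = fderiv ℝ (fun y => fderiv ℝ Zy y (ee 2)) x (ee 2) ∧
        J x 1 = - fderiv ℝ (fun y => fderiv ℝ Zx y (ee 2)) x (ee 2) := by
  obtain ⟨r, hr, hrV, Zx, Zy, c1, c2, h⟩ := local_potential_global hV hw hJ h2 hd hx
  refine ⟨r, hr, hrV, Zx, Zy, c1.contDiffOn, c2.contDiffOn, fun x hx => ?_⟩
  obtain ⟨h3, h4⟩ := h x hx
  refine ⟨h3, ?_, ?_⟩
  · rw [h4]; rfl
  · rw [h4]; rfl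

/-! ### the flux is a curl -/

theorem Pot.hasFDerivAt_pt {a b c : E3 → ℝ} {a' b' c' : E3 →L[ℝ] ℝ} {x : E3}
    (ha : HasFDerivAt a a' x) (hb : HasFDerivAt b b' x) (hc : HasFDerivAt c c' x) :
    DifferentiableAt ℝ (fun y => pt (a y) (b y) (c y)) x ∧
      ∀ e, fderiv ℝ (fun y => pt (a y) (b y) (c y)) x e = pt (a' e) (b' e) (c' e) := by
  have hd : DifferentiableAt ℝ (fun y => pt (a y) (b y) (c y)) x := by
    rw [differentiableAt_euclidean]
    intro i
    fin_cases i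
    · exact ha.differentiableAt
    · exact hb.differentiableAt
    · exact hc.differentiableAt
  refine ⟨hd, fun e => ?_⟩
  ext i
  rw [← fderiv_coord_apply hd]
  fin_cases i
  · show fderiv ℝ a x e = a' e
    rw [ha.fderiv]
  · show fderiv ℝ b x e = b' e
    rw [hb.fderiv]
  · show fderiv ℝ c x e = c' e
    rw [hc.fderiv]

/-- symmetry of second derivatives -/
theorem Pot.pd_comm {f : E3 → ℝ} (hf : ContDiff ℝ 2 f) (x e e' : E3) :
    fderiv ℝ (fun y => fderiv ℝ f y e) x e' = fderiv ℝ (fun y => fderiv ℝ f y e') x e := by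
  have hd : DifferentiableAt ℝ (fderiv ℝ f) x :=
    (hf.fderiv_right (m := 1) (by norm_num)).differentiable one_ne_zero x
  have h1 : ∀ e, HasFDerivAt (fun y => fderiv ℝ f y e) ((fderiv ℝ (fderiv ℝ f) x).flip e) x :=
    fun e => by
      have := hd.hasFDerivAt.clm_apply (hasFDerivAt_const e x)
      refine this.congr_fderiv ?_
      ext v
      simp
  rw [(h1 e).fderiv, (h1 e').fderiv]
  have hs : IsSymmSndFDerivAt ℝ f x := hf.contDiffAt.isSymmSndFDerivAt (by simp)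
  exact hs.eq e' e

theorem Pot.differentiable_pd {f : E3 → ℝ} (hf : ContDiff ℝ 2 f) (e : E3) :
    Differentiable ℝ (fun y => fderiv ℝ f y e) := by
  have : ContDiff ℝ 1 (fderiv ℝ f) := hf.fderiv_right (m := 1) (by norm_num)
  exact (this.clm_apply contDiff_const).differentiable one_ne_zero

/-- the flux `pJ` is the curl of `(-∂₂ Zx, -∂₂ Zy, 0)`. -/
theorem pJ_eq_curl {Zx Zy : E3 → ℝ} (hx : ContDiff ℝ 2 Zx) (hy : ContDiff ℝ 2 Zy) :
    pJ Zx Zy = curlv (fun y => pt (-(fderiv ℝ Zx y (ee 2))) (-(fderiv ℝ Zy y (ee 2))) 0) := by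
  funext x
  have hX : HasFDerivAt (fun y => -(fderiv ℝ Zx y (ee 2)))
      (-(fderiv ℝ (fun y => fderiv ℝ Zx y (ee 2)) x)) x :=
    (differentiable_pd hx (ee 2) x).hasFDerivAt.neg
  have hY : HasFDerivAt (fun y => -(fderiv ℝ Zy y (ee 2)))
      (-(fderiv ℝ (fun y => fderiv ℝ Zy y (ee 2)) x)) x :=
    (differentiable_pd hy (ee 2) x).hasFDerivAt.neg
  obtain ⟨_, h⟩ := hasFDerivAt_pt hX hY (hasFDerivAt_const (0:ℝ) x)
  unfold curlv pJ
  simp only [h, pt_zero, pt_one, pt_two, neg_apply, zero_apply, zero_sub, sub_zero, neg_neg]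
  have hw : fderiv ℝ (pw Zx Zy) x (ee 2) =
      fderiv ℝ (fun y => fderiv ℝ Zx y (ee 1)) x (ee 2)
        - fderiv ℝ (fun y => fderiv ℝ Zy y (ee 0)) x (ee 2) := by
    have h1 : HasFDerivAt (pw Zx Zy) _ x :=
      (differentiable_pd hx (ee 1) x).hasFDerivAt.sub (differentiable_pd hy (ee 0) x).hasFDerivAt
    rw [h1.fderiv]; rfl
  rw [hw, pd_comm hx x (ee 1) (ee 2), pd_comm hy x (ee 0) (ee 2)]
  congr 1
  ring

/-! ### smoothness, divergence -/

theorem contDiff_pw {Zx Zy : E3 → ℝ} (hx : ContDiff ℝ ∞ Zx) (hy : ContDiff ℝ ∞ Zy) :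
    ContDiff ℝ ∞ (pw Zx Zy) := (contDiff_pd hx _).sub (contDiff_pd hy _)

theorem Pot.contDiff_pt {a b c : E3 → ℝ} {n : WithTop ℕ∞} (ha : ContDiff ℝ n a)
    (hb : ContDiff ℝ n b) (hc : ContDiff ℝ n c) : ContDiff ℝ n (fun y => pt (a y) (b y) (c y)) := by
  rw [contDiff_euclidean]
  intro i
  fin_cases i
  · exact ha
  · exact hb
  · exact hc

theorem contDiff_pJ {Zx Zy : E3 → ℝ} (hx : ContDiff ℝ ∞ Zx) (hy : ContDiff ℝ ∞ Zy) :
    ContDiff ℝ ∞ (pJ Zx Zy) :=
  contDiff_pt (contDiff_pd (contDiff_pd hy _) _) (contDiff_pd (contDiff_pd hx _) _).neg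
    (contDiff_pd (contDiff_pw hx hy) _)

/-- `div J = 0` for potential fluxes -/
theorem dvg_pJ {Zx Zy : E3 → ℝ} (hx : ContDiff ℝ ∞ Zx) (hy : ContDiff ℝ ∞ Zy) (x : E3) :
    dvg (pJ Zx Zy) x = 0 := by
  have h2 : ∀ {f : E3 → ℝ}, ContDiff ℝ ∞ f → ContDiff ℝ 2 f := fun h =>
    contDiff_infty.mp h 2
  have hd : DifferentiableAt ℝ (pJ Zx Zy) x := (contDiff_pJ hx hy).differentiable (by simp) x
  unfold dvg
  rw [Fin.sum_univ_three, ← fderiv_coord_apply hd, ← fderiv_coord_apply hd,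
    ← fderiv_coord_apply hd]
  have e0 : (fun y => pJ Zx Zy y 0) = fun y => fderiv ℝ (fun z => fderiv ℝ Zy z (ee 2)) y (ee 2) :=
    rfl
  have e1 : (fun y => pJ Zx Zy y 1) =
      fun y => -(fderiv ℝ (fun z => fderiv ℝ Zx z (ee 2)) y (ee 2)) := rfl
  have e2 : (fun y => pJ Zx Zy y 2) = fun y =>
      fderiv ℝ (fun z => fderiv ℝ Zx z (ee 1)) y (ee 2)
        - fderiv ℝ (fun z => fderiv ℝ Zy z (ee 0)) y (ee 2) := by
    funext y
    show fderiv ℝ (pw Zx Zy) y (ee 2) = _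
    have h1 : HasFDerivAt (pw Zx Zy) _ y :=
      (differentiable_pd (h2 hx) (ee 1) y).hasFDerivAt.sub
        (differentiable_pd (h2 hy) (ee 0) y).hasFDerivAt
    rw [h1.fderiv]; rfl
  rw [e0, e1, e2]
  have s0 : fderiv ℝ (fun y => fderiv ℝ (fun z => fderiv ℝ Zy z (ee 2)) y (ee 2)) x (ee 0) =
      fderiv ℝ (fun y => fderiv ℝ (fun z => fderiv ℝ Zy z (ee 0)) y (ee 2)) x (ee 2) := by
    rw [pd_comm (h2 (contDiff_pd hy (ee 2))) x (ee 2) (ee 0)]
    congr 2
    funext y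
    exact pd_comm (h2 hy) y (ee 2) (ee 0)
  have s1 : fderiv ℝ (fun y => -(fderiv ℝ (fun z => fderiv ℝ Zx z (ee 2)) y (ee 2))) x (ee 1) =
      -(fderiv ℝ (fun y => fderiv ℝ (fun z => fderiv ℝ Zx z (ee 1)) y (ee 2)) x (ee 2)) := by
    have h1 : HasFDerivAt (fun y => -(fderiv ℝ (fun z => fderiv ℝ Zx z (ee 2)) y (ee 2))) _ x :=
      (differentiable_pd (h2 (contDiff_pd hx (ee 2))) (ee 2) x).hasFDerivAt.neg
    rw [h1.fderiv, neg_apply, pd_comm (h2 (contDiff_pd hx (ee 2))) x (ee 2) (ee 1)]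
    congr 3
    funext y
    exact pd_comm (h2 hx) y (ee 2) (ee 1)
  have s2 : fderiv ℝ (fun y => fderiv ℝ (fun z => fderiv ℝ Zx z (ee 1)) y (ee 2)
        - fderiv ℝ (fun z => fderiv ℝ Zy z (ee 0)) y (ee 2)) x (ee 2) =
      fderiv ℝ (fun y => fderiv ℝ (fun z => fderiv ℝ Zx z (ee 1)) y (ee 2)) x (ee 2)
        - fderiv ℝ (fun y => fderiv ℝ (fun z => fderiv ℝ Zy z (ee 0)) y (ee 2)) x (ee 2) := by
    have h1 : HasFDerivAt (fun y => fderiv ℝ (fun z => fderiv ℝ Zx z (ee 1)) y (ee 2)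
        - fderiv ℝ (fun z => fderiv ℝ Zy z (ee 0)) y (ee 2)) _ x :=
      (differentiable_pd (h2 (contDiff_pd hx (ee 1))) (ee 2) x).hasFDerivAt.sub
        (differentiable_pd (h2 (contDiff_pd hy (ee 0))) (ee 2) x).hasFDerivAt
    rw [h1.fderiv, sub_apply]
  rw [s0, s1, s2]
  ring

end Crest.Agent.R083
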