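import Crest.Agent.R083.Defs
import Crest.Agent.R083.Mollify

/-!
Row 83 (S0111), LIB-2: weakly divergence free fields (helper430).
-/

set_option autoImplicit false

namespace Crest.Agent.R083

open MeasureTheory Set Filter
open scoped Gradient ENNReal NNReal Topology ContDiff

namespace Wd

/-- the gradient of a function in terms of `fderiv` -/
theorem inner_gradient (f : E3 → ℝ) (x v : E3) : inner ℝ (∇ f x) v = fderiv ℝ f x v := by
  unfold gradient
  exact InnerProductSpace.toDual_symm_apply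

theorem inner_gradient' (f : E3 → ℝ) (x v : E3) : inner ℝ v (∇ f x) = fderiv ℝ f x v := by
  rw [real_inner_comm, inner_gradient]

theorem norm_gradient_le {f : E3 → ℝ} {K : ℝ≥0} (hf : LipschitzWith K f) (x : E3) :
    ‖∇ f x‖ ≤ K := by
  unfold gradient
  rw [LinearIsometryEquiv.norm_map]
  exact norm_fderiv_le_of_lipschitz ℝ hf

theorem measurable_gradient (f : E3 → ℝ) : Measurable (∇ f) := by
  unfold gradient
  exact (InnerProductSpace.toDual ℝ E3).symm.continuous.measurable.comp (measurable_fderiv ℝ f)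

end Wd

open Wd

set_option linter.unusedVariables false in
/-- File `Wdf.lean`. -/
theorem wdf_of_smooth (R : E3 → E3) (hR : Integrable R volume) (r : ℝ)
    (hr : ∀ x, r < ‖x‖ → R x = 0)
    (h : ∀ ψ : E3 → ℝ, ContDiff ℝ ∞ ψ → ∫ x, inner ℝ (R x) (∇ ψ x) = 0) : WDF R := by
  refine ⟨hR, fun ψ K hψ => ?_⟩
  obtain ⟨f, hf, hfL, -, -, hfg⟩ := mollify ψ K hψ
  have h1 : Tendsto (fun n => ∫ x, inner ℝ (R x) (∇ (f n) x)) atTop
      (𝓝 (∫ x, inner ℝ (R x) (∇ ψ x))) := by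
    refine tendsto_integral_of_dominated_convergence (fun x => ‖R x‖ * K) ?_ (hR.norm.mul_const _)
      ?_ ?_
    · intro n
      exact hR.1.inner (measurable_gradient (f n)).aestronglyMeasurable
    · intro n
      refine Eventually.of_forall fun x => ?_
      exact (norm_inner_le_norm _ _).trans
        (mul_le_mul_of_nonneg_left (norm_gradient_le (hfL n) x) (norm_nonneg _))
    · filter_upwards [hψ.ae_differentiableAt (μ := volume)] with x hx
      exact tendsto_const_nhds.inner (hfg x hx)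
  have h2 : (fun n => ∫ x, inner ℝ (R x) (∇ (f n) x)) = fun _ => (0 : ℝ) :=
    funext fun n => h (f n) (hf n)
  rw [h2] at h1
  exact (tendsto_nhds_unique tendsto_const_nhds h1).symm

/-- File `Wdf.lean`. -/
theorem wdf_tsum {ι : Type*} [Countable ι] (R : ι → E3 → E3) (hR : ∀ i, WDF (R i))
    (hs : Summable fun i => ∫ x, ‖R i x‖) : WDF (fun x => ∑' i, R i x) := by
  have hfin : ∑' i, ∫⁻ x, ‖R i x‖ₑ ≠ (⊤ : ℝ≥0∞) := by
    have (i : ι) : ∫⁻ a, ‖R i a‖ₑ = ‖∫ a, ‖R i a‖‖ₑ := by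
      dsimp [enorm]
      rw [lintegral_coe_eq_integral _ (hR i).1.norm, ENNReal.coe_nnreal_eq, coe_nnnorm,
        Real.norm_of_nonneg (integral_nonneg (fun a ↦ norm_nonneg (R i a)))]
      simp only [coe_nnnorm]
    rw [funext this]
    exact ENNReal.tsum_coe_ne_top_iff_summable.2 <| NNReal.summable_coe.1 hs.abs
  have hm : ∀ i, AEMeasurable (fun x => ‖R i x‖ₑ) volume := fun i => (hR i).1.1.enorm
  have hfin' : ∫⁻ x, ∑' i, ‖R i x‖ₑ ≠ (⊤ : ℝ≥0∞) := by rwa [lintegral_tsum hm]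
  have hae : ∀ᵐ x : E3, Summable fun i => ‖R i x‖ := by
    refine (ae_lt_top' (AEMeasurable.tsum hm) hfin').mono ?_
    intro x hx
    have := ENNReal.tsum_coe_ne_top_iff_summable_coe.1 hx.ne
    simpa using this
  have hmeas : AEStronglyMeasurable (fun x => ∑' i, R i x) volume := by
    refine aestronglyMeasurable_of_tendsto_ae (u := (atTop : Filter (Finset ι)))
      (f := fun (s : Finset ι) x => ∑ i ∈ s, R i x) ?_ ?_
    · intro s
      exact s.aestronglyMeasurable_fun_sum fun i _ => (hR i).1.1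
    · filter_upwards [hae] with x hx
      exact hx.of_norm.hasSum
  refine ⟨⟨hmeas, ?_⟩, fun ψ K hψ => ?_⟩
  · rw [hasFiniteIntegral_iff_enorm]
    refine lt_of_le_of_lt (lintegral_mono_ae ?_) hfin'.lt_top
    filter_upwards [hae] with x hx
    exact enorm_tsum_le_tsum_enorm
  · have h1 : ∀ i, Integrable (fun x => inner ℝ (R i x) (∇ ψ x)) volume := by
      intro i
      refine ((hR i).1.norm.mul_const (K : ℝ)).mono'
        ((hR i).1.1.inner (measurable_gradient ψ).aestronglyMeasurable) ?_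
      refine Eventually.of_forall fun x => ?_
      exact (norm_inner_le_norm _ _).trans
        (mul_le_mul_of_nonneg_left (norm_gradient_le hψ x) (norm_nonneg _))
    have h2 : Summable fun i => ∫ x, ‖inner ℝ (R i x) (∇ ψ x)‖ := by
      refine Summable.of_nonneg_of_le (fun i => integral_nonneg fun x => norm_nonneg _) (fun i => ?_)
        (hs.mul_right (K : ℝ))
      rw [← integral_mul_const]
      refine integral_mono (h1 i).norm ((hR i).1.norm.mul_const (K : ℝ)) fun x => ?_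
      exact (norm_inner_le_norm _ _).trans
        (mul_le_mul_of_nonneg_left (norm_gradient_le hψ x) (norm_nonneg _))
    have h3 := integral_tsum_of_summable_integral_norm h1 h2
    have h4 : ∫ x, inner ℝ (∑' i, R i x) (∇ ψ x) = ∫ x, ∑' i, inner ℝ (R i x) (∇ ψ x) := by
      refine integral_congr_ae ?_
      filter_upwards [hae] with x hx
      have := hx.of_norm.hasSum.mapL (innerSL ℝ (∇ ψ x))
      have h5 := this.tsum_eq
      simp only [innerSL_apply_apply] at h5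
      rw [real_inner_comm, ← h5]
      exact tsum_congr fun i => real_inner_comm _ _
    rw [h4, ← h3]
    simp only [(hR _).2 ψ K hψ, tsum_zero]


/-! ### curls -/

namespace Wd

theorem ee_apply (i j : Fin 3) : ee i j = if j = i then 1 else 0 := by
  unfold ee
  simp

theorem norm_ee (i : Fin 3) : ‖ee i‖ = 1 := by
  unfold ee
  simp

/-- Bound of a component of the derivative of a Lipschitz field. -/
theorem abs_fderiv_apply_le {Ξ : E3 → E3} {K : ℝ≥0} (hΞ : LipschitzWith K Ξ) (x : E3)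
    (i j : Fin 3) : |(fderiv ℝ Ξ x (ee i)) j| ≤ K := by
  have h1 : ‖(fderiv ℝ Ξ x (ee i))‖ ≤ K := by
    refine ((fderiv ℝ Ξ x).le_opNorm (ee i)).trans ?_
    rw [norm_ee, mul_one]
    exact norm_fderiv_le_of_lipschitz ℝ hΞ
  exact (PiLp.norm_apply_le _ j).trans h1

theorem measurable_fderiv_apply_apply (Ξ : E3 → E3) (i j : Fin 3) :
    Measurable fun x => (fderiv ℝ Ξ x (ee i)) j := by
  have h1 : Measurable fun x => fderiv ℝ Ξ x (ee i) := measurable_fderiv_apply_const ℝ Ξ (ee i)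
  exact (EuclideanSpace.proj (𝕜 := ℝ) j).continuous.measurable.comp h1

theorem fderiv_eq_zero_of_vanish {Ξ : E3 → E3} {r : ℝ} (hr : ∀ x, r < ‖x‖ → Ξ x = 0) {x : E3}
    (hx : r < ‖x‖) : fderiv ℝ Ξ x = 0 := by
  have h1 : Ξ =ᶠ[𝓝 x] fun _ => 0 := by
    have : {y : E3 | r < ‖y‖} ∈ 𝓝 x := (isOpen_lt continuous_const continuous_norm).mem_nhds hx
    filter_upwards [this] with y hy
    exact hr y hy
  rw [h1.fderiv_eq]
  simp

theorem curlv_eq_zero {Ξ : E3 → E3} {r : ℝ} (hr : ∀ x, r < ‖x‖ → Ξ x = 0) {x : E3}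
    (hx : r < ‖x‖) : curlv Ξ x = 0 := by
  unfold curlv
  rw [fderiv_eq_zero_of_vanish hr hx]
  ext k
  fin_cases k <;> simp [pt]

theorem measurable_pt {a b c : E3 → ℝ} (ha : Measurable a) (hb : Measurable b)
    (hc : Measurable c) : Measurable fun x => pt (a x) (b x) (c x) := by
  unfold pt
  refine (PiLp.continuous_toLp 2 (fun _ : Fin 3 => ℝ)).measurable.comp ?_
  refine measurable_pi_lambda _ fun k => ?_
  fin_cases k
  · exact ha
  · exact hb
  · exact hc

theorem measurable_curlv (Ξ : E3 → E3) : Measurable (curlv Ξ) := by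
  unfold curlv
  refine measurable_pt ?_ ?_ ?_
  · exact (measurable_fderiv_apply_apply Ξ 1 2).sub (measurable_fderiv_apply_apply Ξ 2 1)
  · exact (measurable_fderiv_apply_apply Ξ 2 0).sub (measurable_fderiv_apply_apply Ξ 0 2)
  · exact (measurable_fderiv_apply_apply Ξ 0 1).sub (measurable_fderiv_apply_apply Ξ 1 0)

theorem norm_pt_le (a b c M : ℝ) (ha : |a| ≤ M) (hb : |b| ≤ M) (hc : |c| ≤ M) :
    ‖pt a b c‖ ≤ 3 * M := by
  have hM : 0 ≤ M := (abs_nonneg a).trans ha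
  rw [EuclideanSpace.norm_eq, Real.sqrt_le_left (by positivity), Fin.sum_univ_three]
  simp only [pt, Real.norm_eq_abs, sq_abs]
  have h1 : a ^ 2 ≤ M ^ 2 := sq_le_sq' (by linarith [neg_le_of_abs_le ha]) (le_of_abs_le ha)
  have h2 : b ^ 2 ≤ M ^ 2 := sq_le_sq' (by linarith [neg_le_of_abs_le hb]) (le_of_abs_le hb)
  have h3 : c ^ 2 ≤ M ^ 2 := sq_le_sq' (by linarith [neg_le_of_abs_le hc]) (le_of_abs_le hc)
  show a ^ 2 + b ^ 2 + c ^ 2 ≤ (3 * M) ^ 2
  nlinarith

theorem norm_curlv_le {Ξ : E3 → E3} {K : ℝ≥0} (hΞ : LipschitzWith K Ξ) (x : E3) :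
    ‖curlv Ξ x‖ ≤ 3 * (K + K) := by
  have h : ∀ i j k l : Fin 3, |(fderiv ℝ Ξ x (ee i)) j - (fderiv ℝ Ξ x (ee k)) l| ≤ K + K := by
    intro i j k l
    refine (abs_sub _ _).trans (add_le_add (abs_fderiv_apply_le hΞ x i j)
      (abs_fderiv_apply_le hΞ x k l))
  exact norm_pt_le _ _ _ _ (h _ _ _ _) (h _ _ _ _) (h _ _ _ _)

/-- a bounded measurable function vanishing off a ball is integrable -/
theorem integrable_of_bounded_vanish {F : Type*} [NormedAddCommGroup F] {f : E3 → F}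
    (hf : AEStronglyMeasurable f volume) {M r : ℝ} (hM : ∀ x, ‖f x‖ ≤ M)
    (hr : ∀ x, r < ‖x‖ → f x = 0) : Integrable f volume := by
  have h1 : f = (Metric.closedBall (0 : E3) r).indicator f := by
    funext x
    by_cases hx : x ∈ Metric.closedBall (0 : E3) r
    · rw [indicator_of_mem hx]
    · rw [indicator_of_notMem hx]
      refine hr x ?_
      rw [mem_closedBall_zero_iff] at hx
      exact not_le.1 hx
  rw [h1, integrable_indicator_iff Metric.isClosed_closedBall.measurableSet]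
  exact Measure.integrableOn_of_bounded (M := M)
    (isCompact_closedBall (0 : E3) r).measure_lt_top.ne hf (Eventually.of_forall hM)

/-- Integration by parts. -/
theorem ibp {Ξ : E3 → E3} {K : ℝ≥0} (hΞ : LipschitzWith K Ξ) {g : E3 → ℝ} {D : ℝ≥0}
    (hg : LipschitzWith D g) (hgc : HasCompactSupport g) (i j : Fin 3) :
    ∫ x, (fderiv ℝ Ξ x (ee i)) j * g x = - ∫ x, fderiv ℝ g x (ee i) * (Ξ x) j := by
  have hΞj : LipschitzWith K fun x => (Ξ x) j := by
    refine LipschitzWith.of_dist_le_mul fun x y => ?_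
    refine le_trans ?_ (hΞ.dist_le_mul x y)
    rw [Real.dist_eq, dist_eq_norm]
    exact PiLp.norm_apply_le (Ξ x - Ξ y) j
  have h1 := hΞj.integral_lineDeriv_mul_eq (μ := volume) hg hgc (ee i)
  have h2 : ∫ x, lineDeriv ℝ (fun x => (Ξ x) j) x (ee i) * g x =
      ∫ x, (fderiv ℝ Ξ x (ee i)) j * g x := by
    refine integral_congr_ae ?_
    filter_upwards [hΞ.ae_differentiableAt (μ := volume)] with x hx
    have h3 : HasFDerivAt (fun x => (Ξ x) j)
        ((EuclideanSpace.proj j : E3 →L[ℝ] ℝ).comp (fderiv ℝ Ξ x)) x :=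
      (EuclideanSpace.proj j : E3 →L[ℝ] ℝ).hasFDerivAt.comp x hx.hasFDerivAt
    have h4 := h3.hasLineDerivAt (ee i)
    rw [h4.lineDeriv]
    rfl
  have h5 : ∫ x, lineDeriv ℝ g x (-(ee i)) * (Ξ x) j =
      - ∫ x, fderiv ℝ g x (ee i) * (Ξ x) j := by
    rw [← integral_neg]
    refine integral_congr_ae ?_
    filter_upwards [hg.ae_differentiableAt (μ := volume)] with x hx
    rw [hx.lineDeriv_eq_fderiv, map_neg, neg_mul]
  rw [← h2, h1, h5]

/-- Mixed terms are symmetric. -/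
theorem mixed_symm {Ξ : E3 → E3} {K : ℝ≥0} (hΞ : LipschitzWith K Ξ) {φ : E3 → ℝ}
    (hφ : ContDiff ℝ (⊤ : ℕ∞) φ) (hφc : HasCompactSupport φ) (i j k : Fin 3) :
    ∫ x, (fderiv ℝ Ξ x (ee i)) j * fderiv ℝ φ x (ee k) =
      ∫ x, (fderiv ℝ Ξ x (ee k)) j * fderiv ℝ φ x (ee i) := by
  have hC : ∀ k : Fin 3, ContDiff ℝ (⊤ : ℕ∞) fun x => fderiv ℝ φ x (ee k) := fun k =>
    (hφ.fderiv_right (m := (⊤ : ℕ∞)) le_rfl).clm_apply contDiff_const
  have hc : ∀ k : Fin 3, HasCompactSupport fun x => fderiv ℝ φ x (ee k) := fun k =>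
    (hφc.fderiv (𝕜 := ℝ)).comp_left (g := fun L : E3 →L[ℝ] ℝ => L (ee k)) rfl
  have hL : ∀ k : Fin 3, ∃ D, LipschitzWith D fun x => fderiv ℝ φ x (ee k) := fun k =>
    ContDiff.lipschitzWith_of_hasCompactSupport (hc k) (hC k) (by simp)
  obtain ⟨D, hD⟩ := hL k
  obtain ⟨D', hD'⟩ := hL i
  rw [ibp hΞ hD (hc k), ibp hΞ hD' (hc i)]
  congr 1
  refine integral_congr_ae (Eventually.of_forall fun x => ?_)
  have h1 : ∀ k l : Fin 3, fderiv ℝ (fun x => fderiv ℝ φ x (ee k)) x (ee l) =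
      fderiv ℝ (fderiv ℝ φ) x (ee l) (ee k) := by
    intro k l
    have hd : DifferentiableAt ℝ (fderiv ℝ φ) x :=
      (hφ.fderiv_right (m := (⊤ : ℕ∞)) le_rfl).differentiable (by simp) x
    rw [fderiv_clm_apply hd (differentiableAt_const _)]
    simp
  have h2 : fderiv ℝ (fderiv ℝ φ) x (ee i) (ee k) = fderiv ℝ (fderiv ℝ φ) x (ee k) (ee i) := by
    have := (hφ.contDiffAt (x := x)).isSymmSndFDerivAt
      (by rw [minSmoothness_of_isRCLikeNormedField]; exact WithTop.coe_le_coe.2 (le_top : (2 : ℕ∞) ≤ ⊤))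
    exact this (ee i) (ee k)
  show fderiv ℝ (fun x => fderiv ℝ φ x (ee k)) x (ee i) * (Ξ x) j =
    fderiv ℝ (fun x => fderiv ℝ φ x (ee i)) x (ee k) * (Ξ x) j
  rw [h1, h1, h2]

theorem integrable_mixed {Ξ : E3 → E3} {K : ℝ≥0} (hΞ : LipschitzWith K Ξ) {φ : E3 → ℝ}
    (hφ : ContDiff ℝ (⊤ : ℕ∞) φ) (hφc : HasCompactSupport φ) (i j k : Fin 3) :
    Integrable (fun x => (fderiv ℝ Ξ x (ee i)) j * fderiv ℝ φ x (ee k)) volume := by
  have hC : Continuous fun x => fderiv ℝ φ x (ee k) :=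
    ((hφ.fderiv_right (m := (⊤ : ℕ∞)) le_rfl).clm_apply contDiff_const).continuous
  have hc : HasCompactSupport fun x => fderiv ℝ φ x (ee k) :=
    (hφc.fderiv (𝕜 := ℝ)).comp_left (g := fun L : E3 →L[ℝ] ℝ => L (ee k)) rfl
  have hi : Integrable (fun x => fderiv ℝ φ x (ee k)) volume := hC.integrable_of_hasCompactSupport hc
  refine hi.bdd_mul (measurable_fderiv_apply_apply Ξ i j).aestronglyMeasurable (c := (K : ℝ)) ?_
  exact Eventually.of_forall fun x => abs_fderiv_apply_le hΞ x i j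

end Wd

/-- File `Wdf.lean`. -/
theorem wdf_curl (Ξ : E3 → E3) (K : ℝ≥0) (hΞ : LipschitzWith K Ξ) (r : ℝ)
    (hr : ∀ x, r < ‖x‖ → Ξ x = 0) : WDF (curlv Ξ) := by
  have hint : Integrable (curlv Ξ) volume :=
    integrable_of_bounded_vanish (measurable_curlv Ξ).aestronglyMeasurable
      (fun x => norm_curlv_le hΞ x) fun x hx => curlv_eq_zero hr hx
  refine wdf_of_smooth _ hint r (fun x hx => curlv_eq_zero hr hx) fun ψ hψ => ?_
  -- cutoff
  let b : ContDiffBump (0 : E3) := ⟨|r| + 1, |r| + 2, by positivity, by linarith⟩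
  let φ : E3 → ℝ := fun x => b x * ψ x
  have hφ : ContDiff ℝ (⊤ : ℕ∞) φ := b.contDiff.mul hψ
  have hφc : HasCompactSupport φ := b.hasCompactSupport.mul_right
  have hloc : ∀ x : E3, ‖x‖ ≤ r → fderiv ℝ ψ x = fderiv ℝ φ x := by
    intro x hx
    refine Filter.EventuallyEq.fderiv_eq ?_
    have hx' : x ∈ Metric.ball (0 : E3) (|r| + 1) := by
      rw [mem_ball_zero_iff]
      linarith [le_abs_self r]
    filter_upwards [b.eventuallyEq_one_of_mem_ball hx'] with y hy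
    show ψ y = b y * ψ y
    rw [hy]; simp
  have h1 : ∀ x, inner ℝ (curlv Ξ x) (∇ ψ x) =
      ((fderiv ℝ Ξ x (ee 1)) 2 * fderiv ℝ φ x (ee 0) - (fderiv ℝ Ξ x (ee 2)) 1 * fderiv ℝ φ x (ee 0))
      + ((fderiv ℝ Ξ x (ee 2)) 0 * fderiv ℝ φ x (ee 1) -
        (fderiv ℝ Ξ x (ee 0)) 2 * fderiv ℝ φ x (ee 1))
      + ((fderiv ℝ Ξ x (ee 0)) 1 * fderiv ℝ φ x (ee 2) -
        (fderiv ℝ Ξ x (ee 1)) 0 * fderiv ℝ φ x (ee 2)) := by
    intro x
    rcases le_or_gt ‖x‖ r with hx | hx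
    · rw [inner_gradient', hloc x hx]
      have h2 : curlv Ξ x = ((fderiv ℝ Ξ x (ee 1)) 2 - (fderiv ℝ Ξ x (ee 2)) 1) • ee 0 +
          ((fderiv ℝ Ξ x (ee 2)) 0 - (fderiv ℝ Ξ x (ee 0)) 2) • ee 1 +
          ((fderiv ℝ Ξ x (ee 0)) 1 - (fderiv ℝ Ξ x (ee 1)) 0) • ee 2 := by
        unfold curlv
        ext k
        fin_cases k <;> simp [pt, ee_apply]
      rw [h2]
      simp only [map_add, map_smul, smul_eq_mul]
      ring
    · rw [curlv_eq_zero hr hx, fderiv_eq_zero_of_vanish hr hx]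
      simp
  simp only [h1]
  have hI := integrable_mixed hΞ hφ hφc
  have e1 : Integrable (fun x => (fderiv ℝ Ξ x (ee 1)) 2 * fderiv ℝ φ x (ee 0) -
      (fderiv ℝ Ξ x (ee 2)) 1 * fderiv ℝ φ x (ee 0)) volume := (hI 1 2 0).sub (hI 2 1 0)
  have e2 : Integrable (fun x => (fderiv ℝ Ξ x (ee 2)) 0 * fderiv ℝ φ x (ee 1) -
      (fderiv ℝ Ξ x (ee 0)) 2 * fderiv ℝ φ x (ee 1)) volume := (hI 2 0 1).sub (hI 0 2 1)
  have e3 : Integrable (fun x => (fderiv ℝ Ξ x (ee 0)) 1 * fderiv ℝ φ x (ee 2) -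
      (fderiv ℝ Ξ x (ee 1)) 0 * fderiv ℝ φ x (ee 2)) volume := (hI 0 1 2).sub (hI 1 0 2)
  have e12 : Integrable (fun x => ((fderiv ℝ Ξ x (ee 1)) 2 * fderiv ℝ φ x (ee 0) -
      (fderiv ℝ Ξ x (ee 2)) 1 * fderiv ℝ φ x (ee 0)) +
      ((fderiv ℝ Ξ x (ee 2)) 0 * fderiv ℝ φ x (ee 1) -
      (fderiv ℝ Ξ x (ee 0)) 2 * fderiv ℝ φ x (ee 1))) volume := e1.add e2
  rw [integral_add e12 e3, integral_add e1 e2, integral_sub (hI 1 2 0) (hI 2 1 0),
    integral_sub (hI 2 0 1) (hI 0 2 1), integral_sub (hI 0 1 2) (hI 1 0 2),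
    mixed_symm hΞ hφ hφc 1 2 0, mixed_symm hΞ hφ hφc 2 1 0, mixed_symm hΞ hφ hφc 2 0 1]
  ring

end Crest.Agent.R083
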