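import Crest.Agent.R083.IsoDefs
import Crest.Agent.R083.Wdf
import Crest.Agent.R083.Potential

/-!
Row 83 (S0111), ISO group, part (F): flattening of smooth fields.
-/

set_option autoImplicit false

namespace Crest.Agent.R083

open MeasureTheory Set Filter
open scoped Gradient ENNReal NNReal Topology ContDiff

namespace Flat

theorem two_le_infty : (2 : WithTop ℕ∞) ≤ ((⊤ : ℕ∞) : WithTop ℕ∞) := by
  have : ((2 : ℕ) : WithTop ℕ∞) ≤ ((⊤ : ℕ∞) : WithTop ℕ∞) := WithTop.coe_le_coe.2 le_top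
  exact this

theorem pd_contDiff (i : Fin 3) {f : E3 → ℝ} (hf : ContDiff ℝ ∞ f) : ContDiff ℝ ∞ (pd i f) := by
  have h : ContDiff ℝ ∞ (fderiv ℝ f) := hf.fderiv_right (by simp)
  exact h.clm_apply contDiff_const

theorem smooth_diff {f : E3 → ℝ} (hf : ContDiff ℝ ∞ f) : Differentiable ℝ f :=
  hf.differentiable (by simp)

theorem fderiv_pd (i : Fin 3) {f : E3 → ℝ} (hf : ContDiff ℝ ∞ f) (x y : E3) :
    fderiv ℝ (pd i f) x y = fderiv ℝ (fderiv ℝ f) x y (ee i) := by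
  have h : ContDiff ℝ ∞ (fderiv ℝ f) := hf.fderiv_right (by simp)
  have h1 : HasFDerivAt (fderiv ℝ f) (fderiv ℝ (fderiv ℝ f) x) x :=
    (h.differentiable (by simp) x).hasFDerivAt
  have h2 := h1.clm_apply (hasFDerivAt_const (ee i) x)
  have h3 : fderiv ℝ (pd i f) x = _ := h2.fderiv
  rw [h3]
  simp

theorem pd_comm (i j : Fin 3) {f : E3 → ℝ} (hf : ContDiff ℝ ∞ f) :
    pd i (pd j f) = pd j (pd i f) := by
  funext x
  have h := (hf.contDiffAt (x := x)).isSymmSndFDerivAt (by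
    rw [minSmoothness_of_isRCLikeNormedField]
    exact two_le_infty)
  rw [pd, pd, fderiv_pd j hf, fderiv_pd i hf]
  exact h _ _

theorem norm_ee (i : Fin 3) : ‖ee i‖ = 1 := by simp [ee]

theorem abs_pd_le (i : Fin 3) (f : E3 → ℝ) (x : E3) : |pd i f x| ≤ ‖fderiv ℝ f x‖ := by
  have := (fderiv ℝ f x).le_opNorm (ee i)
  rwa [norm_ee, mul_one] at this

theorem sum_ee (y : E3) : y = ∑ i : Fin 3, y i • ee i := by
  ext j
  simp [ee, Pi.single_apply]

theorem fderiv_eq_sum (f : E3 → ℝ) (x y : E3) : fderiv ℝ f x y = ∑ i, y i * pd i f x := by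
  conv_lhs => rw [sum_ee y]
  rw [map_sum]
  exact Finset.sum_congr rfl fun i _ => by rw [map_smul, smul_eq_mul, pd]

theorem norm_fderiv_le_sum (f : E3 → ℝ) (x : E3) : ‖fderiv ℝ f x‖ ≤ ∑ i, |pd i f x| := by
  refine ContinuousLinearMap.opNorm_le_bound _ (Finset.sum_nonneg fun i _ => abs_nonneg _)
    fun y => ?_
  rw [fderiv_eq_sum, Finset.sum_mul]
  refine (norm_sum_le _ _).trans (Finset.sum_le_sum fun i _ => ?_)
  rw [norm_mul, mul_comm]
  exact mul_le_mul_of_nonneg_left (PiLp.norm_apply_le y i) (abs_nonneg _)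

theorem norm_gradient (f : E3 → ℝ) (x : E3) : ‖∇ f x‖ = ‖fderiv ℝ f x‖ := by
  rw [gradient, LinearIsometryEquiv.norm_map]

theorem pd_add (i : Fin 3) {f g : E3 → ℝ} (hf : Differentiable ℝ f) (hg : Differentiable ℝ g) :
    pd i (fun x => f x + g x) = fun x => pd i f x + pd i g x := by
  funext x
  rw [pd, fderiv_fun_add (hf x) (hg x)]
  rfl

theorem pd_sub (i : Fin 3) {f g : E3 → ℝ} (hf : Differentiable ℝ f) (hg : Differentiable ℝ g) :
    pd i (fun x => f x - g x) = fun x => pd i f x - pd i g x := by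
  funext x
  rw [pd, fderiv_fun_sub (hf x) (hg x)]
  rfl

theorem pd_mul (i : Fin 3) {f g : E3 → ℝ} (hf : Differentiable ℝ f) (hg : Differentiable ℝ g) :
    pd i (fun x => f x * g x) = fun x => f x * pd i g x + g x * pd i f x := by
  funext x
  rw [pd, fderiv_fun_mul (hf x) (hg x)]
  simp [pd]

theorem pd_congr (i : Fin 3) {f g : E3 → ℝ} {x : E3} (h : f =ᶠ[𝓝 x] g) :
    pd i f =ᶠ[𝓝 x] pd i g := by
  have := h.fderiv (𝕜 := ℝ)
  filter_upwards [this] with y hy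
  rw [pd, pd, hy]

theorem pd_zero (i : Fin 3) : pd i (0 : E3 → ℝ) = 0 := by
  funext x
  simp [pd]

theorem pd_neg (i : Fin 3) (f : E3 → ℝ) : pd i (fun x => - f x) = fun x => - pd i f x := by
  funext x
  simp [pd]

theorem pd_scale {f : E3 → ℝ} (hf : Differentiable ℝ f) (i : Fin 3) (x₀ : E3) (r : ℝ) :
    pd i (fun x => f (r⁻¹ • (x - x₀))) = fun x => r⁻¹ * pd i f (r⁻¹ • (x - x₀)) := by
  funext x
  have h1 : HasFDerivAt (fun x : E3 => r⁻¹ • (x - x₀)) (r⁻¹ • ContinuousLinearMap.id ℝ E3) x :=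
    ((hasFDerivAt_id x).sub_const x₀).const_smul r⁻¹
  have h2 := (hf (r⁻¹ • (x - x₀))).hasFDerivAt.comp x h1
  have h3 : fderiv ℝ (fun x => f (r⁻¹ • (x - x₀))) x = _ := h2.fderiv
  rw [pd, h3]
  simp [pd]

theorem exists_bump : ∃ b : E3 → ℝ, ContDiff ℝ ∞ b ∧ HasCompactSupport b ∧
    (∀ x, ‖x‖ ≤ 1 / 2 → b x = 1) ∧ (∀ x, 3 / 4 ≤ ‖x‖ → b x = 0) ∧ ∀ x, |b x| ≤ 1 := by
  let b : ContDiffBump (0 : E3) := ⟨1 / 2, 3 / 4, by norm_num, by norm_num⟩
  refine ⟨b, b.contDiff, b.hasCompactSupport, fun x hx => ?_, fun x hx => ?_, fun x => ?_⟩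
  · exact b.one_of_mem_closedBall (by rwa [mem_closedBall_zero_iff])
  · exact b.zero_of_le_dist (by rwa [dist_zero_right])
  · rw [abs_of_nonneg b.nonneg]
    exact b.le_one

theorem bound_real (g : E3 → ℝ) (hg : Continuous g) (h0 : ∀ x, 1 < ‖x‖ → g x = 0) :
    ∃ C : ℝ, 0 < C ∧ ∀ x, |g x| ≤ C := by
  obtain ⟨C, hC⟩ := (isCompact_closedBall (0 : E3) 1).bddAbove_image (f := fun x => |g x|)
    hg.abs.continuousOn
  refine ⟨max C 1, by positivity, fun x => ?_⟩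
  by_cases hx : ‖x‖ ≤ 1
  · exact (hC ⟨x, by rwa [mem_closedBall_zero_iff], rfl⟩).trans (le_max_left _ _)
  · rw [h0 x (not_le.1 hx), abs_zero]; exact le_trans zero_le_one (le_max_right _ _)

theorem bound_two (b : E3 → ℝ) (hb : ContDiff ℝ ∞ b) (h0 : ∀ x, 3 / 4 ≤ ‖x‖ → b x = 0) :
    ∃ C : ℝ, 0 < C ∧ ∀ x i j, |pd i b x| ≤ C ∧ |pd j (pd i b) x| ≤ C := by
  have ev : ∀ x : E3, 1 < ‖x‖ → b =ᶠ[𝓝 x] 0 := by
    intro x hx
    filter_upwards [continuous_norm.continuousAt.eventually (lt_mem_nhds hx)] with y hy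
    exact h0 y (by linarith)
  have ev1 : ∀ (x : E3) (i), 1 < ‖x‖ → pd i b =ᶠ[𝓝 x] 0 := by
    intro x i hx
    have := pd_congr i (ev x hx)
    rwa [pd_zero] at this
  have ev2 : ∀ (x : E3) (i j), 1 < ‖x‖ → pd j (pd i b) =ᶠ[𝓝 x] 0 := by
    intro x i j hx
    have := pd_congr j (ev1 x i hx)
    rwa [pd_zero] at this
  obtain ⟨C, hC0, hC⟩ := bound_real (fun x => ∑ i, |pd i b x| + ∑ i, ∑ j, |pd j (pd i b) x|)
    (by
      refine Continuous.add (continuous_finsetSum _ fun i _ => (pd_contDiff i hb).continuous.abs)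
        (continuous_finsetSum _ fun i _ => continuous_finsetSum _ fun j _ =>
          (pd_contDiff j (pd_contDiff i hb)).continuous.abs))
    (by
      intro x hx
      have h1 : ∀ i, pd i b x = 0 := fun i => (ev1 x i hx).eq_of_nhds
      have h2 : ∀ i j, pd j (pd i b) x = 0 := fun i j => (ev2 x i j hx).eq_of_nhds
      simp [h1, h2])
  refine ⟨C, hC0, fun x i j => ?_⟩
  have h := hC x
  have p1 : 0 ≤ ∑ i, |pd i b x| := Finset.sum_nonneg fun _ _ => abs_nonneg _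
  have p2 : 0 ≤ ∑ i, ∑ j, |pd j (pd i b) x| :=
    Finset.sum_nonneg fun _ _ => Finset.sum_nonneg fun _ _ => abs_nonneg _
  rw [abs_of_nonneg (add_nonneg p1 p2)] at h
  have q1 : |pd i b x| ≤ ∑ i, |pd i b x| :=
    Finset.single_le_sum (f := fun i => |pd i b x|) (fun _ _ => abs_nonneg _) (Finset.mem_univ i)
  have q2 : |pd j (pd i b) x| ≤ ∑ j, |pd j (pd i b) x| :=
    Finset.single_le_sum (f := fun j => |pd j (pd i b) x|) (fun _ _ => abs_nonneg _)
      (Finset.mem_univ j)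
  have q3 : ∑ j, |pd j (pd i b) x| ≤ ∑ i, ∑ j, |pd j (pd i b) x| :=
    Finset.single_le_sum (f := fun i => ∑ j, |pd j (pd i b) x|)
      (fun _ _ => Finset.sum_nonneg fun _ _ => abs_nonneg _) (Finset.mem_univ i)
  constructor <;> linarith

/-- cutoff at scale `r` -/
theorem exists_cutoff : ∃ C : ℝ, 0 < C ∧ ∀ (x₀ : E3) (r : ℝ), 0 < r →
    ∃ θ : E3 → ℝ, ContDiff ℝ ∞ θ ∧ (∀ x ∈ Metric.ball x₀ (r / 2), θ x = 1) ∧
      (∀ x, x ∉ Metric.closedBall x₀ (3 * r / 4) → θ x = 0) ∧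
      (∀ x, |θ x| ≤ 1) ∧ (∀ x i, |pd i θ x| ≤ C / r) ∧
      (∀ x i j, |pd j (pd i θ) x| ≤ C / r ^ 2) := by
  obtain ⟨b, hb, hs, hone, hzero, hle⟩ := exists_bump
  obtain ⟨C, hC0, hC⟩ := bound_two b hb hzero
  refine ⟨C, hC0, fun x₀ r hr => ?_⟩
  have hsub : ContDiff ℝ ∞ (fun x : E3 => r⁻¹ • (x - x₀)) :=
    (contDiff_id.sub contDiff_const).const_smul r⁻¹
  have e1 : ∀ i, pd i (fun x => b (r⁻¹ • (x - x₀))) = fun x => r⁻¹ * pd i b (r⁻¹ • (x - x₀)) :=
    fun i => pd_scale (smooth_diff hb) i x₀ r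
  have e2 : ∀ i j, pd j (pd i (fun x => b (r⁻¹ • (x - x₀)))) =
      fun x => r⁻¹ * (r⁻¹ * pd j (pd i b) (r⁻¹ • (x - x₀))) := by
    intro i j
    have h := pd_mul (f := fun _ => r⁻¹) (g := fun x => pd i b (r⁻¹ • (x - x₀))) j
      (differentiable_const _) (smooth_diff ((pd_contDiff i hb).comp hsub))
    rw [e1, h, pd_scale (smooth_diff (pd_contDiff i hb))]
    funext x
    simp [pd]
  refine ⟨fun x => b (r⁻¹ • (x - x₀)), hb.comp hsub, ?_, ?_, fun x => hle _, ?_, ?_⟩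
  · intro x hx
    refine hone _ ?_
    rw [Metric.mem_ball, dist_eq_norm] at hx
    rw [norm_smul, norm_inv, Real.norm_of_nonneg hr.le, inv_mul_le_iff₀ hr]
    linarith
  · intro x hx
    refine hzero _ ?_
    rw [Metric.mem_closedBall, dist_eq_norm, not_le] at hx
    rw [norm_smul, norm_inv, Real.norm_of_nonneg hr.le, le_inv_mul_iff₀ hr]
    linarith
  · intro x i
    rw [e1]
    simp only
    rw [abs_mul, abs_of_nonneg (inv_nonneg.2 hr.le), inv_mul_eq_div]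
    gcongr
    exact (hC _ i 0).1
  · intro x i j
    rw [e2]
    simp only
    rw [abs_mul, abs_mul, abs_of_nonneg (inv_nonneg.2 hr.le), ← mul_assoc, ← mul_inv,
      inv_mul_eq_div, ← sq]
    gcongr
    exact (hC _ i j).2


theorem pd_coord (k i : Fin 3) (x₀ : E3) :
    pd k (fun x => x i - x₀ i) = fun _ => if k = i then 1 else 0 := by
  funext x
  have h : HasFDerivAt (fun x : E3 => x i - x₀ i) (EuclideanSpace.proj i : E3 →L[ℝ] ℝ) x :=
    ((EuclideanSpace.proj i : E3 →L[ℝ] ℝ).hasFDerivAt).sub_const _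
  rw [pd, h.fderiv]
  simp [ee, eq_comm]

theorem coord_contDiff (i : Fin 3) (x₀ : E3) : ContDiff ℝ ∞ (fun x : E3 => x i - x₀ i) :=
  ((EuclideanSpace.proj i : E3 →L[ℝ] ℝ).contDiff).sub contDiff_const

theorem pd_const (k : Fin 3) (c : ℝ) : pd k (fun _ => c) = fun _ => 0 := by
  funext x
  simp [pd]

theorem pd_const_mul (k : Fin 3) (c : ℝ) {f : E3 → ℝ} (hf : Differentiable ℝ f) :
    pd k (fun x => c * f x) = fun x => c * pd k f x := by
  rw [pd_mul k (f := fun _ => c) (differentiable_const c) hf, pd_const]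
  funext x
  simp

theorem pd_sum {ι : Type*} (s : Finset ι) (k : Fin 3) {f : ι → E3 → ℝ}
    (hf : ∀ i, Differentiable ℝ (f i)) :
    pd k (fun x => ∑ i ∈ s, f i x) = fun x => ∑ i ∈ s, pd k (f i) x := by
  funext x
  rw [pd, fderiv_fun_sum (fun i _ => hf i x)]
  simp [pd]

/-- The quadratic Taylor polynomial. -/
noncomputable def quad (c : ℝ) (a : Fin 3 → ℝ) (B : Fin 3 → Fin 3 → ℝ) (x₀ x : E3) : ℝ :=
  c + ∑ i, a i * (x i - x₀ i) + ∑ i, ∑ j, B i j / 2 * ((x i - x₀ i) * (x j - x₀ j))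

theorem quad_contDiff (c : ℝ) (a : Fin 3 → ℝ) (B : Fin 3 → Fin 3 → ℝ) (x₀ : E3) :
    ContDiff ℝ ∞ (quad c a B x₀) := by
  unfold quad
  refine (contDiff_const.add (ContDiff.sum fun i _ => contDiff_const.mul (coord_contDiff i x₀))).add
    (ContDiff.sum fun i _ => ContDiff.sum fun j _ => contDiff_const.mul
      ((coord_contDiff i x₀).mul (coord_contDiff j x₀)))

theorem quad_hasFDerivAt (c : ℝ) (a : Fin 3 → ℝ) (B : Fin 3 → Fin 3 → ℝ) (x₀ x : E3) :
    HasFDerivAt (quad c a B x₀) (∑ i, a i • (EuclideanSpace.proj i : E3 →L[ℝ] ℝ) +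
      ∑ i, ∑ j, (B i j / 2) • ((x i - x₀ i) • (EuclideanSpace.proj j : E3 →L[ℝ] ℝ) +
        (x j - x₀ j) • (EuclideanSpace.proj i : E3 →L[ℝ] ℝ))) x := by
  have h : ∀ i, HasFDerivAt (fun x : E3 => x i - x₀ i) (EuclideanSpace.proj i : E3 →L[ℝ] ℝ) x :=
    fun i => ((EuclideanSpace.proj i : E3 →L[ℝ] ℝ).hasFDerivAt).sub_const _
  unfold quad
  refine HasFDerivAt.fun_add ?_ ?_
  · refine HasFDerivAt.const_add _ ?_
    exact HasFDerivAt.fun_sum fun i _ => (h i).const_mul (a i)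
  · exact HasFDerivAt.fun_sum fun i _ => HasFDerivAt.fun_sum fun j _ =>
      ((h i).mul (h j)).const_mul (B i j / 2)

theorem pd_quad (k : Fin 3) (c : ℝ) (a : Fin 3 → ℝ) (B : Fin 3 → Fin 3 → ℝ)
    (hB : ∀ i j, B i j = B j i) (x₀ : E3) :
    pd k (quad c a B x₀) = fun x => a k + ∑ j, B k j * (x j - x₀ j) := by
  funext x
  rw [pd, (quad_hasFDerivAt c a B x₀ x).fderiv]
  have hp : ∀ i, (EuclideanSpace.proj i : E3 →L[ℝ] ℝ) (ee k) = if i = k then 1 else 0 := by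
    intro i
    simp [ee]
  simp only [add_apply, Fin.sum_univ_three, FunLike.coe_smul, Pi.smul_apply, hp, smul_eq_mul]
  have e1 := hB 0 1
  have e2 := hB 0 2
  have e3 := hB 1 2
  fin_cases k <;> simp <;> simp only [e1, e2, e3] <;> ring

theorem pd_pd_quad (k l : Fin 3) (c : ℝ) (a : Fin 3 → ℝ) (B : Fin 3 → Fin 3 → ℝ)
    (hB : ∀ i j, B i j = B j i) (x₀ : E3) :
    pd l (pd k (quad c a B x₀)) = fun _ => B k l := by
  funext x
  have h : HasFDerivAt (fun x : E3 => a k + ∑ j, B k j * (x j - x₀ j))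
      (∑ j, B k j • (EuclideanSpace.proj j : E3 →L[ℝ] ℝ)) x := by
    refine HasFDerivAt.const_add _ ?_
    exact HasFDerivAt.fun_sum fun i _ =>
      (((EuclideanSpace.proj i : E3 →L[ℝ] ℝ).hasFDerivAt).sub_const _).const_mul (B k i)
  rw [pd_quad k c a B hB x₀, pd, h.fderiv]
  simp [ee]


/-- mean value bound on a ball from the partial derivatives -/
theorem mvt_ball {f : E3 → ℝ} (hf : Differentiable ℝ f) (x₀ x : E3) (K : ℝ)
    (h0 : f x₀ = 0) (h : ∀ y ∈ Metric.closedBall x₀ ‖x - x₀‖, ∀ i, |pd i f y| ≤ K) :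
    |f x| ≤ 3 * K * ‖x - x₀‖ := by
  have hx : x ∈ Metric.closedBall x₀ ‖x - x₀‖ := by
    rw [Metric.mem_closedBall, dist_eq_norm]
  have hx0 : x₀ ∈ Metric.closedBall x₀ ‖x - x₀‖ := Metric.mem_closedBall_self (norm_nonneg _)
  have h1 := (convex_closedBall x₀ ‖x - x₀‖).norm_image_sub_le_of_norm_fderiv_le (𝕜 := ℝ)
    (f := f) (C := 3 * K) (fun y _ => hf y) (fun y hy => by
      refine (norm_fderiv_le_sum f y).trans ?_
      rw [Fin.sum_univ_three]
      have a0 := h y hy 0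
      have a1 := h y hy 1
      have a2 := h y hy 2
      linarith) hx0 hx
  rw [h0, sub_zero] at h1
  exact h1

theorem exists_rem {Z : E3 → ℝ} (hZ : ContDiff ℝ ∞ Z) (x₀ : E3) (ε : ℝ) (hε : 0 < ε) :
    ∃ q : E3 → ℝ, ContDiff ℝ ∞ q ∧
      (∀ i j x, pd j (pd i q) x = pd j (pd i Z) x₀) ∧
      (∀ i x, pd i q x = pd i Z x₀ + ∑ j, pd j (pd i Z) x₀ * (x j - x₀ j)) ∧
      ∃ r₀ : ℝ, 0 < r₀ ∧ ∀ x ∈ Metric.ball x₀ r₀,
        |Z x - q x| ≤ ε * ‖x - x₀‖ ^ 2 ∧
        (∀ i, |pd i (fun y => Z y - q y) x| ≤ ε * ‖x - x₀‖) ∧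
        (∀ i j, |pd j (pd i (fun y => Z y - q y)) x| ≤ ε) := by
  set B : Fin 3 → Fin 3 → ℝ := fun i j => pd j (pd i Z) x₀ with hB
  have hBs : ∀ i j, B i j = B j i := by
    intro i j
    simp only [hB]
    rw [pd_comm j i hZ]
  set q := quad (Z x₀) (fun i => pd i Z x₀) B x₀ with hq
  have hqs : ContDiff ℝ ∞ q := quad_contDiff _ _ _ _
  have hg : ContDiff ℝ ∞ (fun y => Z y - q y) := hZ.sub hqs
  have e1 : ∀ i, pd i (fun y => Z y - q y) = fun x => pd i Z x - pd i q x :=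
    fun i => pd_sub i (smooth_diff hZ) (smooth_diff hqs)
  have e2 : ∀ i j, pd j (pd i (fun y => Z y - q y)) = fun x => pd j (pd i Z) x - B i j := by
    intro i j
    rw [e1, pd_sub j (smooth_diff (pd_contDiff i hZ)) (smooth_diff (pd_contDiff i hqs)),
      hq, pd_pd_quad i j _ _ _ hBs]
  have ev : ∀ᶠ x in 𝓝 x₀, ∀ i j, |pd j (pd i (fun y => Z y - q y)) x| < ε / 9 := by
    refine eventually_all.2 fun i => eventually_all.2 fun j => ?_
    have hc : Continuous (fun x => |pd j (pd i (fun y => Z y - q y)) x|) :=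
      (pd_contDiff j (pd_contDiff i hg)).continuous.abs
    have h0 : |pd j (pd i (fun y => Z y - q y)) x₀| < ε / 9 := by
      rw [e2]
      simp only [hB, sub_self, abs_zero]
      positivity
    exact hc.continuousAt.eventually (gt_mem_nhds h0)
  obtain ⟨r₀, hr₀, hball⟩ := Metric.eventually_nhds_iff_ball.1 ev
  refine ⟨q, hqs, ?_, ?_, r₀, hr₀, ?_⟩
  · intro i j x
    rw [hq, pd_pd_quad i j _ _ _ hBs]
  · intro i x
    rw [hq, pd_quad i _ _ _ hBs]
  · have z1 : ∀ i, pd i (fun y => Z y - q y) x₀ = 0 := by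
      intro i
      rw [e1, hq, pd_quad i _ _ _ hBs]
      simp
    have z0 : Z x₀ - q x₀ = 0 := by
      rw [hq, quad]
      simp
    have b1 : ∀ x ∈ Metric.ball x₀ r₀, ∀ i, |pd i (fun y => Z y - q y) x| ≤ ε / 3 * ‖x - x₀‖ := by
      intro x hx i
      have := mvt_ball (smooth_diff (pd_contDiff i hg)) x₀ x (ε / 9) (z1 i) (by
        intro y hy j
        refine (hball y ?_ i j).le
        rw [Metric.mem_closedBall] at hy
        rw [Metric.mem_ball, dist_eq_norm] at hx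
        exact Metric.mem_ball.2 (lt_of_le_of_lt hy hx))
      refine this.trans (le_of_eq ?_)
      ring
    intro x hx
    refine ⟨?_, fun i => ?_, fun i j => ?_⟩
    · have h := mvt_ball (smooth_diff hg) x₀ x (ε / 3 * ‖x - x₀‖) z0 (by
        intro y hy j
        rw [Metric.mem_closedBall] at hy
        rw [Metric.mem_ball, dist_eq_norm] at hx
        refine (b1 y (Metric.mem_ball.2 (lt_of_le_of_lt hy hx)) j).trans ?_
        rw [dist_eq_norm] at hy
        gcongr)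
      refine h.trans (le_of_eq ?_)
      ring
    · refine (b1 x hx i).trans ?_
      have := norm_nonneg (x - x₀)
      nlinarith
    · refine (hball x hx i j).le.trans ?_
      linarith

/-- scalar flattening -/
theorem flat_scalar {Z : E3 → ℝ} (hZ : ContDiff ℝ ∞ Z) (x₀ : E3) (η : ℝ) (hη : 0 < η) :
    ∃ r₀ : ℝ, 0 < r₀ ∧ ∀ r, 0 < r → r < r₀ → ∃ ζ : E3 → ℝ, ContDiff ℝ ∞ ζ ∧
      (∀ x, x ∉ Metric.closedBall x₀ (3 * r / 4) → ζ x = 0) ∧
      (∀ x ∈ Metric.ball x₀ (r / 2), ∀ i j,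
        pd j (pd i Z) x + pd j (pd i ζ) x = pd j (pd i Z) x₀) ∧
      (∀ x ∈ Metric.ball x₀ (r / 2), ∀ i,
        pd i Z x + pd i ζ x = pd i Z x₀ + ∑ j, pd j (pd i Z) x₀ * (x j - x₀ j)) ∧
      (∀ x i, |pd i ζ x| ≤ η * r) ∧ (∀ x i j, |pd j (pd i ζ) x| ≤ η) := by
  obtain ⟨C, hC0, hC⟩ := exists_cutoff
  set ε := η / (1 + 3 * C) with hε
  have hε0 : 0 < ε := by positivity
  obtain ⟨q, hq, hqq, hq1, r₀, hr₀, hb⟩ := exists_rem hZ x₀ ε hε0
  refine ⟨r₀, hr₀, fun r hr hr' => ?_⟩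
  obtain ⟨θ, hθ, hθ1, hθ0, hθb, hθd, hθdd⟩ := hC x₀ r hr
  have hg : ContDiff ℝ ∞ (fun y => Z y - q y) := hZ.sub hq
  set g := fun y => Z y - q y with hgdef
  have hεη : ε * (1 + 3 * C) = η := by
    rw [hε]; field_simp
  have hεη' : ε ≤ η := by nlinarith
  have d1 : ∀ i, pd i (fun x => θ x * g x) = fun x => θ x * pd i g x + g x * pd i θ x :=
    fun i => pd_mul i (smooth_diff hθ) (smooth_diff hg)
  have d2 : ∀ i j, pd j (pd i (fun x => θ x * g x)) =
      fun x => (θ x * pd j (pd i g) x + pd i g x * pd j θ x) +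
        (g x * pd j (pd i θ) x + pd i θ x * pd j g x) := by
    intro i j
    have s1 : Differentiable ℝ (fun x => θ x * pd i g x) :=
      (smooth_diff hθ).mul (smooth_diff (pd_contDiff i hg))
    have s2 : Differentiable ℝ (fun x => g x * pd i θ x) :=
      (smooth_diff hg).mul (smooth_diff (pd_contDiff i hθ))
    rw [d1, pd_add j s1 s2, pd_mul j (smooth_diff hθ) (smooth_diff (pd_contDiff i hg)),
      pd_mul j (smooth_diff hg) (smooth_diff (pd_contDiff i hθ))]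
  have hζ : ContDiff ℝ ∞ (fun x => -(θ x * g x)) := (hθ.mul hg).neg
  have n1 : ∀ i, pd i (fun x => -(θ x * g x)) = fun x => -(pd i (fun x => θ x * g x) x) :=
    fun i => pd_neg i _
  have n2 : ∀ i j, pd j (pd i (fun x => -(θ x * g x))) =
      fun x => -(pd j (pd i (fun x => θ x * g x)) x) := by
    intro i j
    rw [n1, pd_neg]
  have hout : ∀ x, x ∉ Metric.closedBall x₀ (3 * r / 4) → (fun x => -(θ x * g x)) =ᶠ[𝓝 x] 0 := by
    intro x hx
    filter_upwards [Metric.isClosed_closedBall.isOpen_compl.mem_nhds hx] with y hy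
    have : θ y = 0 := hθ0 y hy
    simp [this]
  have hin : ∀ x, x ∈ Metric.closedBall x₀ (3 * r / 4) → ‖x - x₀‖ ≤ r ∧ x ∈ Metric.ball x₀ r₀ := by
    intro x hx
    rw [Metric.mem_closedBall, dist_eq_norm] at hx
    refine ⟨by linarith, ?_⟩
    rw [Metric.mem_ball, dist_eq_norm]
    linarith
  have bnd : ∀ x, x ∈ Metric.closedBall x₀ (3 * r / 4) → |g x| ≤ ε * r ^ 2 ∧
      (∀ i, |pd i g x| ≤ ε * r) ∧ (∀ i j, |pd j (pd i g) x| ≤ ε) := by
    intro x hx
    obtain ⟨h1, h2⟩ := hin x hx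
    obtain ⟨k1, k2, k3⟩ := hb x h2
    refine ⟨k1.trans ?_, fun i => (k2 i).trans ?_, k3⟩
    · gcongr
    · gcongr
  refine ⟨fun x => -(θ x * g x), hζ, ?_, ?_, ?_, ?_, ?_⟩
  · intro x hx
    exact (hout x hx).eq_of_nhds
  · intro x hx i j
    have heq : (fun x => -(θ x * g x)) =ᶠ[𝓝 x] fun x => -(g x) := by
      filter_upwards [Metric.isOpen_ball.mem_nhds hx] with y hy
      rw [hθ1 y hy, one_mul]
    have h1 := (pd_congr j (pd_congr i heq)).eq_of_nhds
    rw [h1]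
    have h2 : pd j (pd i (fun x => -(g x))) x = -(pd j (pd i g) x) := by
      have : pd i (fun x => -(g x)) = fun x => -(pd i g x) := pd_neg i g
      rw [this, pd_neg]
    rw [h2]
    have h3 : pd j (pd i g) x = pd j (pd i Z) x - pd j (pd i q) x := by
      have : pd i g = fun x => pd i Z x - pd i q x := pd_sub i (smooth_diff hZ) (smooth_diff hq)
      rw [this, pd_sub j (smooth_diff (pd_contDiff i hZ)) (smooth_diff (pd_contDiff i hq))]
    rw [h3, hqq i j x]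
    ring
  · intro x hx i
    have heq : (fun x => -(θ x * g x)) =ᶠ[𝓝 x] fun x => -(g x) := by
      filter_upwards [Metric.isOpen_ball.mem_nhds hx] with y hy
      rw [hθ1 y hy, one_mul]
    have h1 := (pd_congr i heq).eq_of_nhds
    rw [h1]
    have h2 : pd i (fun x => -(g x)) x = -(pd i g x) := congrFun (pd_neg i g) x
    rw [h2]
    have h3 : pd i g x = pd i Z x - pd i q x :=
      congrFun (pd_sub i (smooth_diff hZ) (smooth_diff hq)) x
    rw [h3, hq1 i x]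
    ring
  · intro x i
    by_cases hx : x ∈ Metric.closedBall x₀ (3 * r / 4)
    · obtain ⟨k1, k2, k3⟩ := bnd x hx
      rw [n1, d1]
      simp only
      rw [abs_neg]
      calc |θ x * pd i g x + g x * pd i θ x| ≤ |θ x * pd i g x| + |g x * pd i θ x| := abs_add_le _ _
        _ ≤ 1 * (ε * r) + (ε * r ^ 2) * (C / r) := by
          rw [abs_mul, abs_mul]
          gcongr
          · exact hθb x
          · exact k2 i
          · exact hθd x i
        _ = ε * (1 + C) * r := by field_simp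
        _ ≤ η * r := by
          gcongr
          nlinarith
    · have h := (pd_congr i (hout x hx)).eq_of_nhds
      rw [h, pd_zero]
      simp only [Pi.zero_apply, abs_zero]
      positivity
  · intro x i j
    by_cases hx : x ∈ Metric.closedBall x₀ (3 * r / 4)
    · obtain ⟨k1, k2, k3⟩ := bnd x hx
      rw [n2, d2]
      simp only
      rw [abs_neg]
      calc |θ x * pd j (pd i g) x + pd i g x * pd j θ x +
            (g x * pd j (pd i θ) x + pd i θ x * pd j g x)|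
          ≤ |θ x * pd j (pd i g) x| + |pd i g x * pd j θ x| +
            (|g x * pd j (pd i θ) x| + |pd i θ x * pd j g x|) :=
            (abs_add_le _ _).trans (add_le_add (abs_add_le _ _) (abs_add_le _ _))
        _ ≤ 1 * ε + (ε * r) * (C / r) + ((ε * r ^ 2) * (C / r ^ 2) + (C / r) * (ε * r)) := by
          rw [abs_mul, abs_mul, abs_mul, abs_mul]
          gcongr
          · exact hθb x
          · exact k3 i j
          · exact k2 i
          · exact hθd x j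
          · exact hθdd x i j
          · exact hθd x i
          · exact k2 j
        _ = ε * (1 + 3 * C) := by field_simp; ring
        _ = η := hεη
        _ ≤ η := le_rfl
    · have h := (pd_congr j (pd_congr i (hout x hx))).eq_of_nhds
      rw [h, pd_zero, pd_zero]
      simp only [Pi.zero_apply, abs_zero]
      positivity


/-- smooth extension of a germ -/
theorem globalize {Z : E3 → ℝ} {x₀ : E3} {ρ : ℝ} (hρ : 0 < ρ)
    (hZ : ContDiffOn ℝ ∞ Z (Metric.ball x₀ ρ)) :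
    ∃ Z' : E3 → ℝ, ContDiff ℝ ∞ Z' ∧ ∀ x ∈ Metric.ball x₀ (ρ / 2), Z' x = Z x := by
  obtain ⟨C, hC0, hC⟩ := exists_cutoff
  obtain ⟨θ, hθ, hθ1, hθ0, -, -, -⟩ := hC x₀ ρ hρ
  refine ⟨fun x => θ x * Z x, ?_, fun x hx => by simp only [hθ1 x hx, one_mul]⟩
  rw [contDiff_iff_contDiffAt]
  intro x
  by_cases hx : x ∈ Metric.closedBall x₀ (3 * ρ / 4)
  · have hx' : x ∈ Metric.ball x₀ ρ := by
      rw [Metric.mem_closedBall] at hx
      rw [Metric.mem_ball]
      linarith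
    exact hθ.contDiffAt.mul (hZ.contDiffAt (Metric.isOpen_ball.mem_nhds hx'))
  · have h : (fun x => θ x * Z x) =ᶠ[𝓝 x] fun _ => 0 := by
      filter_upwards [Metric.isClosed_closedBall.isOpen_compl.mem_nhds hx] with y hy
      have : θ y = 0 := hθ0 y hy
      simp [this]
    exact contDiffAt_const.congr_of_eventuallyEq h

theorem gradient_apply' (f : E3 → ℝ) (x : E3) (j : Fin 3) : (∇ f x) j = pd j f x := by
  have h : inner ℝ (∇ f x) (ee j) = fderiv ℝ f x (ee j) := by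
    rw [gradient, InnerProductSpace.toDual_symm_apply]
  rw [pd, ← h, ee, EuclideanSpace.inner_single_right]
  simp

theorem pt_apply (a b c : ℝ) : (pt a b c) 0 = a ∧ (pt a b c) 1 = b ∧ (pt a b c) 2 = c := by
  refine ⟨rfl, rfl, rfl⟩

theorem pt_contDiff {a b c : E3 → ℝ} (ha : ContDiff ℝ ∞ a) (hb : ContDiff ℝ ∞ b)
    (hc : ContDiff ℝ ∞ c) : ContDiff ℝ ∞ (fun x => pt (a x) (b x) (c x)) := by
  rw [contDiff_euclidean]
  intro i
  fin_cases i
  · exact ha
  · exact hb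
  · exact hc

theorem fderiv_apply_coord {Ξ : E3 → E3} {x : E3} (h : DifferentiableAt ℝ Ξ x) (y : E3)
    (j : Fin 3) : (fderiv ℝ Ξ x y) j = fderiv ℝ (fun z => Ξ z j) x y := by
  have h1 : HasFDerivAt (fun z => Ξ z j)
      ((EuclideanSpace.proj j : E3 →L[ℝ] ℝ).comp (fderiv ℝ Ξ x)) x :=
    (EuclideanSpace.proj j : E3 →L[ℝ] ℝ).hasFDerivAt.comp x h.hasFDerivAt
  rw [h1.fderiv]
  rfl

theorem norm_pt_le (a b c : ℝ) : ‖pt a b c‖ ≤ |a| + |b| + |c| := by
  have h : pt a b c = a • ee 0 + b • ee 1 + c • ee 2 := by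
    rw [sum_ee (pt a b c), Fin.sum_univ_three]
    rfl
  rw [h]
  refine (norm_add_le _ _).trans (add_le_add ((norm_add_le _ _).trans ?_) ?_)
  · rw [norm_smul, norm_smul, norm_ee, norm_ee, mul_one, mul_one]
    exact le_rfl
  · rw [norm_smul, norm_ee, mul_one]
    exact le_rfl

theorem dvg_eq {T : E3 → E3} (hT : Differentiable ℝ T) (x : E3) :
    dvg T x = ∑ i, pd i (fun z => T z i) x := by
  rw [dvg]
  exact Finset.sum_congr rfl fun i _ => fderiv_apply_coord (hT x) _ _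

/-- The perturbation fields generated by two compactly supported potentials. -/
theorem pert_fields (ζx ζy : E3 → ℝ) (hx : ContDiff ℝ ∞ ζx) (hy : ContDiff ℝ ∞ ζy) (x₀ : E3)
    (s : ℝ) (h0x : ∀ x, x ∉ Metric.closedBall x₀ s → ζx x = 0)
    (h0y : ∀ x, x ∉ Metric.closedBall x₀ s → ζy x = 0) (a b : ℝ)
    (bx1 : ∀ x i, |pd i ζx x| ≤ a) (by1 : ∀ x i, |pd i ζy x| ≤ a)
    (bx2 : ∀ x i j, |pd j (pd i ζx) x| ≤ b) (by2 : ∀ x i j, |pd j (pd i ζy) x| ≤ b) :
    ∃ (v : E3 → ℝ) (T : E3 → E3), ContDiff ℝ ∞ v ∧ ContDiff ℝ ∞ T ∧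
      (∀ x, x ∉ Metric.closedBall x₀ s → v x = 0 ∧ T x = 0) ∧
      (∀ x, |v x| ≤ 2 * a ∧ ‖∇ v x‖ ≤ 6 * b ∧ ‖T x‖ ≤ 6 * b) ∧
      LipschitzWith (6 * b).toNNReal v ∧ WDF T ∧
      (∀ x, fderiv ℝ v x (ee 2) = T x 2 ∧ dvg T x = 0) ∧
      (∀ x, v x = pd 1 ζx x - pd 0 ζy x) ∧
      (∀ x, T x 0 = pd 2 (pd 2 ζy) x ∧ T x 1 = -pd 2 (pd 2 ζx) x ∧
        T x 2 = pd 2 (pd 1 ζx) x - pd 2 (pd 0 ζy) x) := by
  have sx := fun i => pd_contDiff i hx
  have sy := fun i => pd_contDiff i hy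
  have sxx := fun i j => pd_contDiff j (sx i)
  have syy := fun i j => pd_contDiff j (sy i)
  have hv : ContDiff ℝ ∞ (fun x => pd 1 ζx x - pd 0 ζy x) := (sx 1).sub (sy 0)
  set v : E3 → ℝ := fun x => pd 1 ζx x - pd 0 ζy x with hvdef
  have hpv : ∀ j, pd j v = fun x => pd j (pd 1 ζx) x - pd j (pd 0 ζy) x :=
    fun j => pd_sub j (smooth_diff (sx 1)) (smooth_diff (sy 0))
  set T : E3 → E3 := fun x => pt (pd 2 (pd 2 ζy) x) (-pd 2 (pd 2 ζx) x) (pd 2 v x) with hTdef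
  have hT : ContDiff ℝ ∞ T := pt_contDiff (syy 2 2) (sxx 2 2).neg (pd_contDiff 2 hv)
  have hgv : ∀ x, ‖fderiv ℝ v x‖ ≤ 6 * b := by
    intro x
    refine (norm_fderiv_le_sum v x).trans ?_
    rw [Fin.sum_univ_three]
    have h : ∀ j, |pd j v x| ≤ 2 * b := by
      intro j
      rw [hpv]
      have h1 := abs_sub (pd j (pd 1 ζx) x) (pd j (pd 0 ζy) x)
      have h2 := bx2 x 1 j
      have h3 := by2 x 0 j
      simp only
      linarith
    have k0 := h 0
    have k1 := h 1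
    have k2 := h 2
    linarith
  have outx : ∀ x, x ∉ Metric.closedBall x₀ s → ζx =ᶠ[𝓝 x] 0 := by
    intro x hx
    filter_upwards [Metric.isClosed_closedBall.isOpen_compl.mem_nhds hx] with y hy
    exact h0x y hy
  have outy : ∀ x, x ∉ Metric.closedBall x₀ s → ζy =ᶠ[𝓝 x] 0 := by
    intro x hx
    filter_upwards [Metric.isClosed_closedBall.isOpen_compl.mem_nhds hx] with y hy
    exact h0y y hy
  have z1 : ∀ (f : E3 → ℝ) (x : E3), f =ᶠ[𝓝 x] 0 → ∀ i, pd i f =ᶠ[𝓝 x] 0 := by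
    intro f x h i
    have := pd_congr i h
    rwa [pd_zero] at this
  have hout : ∀ x, x ∉ Metric.closedBall x₀ s → v x = 0 ∧ T x = 0 := by
    intro x hx
    have a1 := (z1 ζx x (outx x hx) 1).eq_of_nhds
    have a2 := (z1 ζy x (outy x hx) 0).eq_of_nhds
    have b1 := (z1 _ x (z1 ζx x (outx x hx) 2) 2).eq_of_nhds
    have b2 := (z1 _ x (z1 ζy x (outy x hx) 2) 2).eq_of_nhds
    have b3 := (z1 _ x (z1 ζx x (outx x hx) 1) 2).eq_of_nhds
    have b4 := (z1 _ x (z1 ζy x (outy x hx) 0) 2).eq_of_nhds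
    simp only [Pi.zero_apply] at a1 a2 b1 b2 b3 b4
    constructor
    · simp only [hvdef, a1, a2, sub_zero]
    · simp only [hTdef, hpv, b1, b2, b3, b4, neg_zero, sub_zero]
      ext j
      fin_cases j <;> rfl
  have hΞ : ContDiff ℝ ∞ (fun x => pt (-pd 2 ζx x) (-pd 2 ζy x) 0) :=
    pt_contDiff (sx 2).neg (sy 2).neg contDiff_const
  set Ξ : E3 → E3 := fun x => pt (-pd 2 ζx x) (-pd 2 ζy x) 0 with hΞdef
  have hcurl : curlv Ξ = T := by
    funext x
    have hd : DifferentiableAt ℝ Ξ x := (hΞ.differentiable (by simp)) x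
    rw [curlv]
    simp only [fderiv_apply_coord hd]
    have f0 : (fun z => Ξ z 0) = fun z => -pd 2 ζx z := rfl
    have f1 : (fun z => Ξ z 1) = fun z => -pd 2 ζy z := rfl
    have f2 : (fun z => Ξ z 2) = fun _ => 0 := rfl
    rw [f0, f1, f2]
    have g0 : ∀ i, fderiv ℝ (fun z => -pd 2 ζx z) x (ee i) = -pd i (pd 2 ζx) x := by
      intro i
      have := congrFun (pd_neg i (pd 2 ζx)) x
      exact this
    have g1 : ∀ i, fderiv ℝ (fun z => -pd 2 ζy z) x (ee i) = -pd i (pd 2 ζy) x := by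
      intro i
      have := congrFun (pd_neg i (pd 2 ζy)) x
      exact this
    have g2 : ∀ i, fderiv ℝ (fun _ : E3 => (0 : ℝ)) x (ee i) = 0 := by
      intro i
      simp
    rw [g0, g0, g1, g1, g2, g2, hTdef]
    simp only [hpv]
    rw [pd_comm 1 2 hx, pd_comm 0 2 hy]
    congr 1 <;> ring
  have hdiv : ∀ x, dvg T x = 0 := by
    intro x
    rw [dvg_eq (hT.differentiable (by simp)), Fin.sum_univ_three]
    have f0 : (fun z => T z 0) = pd 2 (pd 2 ζy) := rfl
    have f1 : (fun z => T z 1) = fun z => -pd 2 (pd 2 ζx) z := rfl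
    have f2 : (fun z => T z 2) = pd 2 v := rfl
    rw [f0, f1, f2, pd_neg, hpv 2, pd_sub 2 (smooth_diff (sxx 1 2)) (smooth_diff (syy 0 2))]
    simp only
    have c1 : pd 0 (pd 2 (pd 2 ζy)) = pd 2 (pd 2 (pd 0 ζy)) := by
      rw [pd_comm 0 2 (sy 2), pd_comm 0 2 hy]
    have c2 : pd 1 (pd 2 (pd 2 ζx)) = pd 2 (pd 2 (pd 1 ζx)) := by
      rw [pd_comm 1 2 (sx 2), pd_comm 1 2 hx]
    rw [c1, c2]
    ring
  refine ⟨v, T, hv, hT, hout, ?_, ?_, ?_, fun x => ⟨rfl, hdiv x⟩, ?_, ?_⟩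
  · intro x
    refine ⟨?_, ?_, ?_⟩
    · have h1 := abs_sub (pd 1 ζx x) (pd 0 ζy x)
      have h2 := bx1 x 1
      have h3 := by1 x 0
      simp only [hvdef]
      linarith
    · rw [norm_gradient]
      exact hgv x
    · refine (norm_pt_le _ _ _).trans ?_
      have h1 := abs_sub (pd 2 (pd 1 ζx) x) (pd 2 (pd 0 ζy) x)
      have h2 := bx2 x 1 2
      have h3 := by2 x 0 2
      have h4 := bx2 x 2 2
      have h5 := by2 x 2 2
      have h6 : 0 ≤ b := (abs_nonneg _).trans h2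
      rw [abs_neg, hpv]
      simp only
      linarith
  · refine lipschitzWith_of_nnnorm_fderiv_le (smooth_diff hv) fun x => ?_
    rw [← NNReal.coe_le_coe, coe_nnnorm]
    exact (hgv x).trans (Real.le_coe_toNNReal _)
  · rw [← hcurl]
    have hcs : HasCompactSupport Ξ := by
      refine HasCompactSupport.intro (isCompact_closedBall x₀ s) fun x hx => ?_
      have a1 := (z1 ζx x (outx x hx) 2).eq_of_nhds
      have a2 := (z1 ζy x (outy x hx) 2).eq_of_nhds
      simp only [Pi.zero_apply] at a1 a2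
      simp only [hΞdef, a1, a2, neg_zero]
      ext j
      fin_cases j <;> rfl
    obtain ⟨K, hK⟩ := ContDiff.lipschitzWith_of_hasCompactSupport hcs hΞ (by simp)
    refine wdf_curl Ξ K hK (‖x₀‖ + |s|) fun x hx => ?_
    have hx' : x ∉ Metric.closedBall x₀ s := by
      intro h
      rw [Metric.mem_closedBall, dist_eq_norm] at h
      have h1 : ‖x‖ ≤ ‖x - x₀‖ + ‖x₀‖ := by
        have := norm_add_le (x - x₀) x₀
        rwa [sub_add_cancel] at this
      have h2 := le_abs_self s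
      linarith
    have a1 := (z1 ζx x (outx x hx') 2).eq_of_nhds
    have a2 := (z1 ζy x (outy x hx') 2).eq_of_nhds
    simp only [Pi.zero_apply] at a1 a2
    simp only [hΞdef, a1, a2, neg_zero]
    ext j
    fin_cases j <;> rfl
  · intro x
    rfl
  · intro x
    refine ⟨rfl, rfl, ?_⟩
    have : T x 2 = pd 2 v x := rfl
    rw [this, hpv]

end Flat

open Flat in
/-- ISO-b: flattening of a smooth solution of the model system near a point. -/
theorem flatten (Ω : Set E3) (w : E3 → ℝ) (J : E3 → E3) (hS : Sys Ω w J)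
    (a : E3) (ha : a ∈ Ω) (η : ℝ≥0) (hη : 0 < η) :
    ∃ r0 : ℝ, 0 < r0 ∧ ∀ r : ℝ, 0 < r → r < r0 → ∃ (v : E3 → ℝ) (T : E3 → E3),
      ContDiff ℝ ∞ v ∧ ContDiff ℝ ∞ T ∧ (∀ x, x ∉ Metric.ball a r → v x = 0 ∧ T x = 0) ∧
      LipschitzWith η v ∧ (∀ x, |v x| ≤ η) ∧ (∀ x, ‖T x‖ ≤ η) ∧ WDF T ∧
      (∀ x, fderiv ℝ v x (ee 2) = T x 2) ∧ (∀ x, dvg T x = 0) ∧
      ∀ x ∈ Metric.ball a (r / 2), w x + v x = w a + inner ℝ (∇ w a) (x - a) ∧
        J x + T x = J a := by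
  obtain ⟨ρ, hρ, hρΩ, Zx, Zy, sx, sy, hZ⟩ :=
    local_potential_global hS.op hS.hw hS.hJ hS.h2 hS.hd ha
  have hη0 : (0 : ℝ) < η := hη
  have hη6 : (0 : ℝ) < η / 6 := by positivity
  obtain ⟨r1, hr1, h1⟩ := flat_scalar sx a (η / 6) hη6
  obtain ⟨r2, hr2, h2⟩ := flat_scalar sy a (η / 6) hη6
  refine ⟨min (min r1 r2) (min ρ 1), by positivity, fun r hr hr' => ?_⟩
  have k1 : r < r1 := hr'.trans_le ((min_le_left _ _).trans (min_le_left _ _))
  have k2 : r < r2 := hr'.trans_le ((min_le_left _ _).trans (min_le_right _ _))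
  have k3 : r < ρ := hr'.trans_le ((min_le_right _ _).trans (min_le_left _ _))
  have k4 : r < 1 := hr'.trans_le ((min_le_right _ _).trans (min_le_right _ _))
  obtain ⟨ζx, cx, ox, x2, x1, bx1, bx2⟩ := h1 r hr k1
  obtain ⟨ζy, cy, oy, y2, y1, by1, by2⟩ := h2 r hr k2
  have hle : η / 6 * r ≤ (η : ℝ) / 6 := by nlinarith
  obtain ⟨v, T, sv, sT, hout, hb, hlip, hwdf, hvT, hpv, hT⟩ := pert_fields ζx ζy cx cy a
    (3 * r / 4) ox oy (η / 6) (η / 6) (fun x i => (bx1 x i).trans hle)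
    (fun x i => (by1 x i).trans hle) bx2 by2
  have ha' : a ∈ Metric.ball a ρ := Metric.mem_ball_self hρ
  have hsub : ∀ x ∈ Metric.ball a (r / 2), x ∈ Metric.ball a ρ := fun x hx =>
    Metric.ball_subset_ball (by linarith) hx
  have hpw : pw Zx Zy = fun x => pd 1 Zx x - pd 0 Zy x := rfl
  have hpdpw : ∀ j, pd j (pw Zx Zy) = fun x => pd j (pd 1 Zx) x - pd j (pd 0 Zy) x := fun j =>
    pd_sub j (smooth_diff (pd_contDiff 1 sx)) (smooth_diff (pd_contDiff 0 sy))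
  have hev : w =ᶠ[𝓝 a] pw Zx Zy := by
    filter_upwards [Metric.isOpen_ball.mem_nhds ha'] with y hy
    exact (hZ y hy).1
  have hpdw : ∀ j, pd j w a = pd j (pd 1 Zx) a - pd j (pd 0 Zy) a := by
    intro j
    rw [(pd_congr j hev).eq_of_nhds, hpdpw]
  have hin : ∀ x : E3, inner ℝ (∇ w a) (x - a) =
      ∑ j, (pd j (pd 1 Zx) a - pd j (pd 0 Zy) a) * (x j - a j) := by
    intro x
    have e : inner ℝ (∇ w a) (x - a) = fderiv ℝ w a (x - a) := by
      rw [gradient, InnerProductSpace.toDual_symm_apply]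
    rw [e, fderiv_eq_sum]
    refine Finset.sum_congr rfl fun j _ => ?_
    rw [hpdw j, mul_comm]
    rfl
  have hJc : ∀ x ∈ Metric.ball a ρ, J x 0 = pd 2 (pd 2 Zy) x ∧ J x 1 = -pd 2 (pd 2 Zx) x ∧
      J x 2 = pd 2 (pd 1 Zx) x - pd 2 (pd 0 Zy) x := by
    intro x hx
    have h := (hZ x hx).2
    refine ⟨?_, ?_, ?_⟩
    · rw [h]; rfl
    · rw [h]; rfl
    · rw [h]
      exact congrFun (hpdpw 2) x
  refine ⟨v, T, sv, sT, ?_, ?_, ?_, ?_, hwdf, fun x => (hvT x).1, fun x => (hvT x).2, ?_⟩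
  · intro x hx
    refine hout x fun h => hx ?_
    rw [Metric.mem_closedBall] at h
    rw [Metric.mem_ball]
    linarith
  · have e : (6 * ((η : ℝ) / 6)).toNNReal = η := by
      rw [mul_div_cancel₀ _ (by norm_num : (6 : ℝ) ≠ 0), Real.toNNReal_coe]
    rwa [e] at hlip
  · intro x
    have h := (hb x).1
    linarith
  · intro x
    have h := (hb x).2.2
    linarith
  · intro x hx
    obtain ⟨j0, j1, j2⟩ := hJc x (hsub x hx)
    obtain ⟨a0, a1, a2⟩ := hJc a ha'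
    obtain ⟨t0, t1, t2⟩ := hT x
    constructor
    · have e1 : w x = pd 1 Zx x - pd 0 Zy x := (hZ x (hsub x hx)).1
      have e2 : w a = pd 1 Zx a - pd 0 Zy a := (hZ a ha').1
      have e3 := x1 x hx 1
      have e4 := y1 x hx 0
      rw [hin x, hpv x, e1, e2]
      simp only [sub_mul, Finset.sum_sub_distrib]
      linarith
    · have e0 := y2 x hx 2 2
      have e1 := x2 x hx 2 2
      have e2 := x2 x hx 1 2
      have e3 := y2 x hx 0 2
      ext j
      fin_cases j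
      · show J x 0 + T x 0 = J a 0
        rw [j0, t0, a0]
        exact e0
      · show J x 1 + T x 1 = J a 1
        rw [j1, t1, a1]
        linarith
      · show J x 2 + T x 2 = J a 2
        rw [j2, t2, a2]
        linarith

end Crest.Agent.R083
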