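import Crest.Agent.R083.FrontF

/-!
Row 83, TM-c: the front lemma.
-/

set_option autoImplicit false

namespace Crest.Agent.R083

open MeasureTheory Set Filter
open scoped Gradient ENNReal NNReal Topology ContDiff

theorem fr_ok (D : CascData) (C0 c0 : ℝ) (hc0 : 0 < c0) : ∃ ρ0 : ℝ, ∀ ρ lam : ℝ, ρ0 ≤ ρ →
    1 ≤ lam → ∀ U : ℝ × ℝ → ℝ, ContDiffOn ℝ ∞ U hp →
      (∀ q : ℝ × ℝ, 0 < q.1 →
        fderiv ℝ (fun q => fderiv ℝ U q (1, 0)) q (1, 0) +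
          lam * fderiv ℝ (fun q => fderiv ℝ U q (0, 1)) q (0, 1) = 0) →
      (∀ σ, 0 < σ → fderiv ℝ U (σ, 0) (0, 1) = 0 ∧ fderiv ℝ U (σ, 1) (0, 1) = 0) →
      (∀ σ, 0 < σ → ∫ x in (0:ℝ)..1, U (σ, x) = 0) →
      (∀ σ x, 1 / 2 ≤ σ → σ ≤ 5 / 8 → 0 ≤ x → x ≤ 1 →
        |U (σ, x)| ≤ C0 * Real.exp (-ρ * σ) ∧
        |fderiv ℝ U (σ, x) (1, 0)| ≤ C0 * ρ * Real.exp (-ρ * σ)) →
      (∀ σ x, 0 < σ → σ ≤ 1 / 2 → 0 ≤ x → x ≤ 1 →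
        c0 * Real.exp (-ρ * σ) * Real.sin (Real.pi * x) ≤ |fderiv ℝ U (σ, x) (0, 1)|) →
      FrOK D U lam (Real.exp (-(27 / 64 * ρ))) := by
  -- lower bound of the first amplitude
  obtain ⟨um, hum, hum'⟩ : ∃ um : ℝ, 0 < um ∧ ∀ σ ∈ Icc (1 / 2 : ℝ) (5 / 8), um ≤ D.u 1 σ := by
    obtain ⟨s, hs, hmin⟩ := (isCompact_Icc (a := (1 / 2 : ℝ)) (b := 5 / 8)).exists_isMinOn
      ⟨1 / 2, by norm_num, by norm_num⟩ ((D.us 1).continuous.continuousOn)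
    refine ⟨D.u 1 s, D.pos 1 s ?_ ?_, fun σ hσ => hmin hσ⟩
    · rw [ff_tau1]; linarith [hs.2]
    · rw [ff_tau1]; linarith [hs.1]
  obtain ⟨X1, hX1⟩ := (isCompact_Icc (a := (1 / 2 : ℝ)) (b := 5 / 8)).exists_bound_of_continuousOn
    (cut0_deriv_smooth.continuous.continuousOn)
  obtain ⟨X2, hX2⟩ := (isCompact_Icc (a := (1 / 2 : ℝ)) (b := 5 / 8)).exists_bound_of_continuousOn
    (cut0_deriv2_smooth.continuous.continuousOn)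
  have hr := FrOK.rpos (D := D)
  obtain ⟨ρ0, hρ01, hρ0⟩ := fe_amp (min D.r0 1 / 100) (D.Cd * nk 1) c0 um (2 * X1 * C0) (X2 * C0)
    (by positivity) hc0 hum
  refine ⟨ρ0, fun ρ lam hρ hlam U hU hpde hwall hmean hup hlow => ?_⟩
  obtain ⟨hA1, hA2⟩ := hρ0 ρ hρ
  set A := Real.exp (-(27 / 64 * ρ)) with hAdef
  have hA : 0 < A := Real.exp_pos _
  have hρ1 : 0 ≤ ρ := by linarith
  have hC0 : 0 ≤ C0 := by
    have h1 := (hup (1 / 2) 0 le_rfl (by norm_num) le_rfl zero_le_one).1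
    have h2 := (abs_nonneg _).trans h1
    by_contra hcon
    have := mul_neg_of_neg_of_pos (not_le.1 hcon) (Real.exp_pos (-ρ * (1 / 2)))
    linarith
  have hX10 : 0 ≤ X1 := (norm_nonneg _).trans (hX1 (1 / 2) ⟨le_rfl, by norm_num⟩)
  have hX20 : 0 ≤ X2 := (norm_nonneg _).trans (hX2 (1 / 2) ⟨le_rfl, by norm_num⟩)
  refine ⟨hA, hlam, hU, hpde, hwall, hmean, ?_, ?_, ?_⟩
  · intro σ x hσ hx0 hx1
    by_cases hb : tauk 1 σ ≤ 7 ∨ 8 ≤ tauk 1 σ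
    · rw [D.bb_zero 1 σ hb, abs_zero]
      simp only [mul_zero, zero_mul]
      positivity
    · push Not at hb
      rw [ff_tau1] at hb
      have h1 : σ ≤ 11 / 32 := by linarith [hb.1]
      rw [cut0_one σ (by linarith), one_mul]
      have hsin : 0 ≤ Real.sin (Real.pi * x) := by
        apply Real.sin_nonneg_of_nonneg_of_le_pi
        · have := Real.pi_pos; positivity
        · have := Real.pi_pos; nlinarith
      have hlow' := hlow σ x hσ (by linarith) hx0 hx1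
      have hbb : |D.bb 1 σ| ≤ D.Cd * nk 1 := by
        refine (D.bb_abs 1 σ).trans ?_
        refine ((D.decay 1 σ).2.2).trans ?_
        have := mul_nonneg D.Cd_nonneg (nk_pos 1).le
        nlinarith
      have hexp : Real.exp (-ρ * (11 / 32)) ≤ Real.exp (-ρ * σ) := by
        apply Real.exp_le_exp.2
        nlinarith
      rw [abs_of_nonneg hsin]
      calc A * |D.bb 1 σ| * Real.sin (Real.pi * x)
          ≤ A * (D.Cd * nk 1) * Real.sin (Real.pi * x) := by gcongr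
        _ ≤ (min D.r0 1 / 100 * c0 * Real.exp (-ρ * (11 / 32))) * Real.sin (Real.pi * x) := by
            gcongr
        _ ≤ (min D.r0 1 / 100 * c0 * Real.exp (-ρ * σ)) * Real.sin (Real.pi * x) := by
            gcongr
        _ = min D.r0 1 / 100 * (c0 * Real.exp (-ρ * σ) * Real.sin (Real.pi * x)) := by ring
        _ ≤ _ := by gcongr
  · intro σ x hσ hx0 hx1
    have hu := D.nonneg 1 σ
    by_cases hb : σ ≤ 1 / 2 ∨ 5 / 8 ≤ σ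
    · rw [bz_zero U (σ, x) hb, abs_zero]
      positivity
    · push Not at hb
      have hmem : σ ∈ Icc (1 / 2 : ℝ) (5 / 8) := ⟨hb.1.le, hb.2.le⟩
      obtain ⟨u1, u2⟩ := hup σ x hb.1.le hb.2.le hx0 hx1
      have x1 : |deriv cut0 σ| ≤ X1 := hX1 σ hmem
      have x2 : |deriv (deriv cut0) σ| ≤ X2 := hX2 σ hmem
      have hexp : Real.exp (-ρ * σ) ≤ Real.exp (-ρ * (1 / 2)) := by
        apply Real.exp_le_exp.2
        nlinarith [hb.1]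
      have hb1 : |bz U (σ, x)| ≤ (2 * X1 * C0 * ρ + X2 * C0) * Real.exp (-ρ * (1 / 2)) := by
        unfold bz
        refine (abs_add_le _ _).trans ?_
        rw [abs_mul, abs_mul, abs_mul, abs_of_pos (by norm_num : (0:ℝ) < 2)]
        calc 2 * |deriv cut0 σ| * |fderiv ℝ U (σ, x) (1, 0)| +
              |deriv (deriv cut0) σ| * |U (σ, x)|
            ≤ 2 * X1 * (C0 * ρ * Real.exp (-ρ * σ)) + X2 * (C0 * Real.exp (-ρ * σ)) := by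
              gcongr
          _ ≤ 2 * X1 * (C0 * ρ * Real.exp (-ρ * (1 / 2))) +
              X2 * (C0 * Real.exp (-ρ * (1 / 2))) := by gcongr
          _ = _ := by ring
      refine hb1.trans (hA2.trans ?_)
      have := hum' σ hmem
      gcongr
  · intro σ x hσ hσ2 hx0 hx1 hne h0
    have hlow' := hlow σ x hσ hσ2 hx0 hx1
    rw [h0, abs_zero] at hlow'
    have hsin : 0 ≤ Real.sin (Real.pi * x) := by
      apply Real.sin_nonneg_of_nonneg_of_le_pi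
      · have := Real.pi_pos; positivity
      · have := Real.pi_pos; nlinarith
    have hpos : 0 < Real.sin (Real.pi * x) := lt_of_le_of_ne hsin (Ne.symm hne)
    have : 0 < c0 * Real.exp (-ρ * σ) * Real.sin (Real.pi * x) := by positivity
    linarith

/-- Front lemma (TM-c). -/
theorem front (C0 c0 : ℝ) (hc0 : 0 < c0) : ∃ ρ0 : ℝ, ∀ ρ lam : ℝ, ρ0 ≤ ρ → 1 ≤ lam →
    ∀ U : ℝ × ℝ → ℝ, ContDiffOn ℝ ∞ U {q | 0 < q.1} →
      (∀ q : ℝ × ℝ, 0 < q.1 → 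
        fderiv ℝ (fun q => fderiv ℝ U q (1, 0)) q (1, 0) +
          lam * fderiv ℝ (fun q => fderiv ℝ U q (0, 1)) q (0, 1) = 0) →
      (∀ σ, 0 < σ → fderiv ℝ U (σ, 0) (0, 1) = 0 ∧ fderiv ℝ U (σ, 1) (0, 1) = 0) →
      (∀ σ, 0 < σ → ∫ x in (0:ℝ)..1, U (σ, x) = 0) →
      (∀ σ x, 1 / 2 ≤ σ → σ ≤ 5 / 8 → 0 ≤ x → x ≤ 1 → 
        |U (σ, x)| ≤ C0 * Real.exp (-ρ * σ) ∧ 
        |fderiv ℝ U (σ, x) (1, 0)| ≤ C0 * ρ * Real.exp (-ρ * σ)) →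
      (∀ σ x, 0 < σ → σ ≤ 1 / 2 → 0 ≤ x → x ≤ 1 →
        c0 * Real.exp (-ρ * σ) * Real.sin (Real.pi * x) ≤ |fderiv ℝ U (σ, x) (0, 1)|) →
    ∃ (δ N : ℝ) (w : E3 → ℝ) (J : E3 → E3), 0 < δ ∧
      ContDiffOn ℝ ∞ w {p | 0 < p 2 ∧ p 2 < 1} ∧
      ContDiffOn ℝ ∞ J {p | 0 < p 2 ∧ p 2 < 1} ∧
      (∀ p : E3, 0 < p 2 → p 2 < 1 → fderiv ℝ w p (ee 2) = J p 2 ∧ dvg J p = 0) ∧
      (∀ p : E3, 0 < p 2 → p 2 ≤ 1 / 4 → w p = U (p 2, p 0) ∧ 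
        J p = pt (lam * fderiv ℝ U (p 2, p 0) (0, 1)) 0 (fderiv ℝ U (p 2, p 0) (1, 0))) ∧
      (∀ p : E3, 0 ≤ p 0 → p 0 ≤ 1 → 0 ≤ p 1 → p 1 ≤ 1 → 0 < p 2 → p 2 < 1 →
        δ * ((∇ w p) 0 ^ 2 + (∇ w p) 1 ^ 2 + J p 0 ^ 2 + J p 1 ^ 2) ≤
          J p 0 * (∇ w p) 0 + J p 1 * (∇ w p) 1) ∧
      (∀ p : E3, 0 ≤ p 0 → p 0 ≤ 1 → 0 ≤ p 1 → p 1 ≤ 1 → 0 < p 2 → p 2 < 1 →
        (∇ w p) 0 = 0 → (∇ w p) 1 = 0 → 
          ∃ k : ℕ, Real.sin (Real.pi * 8 ^ k * p 0) = 0 ∨ Real.sin (Real.pi * 8 ^ k * p 1) = 0) ∧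
      -- no flux through the walls
      (∀ p : E3, 0 < p 2 → p 2 < 1 → (p 0 = 0 ∨ p 0 = 1) → J p 0 = 0) ∧
      (∀ p : E3, 0 < p 2 → p 2 < 1 → (p 1 = 0 ∨ p 1 = 1) → J p 1 = 0) ∧
      -- behaviour away from `p 2 = 0`
      (∀ p : E3, 0 ≤ p 0 → p 0 ≤ 1 → 0 ≤ p 1 → p 1 ≤ 1 → 1 / 4 ≤ p 2 → p 2 < 1 →
        ‖∇ w p‖ ≤ N ∧ ‖J p‖ ≤ N ∧ |w p| ≤ N * (1 - p 2)) ∧
      (∀ p : E3, 1 ≤ p 2 → w p = 0 ∧ J p = 0) ∧
      -- the vertical flux dies at the front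
      (∀ ε : ℝ, 0 < ε → ∃ s : ℝ, s < 1 ∧ ∀ p : E3, s ≤ p 2 → |J p 2| ≤ ε) := by
  obtain ⟨D⟩ := casc_exists
  obtain ⟨ρ0, hρ0⟩ := fr_ok D C0 c0 hc0
  refine ⟨ρ0, fun ρ lam hρ hlam U hU hpde hwall hmean hup hlow => ?_⟩
  have h := hρ0 ρ lam hρ hlam U hU hpde hwall hmean hup hlow
  set A := Real.exp (-(27 / 64 * ρ)) with hA
  obtain ⟨N, hN⟩ := h.bounds
  have hr := FrOK.rpos (D := D)
  obtain ⟨⟨f1, f2, f3⟩, _⟩ := fr_fld D U lam A h.sm h.pde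
  refine ⟨min D.r0 1 / 2 / (1 + 16 * (max (max D.R0 lam) 1) ^ 2), N, frW D U lam A,
    frJ D U lam A, by positivity, f1, f2, fun p a b => f3 p ⟨a, b⟩, fun p a b => h.lowreg p a b,
    fun p a b _ _ c d => h.ell p a b c d, fun p a b _ _ c d e f => h.zeros p a b c d e f,
    fun p a b c => h.wall0 p a b c, fun p a b c => h.wall1 p a b c,
    fun p a b _ _ c d => hN p a b c d, fun p a => h.out p a, fun ε hε => h.frontJ ε hε⟩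

end Crest.Agent.R083
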