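import Crest.Agent.R083.FrontDefs

/-!
Row 83, TM-c (front lemma): one mode is a smooth solution field.
-/

set_option autoImplicit false

namespace Crest.Agent.R083

open MeasureTheory Set Filter
open scoped Gradient ENNReal NNReal Topology ContDiff

/-- `p ↦ (p 2, p i)` as a continuous linear map. -/
noncomputable def fmL (i : Fin 3) : E3 →L[ℝ] ℝ × ℝ :=
  (EuclideanSpace.proj 2 : E3 →L[ℝ] ℝ).prod (EuclideanSpace.proj i : E3 →L[ℝ] ℝ)

theorem fmL_apply (i : Fin 3) (p : E3) : fmL i p = (p 2, p i) := rfl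

/-- Coordinate as a continuous linear map. -/
noncomputable def fmC (i : Fin 3) : E3 →L[ℝ] ℝ :=
  (EuclideanSpace.proj i : E3 →L[ℝ] ℝ)

theorem fmC_apply (i : Fin 3) (p : E3) : fmC i p = p i := rfl

theorem fm_ee (i j : Fin 3) : (ee i : E3) j = if j = i then 1 else 0 := by
  simp [ee]

theorem fm_hasFDerivAt {F : ℝ × ℝ → ℝ} {i : Fin 3} {p : E3}
    (hF : DifferentiableAt ℝ F (p 2, p i)) :
    HasFDerivAt (fun p : E3 => F (p 2, p i)) ((fderiv ℝ F (p 2, p i)).comp (fmL i)) p :=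
  HasFDerivAt.comp (g := F) (f := fun p : E3 => (p 2, p i)) p hF.hasFDerivAt
    (fmL i).hasFDerivAt

theorem fm_contDiffOn {F : ℝ × ℝ → ℝ} {i : Fin 3} {S : Set (ℝ × ℝ)} (hF : ContDiffOn ℝ ∞ F S) :
    ContDiffOn ℝ ∞ (fun p : E3 => F (p 2, p i)) {p | (p 2, p i) ∈ S} :=
  hF.comp (s := {p : E3 | (p 2, p i) ∈ S}) (f := fun p : E3 => (p 2, p i))
    (fmL i).contDiff.contDiffOn (fun _ hp => hp)

theorem fm_open {i : Fin 3} {S : Set (ℝ × ℝ)} (hS : IsOpen S) :
    IsOpen {p : E3 | (p 2, p i) ∈ S} :=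
  hS.preimage (fmL i).continuous

theorem fm_diffAt {F : ℝ × ℝ → ℝ} {S : Set (ℝ × ℝ)} (hS : IsOpen S) (hF : ContDiffOn ℝ ∞ F S)
    {q : ℝ × ℝ} (hq : q ∈ S) : DifferentiableAt ℝ F q :=
  ((hF q hq).contDiffAt (hS.mem_nhds hq)).differentiableAt (by simp)

theorem fm_fderiv_contDiffOn {G : ℝ × ℝ → ℝ} {S : Set (ℝ × ℝ)} (hS : IsOpen S)
    (hG : ContDiffOn ℝ ∞ G S) (v : ℝ × ℝ) :
    ContDiffOn ℝ ∞ (fun q => fderiv ℝ G q v) S :=
  (hG.fderiv_of_isOpen hS (by simp)).clm_apply contDiffOn_const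

theorem mode_grad (M : ModeData) (hi : M.i = 0 ∨ M.i = 1) (p : E3)
    (hG : DifferentiableAt ℝ M.G (p 2, p M.i)) :
    fderiv ℝ M.w p (ee M.i) = fderiv ℝ M.G (p 2, p M.i) (0, 1) ∧
    fderiv ℝ M.w p (ee (oth M.i)) = 0 ∧
    fderiv ℝ M.w p (ee 2) = fderiv ℝ M.G (p 2, p M.i) (1, 0) := by
  have h : fderiv ℝ M.w p = (fderiv ℝ M.G (p 2, p M.i)).comp (fmL M.i) :=
    (fm_hasFDerivAt (i := M.i) hG).fderiv
  rw [h]
  simp only [ContinuousLinearMap.comp_apply, fmL_apply, fm_ee]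
  have h00 : ((0:ℝ), (0:ℝ)) = 0 := rfl
  rcases hi with hi | hi
  · rw [hi]; simp [oth, h00]
  · rw [hi]; simp [oth, h00]

theorem fm_sin2_deriv (m : ℝ) (o : Fin 3) (p : E3) :
    HasFDerivAt (fun p : E3 => 2 * Real.sin (m * p o) ^ 2)
      ((2 * (2 * Real.sin (m * p o) * (Real.cos (m * p o) * m))) • fmC o) p := by
  have h1 : HasFDerivAt (fun p : E3 => p o) (fmC o) p := (fmC o).hasFDerivAt
  have h2 : HasDerivAt (fun t : ℝ => 2 * Real.sin (m * t) ^ 2)
      (2 * (2 * Real.sin (m * p o) * (Real.cos (m * p o) * m))) (p o) := by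
    have h3 : HasDerivAt (fun t : ℝ => m * t) m (p o) := by
      simpa using (hasDerivAt_id (p o)).const_mul m
    have h4 := ((h3.sin).pow 2).const_mul 2
    simpa using h4
  exact HasDerivAt.comp_hasFDerivAt (h₂ := fun t : ℝ => 2 * Real.sin (m * t) ^ 2) p h2 h1

theorem fm_sinc_deriv (m : ℝ) (hm : m ≠ 0) (o : Fin 3) (p : E3) :
    HasFDerivAt (fun p : E3 => Real.sin (2 * m * p o) / (2 * m))
      ((Real.cos (2 * m * p o)) • fmC o) p := by
  have h1 : HasFDerivAt (fun p : E3 => p o) (fmC o) p := (fmC o).hasFDerivAt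
  have h2 : HasDerivAt (fun t : ℝ => Real.sin (2 * m * t) / (2 * m))
      (Real.cos (2 * m * p o)) (p o) := by
    have h3 : HasDerivAt (fun t : ℝ => 2 * m * t) (2 * m) (p o) := by
      simpa using (hasDerivAt_id (p o)).const_mul (2 * m)
    have h4 := (h3.sin).div_const (2 * m)
    refine h4.congr_deriv ?_
    field_simp
  exact h2.comp_hasFDerivAt p h1

theorem fm_contDiff_sin2 (m : ℝ) (o : Fin 3) :
    ContDiff ℝ ∞ (fun p : E3 => 2 * Real.sin (m * p o) ^ 2) := by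
  have h : ContDiff ℝ ∞ (fun p : E3 => p o) := (fmC o).contDiff
  exact contDiff_const.mul ((Real.contDiff_sin.comp (contDiff_const.mul h)).pow 2)

theorem fm_contDiff_sinc (m : ℝ) (o : Fin 3) :
    ContDiff ℝ ∞ (fun p : E3 => Real.sin (2 * m * p o) / (2 * m)) := by
  have h : ContDiff ℝ ∞ (fun p : E3 => p o) := (fmC o).contDiff
  exact (Real.contDiff_sin.comp (contDiff_const.mul h)).div_const _

theorem mode_field (M : ModeData) (hi : M.i = 0 ∨ M.i = 1) (S : Set (ℝ × ℝ)) (hS : IsOpen S)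
    (hm1 : M.m1 ≠ 0) (hm2 : M.m2 ≠ 0)
    (hG : ContDiffOn ℝ ∞ M.G S) (hK : ContDiffOn ℝ ∞ M.K S)
    (hb1 : ContDiffOn ℝ ∞ M.b1 S) (hB1 : ContDiffOn ℝ ∞ M.B1 S)
    (hb2 : ContDiffOn ℝ ∞ M.b2 S) (hB2 : ContDiffOn ℝ ∞ M.B2 S)
    (h1 : ∀ q ∈ S, fderiv ℝ M.B1 q (0, 1) = M.b1 q)
    (h2 : ∀ q ∈ S, fderiv ℝ M.B2 q (0, 1) = M.b2 q)
    (heq : ∀ q ∈ S, fderiv ℝ (fun q => fderiv ℝ M.G q (1, 0)) q (1, 0) +
      fderiv ℝ M.K q (0, 1) = M.b1 q + M.b2 q) :
    IsFld {p | (p 2, p M.i) ∈ S} M.w M.J := by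
  have hΩ : IsOpen {p : E3 | (p 2, p M.i) ∈ S} := fm_open hS
  have hGd := fm_fderiv_contDiffOn hS hG (1, 0)
  have cJi : ContDiffOn ℝ ∞ M.Ji {p | (p 2, p M.i) ∈ S} :=
    ((fm_contDiffOn hK).sub ((fm_contDiff_sin2 M.m1 (oth M.i)).contDiffOn.mul
      (fm_contDiffOn hB1))).sub ((fm_contDiff_sin2 M.m2 (oth M.i)).contDiffOn.mul
      (fm_contDiffOn hB2))
  have cJo : ContDiffOn ℝ ∞ M.Jo {p | (p 2, p M.i) ∈ S} :=
    (((fm_contDiffOn hb1).mul (fm_contDiff_sinc M.m1 (oth M.i)).contDiffOn).neg).sub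
      ((fm_contDiffOn hb2).mul (fm_contDiff_sinc M.m2 (oth M.i)).contDiffOn)
  have cJ2 : ContDiffOn ℝ ∞ (fun p : E3 => fderiv ℝ M.G (p 2, p M.i) (1, 0))
      {p | (p 2, p M.i) ∈ S} := fm_contDiffOn hGd
  have cJ : ContDiffOn ℝ ∞ M.J {p | (p 2, p M.i) ∈ S} := by
    rw [contDiffOn_euclidean]
    intro j
    rcases hi with hi | hi
    · have hJ : ∀ p, M.J p = pt (M.Ji p) (M.Jo p) (fderiv ℝ M.G (p 2, p M.i) (1, 0)) := by
        intro p; unfold ModeData.J; rw [if_pos hi]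
      fin_cases j
      · exact cJi.congr fun p _ => by rw [hJ]; rfl
      · exact cJo.congr fun p _ => by rw [hJ]; rfl
      · exact cJ2.congr fun p _ => by rw [hJ]; rfl
    · have hJ : ∀ p, M.J p = pt (M.Jo p) (M.Ji p) (fderiv ℝ M.G (p 2, p M.i) (1, 0)) := by
        intro p; unfold ModeData.J; rw [if_neg (by rw [hi]; decide)]
      fin_cases j
      · exact cJo.congr fun p _ => by rw [hJ]; rfl
      · exact cJi.congr fun p _ => by rw [hJ]; rfl
      · exact cJ2.congr fun p _ => by rw [hJ]; rfl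
  have hJ2 : ∀ p, M.J p 2 = fderiv ℝ M.G (p 2, p M.i) (1, 0) := by
    intro p
    unfold ModeData.J
    split_ifs <;> rfl
  refine ⟨fm_contDiffOn hG, cJ, fun p hp => ⟨?_, ?_⟩⟩
  · rw [(mode_grad M hi p (fm_diffAt hS hG hp)).2.2, hJ2]
  · have hp' : (p 2, p M.i) ∈ S := hp
    have dJ : DifferentiableAt ℝ M.J p :=
      ((cJ p hp).contDiffAt (hΩ.mem_nhds hp)).differentiableAt (by simp)
    have hcomp : ∀ j : Fin 3, (fderiv ℝ M.J p (ee j)) j = fderiv ℝ (fun p => M.J p j) p (ee j) := by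
      intro j
      have h := ((fmC j).hasFDerivAt.comp p dJ.hasFDerivAt).fderiv
      have h' : fderiv ℝ (fun p => M.J p j) p = (fmC j).comp (fderiv ℝ M.J p) := h
      rw [h']; rfl
    -- derivative of the main component
    have eJi : fderiv ℝ M.Ji p (ee M.i) = fderiv ℝ M.K (p 2, p M.i) (0, 1) -
        2 * Real.sin (M.m1 * p (oth M.i)) ^ 2 * M.b1 (p 2, p M.i) -
        2 * Real.sin (M.m2 * p (oth M.i)) ^ 2 * M.b2 (p 2, p M.i) := by
      have d := ((fm_hasFDerivAt (i := M.i) (fm_diffAt hS hK hp')).sub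
        ((fm_sin2_deriv M.m1 (oth M.i) p).mul (fm_hasFDerivAt (i := M.i) (fm_diffAt hS hB1 hp')))).sub
        ((fm_sin2_deriv M.m2 (oth M.i) p).mul (fm_hasFDerivAt (i := M.i) (fm_diffAt hS hB2 hp')))
      have hd : fderiv ℝ M.Ji p = _ := d.fderiv
      rw [hd]
      rw [← h1 _ hp', ← h2 _ hp']
      have h00 : ((0:ℝ), (0:ℝ)) = 0 := rfl
      simp only [sub_apply, add_apply,
        smul_apply, ContinuousLinearMap.comp_apply, fmL_apply, fmC_apply,
        fm_ee, smul_eq_mul]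
      rcases hi with hi | hi
      · rw [hi]; simp [oth, h00]
      · rw [hi]; simp [oth, h00]
    have eJo : fderiv ℝ M.Jo p (ee (oth M.i)) =
        -(M.b1 (p 2, p M.i) * Real.cos (2 * M.m1 * p (oth M.i))) -
        M.b2 (p 2, p M.i) * Real.cos (2 * M.m2 * p (oth M.i)) := by
      have d := (((fm_hasFDerivAt (i := M.i) (fm_diffAt hS hb1 hp')).mul
          (fm_sinc_deriv M.m1 hm1 (oth M.i) p)).neg).sub
        ((fm_hasFDerivAt (i := M.i) (fm_diffAt hS hb2 hp')).mul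
          (fm_sinc_deriv M.m2 hm2 (oth M.i) p))
      have hd : fderiv ℝ M.Jo p = _ := d.fderiv
      rw [hd]
      have h00 : ((0:ℝ), (0:ℝ)) = 0 := rfl
      simp only [sub_apply, add_apply,
        neg_apply,
        smul_apply, ContinuousLinearMap.comp_apply, fmL_apply, fmC_apply,
        fm_ee, smul_eq_mul]
      rcases hi with hi | hi
      · rw [hi]; simp [oth, h00]
      · rw [hi]; simp [oth, h00]
    have eJ2 : fderiv ℝ (fun p : E3 => fderiv ℝ M.G (p 2, p M.i) (1, 0)) p (ee 2) =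
        fderiv ℝ (fun q => fderiv ℝ M.G q (1, 0)) (p 2, p M.i) (1, 0) := by
      rw [(fm_hasFDerivAt (i := M.i) (fm_diffAt hS hGd hp')).fderiv]
      simp only [ContinuousLinearMap.comp_apply, fmL_apply, fm_ee]
      rcases hi with hi | hi
      · rw [hi]; simp
      · rw [hi]; simp
    have key := heq _ hp'
    have t1 : 2 * Real.sin (M.m1 * p (oth M.i)) ^ 2 + Real.cos (2 * M.m1 * p (oth M.i)) = 1 := by
      rw [mul_assoc 2 M.m1, Real.cos_two_mul']
      have := Real.sin_sq_add_cos_sq (M.m1 * p (oth M.i))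
      linarith
    have t2 : 2 * Real.sin (M.m2 * p (oth M.i)) ^ 2 + Real.cos (2 * M.m2 * p (oth M.i)) = 1 := by
      rw [mul_assoc 2 M.m2, Real.cos_two_mul']
      have := Real.sin_sq_add_cos_sq (M.m2 * p (oth M.i))
      linarith
    have hsum : fderiv ℝ M.Ji p (ee M.i) + fderiv ℝ M.Jo p (ee (oth M.i)) +
        fderiv ℝ (fun p : E3 => fderiv ℝ M.G (p 2, p M.i) (1, 0)) p (ee 2) = 0 := by
      rw [eJi, eJo, eJ2]
      linear_combination key - M.b1 (p 2, p M.i) * t1 - M.b2 (p 2, p M.i) * t2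
    unfold dvg
    rw [Fin.sum_univ_three, hcomp, hcomp, hcomp]
    have hJ2f : (fun p => M.J p 2) = fun p : E3 => fderiv ℝ M.G (p 2, p M.i) (1, 0) :=
      funext hJ2
    rw [hJ2f]
    refine Eq.trans ?_ hsum
    rcases hi with hi | hi
    · have hJ0 : (fun p => M.J p 0) = M.Ji := by
        funext p; unfold ModeData.J; rw [if_pos hi]; rfl
      have hJ1 : (fun p => M.J p 1) = M.Jo := by
        funext p; unfold ModeData.J; rw [if_pos hi]; rfl
      rw [hJ0, hJ1]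
      have ho : oth M.i = 1 := by rw [hi]; rfl
      rw [ho]
      simp only [hi]
    · have hne : M.i ≠ 0 := by rw [hi]; decide
      have hJ0 : (fun p => M.J p 0) = M.Jo := by
        funext p; unfold ModeData.J; rw [if_neg hne]; rfl
      have hJ1 : (fun p => M.J p 1) = M.Ji := by
        funext p; unfold ModeData.J; rw [if_neg hne]; rfl
      rw [hJ0, hJ1]
      have ho : oth M.i = 0 := by rw [hi]; rfl
      rw [ho]
      simp only [hi]
      ring

end Crest.Agent.R083
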