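import Crest.Agent.R083.Prim

/-!
Row 83, TM-c: primitives in the second variable.
-/

set_option autoImplicit false

namespace Crest.Agent.R083

open MeasureTheory Set Filter
open scoped Gradient ENNReal NNReal Topology ContDiff

theorem fr_prim_smooth (b : ℝ × ℝ → ℝ) (hb : ContDiff ℝ ∞ b) :
    ContDiff ℝ ∞ (fun q : ℝ × ℝ => ∫ t in (0:ℝ)..q.2, b (q.1, t)) := by
  have h : (fun q : ℝ × ℝ => ∫ t in (0:ℝ)..q.2, b (q.1, t)) =
      fun q : ℝ × ℝ => q.2 * ∫ s in (0:ℝ)..1, b (q.1, s * q.2) := by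
    funext q
    have := intervalIntegral.smul_integral_comp_mul_right (a := (0:ℝ)) (b := 1)
      (fun t => b (q.1, t)) q.2
    simp only [zero_mul, one_mul, smul_eq_mul] at this
    exact this.symm
  rw [h]
  refine ContDiff.mul (by fun_prop) (contDiff_param (fun (q : ℝ × ℝ) (s : ℝ) => b (q.1, s * q.2)) ?_ 0 1)
  refine hb.comp ?_
  fun_prop

theorem fr_prim_deriv (b : ℝ × ℝ → ℝ) (hb : ContDiff ℝ ∞ b) (q : ℝ × ℝ) :
    fderiv ℝ (fun q : ℝ × ℝ => ∫ t in (0:ℝ)..q.2, b (q.1, t)) q (0, 1) = b q := by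
  set B : ℝ × ℝ → ℝ := fun q : ℝ × ℝ => ∫ t in (0:ℝ)..q.2, b (q.1, t) with hB
  have hBs : ContDiff ℝ ∞ B := fr_prim_smooth b hb
  have h1 : HasFDerivAt B (fderiv ℝ B q) q :=
    (hBs.differentiable (by simp)).differentiableAt.hasFDerivAt
  have h2 : HasDerivAt (fun t : ℝ => (q.1, t)) ((0:ℝ), (1:ℝ)) q.2 :=
    (hasDerivAt_const q.2 q.1).prodMk (hasDerivAt_id q.2)
  have h3 : HasDerivAt (fun t : ℝ => B (q.1, t)) (fderiv ℝ B q (0, 1)) q.2 :=
    HasFDerivAt.comp_hasDerivAt (x := q.2) (l := B) (f := fun t : ℝ => (q.1, t)) h1 h2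
  have hcont : Continuous fun t : ℝ => b (q.1, t) := by
    have := hb.continuous
    fun_prop
  have h4 : HasDerivAt (fun t : ℝ => B (q.1, t)) (b (q.1, q.2)) q.2 :=
    intervalIntegral.integral_hasDerivAt_right (hcont.intervalIntegrable _ _)
      (hcont.stronglyMeasurableAtFilter _ _) hcont.continuousAt
  exact h3.unique h4

end Crest.Agent.R083
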