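import Crest.Agent.R083.Cascade
import Crest.Agent.R083.FrontMode
import Crest.Agent.R083.FrontPrim

/-!
Row 83, TM-c (front lemma): the cascade modes.
-/

set_option autoImplicit false

namespace Crest.Agent.R083

open MeasureTheory Set Filter
open scoped Gradient ENNReal NNReal Topology ContDiff

/-! ### splitting of the coupling amplitude -/

/-- Birth part of the coupling amplitude. -/
noncomputable def CascData.bb (D : CascData) (k : ℕ) (σ : ℝ) : ℝ :=
  if 4 < tauk k σ then D.β k σ else 0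

/-- Death part of the coupling amplitude. -/
noncomputable def CascData.bd (D : CascData) (k : ℕ) (σ : ℝ) : ℝ :=
  if tauk k σ < 4 then D.β k σ else 0

theorem CascData.bb_add_bd (D : CascData) (k : ℕ) (σ : ℝ) : D.bb k σ + D.bd k σ = D.β k σ := by
  unfold CascData.bb CascData.bd
  rcases lt_trichotomy (tauk k σ) 4 with h | h | h
  · rw [if_neg (not_lt.2 h.le), if_pos h]; ring
  · rw [if_neg (by rw [h]; exact lt_irrefl _), if_neg (by rw [h]; exact lt_irrefl _)]
    rw [D.suppβ k σ]
    · ring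
    · rw [h]; norm_num
  · rw [if_pos h, if_neg (not_lt.2 h.le)]; ring

theorem tauk_continuous (k : ℕ) : Continuous (tauk k) := (tauk_contDiff k).continuous

theorem CascData.bb_smooth (D : CascData) (k : ℕ) : ContDiff ℝ ∞ (D.bb k) := by
  rw [contDiff_iff_contDiffAt]
  intro σ
  by_cases h : 9 / 16 < tauk k σ
  · have ev : D.bb k =ᶠ[𝓝 σ] D.β k := by
      filter_upwards [(tauk_continuous k).continuousAt.eventually (lt_mem_nhds h)] with s hs
      unfold CascData.bb
      split_ifs with h4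
      · rfl
      · rw [D.suppβ k s]
        rintro (h5 | h5)
        · linarith [h5.2]
        · linarith [h5.1, not_lt.1 h4]
    exact ((D.βs k).contDiffAt).congr_of_eventuallyEq ev
  · have h' : tauk k σ < 4 := by linarith [not_lt.1 h]
    have ev : D.bb k =ᶠ[𝓝 σ] fun _ => 0 := by
      filter_upwards [(tauk_continuous k).continuousAt.eventually (gt_mem_nhds h')] with s hs
      unfold CascData.bb
      rw [if_neg (not_lt.2 hs.le)]
    exact contDiffAt_const.congr_of_eventuallyEq ev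

theorem CascData.bd_smooth (D : CascData) (k : ℕ) : ContDiff ℝ ∞ (D.bd k) := by
  have h : D.bd k = fun σ => D.β k σ - D.bb k σ := by
    funext σ
    rw [← D.bb_add_bd k σ]; ring
  rw [h]
  exact (D.βs k).sub (D.bb_smooth k)

theorem CascData.bb_zero (D : CascData) (k : ℕ) (σ : ℝ) (h : tauk k σ ≤ 7 ∨ 8 ≤ tauk k σ) :
    D.bb k σ = 0 := by
  unfold CascData.bb
  split_ifs with h4
  · apply D.suppβ
    rintro (h5 | h5)
    · linarith [h5.2]
    · rcases h with h | h
      · linarith [h5.1]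
      · linarith [h5.2]
  · rfl

theorem CascData.bd_zero (D : CascData) (k : ℕ) (σ : ℝ)
    (h : tauk k σ ≤ 1 / 2 ∨ 9 / 16 ≤ tauk k σ) : D.bd k σ = 0 := by
  unfold CascData.bd
  split_ifs with h4
  · apply D.suppβ
    rintro (h5 | h5)
    · rcases h with h | h
      · linarith [h5.1]
      · linarith [h5.2]
    · linarith [h5.1]
  · rfl

theorem CascData.bb_abs (D : CascData) (k : ℕ) (σ : ℝ) : |D.bb k σ| ≤ |D.β k σ| := by
  unfold CascData.bb
  split_ifs
  · exact le_rfl
  · simp

theorem CascData.bd_abs (D : CascData) (k : ℕ) (σ : ℝ) : |D.bd k σ| ≤ |D.β k σ| := by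
  unfold CascData.bd
  split_ifs
  · exact le_rfl
  · simp

/-- Birth bound, valid everywhere. -/
theorem CascData.bb_birth (D : CascData) (k : ℕ) (hk : 1 ≤ k) (σ : ℝ) :
    |D.bb (k + 1) σ| ≤ D.r0 / 100 * nk k ^ 2 * D.u k σ := by
  by_cases h : tauk (k + 1) σ ≤ 7 ∨ 8 ≤ tauk (k + 1) σ
  · rw [D.bb_zero _ _ h, abs_zero]
    have := D.nonneg k σ
    have := D.r0pos
    positivity
  · push Not at h
    exact (D.bb_abs _ _).trans (D.birth k σ hk h.1.le h.2.le)

/-- Death bound, valid everywhere. -/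
theorem CascData.bd_death (D : CascData) (k : ℕ) (hk : 1 ≤ k) (σ : ℝ) :
    |D.bd k σ| ≤ D.r0 / 100 * nk (k + 1) ^ 2 * D.u (k + 1) σ := by
  by_cases h : tauk k σ ≤ 1 / 2 ∨ 9 / 16 ≤ tauk k σ
  · rw [D.bd_zero _ _ h, abs_zero]
    have := D.nonneg (k + 1) σ
    have := D.r0pos
    positivity
  · push Not at h
    exact (D.bd_abs _ _).trans (D.death k σ hk h.1.le h.2.le)

theorem CascData.alpha_zero (D : CascData) (k : ℕ) (σ : ℝ) (h : D.u k σ = 0) : D.α k σ = 0 := by
  have := D.ell k σ
  rw [h] at this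
  linarith [this.1, this.2]

theorem CascData.deriv_zero (D : CascData) (k : ℕ) (σ : ℝ) (h : D.u k σ = 0) :
    deriv (D.u k) σ = 0 := by
  apply IsLocalMin.deriv_eq_zero
  filter_upwards with s
  rw [h]
  exact D.nonneg k s

/-- Direction of the mode `k`. -/
def dirk (k : ℕ) : Fin 3 := if k % 2 = 0 then 0 else 1

theorem dirk_or (k : ℕ) : dirk k = 0 ∨ dirk k = 1 := by
  unfold dirk; split_ifs <;> simp

theorem oth_dirk (k : ℕ) : oth (dirk k) = dirk (k + 1) := by
  unfold dirk oth
  rcases Nat.mod_two_eq_zero_or_one k with h | h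
  · have h' : (k + 1) % 2 = 1 := by omega
    simp [h, h']
  · have h' : (k + 1) % 2 = 0 := by omega
    simp [h, h']

theorem oth_dirk_succ (k : ℕ) : oth (dirk (k + 1)) = dirk k := by
  unfold dirk oth
  rcases Nat.mod_two_eq_zero_or_one k with h | h
  · have h' : (k + 1) % 2 = 1 := by omega
    simp [h, h']
  · have h' : (k + 1) % 2 = 0 := by omega
    simp [h, h']

/-- The mode `k ≥ 1` of the cascade. -/
noncomputable def CascData.mode (D : CascData) (A : ℝ) (k : ℕ) : ModeData where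
  i := dirk k
  G q := A * D.u k q.1 * Real.cos (nk k * q.2)
  K q := -(A * D.α k q.1 * (Real.sin (nk k * q.2) / nk k))
  b1 q := A * D.bb k q.1 * Real.cos (nk k * q.2)
  B1 q := A * D.bb k q.1 * (Real.sin (nk k * q.2) / nk k)
  b2 q := A * D.bd k q.1 * Real.cos (nk k * q.2)
  B2 q := A * D.bd k q.1 * (Real.sin (nk k * q.2) / nk k)
  m1 := nk (k - 1)
  m2 := nk (k + 1)

/-- Partial derivatives of `f(σ) g(n x)`. -/
theorem fa_deriv (f g : ℝ → ℝ) (f' g' : ℝ) (q : ℝ × ℝ) (hf : HasDerivAt f f' q.1)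
    (hg : HasDerivAt g g' q.2) :
    HasFDerivAt (fun q : ℝ × ℝ => f q.1 * g q.2)
      ((f' * g q.2) • ContinuousLinearMap.fst ℝ ℝ ℝ +
        (f q.1 * g') • ContinuousLinearMap.snd ℝ ℝ ℝ) q := by
  have h1 : HasFDerivAt (fun q : ℝ × ℝ => f q.1) (f' • ContinuousLinearMap.fst ℝ ℝ ℝ) q :=
    hf.comp_hasFDerivAt q hasFDerivAt_fst
  have h2 : HasFDerivAt (fun q : ℝ × ℝ => g q.2) (g' • ContinuousLinearMap.snd ℝ ℝ ℝ) q :=
    hg.comp_hasFDerivAt q hasFDerivAt_snd
  refine (h1.mul h2).congr_fderiv ?_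
  ext
  · simp
    ring
  · simp

theorem fa_fst (f g : ℝ → ℝ) (q : ℝ × ℝ) (hf : DifferentiableAt ℝ f q.1)
    (hg : DifferentiableAt ℝ g q.2) :
    fderiv ℝ (fun q : ℝ × ℝ => f q.1 * g q.2) q (1, 0) = deriv f q.1 * g q.2 := by
  rw [(fa_deriv f g _ _ q hf.hasDerivAt hg.hasDerivAt).fderiv]
  simp

theorem fa_snd (f g : ℝ → ℝ) (q : ℝ × ℝ) (hf : DifferentiableAt ℝ f q.1)
    (hg : DifferentiableAt ℝ g q.2) :
    fderiv ℝ (fun q : ℝ × ℝ => f q.1 * g q.2) q (0, 1) = f q.1 * deriv g q.2 := by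
  rw [(fa_deriv f g _ _ q hf.hasDerivAt hg.hasDerivAt).fderiv]
  simp

theorem fa_cos (n x : ℝ) : HasDerivAt (fun x => Real.cos (n * x)) (-(n * Real.sin (n * x))) x := by
  have h1 : HasDerivAt (fun x : ℝ => n * x) n x := by
    simpa using (hasDerivAt_id x).const_mul n
  exact (h1.cos).congr_deriv (by ring)

theorem fa_sin (n x : ℝ) (hn : n ≠ 0) :
    HasDerivAt (fun x => Real.sin (n * x) / n) (Real.cos (n * x)) x := by
  have h1 : HasDerivAt (fun x : ℝ => n * x) n x := by
    simpa using (hasDerivAt_id x).const_mul n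
  exact (h1.sin.div_const n).congr_deriv (by field_simp)

namespace CascData

variable (D : CascData) (A : ℝ) (k : ℕ)

theorem mode_fst (q : ℝ × ℝ) :
    fderiv ℝ (D.mode A k).G q (1, 0) = A * deriv (D.u k) q.1 * Real.cos (nk k * q.2) := by
  have hu : DifferentiableAt ℝ (fun σ => A * D.u k σ) q.1 :=
    (((D.us k).differentiable (by simp)).differentiableAt).const_mul A
  have h := fa_fst (fun σ => A * D.u k σ) (fun x => Real.cos (nk k * x)) q hu
    (fa_cos _ _).differentiableAt
  rw [deriv_const_mul _ (((D.us k).differentiable (by simp)).differentiableAt)] at h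
  exact h

theorem mode_snd (q : ℝ × ℝ) :
    fderiv ℝ (D.mode A k).G q (0, 1) = -(A * D.u k q.1 * nk k * Real.sin (nk k * q.2)) := by
  have hu : DifferentiableAt ℝ (fun σ => A * D.u k σ) q.1 :=
    (((D.us k).differentiable (by simp)).differentiableAt).const_mul A
  have h := fa_snd (fun σ => A * D.u k σ) (fun x => Real.cos (nk k * x)) q hu
    (fa_cos _ _).differentiableAt
  rw [(fa_cos _ _).deriv] at h
  rw [show (D.mode A k).G = fun q : ℝ × ℝ => (fun σ => A * D.u k σ) q.1 *
    (fun x => Real.cos (nk k * x)) q.2 from rfl, h]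
  ring

theorem smooth_cos (n : ℝ) : ContDiff ℝ ∞ (fun q : ℝ × ℝ => Real.cos (n * q.2)) := by
  fun_prop

theorem smooth_sin (n : ℝ) : ContDiff ℝ ∞ (fun q : ℝ × ℝ => Real.sin (n * q.2) / n) := by
  fun_prop

theorem mode_isFld : IsFld univ (D.mode A k).w (D.mode A k).J := by
  have hn : nk k ≠ 0 := (nk_pos k).ne'
  have sfst (f : ℝ → ℝ) (hf : ContDiff ℝ ∞ f) : ContDiff ℝ ∞ (fun q : ℝ × ℝ => A * f q.1) :=
    contDiff_const.mul (hf.comp contDiff_fst)
  have hd (f : ℝ → ℝ) (hf : ContDiff ℝ ∞ f) (x : ℝ) : DifferentiableAt ℝ (fun s => A * f s) x :=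
    ((hf.differentiable (by simp)).differentiableAt).const_mul A
  have key := mode_field (D.mode A k) (dirk_or k) univ isOpen_univ (nk_pos (k - 1)).ne'
    (nk_pos (k + 1)).ne'
    ((sfst _ (D.us k)).mul (smooth_cos _)).contDiffOn
    ((sfst _ (D.αs k)).mul (smooth_sin _)).neg.contDiffOn
    ((sfst _ (D.bb_smooth k)).mul (smooth_cos _)).contDiffOn
    ((sfst _ (D.bb_smooth k)).mul (smooth_sin _)).contDiffOn
    ((sfst _ (D.bd_smooth k)).mul (smooth_cos _)).contDiffOn
    ((sfst _ (D.bd_smooth k)).mul (smooth_sin _)).contDiffOn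
    (fun q _ => by
      have h := fa_snd (fun σ => A * D.bb k σ) (fun x => Real.sin (nk k * x) / nk k) q
        (hd _ (D.bb_smooth k) _) (fa_sin _ _ hn).differentiableAt
      rw [(fa_sin _ _ hn).deriv] at h
      exact h)
    (fun q _ => by
      have h := fa_snd (fun σ => A * D.bd k σ) (fun x => Real.sin (nk k * x) / nk k) q
        (hd _ (D.bd_smooth k) _) (fa_sin _ _ hn).differentiableAt
      rw [(fa_sin _ _ hn).deriv] at h
      exact h)
    (fun q _ => by
      have e1 : (fun q => fderiv ℝ (D.mode A k).G q (1, 0)) =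
          fun q : ℝ × ℝ => (fun σ => A * deriv (D.u k) σ) q.1 *
            (fun x => Real.cos (nk k * x)) q.2 := by
        funext q; exact D.mode_fst A k q
      have hu' : ContDiff ℝ ∞ (deriv (D.u k)) := (D.us k).iterate_deriv 1
      have h1 := fa_fst (fun σ => A * deriv (D.u k) σ) (fun x => Real.cos (nk k * x)) q
        (hd _ hu' _) (fa_cos _ _).differentiableAt
      rw [deriv_const_mul _ ((hu'.differentiable (by simp)).differentiableAt), D.ode] at h1
      rw [e1, h1]
      have h2 := fa_snd (fun σ => -(A * D.α k σ)) (fun x => Real.sin (nk k * x) / nk k) q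
        (hd _ (D.αs k) _).neg (fa_sin _ _ hn).differentiableAt
      rw [(fa_sin _ _ hn).deriv] at h2
      have e2 : (D.mode A k).K = fun q : ℝ × ℝ => (fun σ => -(A * D.α k σ)) q.1 *
          (fun x => Real.sin (nk k * x) / nk k) q.2 := by
        funext q
        simp only [CascData.mode]
        ring
      rw [e2, h2]
      simp only [CascData.mode]
      rw [← D.bb_add_bd k q.1]
      ring)
  simpa using key

theorem mode_w (p : E3) : (D.mode A k).w p = A * D.u k (p 2) * Real.cos (nk k * p (dirk k)) := rfl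

end CascData

end Crest.Agent.R083
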