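import Crest.Agent.R083.FrontA

/-!
Row 83, TM-c (front lemma): the mode `0`.
-/

set_option autoImplicit false

namespace Crest.Agent.R083

open MeasureTheory Set Filter
open scoped Gradient ENNReal NNReal Topology ContDiff

/-- Cutoff of the mode `0`: equal to `1` for `σ ≤ 1/2` and to `0` for `σ ≥ 5/8`. -/
noncomputable def cut0 (σ : ℝ) : ℝ := 1 - Real.smoothTransition (8 * (σ - 1 / 2))

theorem cut0_smooth : ContDiff ℝ ∞ cut0 := by
  unfold cut0
  exact contDiff_const.sub (Real.smoothTransition.contDiff.comp (by fun_prop))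

theorem cut0_one (σ : ℝ) (h : σ ≤ 1 / 2) : cut0 σ = 1 := by
  unfold cut0
  rw [Real.smoothTransition.zero_of_nonpos (by linarith)]
  ring

theorem cut0_zero (σ : ℝ) (h : 5 / 8 ≤ σ) : cut0 σ = 0 := by
  unfold cut0
  rw [Real.smoothTransition.one_of_one_le (by linarith)]
  ring

theorem cut0_mem (σ : ℝ) : 0 ≤ cut0 σ ∧ cut0 σ ≤ 1 := by
  unfold cut0
  have h1 := Real.smoothTransition.nonneg (8 * (σ - 1 / 2))
  have h2 := Real.smoothTransition.le_one (8 * (σ - 1 / 2))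
  constructor <;> linarith

/-- A continuous function vanishing off `(1/2, 5/8)` except at the end points. -/
theorem fb_ends (f : ℝ → ℝ) (hf : Continuous f) (h1 : ∀ σ, σ < 1 / 2 → f σ = 0)
    (h2 : ∀ σ, 5 / 8 < σ → f σ = 0) (σ : ℝ) (h : σ ≤ 1 / 2 ∨ 5 / 8 ≤ σ) : f σ = 0 := by
  have hc : IsClosed {s | f s = 0} := isClosed_eq hf continuous_const
  rcases h with h | h
  · have : closure (Iio (1 / 2 : ℝ)) ⊆ {s | f s = 0} := closure_minimal (fun s hs => h1 s hs) hc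
    rw [closure_Iio] at this
    exact this h
  · have : closure (Ioi (5 / 8 : ℝ)) ⊆ {s | f s = 0} := closure_minimal (fun s hs => h2 s hs) hc
    rw [closure_Ioi] at this
    exact this h

theorem cut0_deriv_smooth : ContDiff ℝ ∞ (deriv cut0) := cut0_smooth.iterate_deriv 1

theorem cut0_deriv2_smooth : ContDiff ℝ ∞ (deriv (deriv cut0)) := cut0_smooth.iterate_deriv 2

theorem cut0_deriv_zero (σ : ℝ) (h : σ ≤ 1 / 2 ∨ 5 / 8 ≤ σ) : deriv cut0 σ = 0 := by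
  refine fb_ends _ cut0_deriv_smooth.continuous (fun s hs => ?_) (fun s hs => ?_) σ h
  · have : cut0 =ᶠ[𝓝 s] fun _ => 1 := by
      filter_upwards [gt_mem_nhds hs] with t ht
      exact cut0_one t ht.le
    rw [this.deriv_eq, deriv_const]
  · have : cut0 =ᶠ[𝓝 s] fun _ => 0 := by
      filter_upwards [lt_mem_nhds hs] with t ht
      exact cut0_zero t ht.le
    rw [this.deriv_eq, deriv_const]

theorem cut0_deriv2_zero (σ : ℝ) (h : σ ≤ 1 / 2 ∨ 5 / 8 ≤ σ) : deriv (deriv cut0) σ = 0 := by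
  refine fb_ends _ cut0_deriv2_smooth.continuous (fun s hs => ?_) (fun s hs => ?_) σ h
  · have : deriv cut0 =ᶠ[𝓝 s] fun _ => 0 := by
      filter_upwards [gt_mem_nhds hs] with t ht
      exact cut0_deriv_zero t (Or.inl (le_of_lt ht))
    rw [this.deriv_eq, deriv_const]
  · have : deriv cut0 =ᶠ[𝓝 s] fun _ => 0 := by
      filter_upwards [lt_mem_nhds hs] with t ht
      exact cut0_deriv_zero t (Or.inr (le_of_lt ht))
    rw [this.deriv_eq, deriv_const]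

/-- Source created by the cutoff. -/
noncomputable def bz (U : ℝ × ℝ → ℝ) (q : ℝ × ℝ) : ℝ :=
  2 * deriv cut0 q.1 * fderiv ℝ U q (1, 0) + deriv (deriv cut0) q.1 * U q

theorem bz_zero (U : ℝ × ℝ → ℝ) (q : ℝ × ℝ) (h : q.1 ≤ 1 / 2 ∨ 5 / 8 ≤ q.1) : bz U q = 0 := by
  unfold bz
  rw [cut0_deriv_zero _ h, cut0_deriv2_zero _ h]
  ring

/-- The right half plane. -/
def hp : Set (ℝ × ℝ) := {q | 0 < q.1}

theorem hp_open : IsOpen hp := isOpen_lt continuous_const continuous_fst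

theorem fb_partial (U : ℝ × ℝ → ℝ) (hU : ContDiffOn ℝ ∞ U hp) (v : ℝ × ℝ) :
    ContDiffOn ℝ ∞ (fun q => fderiv ℝ U q v) hp := by
  have h : ContDiffOn ℝ ∞ (fderiv ℝ U) hp :=
    ContDiffOn.fderiv_of_isOpen hU hp_open (by simp)
  exact h.clm_apply contDiffOn_const

theorem fb_at (U : ℝ × ℝ → ℝ) (hU : ContDiffOn ℝ ∞ U hp) (q : ℝ × ℝ) (hq : q ∈ hp) :
    DifferentiableAt ℝ U q :=
  (hU.contDiffAt (hp_open.mem_nhds hq)).differentiableAt (by simp)

theorem bz_smooth (U : ℝ × ℝ → ℝ) (hU : ContDiffOn ℝ ∞ U hp) : ContDiff ℝ ∞ (bz U) := by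
  rw [contDiff_iff_contDiffAt]
  intro q
  by_cases h : 0 < q.1
  · have hq : hp ∈ 𝓝 q := hp_open.mem_nhds h
    have s1 : ContDiffAt ℝ ∞ (fun q : ℝ × ℝ => deriv cut0 q.1) q :=
      (cut0_deriv_smooth.comp contDiff_fst).contDiffAt
    have s2 : ContDiffAt ℝ ∞ (fun q : ℝ × ℝ => deriv (deriv cut0) q.1) q :=
      (cut0_deriv2_smooth.comp contDiff_fst).contDiffAt
    exact ((contDiffAt_const.mul s1).mul ((fb_partial U hU (1, 0)).contDiffAt hq)).add
      (s2.mul (hU.contDiffAt hq))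
  · have h' : q.1 < 1 / 2 := by linarith [not_lt.1 h]
    have ev : bz U =ᶠ[𝓝 q] fun _ => 0 := by
      filter_upwards [continuous_fst.continuousAt.eventually (gt_mem_nhds h')] with s hs
      exact bz_zero U s (Or.inl hs.le)
    exact contDiffAt_const.congr_of_eventuallyEq ev

/-- Primitive of `bz` in the second variable. -/
noncomputable def Bz (U : ℝ × ℝ → ℝ) (q : ℝ × ℝ) : ℝ := ∫ t in (0:ℝ)..q.2, bz U (q.1, t)

theorem Bz_smooth (U : ℝ × ℝ → ℝ) (hU : ContDiffOn ℝ ∞ U hp) : ContDiff ℝ ∞ (Bz U) :=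
  fr_prim_smooth _ (bz_smooth U hU)

theorem Bz_zero (U : ℝ × ℝ → ℝ) (q : ℝ × ℝ) (h : q.1 ≤ 1 / 2 ∨ 5 / 8 ≤ q.1) : Bz U q = 0 := by
  unfold Bz
  have : ∀ t, bz U (q.1, t) = 0 := fun t => bz_zero U _ h
  simp [this]

theorem Bz_left (U : ℝ × ℝ → ℝ) (σ : ℝ) : Bz U (σ, 0) = 0 := by simp [Bz]

/-- The mode `0`. -/
noncomputable def mode0 (U : ℝ × ℝ → ℝ) (lam : ℝ) : ModeData where
  i := 0
  G q := cut0 q.1 * U q
  K q := lam * cut0 q.1 * fderiv ℝ U q (0, 1)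
  b1 := bz U
  B1 := Bz U
  b2 _ := 0
  B2 _ := 0
  m1 := nk 1
  m2 := 1

theorem fb_mul (f : ℝ → ℝ) (g : ℝ × ℝ → ℝ) (q : ℝ × ℝ) (hf : DifferentiableAt ℝ f q.1)
    (hg : DifferentiableAt ℝ g q) :
    fderiv ℝ (fun q : ℝ × ℝ => f q.1 * g q) q (1, 0) =
      deriv f q.1 * g q + f q.1 * fderiv ℝ g q (1, 0) ∧
    fderiv ℝ (fun q : ℝ × ℝ => f q.1 * g q) q (0, 1) = f q.1 * fderiv ℝ g q (0, 1) := by
  have h1 : HasFDerivAt (fun q : ℝ × ℝ => f q.1) (deriv f q.1 • ContinuousLinearMap.fst ℝ ℝ ℝ) q :=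
    hf.hasDerivAt.comp_hasFDerivAt q hasFDerivAt_fst
  have h : fderiv ℝ (fun q : ℝ × ℝ => f q.1 * g q) q = f q.1 • fderiv ℝ g q +
      g q • deriv f q.1 • ContinuousLinearMap.fst ℝ ℝ ℝ := (h1.mul hg.hasFDerivAt).fderiv
  constructor
  · rw [h]; simp; ring
  · rw [h]; simp

theorem mode0_fst (U : ℝ × ℝ → ℝ) (lam : ℝ) (q : ℝ × ℝ) (hU : DifferentiableAt ℝ U q) :
    fderiv ℝ (mode0 U lam).G q (1, 0) =
      deriv cut0 q.1 * U q + cut0 q.1 * fderiv ℝ U q (1, 0) :=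
  (fb_mul cut0 U q ((cut0_smooth.differentiable (by simp)).differentiableAt) hU).1

theorem mode0_snd (U : ℝ × ℝ → ℝ) (lam : ℝ) (q : ℝ × ℝ) (hU : DifferentiableAt ℝ U q) :
    fderiv ℝ (mode0 U lam).G q (0, 1) = cut0 q.1 * fderiv ℝ U q (0, 1) :=
  (fb_mul cut0 U q ((cut0_smooth.differentiable (by simp)).differentiableAt) hU).2

theorem mode0_isFld (U : ℝ × ℝ → ℝ) (lam : ℝ) (hU : ContDiffOn ℝ ∞ U hp)
    (hpde : ∀ q : ℝ × ℝ, 0 < q.1 → fderiv ℝ (fun q => fderiv ℝ U q (1, 0)) q (1, 0) +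
          lam * fderiv ℝ (fun q => fderiv ℝ U q (0, 1)) q (0, 1) = 0) :
    IsFld {p : E3 | 0 < p 2} (mode0 U lam).w (mode0 U lam).J := by
  have sc : ContDiffOn ℝ ∞ (fun q : ℝ × ℝ => cut0 q.1) hp :=
    (cut0_smooth.comp contDiff_fst).contDiffOn
  have dc (x : ℝ) : DifferentiableAt ℝ cut0 x :=
    (cut0_smooth.differentiable (by simp)).differentiableAt
  have dc' (x : ℝ) : DifferentiableAt ℝ (deriv cut0) x :=
    (cut0_deriv_smooth.differentiable (by simp)).differentiableAt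
  refine mode_field (mode0 U lam) (Or.inl rfl) hp hp_open (nk_pos 1).ne' one_ne_zero
    (sc.mul hU) ((contDiffOn_const.mul sc).mul (fb_partial U hU _))
    (bz_smooth U hU).contDiffOn (Bz_smooth U hU).contDiffOn contDiffOn_const contDiffOn_const
    (fun q _ => fr_prim_deriv _ (bz_smooth U hU) q) (fun q _ => by simp [mode0]) ?_
  intro q hq
  have e1 : (fun q => fderiv ℝ (mode0 U lam).G q (1, 0)) =ᶠ[𝓝 q]
      fun q => deriv cut0 q.1 * U q + cut0 q.1 * fderiv ℝ U q (1, 0) := by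
    filter_upwards [hp_open.mem_nhds hq] with s hs
    exact mode0_fst U lam s (fb_at U hU s hs)
  have d1 : DifferentiableAt ℝ U q := fb_at U hU q hq
  have d2 : DifferentiableAt ℝ (fun q => fderiv ℝ U q (1, 0)) q :=
    fb_at _ (fb_partial U hU (1, 0)) q hq
  have d3 : DifferentiableAt ℝ (fun q => fderiv ℝ U q (0, 1)) q :=
    fb_at _ (fb_partial U hU (0, 1)) q hq
  have m1 := fb_mul (deriv cut0) U q (dc' _) d1
  have m2 := fb_mul cut0 (fun q => fderiv ℝ U q (1, 0)) q (dc _) d2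
  have m3 := fb_mul (fun s => lam * cut0 s) (fun q => fderiv ℝ U q (0, 1)) q
    ((dc _).const_mul lam) d3
  have a1 : DifferentiableAt ℝ (fun q : ℝ × ℝ => deriv cut0 q.1 * U q) q :=
    ((dc' q.1).comp q differentiableAt_fst).mul d1
  have a2 : DifferentiableAt ℝ (fun q : ℝ × ℝ => cut0 q.1 * fderiv ℝ U q (1, 0)) q :=
    ((dc q.1).comp q differentiableAt_fst).mul d2
  rw [e1.fderiv_eq]
  have e2 : fderiv ℝ (fun q : ℝ × ℝ => deriv cut0 q.1 * U q + cut0 q.1 * fderiv ℝ U q (1, 0)) q =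
      fderiv ℝ (fun q : ℝ × ℝ => deriv cut0 q.1 * U q) q +
        fderiv ℝ (fun q : ℝ × ℝ => cut0 q.1 * fderiv ℝ U q (1, 0)) q := fderiv_add a1 a2
  rw [e2, add_apply, m1.1, m2.1]
  have e3 : (mode0 U lam).K = fun q : ℝ × ℝ => (fun s => lam * cut0 s) q.1 *
      (fun q => fderiv ℝ U q (0, 1)) q := rfl
  rw [e3, m3.2]
  have hp' := hpde q hq
  simp only [mode0, bz]
  linear_combination (cut0 q.1) * hp'

end Crest.Agent.R083
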