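import Crest.Agent.R083.FrontDefs

/-!
Row 83, TM-c (front lemma): locally finite sums of fields.
-/

set_option autoImplicit false

namespace Crest.Agent.R083

open MeasureTheory Set Filter
open scoped Gradient ENNReal NNReal Topology ContDiff

theorem fld_tsum (Ω : Set E3) (hΩ : IsOpen Ω) (w : ℕ → E3 → ℝ) (J : ℕ → E3 → E3)
    (h : ∀ j, IsFld Ω (w j) (J j))
    (hloc : ∀ p ∈ Ω, ∃ K : ℕ, ∀ᶠ q in 𝓝 p, ∀ j, K ≤ j → w j q = 0 ∧ J j q = 0) :
    IsFld Ω (fun p => ∑' j, w j p) (fun p => ∑' j, J j p) ∧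
    ∀ p ∈ Ω, ∃ K : ℕ, ∀ K', K ≤ K' →
      (∑' j, w j p = ∑ j ∈ Finset.range K', w j p) ∧
      (∑' j, J j p = ∑ j ∈ Finset.range K', J j p) ∧
      fderiv ℝ (fun p => ∑' j, w j p) p = ∑ j ∈ Finset.range K', fderiv ℝ (w j) p := by
  have evw : ∀ p ∈ Ω, ∃ K : ℕ, ∀ K', K ≤ K' →
      ((fun p => ∑' j, w j p) =ᶠ[𝓝 p] fun q => ∑ j ∈ Finset.range K', w j q) ∧
      ((fun p => ∑' j, J j p) =ᶠ[𝓝 p] fun q => ∑ j ∈ Finset.range K', J j q) := by
    intro p hp
    obtain ⟨K, hK⟩ := hloc p hp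
    refine ⟨K, fun K' hK' => ⟨?_, ?_⟩⟩
    · filter_upwards [hK] with q hq
      exact tsum_eq_sum (fun j hj => (hq j (hK'.trans (by simpa using hj))).1)
    · filter_upwards [hK] with q hq
      exact tsum_eq_sum (fun j hj => (hq j (hK'.trans (by simpa using hj))).2)
  have dw : ∀ p ∈ Ω, ∀ j, DifferentiableAt ℝ (w j) p := fun p hp j =>
    ((h j).1.contDiffAt (hΩ.mem_nhds hp)).differentiableAt (by simp)
  have dJ : ∀ p ∈ Ω, ∀ j, DifferentiableAt ℝ (J j) p := fun p hp j =>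
    ((h j).2.1.contDiffAt (hΩ.mem_nhds hp)).differentiableAt (by simp)
  have fw : ∀ p ∈ Ω, ∀ n, fderiv ℝ (fun q => ∑ j ∈ Finset.range n, w j q) p =
      ∑ j ∈ Finset.range n, fderiv ℝ (w j) p := fun p hp n =>
    fderiv_fun_sum (fun j _ => dw p hp j)
  have fJ : ∀ p ∈ Ω, ∀ n, fderiv ℝ (fun q => ∑ j ∈ Finset.range n, J j q) p =
      ∑ j ∈ Finset.range n, fderiv ℝ (J j) p := fun p hp n =>
    fderiv_fun_sum (fun j _ => dJ p hp j)
  refine ⟨⟨?_, ?_, ?_⟩, ?_⟩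
  · intro p hp
    obtain ⟨K, hK⟩ := evw p hp
    have : ContDiffAt ℝ ∞ (fun q => ∑ j ∈ Finset.range K, w j q) p :=
      ContDiffAt.sum (fun j _ => (h j).1.contDiffAt (hΩ.mem_nhds hp))
    exact (this.congr_of_eventuallyEq (hK K le_rfl).1).contDiffWithinAt
  · intro p hp
    obtain ⟨K, hK⟩ := evw p hp
    have : ContDiffAt ℝ ∞ (fun q => ∑ j ∈ Finset.range K, J j q) p :=
      ContDiffAt.sum (fun j _ => (h j).2.1.contDiffAt (hΩ.mem_nhds hp))
    exact (this.congr_of_eventuallyEq (hK K le_rfl).2).contDiffWithinAt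
  · intro p hp
    obtain ⟨K, hK⟩ := evw p hp
    obtain ⟨e1, e2⟩ := hK K le_rfl
    have e3 : (∑' j, J j p) = ∑ j ∈ Finset.range K, J j p := e2.self_of_nhds
    constructor
    · change fderiv ℝ (fun p => ∑' j, w j p) p (ee 2) = (∑' j, J j p) 2
      rw [e1.fderiv_eq, fw p hp K, e3, sum_apply]
      have : (∑ j ∈ Finset.range K, J j p) 2 = ∑ j ∈ Finset.range K, J j p 2 := by
        rw [WithLp.ofLp_sum, Finset.sum_apply]
      rw [this]
      exact Finset.sum_congr rfl fun j _ => ((h j).2.2 p hp).1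
    · unfold dvg
      rw [e2.fderiv_eq, fJ p hp K]
      have hd : ∀ j, ∑ i : Fin 3, (fderiv ℝ (J j) p (ee i)) i = 0 := fun j => ((h j).2.2 p hp).2
      have : ∀ i : Fin 3, ((∑ j ∈ Finset.range K, fderiv ℝ (J j) p) (ee i)) i =
          ∑ j ∈ Finset.range K, (fderiv ℝ (J j) p (ee i)) i := by
        intro i
        rw [sum_apply, WithLp.ofLp_sum, Finset.sum_apply]
      rw [Finset.sum_congr rfl fun i _ => this i, Finset.sum_comm]
      exact Finset.sum_eq_zero fun j _ => hd j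
  · intro p hp
    obtain ⟨K, hK⟩ := evw p hp
    refine ⟨K, fun K' hK' => ?_⟩
    obtain ⟨e1, e2⟩ := hK K' hK'
    refine ⟨e1.self_of_nhds, e2.self_of_nhds, ?_⟩
    rw [e1.fderiv_eq, fw p hp K']
end Crest.Agent.R083
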