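import Crest.Agent.R083.FrontEll

/-!
Row 83, TM-c (front lemma): two-mode ellipticity, real number form.
-/

set_option autoImplicit false

namespace Crest.Agent.R083

open MeasureTheory Set Filter
open scoped Gradient ENNReal NNReal Topology ContDiff

theorem ft_ratio (r0 R0 n u al : ℝ) (hr : r0 ≤ R0) (hn : 0 < n) (hu : 0 ≤ u)
    (h : r0 * n ^ 2 * u ≤ al ∧ al ≤ R0 * n ^ 2 * u) :
    ∃ r, (r0 ≤ r ∧ r ≤ R0) ∧ al = r * n ^ 2 * u := by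
  rcases hu.eq_or_lt with h0 | h0
  · refine ⟨r0, ⟨le_rfl, hr⟩, ?_⟩
    rw [← h0] at h ⊢
    linarith [h.1, h.2]
  · have hp : 0 < n ^ 2 * u := by positivity
    refine ⟨al / (n ^ 2 * u), ⟨?_, ?_⟩, ?_⟩
    · rw [le_div_iff₀ hp]; linarith [h.1]
    · rw [div_le_iff₀ hp]; linarith [h.2]
    · field_simp

/-- Two neighbouring cascade modes. -/
theorem ft_casc (r0 R0 A n1 n0 u1 u0 al1 al0 bb bd S1 C1 S0 C0 : ℝ) (hr0 : 0 < r0)
    (hr : r0 ≤ R0) (hA : 0 < A) (hn0 : 0 < n0) (hn : n1 = 8 * n0) (hu1 : 0 ≤ u1) (hu0 : 0 ≤ u0)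
    (ell1 : r0 * n1 ^ 2 * u1 ≤ al1 ∧ al1 ≤ R0 * n1 ^ 2 * u1)
    (ell0 : r0 * n0 ^ 2 * u0 ≤ al0 ∧ al0 ≤ R0 * n0 ^ 2 * u0)
    (hbb : |bb| ≤ r0 / 100 * n0 ^ 2 * u0) (hbd : |bd| ≤ r0 / 100 * n1 ^ 2 * u1)
    (hS1 : |S1| ≤ 1) (hC1 : |C1| ≤ 1) (hS0 : |S0| ≤ 1) (hC0 : |C0| ≤ 1)
    (P1 P2 J1 J2 : ℝ) (hP1 : P1 = -(A * u1 * n1 * S1)) (hP2 : P2 = -(A * u0 * n0 * S0))
    (hJ1 : J1 = -(A * al1 * (S1 / n1)) - 2 * S0 ^ 2 * (A * bb * (S1 / n1))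
      - A * bd * C0 * (S1 * C1 / n1))
    (hJ2 : J2 = -(A * al0 * (S0 / n0)) - 2 * S1 ^ 2 * (A * bd * (S0 / n0))
      - A * bb * C1 * (S0 * C0 / n0)) :
    r0 / 2 / (1 + 16 * R0 ^ 2) * (P1 ^ 2 + P2 ^ 2 + J1 ^ 2 + J2 ^ 2) ≤ J1 * P1 + J2 * P2 := by
  have hn1 : 0 < n1 := by rw [hn]; positivity
  obtain ⟨r1, hr1, e1⟩ := ft_ratio r0 R0 n1 u1 al1 hr hn1 hu1 ell1
  obtain ⟨r2, hr2, e2⟩ := ft_ratio r0 R0 n0 u0 al0 hr hn0 hu0 ell0
  have aS1 := abs_nonneg S1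
  have aS0 := abs_nonneg S0
  have aP1 : |P1| = A * u1 * n1 * |S1| := by
    rw [hP1, abs_neg, abs_mul, abs_of_nonneg (by positivity : 0 ≤ A * u1 * n1)]
  have aP2 : |P2| = A * u0 * n0 * |S0| := by
    rw [hP2, abs_neg, abs_mul, abs_of_nonneg (by positivity : 0 ≤ A * u0 * n0)]
  -- first line
  have d1 : J1 - r1 * P1 = -(2 * S0 ^ 2 * (A * bb * (S1 / n1))) - A * bd * C0 * (S1 * C1 / n1) := by
    rw [hJ1, hP1, e1]; field_simp; ring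
  have d2 : J2 - r2 * P2 = -(2 * S1 ^ 2 * (A * bd * (S0 / n0))) - A * bb * C1 * (S0 * C0 / n0) := by
    rw [hJ2, hP2, e2]; field_simp; ring
  have b1 : |2 * S0 ^ 2 * (A * bb * (S1 / n1))| ≤ r0 / 400 * (A * u0 * n0 * |S0|) := by
    have : |2 * S0 ^ 2 * (A * bb * (S1 / n1))| = 2 * |S0| * |S0| * (A * |bb| * (|S1| / n1)) := by
      rw [abs_mul, abs_mul, abs_mul, abs_mul, abs_div, abs_pow, abs_of_pos hA, abs_of_pos hn1,
        abs_of_pos (by norm_num : (0:ℝ) < 2)]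
      ring
    rw [this]
    calc 2 * |S0| * |S0| * (A * |bb| * (|S1| / n1))
        ≤ 2 * |S0| * 1 * (A * (r0 / 100 * n0 ^ 2 * u0) * (1 / n1)) := by gcongr
      _ = r0 / 400 * (A * u0 * n0 * |S0|) := by rw [hn]; field_simp; ring
  have b2 : |A * bd * C0 * (S1 * C1 / n1)| ≤ r0 / 100 * (A * u1 * n1 * |S1|) := by
    have : |A * bd * C0 * (S1 * C1 / n1)| = A * |bd| * |C0| * (|S1| * |C1| / n1) := by
      rw [abs_mul, abs_mul, abs_mul, abs_div, abs_mul, abs_of_pos hA, abs_of_pos hn1]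
    rw [this]
    calc A * |bd| * |C0| * (|S1| * |C1| / n1)
        ≤ A * (r0 / 100 * n1 ^ 2 * u1) * 1 * (|S1| * 1 / n1) := by gcongr
      _ = r0 / 100 * (A * u1 * n1 * |S1|) := by field_simp
  have b3 : |2 * S1 ^ 2 * (A * bd * (S0 / n0))| ≤ 16 * r0 / 100 * (A * u1 * n1 * |S1|) := by
    have : |2 * S1 ^ 2 * (A * bd * (S0 / n0))| = 2 * |S1| * |S1| * (A * |bd| * (|S0| / n0)) := by
      rw [abs_mul, abs_mul, abs_mul, abs_mul, abs_div, abs_pow, abs_of_pos hA, abs_of_pos hn0,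
        abs_of_pos (by norm_num : (0:ℝ) < 2)]
      ring
    rw [this]
    calc 2 * |S1| * |S1| * (A * |bd| * (|S0| / n0))
        ≤ 2 * |S1| * 1 * (A * (r0 / 100 * n1 ^ 2 * u1) * (1 / n0)) := by gcongr
      _ = 16 * r0 / 100 * (A * u1 * n1 * |S1|) := by rw [hn]; field_simp; ring
  have b4 : |A * bb * C1 * (S0 * C0 / n0)| ≤ r0 / 100 * (A * u0 * n0 * |S0|) := by
    have : |A * bb * C1 * (S0 * C0 / n0)| = A * |bb| * |C1| * (|S0| * |C0| / n0) := by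
      rw [abs_mul, abs_mul, abs_mul, abs_div, abs_mul, abs_of_pos hA, abs_of_pos hn0]
    rw [this]
    calc A * |bb| * |C1| * (|S0| * |C0| / n0)
        ≤ A * (r0 / 100 * n0 ^ 2 * u0) * 1 * (|S0| * 1 / n0) := by gcongr
      _ = r0 / 100 * (A * u0 * n0 * |S0|) := by field_simp
  have q1 : 0 ≤ A * u1 * n1 * |S1| := by positivity
  have q2 : 0 ≤ A * u0 * n0 * |S0| := by positivity
  refine fe_ell r0 R0 r1 r2 P1 P2 J1 J2 hr0 hr1 hr2 ?_ ?_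
  · rw [d1, aP1, aP2]
    calc _ ≤ |(2 * S0 ^ 2 * (A * bb * (S1 / n1)))| + |A * bd * C0 * (S1 * C1 / n1)| := by
          refine (abs_sub _ _).trans ?_
          rw [abs_neg]
      _ ≤ r0 / 400 * (A * u0 * n0 * |S0|) + r0 / 100 * (A * u1 * n1 * |S1|) := add_le_add b1 b2
      _ ≤ _ := by linarith [mul_nonneg hr0.le q1, mul_nonneg hr0.le q2]
  · rw [d2, aP1, aP2]
    calc _ ≤ |(2 * S1 ^ 2 * (A * bd * (S0 / n0)))| + |A * bb * C1 * (S0 * C0 / n0)| := by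
          refine (abs_sub _ _).trans ?_
          rw [abs_neg]
      _ ≤ 16 * r0 / 100 * (A * u1 * n1 * |S1|) + r0 / 100 * (A * u0 * n0 * |S0|) :=
          add_le_add b3 b4
      _ ≤ _ := by linarith [mul_nonneg hr0.le q1, mul_nonneg hr0.le q2]

/-- The first cascade mode (direction 1, wave number `n1`) and the mode `0` (direction 0). -/
theorem ft_zero (r0 R0 lam A n1 u1 al1 bb bz B Ux c S1 C1 sx cx : ℝ) (hr0 : 0 < r0)
    (hr : r0 ≤ R0) (hA : 0 < A) (hn1 : 1 ≤ n1) (hu1 : 0 ≤ u1) (hlam : r0 ≤ lam ∧ lam ≤ R0)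
    (ell1 : r0 * n1 ^ 2 * u1 ≤ al1 ∧ al1 ≤ R0 * n1 ^ 2 * u1)
    (hbb : A * |bb| * |sx| ≤ r0 / 100 * |c * Ux|)
    (hbz : |bz| ≤ r0 / 100 * A * u1) (hB : |B| ≤ r0 / 100 * A * u1)
    (hS1 : |S1| ≤ 1) (hC1 : |C1| ≤ 1) (hsx : |sx| ≤ 1) (hcx : |cx| ≤ 1)
    (P1 P2 J1 J2 : ℝ) (hP1 : P1 = -(A * u1 * n1 * S1)) (hP2 : P2 = c * Ux)
    (hJ1 : J1 = -(A * al1 * (S1 / n1)) - 2 * sx ^ 2 * (A * bb * (S1 / n1))
      - bz * (S1 * C1 / n1))
    (hJ2 : J2 = lam * (c * Ux) - 2 * S1 ^ 2 * B - A * bb * C1 * (sx * cx / Real.pi)) :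
    r0 / 2 / (1 + 16 * R0 ^ 2) * (P1 ^ 2 + P2 ^ 2 + J1 ^ 2 + J2 ^ 2) ≤ J1 * P1 + J2 * P2 := by
  have hn1' : 0 < n1 := by linarith
  obtain ⟨r1, hr1, e1⟩ := ft_ratio r0 R0 n1 u1 al1 hr hn1' hu1 ell1
  have aS1 := abs_nonneg S1
  have asx := abs_nonneg sx
  have aP1 : |P1| = A * u1 * n1 * |S1| := by
    rw [hP1, abs_neg, abs_mul, abs_of_nonneg (by positivity : 0 ≤ A * u1 * n1)]
  have q1 : 0 ≤ A * u1 * |S1| := by positivity
  have q1' : A * u1 * |S1| ≤ |P1| := by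
    rw [aP1]
    nlinarith
  have q2 : 0 ≤ |P2| := abs_nonneg _
  have q3 : 0 ≤ |P1| := abs_nonneg _
  have d1 : J1 - r1 * P1 = -(2 * sx ^ 2 * (A * bb * (S1 / n1))) - bz * (S1 * C1 / n1) := by
    rw [hJ1, hP1, e1]; field_simp; ring
  have d2 : J2 - lam * P2 = -(2 * S1 ^ 2 * B) - A * bb * C1 * (sx * cx / Real.pi) := by
    rw [hJ2, hP2]; ring
  have b1 : |2 * sx ^ 2 * (A * bb * (S1 / n1))| ≤ r0 / 50 * |P2| := by
    have : |2 * sx ^ 2 * (A * bb * (S1 / n1))| = 2 * |sx| * (A * |bb| * |sx|) * (|S1| / n1) := by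
      rw [abs_mul, abs_mul, abs_mul, abs_mul, abs_div, abs_pow, abs_of_pos hA, abs_of_pos hn1',
        abs_of_pos (by norm_num : (0:ℝ) < 2)]
      ring
    rw [this, hP2]
    calc 2 * |sx| * (A * |bb| * |sx|) * (|S1| / n1)
        ≤ 2 * 1 * (r0 / 100 * |c * Ux|) * (1 / 1) := by gcongr
      _ = r0 / 50 * |c * Ux| := by ring
  have b2 : |bz * (S1 * C1 / n1)| ≤ r0 / 100 * |P1| := by
    have : |bz * (S1 * C1 / n1)| = |bz| * (|S1| * |C1| / n1) := by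
      rw [abs_mul, abs_div, abs_mul, abs_of_pos hn1']
    rw [this]
    calc |bz| * (|S1| * |C1| / n1) ≤ (r0 / 100 * A * u1) * (|S1| * 1 / 1) := by gcongr
      _ = r0 / 100 * (A * u1 * |S1|) := by ring
      _ ≤ r0 / 100 * |P1| := by gcongr
  have b3 : |2 * S1 ^ 2 * B| ≤ r0 / 50 * |P1| := by
    have : |2 * S1 ^ 2 * B| = 2 * |S1| * |S1| * |B| := by
      rw [abs_mul, abs_mul, abs_pow, abs_of_pos (by norm_num : (0:ℝ) < 2)]
      ring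
    rw [this]
    calc 2 * |S1| * |S1| * |B| ≤ 2 * |S1| * 1 * (r0 / 100 * A * u1) := by gcongr
      _ = r0 / 50 * (A * u1 * |S1|) := by ring
      _ ≤ r0 / 50 * |P1| := by gcongr
  have b4 : |A * bb * C1 * (sx * cx / Real.pi)| ≤ r0 / 100 * |P2| := by
    have hpi : 1 ≤ Real.pi := by linarith [Real.pi_gt_three]
    have : |A * bb * C1 * (sx * cx / Real.pi)| = (A * |bb| * |sx|) * |C1| * (|cx| / Real.pi) := by
      rw [abs_mul, abs_mul, abs_mul, abs_div, abs_mul, abs_of_pos hA, abs_of_pos Real.pi_pos]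
      ring
    rw [this, hP2]
    calc (A * |bb| * |sx|) * |C1| * (|cx| / Real.pi)
        ≤ (r0 / 100 * |c * Ux|) * 1 * (1 / 1) := by gcongr
      _ = r0 / 100 * |c * Ux| := by ring
  refine fe_ell r0 R0 r1 lam P1 P2 J1 J2 hr0 hr1 hlam ?_ ?_
  · rw [d1]
    calc _ ≤ |(2 * sx ^ 2 * (A * bb * (S1 / n1)))| + |bz * (S1 * C1 / n1)| := by
          refine (abs_sub _ _).trans ?_
          rw [abs_neg]
      _ ≤ r0 / 50 * |P2| + r0 / 100 * |P1| := add_le_add b1 b2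
      _ ≤ _ := by linarith [mul_nonneg hr0.le q2, mul_nonneg hr0.le q3]
  · rw [d2]
    calc _ ≤ |(2 * S1 ^ 2 * B)| + |A * bb * C1 * (sx * cx / Real.pi)| := by
          refine (abs_sub _ _).trans ?_
          rw [abs_neg]
      _ ≤ r0 / 50 * |P1| + r0 / 100 * |P2| := add_le_add b3 b4
      _ ≤ _ := by linarith [mul_nonneg hr0.le q2, mul_nonneg hr0.le q3]

end Crest.Agent.R083
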