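import Crest.Agent.R083.FrontB
import Crest.Agent.R083.FrontTwo
import Crest.Agent.R083.FrontSum

/-!
Row 83, TM-c (front lemma): the family of all modes and the two-mode evaluation.
-/

set_option autoImplicit false

namespace Crest.Agent.R083

open MeasureTheory Set Filter
open scoped Gradient ENNReal NNReal Topology ContDiff

theorem ModeData.J_dir (M : ModeData) (hi : M.i = 0 ∨ M.i = 1) (p : E3) :
    M.J p M.i = M.Ji p ∧ M.J p (oth M.i) = M.Jo p ∧
      M.J p 2 = fderiv ℝ M.G (p 2, p M.i) (1, 0) := by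
  unfold ModeData.J oth
  rcases hi with h | h
  · simp [h, pt]
  · simp [h, pt]

/-- The alive condition fails. -/
def Dead (k : ℕ) (σ : ℝ) : Prop := tauk k σ ≤ 1 / 2 ∨ 8 ≤ tauk k σ

namespace CascData

variable (D : CascData) (A : ℝ) (k : ℕ)

theorem dead_vals (σ : ℝ) (h : Dead k σ) :
    D.u k σ = 0 ∧ D.α k σ = 0 ∧ deriv (D.u k) σ = 0 ∧ D.bb k σ = 0 ∧ D.bd k σ = 0 := by
  have hu := D.supp k σ h
  refine ⟨hu, D.alpha_zero k σ hu, D.deriv_zero k σ hu, D.bb_zero k σ ?_, D.bd_zero k σ ?_⟩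
  · rcases h with h | h
    · left; linarith
    · right; exact h
  · rcases h with h | h
    · left; exact h
    · right; linarith

theorem mode_Ji (p : E3) : (D.mode A k).Ji p =
    -(A * D.α k (p 2) * (Real.sin (nk k * p (dirk k)) / nk k))
    - 2 * Real.sin (nk (k - 1) * p (oth (dirk k))) ^ 2 *
      (A * D.bb k (p 2) * (Real.sin (nk k * p (dirk k)) / nk k))
    - 2 * Real.sin (nk (k + 1) * p (oth (dirk k))) ^ 2 *
      (A * D.bd k (p 2) * (Real.sin (nk k * p (dirk k)) / nk k)) := rfl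

theorem mode_Jo (p : E3) : (D.mode A k).Jo p =
    -(A * D.bb k (p 2) * Real.cos (nk k * p (dirk k)) *
      (Real.sin (2 * nk (k - 1) * p (oth (dirk k))) / (2 * nk (k - 1))))
    - A * D.bd k (p 2) * Real.cos (nk k * p (dirk k)) *
      (Real.sin (2 * nk (k + 1) * p (oth (dirk k))) / (2 * nk (k + 1))) := rfl

theorem mode_J2 (p : E3) :
    (D.mode A k).J p 2 = A * deriv (D.u k) (p 2) * Real.cos (nk k * p (dirk k)) := by
  rw [((D.mode A k).J_dir (dirk_or k) p).2.2, D.mode_fst]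
  rfl

theorem mode_Jdir (p : E3) : (D.mode A k).J p (dirk k) = (D.mode A k).Ji p :=
  ((D.mode A k).J_dir (dirk_or k) p).1

theorem mode_Joth (p : E3) : (D.mode A k).J p (oth (dirk k)) = (D.mode A k).Jo p :=
  ((D.mode A k).J_dir (dirk_or k) p).2.1

theorem mode_diff (q : ℝ × ℝ) : DifferentiableAt ℝ (D.mode A k).G q := by
  have : ContDiff ℝ ∞ (D.mode A k).G :=
    (contDiff_const.mul ((D.us k).comp contDiff_fst)).mul (smooth_cos _)
  exact (this.differentiable (by simp)).differentiableAt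

theorem mode_g (p : E3) :
    fderiv ℝ (D.mode A k).w p (ee (dirk k)) =
      -(A * D.u k (p 2) * nk k * Real.sin (nk k * p (dirk k))) ∧
    fderiv ℝ (D.mode A k).w p (ee (oth (dirk k))) = 0 ∧
    fderiv ℝ (D.mode A k).w p (ee 2) =
      A * deriv (D.u k) (p 2) * Real.cos (nk k * p (dirk k)) := by
  obtain ⟨h1, h2, h3⟩ := mode_grad (D.mode A k) (dirk_or k) p (D.mode_diff A k _)
  refine ⟨?_, h2, ?_⟩
  · rw [← D.mode_snd A k (p 2, p (dirk k))]; exact h1
  · rw [← D.mode_fst A k (p 2, p (dirk k))]; exact h3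

/-- All the three coordinates are covered. -/
theorem _root_.Crest.Agent.R083.fc_cases (k : ℕ) (P : Fin 3 → Prop) (h1 : P (dirk k))
    (h2 : P (oth (dirk k))) (h3 : P 2) : ∀ i, P i := by
  intro i
  rcases dirk_or k with h | h
  · rw [h] at h1 h2
    fin_cases i
    · exact h1
    · simpa [oth] using h2
    · exact h3
  · rw [h] at h1 h2
    fin_cases i
    · simpa [oth] using h2
    · exact h1
    · exact h3

theorem mode_dead (p : E3) (h : Dead k (p 2)) :
    (D.mode A k).w p = 0 ∧ (D.mode A k).J p = 0 ∧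
      ∀ i, fderiv ℝ (D.mode A k).w p (ee i) = 0 := by
  obtain ⟨h1, h2, h3, h4, h5⟩ := D.dead_vals k (p 2) h
  refine ⟨?_, ?_, ?_⟩
  · rw [mode_w, h1]; ring
  · have : ∀ i, (D.mode A k).J p i = 0 := by
      refine fc_cases k _ ?_ ?_ ?_
      · rw [mode_Jdir, mode_Ji, h2, h4, h5]; ring
      · rw [mode_Joth, mode_Jo, h4, h5]; ring
      · rw [mode_J2, h3]; ring
    ext i
    simpa using this i
  · obtain ⟨g1, g2, g3⟩ := D.mode_g A k p
    refine fc_cases k _ ?_ ?_ ?_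
    · rw [g1, h1]; ring
    · exact g2
    · rw [g3, h3]; ring

end CascData

/-! ### mode 0 values -/

section
variable (U : ℝ × ℝ → ℝ) (lam : ℝ)

theorem mode0_Ji (p : E3) : (mode0 U lam).Ji p =
    lam * cut0 (p 2) * fderiv ℝ U (p 2, p 0) (0, 1)
      - 2 * Real.sin (nk 1 * p 1) ^ 2 * Bz U (p 2, p 0) := by
  simp [ModeData.Ji, mode0, oth]

theorem mode0_Jo (p : E3) : (mode0 U lam).Jo p =
    -(bz U (p 2, p 0) * (Real.sin (2 * nk 1 * p 1) / (2 * nk 1))) := by
  simp [ModeData.Jo, mode0, oth]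

theorem mode0_J0 (p : E3) : (mode0 U lam).J p 0 = (mode0 U lam).Ji p :=
  ((mode0 U lam).J_dir (Or.inl rfl) p).1

theorem mode0_J1 (p : E3) : (mode0 U lam).J p 1 = (mode0 U lam).Jo p :=
  ((mode0 U lam).J_dir (Or.inl rfl) p).2.1

theorem mode0_J2 (hU : ContDiffOn ℝ ∞ U hp) (p : E3) (hp2 : 0 < p 2) :
    (mode0 U lam).J p 2 =
      deriv cut0 (p 2) * U (p 2, p 0) + cut0 (p 2) * fderiv ℝ U (p 2, p 0) (1, 0) := by
  rw [((mode0 U lam).J_dir (Or.inl rfl) p).2.2]
  exact mode0_fst U lam (p 2, p 0) (fb_at U hU _ hp2)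

theorem mode0_g (hU : ContDiffOn ℝ ∞ U hp) (p : E3) (hp2 : 0 < p 2) :
    fderiv ℝ (mode0 U lam).w p (ee 0) = cut0 (p 2) * fderiv ℝ U (p 2, p 0) (0, 1) ∧
    fderiv ℝ (mode0 U lam).w p (ee 1) = 0 ∧
    fderiv ℝ (mode0 U lam).w p (ee 2) =
      deriv cut0 (p 2) * U (p 2, p 0) + cut0 (p 2) * fderiv ℝ U (p 2, p 0) (1, 0) := by
  have hc : DifferentiableAt ℝ (fun q : ℝ × ℝ => cut0 q.1) (p 2, p 0) :=
    ((cut0_smooth.comp contDiff_fst).differentiable (by simp)).differentiableAt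
  have hd : DifferentiableAt ℝ (mode0 U lam).G (p 2, p 0) :=
    hc.mul (fb_at U hU (p 2, p 0) hp2)
  obtain ⟨h1, h2, h3⟩ := mode_grad (mode0 U lam) (Or.inl rfl) p hd
  refine ⟨?_, ?_, ?_⟩
  · rw [← mode0_snd U lam (p 2, p 0) (fb_at U hU _ hp2)]; exact h1
  · simpa [mode0, oth] using h2
  · rw [← mode0_fst U lam (p 2, p 0) (fb_at U hU _ hp2)]; exact h3

theorem mode0_dead (hU : ContDiffOn ℝ ∞ U hp) (p : E3) (h : 5 / 8 ≤ p 2) :
    (mode0 U lam).w p = 0 ∧ (mode0 U lam).J p = 0 ∧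
      ∀ i, fderiv ℝ (mode0 U lam).w p (ee i) = 0 := by
  have h0 : 0 < p 2 := by linarith
  have c0 := cut0_zero (p 2) h
  have c1 := cut0_deriv_zero (p 2) (Or.inr h)
  have b0 : bz U (p 2, p 0) = 0 := bz_zero U _ (Or.inr h)
  have b1 : Bz U (p 2, p 0) = 0 := Bz_zero U _ (Or.inr h)
  refine ⟨?_, ?_, ?_⟩
  · change cut0 (p 2) * U (p 2, p 0) = 0
    rw [c0]; ring
  · ext i
    fin_cases i
    · change (mode0 U lam).J p 0 = 0
      rw [mode0_J0, mode0_Ji, c0, b1]; ring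
    · change (mode0 U lam).J p 1 = 0
      rw [mode0_J1, mode0_Jo, b0]; ring
    · change (mode0 U lam).J p 2 = 0
      rw [mode0_J2 U lam hU p h0, c0, c1]; ring
  · obtain ⟨g1, g2, g3⟩ := mode0_g U lam hU p h0
    intro i
    fin_cases i
    · change fderiv ℝ (mode0 U lam).w p (ee 0) = 0
      rw [g1, c0]; ring
    · exact g2
    · change fderiv ℝ (mode0 U lam).w p (ee 2) = 0
      rw [g3, c0, c1]; ring

end

/-! ### The family -/

/-- All modes. -/
noncomputable def frm (D : CascData) (U : ℝ × ℝ → ℝ) (lam A : ℝ) : ℕ → ModeData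
  | 0 => mode0 U lam
  | k + 1 => D.mode A (k + 1)

/-- The potential. -/
noncomputable def frW (D : CascData) (U : ℝ × ℝ → ℝ) (lam A : ℝ) (p : E3) : ℝ :=
  ∑' j, (frm D U lam A j).w p

/-- The flux. -/
noncomputable def frJ (D : CascData) (U : ℝ × ℝ → ℝ) (lam A : ℝ) (p : E3) : E3 :=
  ∑' j, (frm D U lam A j).J p

theorem tauk_mono (k j : ℕ) (hkj : k ≤ j) (σ : ℝ) (h : 0 ≤ tauk k σ) :
    8 ^ (j - k) * tauk k σ = tauk j σ ∧ tauk k σ ≤ tauk j σ := by
  have e : 8 ^ (j - k) * tauk k σ = tauk j σ := by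
    unfold tauk
    have : (8:ℝ) ^ j = 8 ^ (j - k) * 8 ^ k := by rw [← pow_add]; congr 1; omega
    rw [this]; ring
  refine ⟨e, ?_⟩
  rw [← e]
  have : (1:ℝ) ≤ 8 ^ (j - k) := one_le_pow₀ (by norm_num)
  nlinarith

theorem tauk_pos (k : ℕ) (σ : ℝ) (h : σ < 1) : 0 < tauk k σ := by
  unfold tauk
  have : 0 < 1 - σ := by linarith
  positivity

theorem tauk_ge (s : ℝ) (hs : s < 1) : ∃ K : ℕ, 1 ≤ K ∧ 8 ≤ tauk K s := by
  obtain ⟨n, hn⟩ := pow_unbounded_of_one_lt (8 / ((4 / 3) * (1 - s))) (by norm_num : (1:ℝ) < 8)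
  have h0 : 0 < (4 / 3) * (1 - s) := by
    have : 0 < 1 - s := by linarith
    positivity
  refine ⟨n + 1, by omega, ?_⟩
  rw [div_lt_iff₀ h0] at hn
  have h1 : tauk (n + 1) s = 8 * (8 ^ n * (4 / 3 * (1 - s))) := by unfold tauk; rw [pow_succ]; ring
  rw [h1]
  linarith

theorem tauk_anti (k : ℕ) {s t : ℝ} (h : s ≤ t) : tauk k t ≤ tauk k s := by
  unfold tauk
  have : (0:ℝ) ≤ 8 ^ k * (4 / 3) := by positivity
  nlinarith

theorem fr_fld (D : CascData) (U : ℝ × ℝ → ℝ) (lam A : ℝ) (hU : ContDiffOn ℝ ∞ U hp)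
    (hpde : ∀ q : ℝ × ℝ, 0 < q.1 → fderiv ℝ (fun q => fderiv ℝ U q (1, 0)) q (1, 0) +
          lam * fderiv ℝ (fun q => fderiv ℝ U q (0, 1)) q (0, 1) = 0) :
    IsFld {p : E3 | 0 < p 2 ∧ p 2 < 1} (frW D U lam A) (frJ D U lam A) ∧
    ∀ p : E3, 0 < p 2 → p 2 < 1 → ∃ K : ℕ, ∀ K', K ≤ K' →
      (frW D U lam A p = ∑ j ∈ Finset.range K', (frm D U lam A j).w p) ∧
      (frJ D U lam A p = ∑ j ∈ Finset.range K', (frm D U lam A j).J p) ∧
      fderiv ℝ (frW D U lam A) p =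
        ∑ j ∈ Finset.range K', fderiv ℝ (frm D U lam A j).w p := by
  have c2 : Continuous fun p : E3 => p 2 := by fun_prop
  have hΩ : IsOpen {p : E3 | 0 < p 2 ∧ p 2 < 1} :=
    (isOpen_lt continuous_const c2).inter (isOpen_lt c2 continuous_const)
  have hfld : ∀ j, IsFld {p : E3 | 0 < p 2 ∧ p 2 < 1} (frm D U lam A j).w
      (frm D U lam A j).J := by
    intro j
    cases j with
    | zero =>
      obtain ⟨a, b, c⟩ := mode0_isFld U lam hU hpde
      exact ⟨a.mono fun p h => h.1, b.mono fun p h => h.1, fun p h => c p h.1⟩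
    | succ k =>
      obtain ⟨a, b, c⟩ := D.mode_isFld A (k + 1)
      exact ⟨a.mono (subset_univ _), b.mono (subset_univ _), fun p _ => c p (mem_univ _)⟩
  have hloc : ∀ p ∈ {p : E3 | 0 < p 2 ∧ p 2 < 1}, ∃ K : ℕ, ∀ᶠ q in 𝓝 p, ∀ j, K ≤ j →
      (frm D U lam A j).w q = 0 ∧ (frm D U lam A j).J q = 0 := by
    intro p hp'
    obtain ⟨K, hK1, hK⟩ := tauk_ge ((p 2 + 1) / 2) (by linarith [hp'.2])
    refine ⟨K, ?_⟩
    have hlt : p 2 < (p 2 + 1) / 2 := by linarith [hp'.2]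
    filter_upwards [c2.continuousAt.eventually (gt_mem_nhds hlt)] with q hq j hj
    cases j with
    | zero => omega
    | succ k =>
      have hd : Dead (k + 1) (q 2) := by
        right
        have h1 : 8 ≤ tauk K (q 2) := hK.trans (tauk_anti K hq.le)
        exact h1.trans (tauk_mono K (k + 1) hj (q 2) (by linarith)).2
      obtain ⟨a, b, _⟩ := D.mode_dead A (k + 1) q hd
      exact ⟨a, b⟩
  obtain ⟨h1, h2⟩ := fld_tsum _ hΩ (fun j => (frm D U lam A j).w) (fun j => (frm D U lam A j).J)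
    hfld hloc
  exact ⟨h1, fun p a b => h2 p ⟨a, b⟩⟩

/-- Two-mode evaluation. -/
theorem fr_two (D : CascData) (U : ℝ × ℝ → ℝ) (lam A : ℝ) (hU : ContDiffOn ℝ ∞ U hp)
    (hpde : ∀ q : ℝ × ℝ, 0 < q.1 → fderiv ℝ (fun q => fderiv ℝ U q (1, 0)) q (1, 0) +
          lam * fderiv ℝ (fun q => fderiv ℝ U q (0, 1)) q (0, 1) = 0)
    (p : E3) (hp0 : 0 < p 2) (hp1 : p 2 < 1) :
    ∃ m : ℕ, 1 ≤ tauk (m + 1) (p 2) ∧ (m = 0 ∨ tauk (m + 1) (p 2) < 8) ∧
      frW D U lam A p = (frm D U lam A m).w p + (frm D U lam A (m + 1)).w p ∧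
      frJ D U lam A p = (frm D U lam A m).J p + (frm D U lam A (m + 1)).J p ∧
      ∀ i, fderiv ℝ (frW D U lam A) p (ee i) =
        fderiv ℝ (frm D U lam A m).w p (ee i) + fderiv ℝ (frm D U lam A (m + 1)).w p (ee i) := by
  classical
  obtain ⟨K0, hK01, hK0⟩ := tauk_ge (p 2) hp1
  have hex : ∃ m : ℕ, 1 ≤ tauk (m + 1) (p 2) := by
    refine ⟨K0 - 1, ?_⟩
    rw [Nat.sub_add_cancel hK01]
    linarith
  set m := Nat.find hex with hm
  have hm1 : 1 ≤ tauk (m + 1) (p 2) := Nat.find_spec hex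
  have hm2 : m = 0 ∨ tauk (m + 1) (p 2) < 8 := by
    rcases Nat.eq_zero_or_pos m with h | h
    · exact Or.inl h
    · right
      have := Nat.find_min hex (m := m - 1) (by omega)
      rw [not_le, Nat.sub_add_cancel h] at this
      rw [tauk_succ]; linarith
  have dead : ∀ j, j ≠ m → j ≠ m + 1 → (frm D U lam A j).w p = 0 ∧ (frm D U lam A j).J p = 0 ∧
      ∀ i, fderiv ℝ (frm D U lam A j).w p (ee i) = 0 := by
    intro j hj1 hj2
    cases j with
    | zero =>
      refine mode0_dead U lam hU p ?_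
      have hmp : 1 ≤ m := by omega
      have h8 : tauk (m + 1) (p 2) < 8 := by
        rcases hm2 with h | h
        · omega
        · exact h
      have h1 : tauk m (p 2) < 1 := by rw [tauk_succ] at h8; linarith
      have h2 := (tauk_mono 1 m hmp (p 2) (tauk_pos 1 _ hp1).le).2
      have h3 : tauk 1 (p 2) = 32 / 3 * (1 - p 2) := by unfold tauk; norm_num
      rw [h3] at h2
      linarith
    | succ k =>
      refine D.mode_dead A (k + 1) p ?_
      rcases lt_or_ge (m + 1) (k + 1) with h | h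
      · right
        have h2 := (tauk_mono (m + 2) (k + 1) (by omega) (p 2) (tauk_pos _ _ hp1).le).2
        have h3 : tauk (m + 2) (p 2) = 8 * tauk (m + 1) (p 2) := tauk_succ _ _
        linarith
      · left
        have hk : k + 2 ≤ m := by omega
        have h8 : tauk (m + 1) (p 2) < 8 := by
          rcases hm2 with h | h
          · omega
          · exact h
        have h2 := (tauk_mono (k + 2) m hk (p 2) (tauk_pos _ _ hp1).le).2
        have h3 : tauk (k + 2) (p 2) = 8 * tauk (k + 1) (p 2) := tauk_succ _ _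
        have h4 : tauk (m + 1) (p 2) = 8 * tauk m (p 2) := tauk_succ _ _
        linarith
  obtain ⟨K, hK⟩ := (fr_fld D U lam A hU hpde).2 p hp0 hp1
  obtain ⟨e1, e2, e3⟩ := hK (max K (m + 2)) (le_max_left _ _)
  have mem1 : m ∈ Finset.range (max K (m + 2)) := by
    rw [Finset.mem_range]; exact lt_of_lt_of_le (by omega) (le_max_right _ _)
  have mem2 : m + 1 ∈ Finset.range (max K (m + 2)) := by
    rw [Finset.mem_range]; exact lt_of_lt_of_le (by omega) (le_max_right _ _)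
  refine ⟨m, hm1, hm2, ?_, ?_, ?_⟩
  · rw [e1]
    exact Finset.sum_eq_add_of_mem m (m + 1) mem1 mem2 (by omega)
      (fun j _ hj => (dead j hj.1 hj.2).1)
  · rw [e2]
    exact Finset.sum_eq_add_of_mem m (m + 1) mem1 mem2 (by omega)
      (fun j _ hj => (dead j hj.1 hj.2).2.1)
  · intro i
    rw [e3, sum_apply]
    exact Finset.sum_eq_add_of_mem m (m + 1) mem1 mem2 (by omega)
      (fun j _ hj => (dead j hj.1 hj.2).2.2 i)

end Crest.Agent.R083
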