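import Crest.Agent.R083.FrontC

/-!
Row 83, TM-c (front lemma): properties of the sum of all modes.
-/

set_option autoImplicit false

namespace Crest.Agent.R083

open MeasureTheory Set Filter
open scoped Gradient ENNReal NNReal Topology ContDiff

/-- Everything needed for the front construction. -/
structure FrOK (D : CascData) (U : ℝ × ℝ → ℝ) (lam A : ℝ) : Prop where
  Apos : 0 < A
  lam1 : 1 ≤ lam
  sm : ContDiffOn ℝ ∞ U hp
  pde : ∀ q : ℝ × ℝ, 0 < q.1 → fderiv ℝ (fun q => fderiv ℝ U q (1, 0)) q (1, 0) +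
          lam * fderiv ℝ (fun q => fderiv ℝ U q (0, 1)) q (0, 1) = 0
  wall : ∀ σ, 0 < σ → fderiv ℝ U (σ, 0) (0, 1) = 0 ∧ fderiv ℝ U (σ, 1) (0, 1) = 0
  mean : ∀ σ, 0 < σ → ∫ x in (0:ℝ)..1, U (σ, x) = 0
  birth1 : ∀ σ x, 0 < σ → 0 ≤ x → x ≤ 1 → A * |D.bb 1 σ| * |Real.sin (Real.pi * x)| ≤
    min D.r0 1 / 100 * |cut0 σ * fderiv ℝ U (σ, x) (0, 1)|
  bz1 : ∀ σ x, 0 < σ → 0 ≤ x → x ≤ 1 → |bz U (σ, x)| ≤ min D.r0 1 / 100 * A * D.u 1 σ
  low : ∀ σ x, 0 < σ → σ ≤ 1 / 2 → 0 ≤ x → x ≤ 1 → Real.sin (Real.pi * x) ≠ 0 →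
    fderiv ℝ U (σ, x) (0, 1) ≠ 0

theorem fd_grad (f : E3 → ℝ) (x : E3) (i : Fin 3) : (∇ f x) i = fderiv ℝ f x (ee i) := by
  have h : inner ℝ (∇ f x) (ee i) = fderiv ℝ f x (ee i) := by
    unfold gradient
    rw [InnerProductSpace.toDual_symm_apply]
  rw [← h, ee, EuclideanSpace.inner_single_right]
  simp

theorem fd_norm (v : E3) (M : ℝ) (hM : 0 ≤ M) (h : ∀ i, |v i| ≤ M) : ‖v‖ ≤ 2 * M := by
  rw [EuclideanSpace.norm_eq, Fin.sum_univ_three]
  rw [Real.sqrt_le_left (by positivity)]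
  have h0 := h 0
  have h1 := h 1
  have h2 := h 2
  simp only [Real.norm_eq_abs]
  nlinarith [abs_nonneg (v 0), abs_nonneg (v 1), abs_nonneg (v 2), mul_nonneg hM hM,
    mul_le_mul h0 h0 (abs_nonneg _) hM, mul_le_mul h1 h1 (abs_nonneg _) hM,
    mul_le_mul h2 h2 (abs_nonneg _) hM]

theorem fd_sin_wall (k : ℕ) (x : ℝ) (hx : x = 0 ∨ x = 1) : Real.sin (nk k * x) = 0 := by
  rcases hx with h | h
  · rw [h]; simp
  · rw [h]
    have : nk k * 1 = ((8 ^ k : ℕ) : ℝ) * Real.pi := by unfold nk; push_cast; ring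
    rw [this]
    exact Real.sin_nat_mul_pi _

theorem fd_sin2_wall (k : ℕ) (x : ℝ) (hx : x = 0 ∨ x = 1) : Real.sin (2 * nk k * x) = 0 := by
  have : 2 * nk k * x = 2 * (nk k * x) := by ring
  rw [this, Real.sin_two_mul, fd_sin_wall k x hx]
  ring

theorem nk_zero : nk 0 = Real.pi := by unfold nk; simp

theorem nk_succ (k : ℕ) : nk (k + 1) = 8 * nk k := by unfold nk; rw [pow_succ]; ring

theorem nk_one_le (k : ℕ) : 1 ≤ nk k := by
  unfold nk
  have h1 : (1:ℝ) ≤ 8 ^ k := one_le_pow₀ (by norm_num)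
  have h2 := Real.pi_gt_three
  nlinarith

namespace CascData

variable (D : CascData) (A : ℝ) (k : ℕ)

theorem mode_wall (p : E3) (c : Fin 3) (hc : c ≠ 2) (hx : p c = 0 ∨ p c = 1) :
    (D.mode A k).J p c = 0 := by
  revert hc hx
  refine fc_cases k (fun c => c ≠ 2 → (p c = 0 ∨ p c = 1) → (D.mode A k).J p c = 0)
    (fun _ hx => ?_) (fun _ hx => ?_) (fun h => absurd rfl h) c
  · rw [mode_Jdir, mode_Ji, fd_sin_wall k _ hx]; simp
  · rw [mode_Joth, mode_Jo, fd_sin2_wall _ _ hx, fd_sin2_wall _ _ hx]; simp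

theorem Cd_nonneg : 0 ≤ D.Cd := by
  have h := (D.decay 0 0).2.1
  simp only [pow_zero, mul_one] at h
  exact (abs_nonneg _).trans h

theorem half_pow_le : ((1:ℝ) / 2) ^ k ≤ 1 := pow_le_one₀ (by norm_num) (by norm_num)

theorem beta_div (σ : ℝ) : |D.β k σ| / nk k ≤ D.Cd := by
  rw [div_le_iff₀ (nk_pos k)]
  have h := (D.decay k σ).2.2
  have h2 := half_pow_le k
  have : D.Cd * nk k * (1 / 2) ^ k ≤ D.Cd * nk k * 1 :=
    mul_le_mul_of_nonneg_left h2 (mul_nonneg D.Cd_nonneg (nk_pos k).le)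
  linarith

theorem alpha_div (σ : ℝ) : |D.α k σ| / nk k ≤ |D.R0| * D.Cd := by
  rw [div_le_iff₀ (nk_pos k)]
  have h0 := D.nonneg k σ
  have hn := nk_pos k
  have h1 := (D.ell k σ).1
  have h2 := (D.ell k σ).2
  have h3 : 0 ≤ D.α k σ := le_trans (by have := D.r0pos; positivity) h1
  rw [abs_of_nonneg h3]
  have h4 : nk k * D.u k σ ≤ D.Cd := by
    refine (D.decay k σ).1.trans ?_
    have := mul_le_mul_of_nonneg_left (half_pow_le k) D.Cd_nonneg
    linarith
  calc D.α k σ ≤ D.R0 * nk k ^ 2 * D.u k σ := h2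
    _ ≤ |D.R0| * nk k ^ 2 * D.u k σ := by gcongr; exact le_abs_self _
    _ = |D.R0| * (nk k * D.u k σ) * nk k := by ring
    _ ≤ |D.R0| * D.Cd * nk k := by gcongr

theorem mode_bound (hA : 0 < A) (p : E3) :
    (∀ i, |fderiv ℝ (D.mode A k).w p (ee i)| ≤ A * D.Cd) ∧
    (∀ i, |(D.mode A k).J p i| ≤ A * D.Cd * (|D.R0| + 10)) ∧
    (p 2 < 1 → |(D.mode A k).w p| ≤ A * D.Cd * 3 * (1 - p 2)) := by
  have hCd := D.Cd_nonneg
  have hn := nk_pos k
  have hu := D.nonneg k (p 2)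
  have hdec := D.decay k (p 2)
  have hhalf := mul_le_mul_of_nonneg_left (half_pow_le k) hCd
  rw [mul_one] at hhalf
  have hnu : nk k * D.u k (p 2) ≤ D.Cd := hdec.1.trans hhalf
  have hdu : |deriv (D.u k) (p 2)| ≤ D.Cd := hdec.2.1.trans hhalf
  have hb := D.beta_div k (p 2)
  have ha := D.alpha_div k (p 2)
  have hbb := D.bb_abs k (p 2)
  have hbd := D.bd_abs k (p 2)
  have hS := Real.abs_sin_le_one (nk k * p (dirk k))
  have hC := Real.abs_cos_le_one (nk k * p (dirk k))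
  have hR := abs_nonneg D.R0
  have hACd : 0 ≤ A * D.Cd := by positivity
  obtain ⟨g1, g2, g3⟩ := D.mode_g A k p
  refine ⟨?_, ?_, ?_⟩
  · refine fc_cases k _ ?_ ?_ ?_
    · rw [g1, abs_neg, abs_mul, abs_of_nonneg (by positivity : 0 ≤ A * D.u k (p 2) * nk k)]
      calc A * D.u k (p 2) * nk k * |Real.sin (nk k * p (dirk k))|
          ≤ A * D.u k (p 2) * nk k * 1 := by gcongr
        _ = A * (nk k * D.u k (p 2)) := by ring
        _ ≤ A * D.Cd := by gcongr
    · rw [g2, abs_zero]; exact hACd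
    · rw [g3, abs_mul, abs_mul, abs_of_pos hA]
      calc A * |deriv (D.u k) (p 2)| * |Real.cos (nk k * p (dirk k))|
          ≤ A * D.Cd * 1 := by gcongr
        _ = _ := by ring
  · have hq : A * D.Cd * 1 ≤ A * D.Cd * (|D.R0| + 10) :=
      mul_le_mul_of_nonneg_left (by linarith) hACd
    refine fc_cases k _ ?_ ?_ ?_
    · rw [mode_Jdir, mode_Ji]
      have t1 : |A * D.α k (p 2) * (Real.sin (nk k * p (dirk k)) / nk k)| ≤
          A * (|D.R0| * D.Cd) := by
        rw [abs_mul, abs_mul, abs_div, abs_of_pos hA, abs_of_pos hn]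
        calc A * |D.α k (p 2)| * (|Real.sin (nk k * p (dirk k))| / nk k)
            ≤ A * |D.α k (p 2)| * (1 / nk k) := by gcongr
          _ = A * (|D.α k (p 2)| / nk k) := by ring
          _ ≤ _ := by gcongr
      have t2 (b s : ℝ) (hb' : |b| ≤ |D.β k (p 2)|) (hs : |s| ≤ 1) :
          |2 * s ^ 2 * (A * b * (Real.sin (nk k * p (dirk k)) / nk k))| ≤ 2 * (A * D.Cd) := by
        rw [abs_mul, abs_mul, abs_mul, abs_mul, abs_div, abs_of_pos hA, abs_of_pos hn,
          abs_pow, abs_of_pos (by norm_num : (0:ℝ) < 2)]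
        calc 2 * |s| ^ 2 * (A * |b| * (|Real.sin (nk k * p (dirk k))| / nk k))
            ≤ 2 * 1 ^ 2 * (A * |D.β k (p 2)| * (1 / nk k)) := by gcongr
          _ = 2 * (A * (|D.β k (p 2)| / nk k)) := by ring
          _ ≤ _ := by gcongr
      have q2 := t2 (D.bb k (p 2)) (Real.sin (nk (k - 1) * p (oth (dirk k)))) hbb
        (Real.abs_sin_le_one _)
      have q3 := t2 (D.bd k (p 2)) (Real.sin (nk (k + 1) * p (oth (dirk k)))) hbd
        (Real.abs_sin_le_one _)
      have r1 := abs_sub (-(A * D.α k (p 2) * (Real.sin (nk k * p (dirk k)) / nk k)))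
        (2 * Real.sin (nk (k - 1) * p (oth (dirk k))) ^ 2 *
          (A * D.bb k (p 2) * (Real.sin (nk k * p (dirk k)) / nk k)))
      have r2 := abs_sub (-(A * D.α k (p 2) * (Real.sin (nk k * p (dirk k)) / nk k)) -
        2 * Real.sin (nk (k - 1) * p (oth (dirk k))) ^ 2 *
          (A * D.bb k (p 2) * (Real.sin (nk k * p (dirk k)) / nk k)))
        (2 * Real.sin (nk (k + 1) * p (oth (dirk k))) ^ 2 *
          (A * D.bd k (p 2) * (Real.sin (nk k * p (dirk k)) / nk k)))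
      rw [abs_neg] at r1
      nlinarith
    · rw [mode_Joth, mode_Jo]
      have t2 (b x : ℝ) (j : ℕ) (hj : nk k ≤ 8 * nk j) (hb' : |b| ≤ |D.β k (p 2)|) :
          |A * b * Real.cos (nk k * p (dirk k)) * (Real.sin x / (2 * nk j))| ≤
            4 * (A * D.Cd) := by
        have hnj := nk_pos j
        rw [abs_mul, abs_mul, abs_mul, abs_div, abs_of_pos hA,
          abs_of_pos (by positivity : 0 < 2 * nk j)]
        have hsx := Real.abs_sin_le_one x
        calc A * |b| * |Real.cos (nk k * p (dirk k))| * (|Real.sin x| / (2 * nk j))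
            ≤ A * |D.β k (p 2)| * 1 * (1 / (2 * nk j)) := by gcongr
          _ = 4 * (A * (|D.β k (p 2)| / (8 * nk j))) := by field_simp; ring
          _ ≤ 4 * (A * (|D.β k (p 2)| / nk k)) := by gcongr
          _ ≤ _ := by gcongr
      have hj1 : nk k ≤ 8 * nk (k - 1) := by
        rcases Nat.eq_zero_or_pos k with h | h
        · rw [h]; simp only [Nat.zero_sub]; linarith [nk_pos 0]
        · have := nk_succ (k - 1)
          rw [Nat.sub_add_cancel h] at this
          rw [this]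
      have hj2 : nk k ≤ 8 * nk (k + 1) := by
        rw [nk_succ]; linarith
      have q2 := t2 (D.bb k (p 2)) (2 * nk (k - 1) * p (oth (dirk k))) (k - 1) hj1 hbb
      have q3 := t2 (D.bd k (p 2)) (2 * nk (k + 1) * p (oth (dirk k))) (k + 1) hj2 hbd
      have r1 := abs_sub (-(A * D.bb k (p 2) * Real.cos (nk k * p (dirk k)) *
        (Real.sin (2 * nk (k - 1) * p (oth (dirk k))) / (2 * nk (k - 1)))))
        (A * D.bd k (p 2) * Real.cos (nk k * p (dirk k)) *
        (Real.sin (2 * nk (k + 1) * p (oth (dirk k))) / (2 * nk (k + 1))))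
      rw [abs_neg] at r1
      nlinarith
    · rw [mode_J2, abs_mul, abs_mul, abs_of_pos hA]
      refine le_trans ?_ hq
      gcongr
  · intro hp1
    by_cases hd : Dead k (p 2)
    · rw [(D.mode_dead A k p hd).1, abs_zero]
      have : 0 ≤ 1 - p 2 := by linarith
      positivity
    · have h2 : 1 / 2 < tauk k (p 2) := by
        by_contra hcon
        exact hd (Or.inl (not_lt.1 hcon))
      rw [mode_w, abs_mul, abs_of_nonneg (by positivity : 0 ≤ A * D.u k (p 2))]
      have hu1 : D.u k (p 2) ≤ D.Cd * 3 * (1 - p 2) := by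
        unfold tauk at h2
        have h8 : (0:ℝ) < 8 ^ k := by positivity
        have hnk : 8 ^ k ≤ nk k := by
          unfold nk
          have := Real.pi_gt_three
          nlinarith
        have h3 : 8 ^ k * D.u k (p 2) ≤ D.Cd :=
          (mul_le_mul_of_nonneg_right hnk hu).trans hnu
        have h4 : (1:ℝ) ≤ 8 ^ k * (3 * (1 - p 2)) := by nlinarith
        have h5 : 0 ≤ 1 - p 2 := by linarith
        calc D.u k (p 2) = 1 * D.u k (p 2) := by ring
          _ ≤ (8 ^ k * (3 * (1 - p 2))) * D.u k (p 2) := by gcongr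
          _ = (8 ^ k * D.u k (p 2)) * (3 * (1 - p 2)) := by ring
          _ ≤ D.Cd * (3 * (1 - p 2)) := by gcongr
          _ = _ := by ring
      calc A * D.u k (p 2) * |Real.cos (nk k * p (dirk k))|
          ≤ A * (D.Cd * 3 * (1 - p 2)) * 1 := by gcongr
        _ = _ := by ring

end CascData

end Crest.Agent.R083
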