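import Crest.Agent.R083.Defs

/-!
Row 83, TM-c (front lemma): definitions.
-/

set_option autoImplicit false

namespace Crest.Agent.R083

open MeasureTheory Set Filter
open scoped Gradient ENNReal NNReal Topology ContDiff

/-- The other horizontal index. -/
def oth (i : Fin 3) : Fin 3 := if i = 0 then 1 else 0

/-- Data of one mode in direction `i` (`i = 0` or `1`): amplitude `G`, main flux `K`, and two
couplings `(b1, B1, m1)`, `(b2, B2, m2)`. Arguments of `G, K, ...` are `(level, p i)`. -/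
structure ModeData where
  i : Fin 3
  G : ℝ × ℝ → ℝ
  K : ℝ × ℝ → ℝ
  b1 : ℝ × ℝ → ℝ
  B1 : ℝ × ℝ → ℝ
  b2 : ℝ × ℝ → ℝ
  B2 : ℝ × ℝ → ℝ
  m1 : ℝ
  m2 : ℝ

namespace ModeData

variable (M : ModeData)

noncomputable def w (p : E3) : ℝ := M.G (p 2, p M.i)

/-- Flux component in the direction of the mode. -/
noncomputable def Ji (p : E3) : ℝ :=
  M.K (p 2, p M.i) - 2 * Real.sin (M.m1 * p (oth M.i)) ^ 2 * M.B1 (p 2, p M.i)
    - 2 * Real.sin (M.m2 * p (oth M.i)) ^ 2 * M.B2 (p 2, p M.i)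

/-- Flux component in the other horizontal direction. -/
noncomputable def Jo (p : E3) : ℝ :=
  -(M.b1 (p 2, p M.i) * (Real.sin (2 * M.m1 * p (oth M.i)) / (2 * M.m1)))
    - M.b2 (p 2, p M.i) * (Real.sin (2 * M.m2 * p (oth M.i)) / (2 * M.m2))

noncomputable def J (p : E3) : E3 :=
  if M.i = 0 then pt (M.Ji p) (M.Jo p) (fderiv ℝ M.G (p 2, p M.i) (1, 0))
  else pt (M.Jo p) (M.Ji p) (fderiv ℝ M.G (p 2, p M.i) (1, 0))

end ModeData

/-- `(w, J)` is a smooth solution on the open set `Ω`. -/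
def IsFld (Ω : Set E3) (w : E3 → ℝ) (J : E3 → E3) : Prop :=
  ContDiffOn ℝ ∞ w Ω ∧ ContDiffOn ℝ ∞ J Ω ∧
    ∀ p ∈ Ω, fderiv ℝ w p (ee 2) = J p 2 ∧ dvg J p = 0

end Crest.Agent.R083
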