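import Crest.Agent.R083.FrontD

/-!
Row 83, TM-c (front lemma): ellipticity, zero set, walls, bounds.
-/

set_option autoImplicit false

namespace Crest.Agent.R083

open MeasureTheory Set Filter
open scoped Gradient ENNReal NNReal Topology ContDiff

/-- Differentiation of the zero mean condition. -/
theorem fe_mean (U : ℝ × ℝ → ℝ) (hU : ContDiffOn ℝ ∞ U hp)
    (hm : ∀ σ, 0 < σ → ∫ x in (0:ℝ)..1, U (σ, x) = 0) (σ : ℝ) (hσ : 0 < σ) :
    ∫ x in (0:ℝ)..1, fderiv ℝ U (σ, x) (1, 0) = 0 := by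
  have hcont : ContinuousOn U hp := hU.continuousOn
  have hcont' : ContinuousOn (fun q => fderiv ℝ U q (1, 0)) hp := (fb_partial U hU (1, 0)).continuousOn
  have hK : IsCompact (Icc (σ / 2) (2 * σ) ×ˢ Icc (0:ℝ) 1) := isCompact_Icc.prod isCompact_Icc
  have hKs : Icc (σ / 2) (2 * σ) ×ˢ Icc (0:ℝ) 1 ⊆ hp := by
    rintro ⟨a, b⟩ ⟨ha, _⟩
    have := ha.1
    change 0 < a
    linarith
  obtain ⟨C, hC⟩ := hK.exists_bound_of_continuousOn (hcont'.mono hKs)
  have hsl (s : ℝ) (hs : 0 < s) (f : ℝ × ℝ → ℝ) (hf : ContinuousOn f hp) :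
      Continuous fun x => f (s, x) := by
    rw [← continuousOn_univ]
    exact hf.comp (by fun_prop) (fun x _ => hs)
  have key := intervalIntegral.hasDerivAt_integral_of_dominated_loc_of_deriv_le
    (μ := volume) (F := fun s x => U (s, x)) (F' := fun s x => fderiv ℝ U (s, x) (1, 0))
    (x₀ := σ) (a := 0) (b := 1) (s := Icc (σ / 2) (2 * σ)) (bound := fun _ => C)
    (Icc_mem_nhds (by linarith) (by linarith)) ?_ ?_ ?_ ?_ ?_ ?_
  · have h1 := key.2
    have h2 : (fun s => ∫ x in (0:ℝ)..1, U (s, x)) =ᶠ[𝓝 σ] fun _ => 0 := by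
      filter_upwards [lt_mem_nhds hσ] with s hs
      exact hm s hs
    have h3 := h1.unique ((hasDerivAt_const σ (0:ℝ)).congr_of_eventuallyEq h2)
    exact h3
  · filter_upwards [lt_mem_nhds hσ] with s hs
    exact (hsl s hs U hcont).aestronglyMeasurable
  · exact (hsl σ hσ U hcont).intervalIntegrable _ _
  · exact (hsl σ hσ _ hcont').aestronglyMeasurable
  · refine ae_of_all _ fun x hx s hs => ?_
    rw [uIoc_of_le zero_le_one] at hx
    exact hC (s, x) ⟨hs, hx.1.le, hx.2⟩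
  · exact intervalIntegrable_const
  · refine ae_of_all _ fun x hx s hs => ?_
    have hs0 : 0 < s := by have := hs.1; linarith
    have hd := (fb_at U hU (s, x) hs0).hasFDerivAt
    have hc : HasDerivAt (fun t : ℝ => (t, x)) ((1:ℝ), (0:ℝ)) s :=
      (hasDerivAt_id s).prodMk (hasDerivAt_const s x)
    exact hd.comp_hasDerivAt s hc

theorem Bz_right (U : ℝ × ℝ → ℝ) (hU : ContDiffOn ℝ ∞ U hp)
    (hm : ∀ σ, 0 < σ → ∫ x in (0:ℝ)..1, U (σ, x) = 0) (σ : ℝ) (hσ : 0 < σ) :
    Bz U (σ, 1) = 0 := by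
  have hsl (f : ℝ × ℝ → ℝ) (hf : ContinuousOn f hp) : Continuous fun x => f (σ, x) := by
    rw [← continuousOn_univ]
    exact hf.comp (by fun_prop) (fun x _ => hσ)
  unfold Bz bz
  simp only
  rw [intervalIntegral.integral_add, intervalIntegral.integral_const_mul,
    intervalIntegral.integral_const_mul, hm σ hσ, fe_mean U hU hm σ hσ]
  · ring
  · exact ((continuous_const.mul
      (hsl _ (fb_partial U hU (1, 0)).continuousOn))).intervalIntegrable _ _
  · exact ((continuous_const.mul (hsl _ hU.continuousOn))).intervalIntegrable _ _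

theorem CascData.r0_le_R0 (D : CascData) : D.r0 ≤ D.R0 := by
  have ht : tauk 0 (1 / 4) = 1 := by unfold tauk; norm_num
  have hu : 0 < D.u 0 (1 / 4) := D.pos 0 _ (by rw [ht]; norm_num) (by rw [ht]; norm_num)
  have h := D.ell 0 (1 / 4)
  have hn := nk_pos 0
  have h2 : 0 < nk 0 ^ 2 * D.u 0 (1 / 4) := by positivity
  have h3 := h.1.trans h.2
  rw [mul_assoc, mul_assoc] at h3
  exact le_of_mul_le_mul_right h3 h2

namespace FrOK

variable {D : CascData} {U : ℝ × ℝ → ℝ} {lam A : ℝ} (h : FrOK D U lam A)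

include h

omit h in
theorem rpos : 0 < min D.r0 1 := lt_min D.r0pos one_pos

theorem Bz1 (σ x : ℝ) (hσ : 0 < σ) (hx0 : 0 ≤ x) (hx1 : x ≤ 1) :
    |Bz U (σ, x)| ≤ min D.r0 1 / 100 * A * D.u 1 σ := by
  have hr := rpos (D := D)
  have hA := h.Apos
  have hu := D.nonneg 1 σ
  have hC : 0 ≤ min D.r0 1 / 100 * A * D.u 1 σ := by positivity
  have := intervalIntegral.norm_integral_le_of_norm_le_const (a := 0) (b := x)
    (C := min D.r0 1 / 100 * A * D.u 1 σ) (f := fun t => bz U (σ, t)) (fun t ht => by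
      rw [uIoc_of_le hx0] at ht
      exact h.bz1 σ t hσ ht.1.le (ht.2.trans hx1))
  change |∫ t in (0:ℝ)..x, bz U (σ, t)| ≤ _
  refine this.trans ?_
  rw [sub_zero, abs_of_nonneg hx0]
  nlinarith

/-- Ellipticity. -/
theorem ell (p : E3) (h00 : 0 ≤ p 0) (h01 : p 0 ≤ 1) (hp0 : 0 < p 2) (hp1 : p 2 < 1) :
    min D.r0 1 / 2 / (1 + 16 * (max (max D.R0 lam) 1) ^ 2) *
      ((∇ (frW D U lam A) p) 0 ^ 2 + (∇ (frW D U lam A) p) 1 ^ 2 + frJ D U lam A p 0 ^ 2 +
        frJ D U lam A p 1 ^ 2) ≤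
      frJ D U lam A p 0 * (∇ (frW D U lam A) p) 0 + frJ D U lam A p 1 * (∇ (frW D U lam A) p) 1 := by
  obtain ⟨m, hm1, hm2, ew, eJ, eg⟩ := fr_two D U lam A h.sm h.pde p hp0 hp1
  rw [fd_grad, fd_grad, eg, eg, eJ]
  set R := max (max D.R0 lam) 1 with hR
  set r := min D.r0 1 with hr
  have hrR : r ≤ R := (min_le_right _ _).trans (le_max_right _ _)
  have hRD : D.R0 ≤ R := (le_max_left _ _).trans (le_max_left _ _)
  have hRl : lam ≤ R := (le_max_right _ _).trans (le_max_left _ _)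
  have hr0 : 0 < r := rpos (D := D)
  have hrD : r ≤ D.r0 := min_le_left _ _
  have ellk (k : ℕ) : r * nk k ^ 2 * D.u k (p 2) ≤ D.α k (p 2) ∧
      D.α k (p 2) ≤ R * nk k ^ 2 * D.u k (p 2) := by
    have hu := D.nonneg k (p 2)
    have h1 := D.ell k (p 2)
    have h2 : 0 ≤ nk k ^ 2 * D.u k (p 2) := by positivity
    constructor
    · refine le_trans ?_ h1.1
      rw [mul_assoc, mul_assoc]
      exact mul_le_mul_of_nonneg_right hrD h2
    · refine le_trans h1.2 ?_
      rw [mul_assoc, mul_assoc]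
      exact mul_le_mul_of_nonneg_right hRD h2
  cases m with
  | zero =>
    have d1 : dirk (0 + 1) = 1 := by simp [dirk]
    have o1 : oth (dirk (0 + 1)) = 0 := by simp [dirk, oth]
    have J10 : (frm D U lam A (0 + 1)).J p 0 = (D.mode A (0 + 1)).Jo p := by
      rw [← D.mode_Joth A (0 + 1) p, o1]; rfl
    have J11 : (frm D U lam A (0 + 1)).J p 1 = (D.mode A (0 + 1)).Ji p := by
      rw [← D.mode_Jdir A (0 + 1) p, d1]; rfl
    have J00 : (frm D U lam A 0).J p 0 = (mode0 U lam).Ji p := mode0_J0 U lam p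
    have J01 : (frm D U lam A 0).J p 1 = (mode0 U lam).Jo p := mode0_J1 U lam p
    obtain ⟨g1, g2, _⟩ := D.mode_g A (0 + 1) p
    rw [d1] at g1
    rw [o1] at g2
    obtain ⟨k1, k2, _⟩ := mode0_g U lam h.sm p hp0
    have G00 : fderiv ℝ (frm D U lam A 0).w p (ee 0) =
      cut0 (p 2) * fderiv ℝ U (p 2, p 0) (0, 1) := k1
    have G01 : fderiv ℝ (frm D U lam A 0).w p (ee 1) = 0 := k2
    have G10 : fderiv ℝ (frm D U lam A (0 + 1)).w p (ee 0) = 0 := g2
    have G11 : fderiv ℝ (frm D U lam A (0 + 1)).w p (ee 1) =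
      -(A * D.u (0 + 1) (p 2) * nk (0 + 1) * Real.sin (nk (0 + 1) * p 1)) := g1
    have bd0 : D.bd (0 + 1) (p 2) = 0 := D.bd_zero _ _ (Or.inr (by linarith))
    have hn1 : 1 ≤ nk (0 + 1) := nk_one_le _
    have key := ft_zero r R lam A (nk (0 + 1)) (D.u (0 + 1) (p 2)) (D.α (0 + 1) (p 2))
      (D.bb (0 + 1) (p 2)) (bz U (p 2, p 0)) (Bz U (p 2, p 0)) (fderiv ℝ U (p 2, p 0) (0, 1))
      (cut0 (p 2)) (Real.sin (nk (0 + 1) * p 1)) (Real.cos (nk (0 + 1) * p 1))
      (Real.sin (Real.pi * p 0)) (Real.cos (Real.pi * p 0)) hr0 hrR h.Apos hn1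
      (D.nonneg _ _) ⟨(min_le_right _ _).trans h.lam1, hRl⟩ (ellk (0 + 1))
      (h.birth1 (p 2) (p 0) hp0 h00 h01) (h.bz1 (p 2) (p 0) hp0 h00 h01)
      (h.Bz1 (p 2) (p 0) hp0 h00 h01)
      (Real.abs_sin_le_one _) (Real.abs_cos_le_one _) (Real.abs_sin_le_one _)
      (Real.abs_cos_le_one _)
      (fderiv ℝ (frm D U lam A 0).w p (ee 1) + fderiv ℝ (frm D U lam A (0 + 1)).w p (ee 1))
      (fderiv ℝ (frm D U lam A 0).w p (ee 0) + fderiv ℝ (frm D U lam A (0 + 1)).w p (ee 0))
      ((frm D U lam A 0).J p 1 + (frm D U lam A (0 + 1)).J p 1)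
      ((frm D U lam A 0).J p 0 + (frm D U lam A (0 + 1)).J p 0)
      (by rw [G01, G11]; ring) (by rw [G00, G10]; ring)
      (by
        have hn := (nk_pos (0 + 1)).ne'
        rw [J01, J11, mode0_Jo, D.mode_Ji, bd0, d1, (by simp [oth] : oth 1 = 0)]
        have e0 : nk (0 + 1 - 1) = Real.pi := nk_zero
        rw [e0]
        have e1 : Real.sin (2 * nk 1 * p 1) =
          2 * Real.sin (nk (0 + 1) * p 1) * Real.cos (nk (0 + 1) * p 1) := by
          rw [← Real.sin_two_mul]; congr 1; ring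
        rw [e1]
        change -(bz U (p 2, p 0) * (2 * Real.sin (nk 1 * p 1) * Real.cos (nk 1 * p 1) /
          (2 * nk 1))) + _ = _
        simp only [zero_add] at hn ⊢
        field_simp
        ring)
      (by
        have hn := (nk_pos (0 + 1)).ne'
        have hpi := Real.pi_pos.ne'
        rw [J00, J10, mode0_Ji, D.mode_Jo, bd0, d1, (by simp [oth] : oth 1 = 0)]
        have e0 : nk (0 + 1 - 1) = Real.pi := nk_zero
        rw [e0]
        have e1 : Real.sin (2 * Real.pi * p 0) =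
          2 * Real.sin (Real.pi * p 0) * Real.cos (Real.pi * p 0) := by
          rw [← Real.sin_two_mul]; congr 1; ring
        rw [e1]
        simp only [zero_add] at hn ⊢
        field_simp
        ring)
    have e1 : (frm D U lam A 0).J p 0 + (frm D U lam A (0 + 1)).J p 0 =
      ((frm D U lam A 0).J p + (frm D U lam A (0 + 1)).J p) 0 := rfl
    have e2 : (frm D U lam A 0).J p 1 + (frm D U lam A (0 + 1)).J p 1 =
      ((frm D U lam A 0).J p + (frm D U lam A (0 + 1)).J p) 1 := rfl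
    rw [e1, e2] at key
    linarith [key]
  | succ m =>
    have h8 : tauk (m + 1 + 1) (p 2) < 8 := by
      rcases hm2 with h' | h'
      · omega
      · exact h'
    have hτ : tauk (m + 1) (p 2) < 1 := by rw [tauk_succ] at h8; linarith
    set k := m + 1 with hk
    have F0 : frm D U lam A k = D.mode A k := rfl
    have F1 : frm D U lam A (k + 1) = D.mode A (k + 1) := rfl
    rw [F0, F1]
    have bd0 : D.bd (k + 1) (p 2) = 0 := D.bd_zero _ _ (Or.inr (by linarith))
    have bb0 : D.bb k (p 2) = 0 := D.bb_zero _ _ (Or.inl (by linarith))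
    have o0 : oth (dirk k) = dirk (k + 1) := oth_dirk k
    have o1 : oth (dirk (k + 1)) = dirk k := oth_dirk_succ k
    obtain ⟨g1, g2, _⟩ := D.mode_g A k p
    obtain ⟨g3, g4, _⟩ := D.mode_g A (k + 1) p
    rw [o0] at g2
    rw [o1] at g4
    have J1 := D.mode_Jdir A k p
    have J2 := D.mode_Joth A k p
    have J3 := D.mode_Jdir A (k + 1) p
    have J4 := D.mode_Joth A (k + 1) p
    rw [D.mode_Ji] at J1 J3
    rw [D.mode_Jo] at J2 J4
    rw [o0] at J1 J2
    rw [o1] at J3 J4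
    have hkk : k + 1 - 1 = k := rfl
    rw [hkk] at J3 J4
    have hn0 := nk_pos k
    have hn1 := nk_pos (k + 1)
    have hbb := D.bb_birth k (by omega) (p 2)
    have hbd := D.bd_death k (by omega) (p 2)
    have hu0 := D.nonneg k (p 2)
    have hu1 := D.nonneg (k + 1) (p 2)
    have hDR : D.r0 ≤ R := D.r0_le_R0.trans hRD
    have key := ft_casc D.r0 R A (nk (k + 1)) (nk k) (D.u (k + 1) (p 2))
      (D.u k (p 2)) (D.α (k + 1) (p 2)) (D.α k (p 2)) (D.bb (k + 1) (p 2)) (D.bd k (p 2))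
      (Real.sin (nk (k + 1) * p (dirk (k + 1)))) (Real.cos (nk (k + 1) * p (dirk (k + 1))))
      (Real.sin (nk k * p (dirk k))) (Real.cos (nk k * p (dirk k)))
      D.r0pos hDR h.Apos hn0 (nk_succ k) hu1 hu0
      ⟨(D.ell (k + 1) (p 2)).1, (ellk (k + 1)).2⟩ ⟨(D.ell k (p 2)).1, (ellk k).2⟩ hbb hbd
      (Real.abs_sin_le_one _) (Real.abs_cos_le_one _) (Real.abs_sin_le_one _)
      (Real.abs_cos_le_one _)
      (fderiv ℝ (D.mode A k).w p (ee (dirk (k + 1))) +
        fderiv ℝ (D.mode A (k + 1)).w p (ee (dirk (k + 1))))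
      (fderiv ℝ (D.mode A k).w p (ee (dirk k)) + fderiv ℝ (D.mode A (k + 1)).w p (ee (dirk k)))
      ((D.mode A k).J p (dirk (k + 1)) + (D.mode A (k + 1)).J p (dirk (k + 1)))
      ((D.mode A k).J p (dirk k) + (D.mode A (k + 1)).J p (dirk k))
      (by rw [g2, g3]; ring) (by rw [g1, g4]; ring)
      (by
        rw [J2, J3, bd0, bb0]
        have e1 : Real.sin (2 * nk (k + 1) * p (dirk (k + 1))) =
          2 * Real.sin (nk (k + 1) * p (dirk (k + 1))) *
            Real.cos (nk (k + 1) * p (dirk (k + 1))) := by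
          rw [← Real.sin_two_mul]; congr 1; ring
        rw [e1]
        field_simp
        ring)
      (by
        rw [J1, J4, bd0, bb0]
        have e1 : Real.sin (2 * nk k * p (dirk k)) =
          2 * Real.sin (nk k * p (dirk k)) * Real.cos (nk k * p (dirk k)) := by
          rw [← Real.sin_two_mul]; congr 1; ring
        rw [e1]
        field_simp
        ring)
    have hcoef : r / 2 / (1 + 16 * R ^ 2) ≤ D.r0 / 2 / (1 + 16 * R ^ 2) := by gcongr
    have e (c : Fin 3) : (D.mode A k).J p c + (D.mode A (k + 1)).J p c =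
      ((D.mode A k).J p + (D.mode A (k + 1)).J p) c := rfl
    rw [e, e] at key
    rcases dirk_or k with hd | hd
    · have hd' : dirk (k + 1) = 1 := by rw [← o0, hd]; simp [oth]
      rw [hd, hd'] at key
      refine le_trans (mul_le_mul_of_nonneg_right hcoef (by positivity)) ?_
      linarith [key]
    · have hd' : dirk (k + 1) = 0 := by rw [← o0, hd]; simp [oth]
      rw [hd, hd'] at key
      refine le_trans (mul_le_mul_of_nonneg_right hcoef (by positivity)) ?_
      linarith [key]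

end FrOK

end Crest.Agent.R083
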