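import Crest.Agent.R083.FrontDefs

/-!
Row 83, TM-c (front lemma): the perturbative ellipticity inequality and the choice of the
amplitude.
-/

set_option autoImplicit false

namespace Crest.Agent.R083

open MeasureTheory Set Filter
open scoped Gradient ENNReal NNReal Topology ContDiff

/-- `J = diag (r1, r2) P + e` with a small cross error `e`. -/
theorem fe_ell (r0 R0 r1 r2 P1 P2 J1 J2 : ℝ) (hr0 : 0 < r0)
    (h1 : r0 ≤ r1 ∧ r1 ≤ R0) (h2 : r0 ≤ r2 ∧ r2 ≤ R0)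
    (e1 : |J1 - r1 * P1| ≤ r0 / 10 * |P1| + r0 / 5 * |P2|)
    (e2 : |J2 - r2 * P2| ≤ r0 / 5 * |P1| + r0 / 10 * |P2|) :
    r0 / 2 / (1 + 16 * R0 ^ 2) * (P1 ^ 2 + P2 ^ 2 + J1 ^ 2 + J2 ^ 2) ≤ J1 * P1 + J2 * P2 := by
  have hR0 : 0 < R0 := lt_of_lt_of_le hr0 (h1.1.trans h1.2)
  have hrR : r0 ≤ R0 := h1.1.trans h1.2
  set a := |P1| with ha
  set b := |P2| with hb
  have ha0 : 0 ≤ a := abs_nonneg _
  have hb0 : 0 ≤ b := abs_nonneg _
  have haa : P1 ^ 2 = a ^ 2 := (sq_abs P1).symm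
  have hbb : P2 ^ 2 = b ^ 2 := (sq_abs P2).symm
  have k1 : |(J1 - r1 * P1) * P1| ≤ (r0 / 10 * a + r0 / 5 * b) * a := by
    rw [abs_mul]; exact mul_le_mul_of_nonneg_right e1 ha0
  have k2 : |(J2 - r2 * P2) * P2| ≤ (r0 / 5 * a + r0 / 10 * b) * b := by
    rw [abs_mul]; exact mul_le_mul_of_nonneg_right e2 hb0
  have k1' := neg_abs_le ((J1 - r1 * P1) * P1)
  have k2' := neg_abs_le ((J2 - r2 * P2) * P2)
  have hlow : r0 / 2 * (a ^ 2 + b ^ 2) ≤ J1 * P1 + J2 * P2 := by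
    have e : J1 * P1 + J2 * P2 = r1 * P1 ^ 2 + r2 * P2 ^ 2 + (J1 - r1 * P1) * P1 +
        (J2 - r2 * P2) * P2 := by ring
    have q1 : r0 * a ^ 2 ≤ r1 * P1 ^ 2 := by
      rw [haa]; exact mul_le_mul_of_nonneg_right h1.1 (sq_nonneg _)
    have q2 : r0 * b ^ 2 ≤ r2 * P2 ^ 2 := by
      rw [hbb]; exact mul_le_mul_of_nonneg_right h2.1 (sq_nonneg _)
    nlinarith [mul_nonneg hr0.le (sq_nonneg (a - b)), mul_nonneg hr0.le (sq_nonneg a),
      mul_nonneg hr0.le (sq_nonneg b)]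
  have j1 : |J1| ≤ 2 * R0 * (a + b) := by
    have t : J1 = (J1 - r1 * P1) + r1 * P1 := by ring
    have t2 : |J1| ≤ |J1 - r1 * P1| + |r1 * P1| := by
      conv_lhs => rw [t]
      exact abs_add_le _ _
    have t3 : |r1 * P1| ≤ R0 * a := by
      rw [abs_mul, abs_of_pos (lt_of_lt_of_le hr0 h1.1)]
      exact mul_le_mul_of_nonneg_right h1.2 ha0
    nlinarith [mul_nonneg hR0.le ha0, mul_nonneg hR0.le hb0, mul_le_mul_of_nonneg_right hrR ha0,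
      mul_le_mul_of_nonneg_right hrR hb0]
  have j2 : |J2| ≤ 2 * R0 * (a + b) := by
    have t : J2 = (J2 - r2 * P2) + r2 * P2 := by ring
    have t2 : |J2| ≤ |J2 - r2 * P2| + |r2 * P2| := by
      conv_lhs => rw [t]
      exact abs_add_le _ _
    have t3 : |r2 * P2| ≤ R0 * b := by
      rw [abs_mul, abs_of_pos (lt_of_lt_of_le hr0 h2.1)]
      exact mul_le_mul_of_nonneg_right h2.2 hb0
    nlinarith [mul_nonneg hR0.le ha0, mul_nonneg hR0.le hb0, mul_le_mul_of_nonneg_right hrR ha0,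
      mul_le_mul_of_nonneg_right hrR hb0]
  have s1 : J1 ^ 2 ≤ (2 * R0 * (a + b)) ^ 2 := by
    rw [← sq_abs J1]; exact pow_le_pow_left₀ (abs_nonneg _) j1 2
  have s2 : J2 ^ 2 ≤ (2 * R0 * (a + b)) ^ 2 := by
    rw [← sq_abs J2]; exact pow_le_pow_left₀ (abs_nonneg _) j2 2
  have hup : P1 ^ 2 + P2 ^ 2 + J1 ^ 2 + J2 ^ 2 ≤ (1 + 16 * R0 ^ 2) * (a ^ 2 + b ^ 2) := by
    nlinarith [mul_nonneg (sq_nonneg R0) (sq_nonneg (a - b))]
  have hD : 0 < 1 + 16 * R0 ^ 2 := by positivity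
  calc r0 / 2 / (1 + 16 * R0 ^ 2) * (P1 ^ 2 + P2 ^ 2 + J1 ^ 2 + J2 ^ 2)
      ≤ r0 / 2 / (1 + 16 * R0 ^ 2) * ((1 + 16 * R0 ^ 2) * (a ^ 2 + b ^ 2)) :=
        mul_le_mul_of_nonneg_left hup (by positivity)
    _ = r0 / 2 * (a ^ 2 + b ^ 2) := by field_simp
    _ ≤ _ := hlow

/-- Choice of the amplitude `A = exp (-27 ρ / 64)`. -/
theorem fe_amp (ε Bm c0 um E1 E2 : ℝ) (hε : 0 < ε) (hc0 : 0 < c0) (hum : 0 < um) :
    ∃ ρ0 : ℝ, 1 ≤ ρ0 ∧ ∀ ρ : ℝ, ρ0 ≤ ρ →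
      Real.exp (-(27 / 64 * ρ)) * Bm ≤ ε * c0 * Real.exp (-ρ * (11 / 32)) ∧
      (E1 * ρ + E2) * Real.exp (-ρ * (1 / 2)) ≤ ε * Real.exp (-(27 / 64 * ρ)) * um := by
  have h1 : Tendsto (fun ρ : ℝ => Real.exp (-(5 / 64 * ρ)) * Bm) atTop (𝓝 0) := by
    have : Tendsto (fun ρ : ℝ => Real.exp (-(5 / 64 * ρ))) atTop (𝓝 0) :=
      Real.tendsto_exp_neg_atTop_nhds_zero.comp
        (tendsto_id.const_mul_atTop (by norm_num : (0:ℝ) < 5 / 64))
    simpa using this.mul_const Bm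
  have h2 : Tendsto (fun ρ : ℝ => (E1 * ρ + E2) * Real.exp (-(5 / 64 * ρ))) atTop (𝓝 0) := by
    have a1 : Tendsto (fun x : ℝ => x * Real.exp (-x)) atTop (𝓝 0) := by
      simpa using Real.tendsto_pow_mul_exp_neg_atTop_nhds_zero 1
    have a2 : Tendsto (fun ρ : ℝ => (5 / 64 * ρ) * Real.exp (-(5 / 64 * ρ))) atTop (𝓝 0) :=
      a1.comp (tendsto_id.const_mul_atTop (by norm_num : (0:ℝ) < 5 / 64))
    have a3 : Tendsto (fun ρ : ℝ => Real.exp (-(5 / 64 * ρ))) atTop (𝓝 0) :=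
      Real.tendsto_exp_neg_atTop_nhds_zero.comp
        (tendsto_id.const_mul_atTop (by norm_num : (0:ℝ) < 5 / 64))
    have := (a2.const_mul (E1 * (64 / 5))).add (a3.const_mul E2)
    simp only [mul_zero, add_zero] at this
    refine this.congr fun ρ => ?_
    ring
  have e1 := h1.eventually (gt_mem_nhds (show (0:ℝ) < ε * c0 by positivity))
  have e2 := h2.eventually (gt_mem_nhds (show (0:ℝ) < ε * um by positivity))
  obtain ⟨a, ha⟩ := eventually_atTop.1 (e1.and e2)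
  refine ⟨max a 1, le_max_right _ _, fun ρ hρ => ?_⟩
  obtain ⟨g1, g2⟩ := ha ρ ((le_max_left _ _).trans hρ)
  constructor
  · have e : Real.exp (-(27 / 64 * ρ)) = Real.exp (-(5 / 64 * ρ)) * Real.exp (-ρ * (11 / 32)) := by
      rw [← Real.exp_add]; congr 1; ring
    rw [e]
    calc _ = Real.exp (-(5 / 64 * ρ)) * Bm * Real.exp (-ρ * (11 / 32)) := by ring
      _ ≤ ε * c0 * Real.exp (-ρ * (11 / 32)) :=
        mul_le_mul_of_nonneg_right g1.le (Real.exp_pos _).le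
  · have e : Real.exp (-ρ * (1 / 2)) = Real.exp (-(5 / 64 * ρ)) * Real.exp (-(27 / 64 * ρ)) := by
      rw [← Real.exp_add]; congr 1; ring
    rw [e]
    calc _ = (E1 * ρ + E2) * Real.exp (-(5 / 64 * ρ)) * Real.exp (-(27 / 64 * ρ)) := by ring
      _ ≤ ε * um * Real.exp (-(27 / 64 * ρ)) :=
        mul_le_mul_of_nonneg_right g2.le (Real.exp_pos _).le
      _ = _ := by ring

end Crest.Agent.R083
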