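import Crest.Agent.R083.FrontE

/-!
Row 83, TM-c (front lemma): zero set, walls, bounds.
-/

set_option autoImplicit false

namespace Crest.Agent.R083

open MeasureTheory Set Filter
open scoped Gradient ENNReal NNReal Topology ContDiff

theorem ff_m_zero (m : ℕ) (σ : ℝ) (hσ : σ < 1) (h1 : 1 ≤ tauk 1 σ)
    (h : m = 0 ∨ tauk (m + 1) σ < 8) : m = 0 := by
  rcases h with h | h
  · exact h
  · by_contra hm
    have h2 := (tauk_mono 1 m (by omega) σ (tauk_pos 1 _ hσ).le).2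
    rw [tauk_succ] at h
    linarith

theorem ff_tau1 (σ : ℝ) : tauk 1 σ = 32 / 3 * (1 - σ) := by unfold tauk; norm_num

namespace FrOK

variable {D : CascData} {U : ℝ × ℝ → ℝ} {lam A : ℝ} (h : FrOK D U lam A)

include h

theorem zeros (p : E3) (h00 : 0 ≤ p 0) (h01 : p 0 ≤ 1) (hp0 : 0 < p 2) (hp1 : p 2 < 1)
    (z0 : (∇ (frW D U lam A) p) 0 = 0) (z1 : (∇ (frW D U lam A) p) 1 = 0) :
    ∃ k : ℕ, Real.sin (Real.pi * 8 ^ k * p 0) = 0 ∨ Real.sin (Real.pi * 8 ^ k * p 1) = 0 := by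
  obtain ⟨m, hm1, hm2, ew, eJ, eg⟩ := fr_two D U lam A h.sm h.pde p hp0 hp1
  rw [fd_grad, eg] at z0 z1
  have hA := h.Apos
  -- a live mode gives a zero of a sine
  have live (k : ℕ) (hk1 : 9 / 16 ≤ tauk k (p 2)) (hk2 : tauk k (p 2) ≤ 7)
      (hz : -(A * D.u k (p 2) * nk k * Real.sin (nk k * p (dirk k))) = 0) :
      ∃ k : ℕ, Real.sin (Real.pi * 8 ^ k * p 0) = 0 ∨ Real.sin (Real.pi * 8 ^ k * p 1) = 0 := by
    have hu := D.pos k (p 2) hk1 hk2
    have hn := nk_pos k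
    have hne : A * D.u k (p 2) * nk k ≠ 0 := by positivity
    have hs : Real.sin (nk k * p (dirk k)) = 0 := by
      have : A * D.u k (p 2) * nk k * Real.sin (nk k * p (dirk k)) = 0 := by linarith
      exact (mul_eq_zero.1 this).resolve_left hne
    refine ⟨k, ?_⟩
    rcases dirk_or k with hd | hd
    · left; rw [hd] at hs; exact hs
    · right; rw [hd] at hs; exact hs
  cases m with
  | zero =>
    have d1 : dirk (0 + 1) = 1 := by simp [dirk]
    have o1 : oth (dirk (0 + 1)) = 0 := by simp [dirk, oth]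
    obtain ⟨g1, g2, _⟩ := D.mode_g A (0 + 1) p
    have g1' := g1
    rw [d1] at g1
    rw [o1] at g2
    obtain ⟨k1, k2, _⟩ := mode0_g U lam h.sm p hp0
    have G00 : fderiv ℝ (frm D U lam A 0).w p (ee 0) =
      cut0 (p 2) * fderiv ℝ U (p 2, p 0) (0, 1) := k1
    have G01 : fderiv ℝ (frm D U lam A 0).w p (ee 1) = 0 := k2
    have G10 : fderiv ℝ (frm D U lam A (0 + 1)).w p (ee 0) = 0 := g2
    have G11 : fderiv ℝ (frm D U lam A (0 + 1)).w p (ee 1) =
      -(A * D.u (0 + 1) (p 2) * nk (0 + 1) * Real.sin (nk (0 + 1) * p 1)) := g1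
    rcases le_or_gt (p 2) (1 / 2) with hlow | hhigh
    · rw [G00, G10, cut0_one _ hlow] at z0
      refine ⟨0, Or.inl ?_⟩
      by_contra hne
      have hne' : Real.sin (Real.pi * p 0) ≠ 0 := by simpa using hne
      refine h.low (p 2) (p 0) hp0 hlow h00 h01 hne' ?_
      linarith
    · refine live (0 + 1) (by linarith) ?_ ?_
      · rw [zero_add, ff_tau1]; linarith
      · rw [d1]
        rw [G01, G11] at z1
        linarith
  | succ m =>
    have h8 : tauk (m + 1 + 1) (p 2) < 8 := by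
      rcases hm2 with h' | h'
      · omega
      · exact h'
    have hτ : tauk (m + 1) (p 2) < 1 := by rw [tauk_succ] at h8; linarith
    set k := m + 1 with hk
    have F0 : frm D U lam A k = D.mode A k := rfl
    have F1 : frm D U lam A (k + 1) = D.mode A (k + 1) := rfl
    rw [F0, F1] at z0 z1
    have zz : ∀ c : Fin 3, c ≠ 2 → fderiv ℝ (D.mode A k).w p (ee c) +
        fderiv ℝ (D.mode A (k + 1)).w p (ee c) = 0 := by
      intro c hc
      fin_cases c
      · exact z0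
      · exact z1
      · exact absurd rfl hc
    have o0 : oth (dirk k) = dirk (k + 1) := oth_dirk k
    have o1 : oth (dirk (k + 1)) = dirk k := oth_dirk_succ k
    have hd2 (j : ℕ) : dirk j ≠ 2 := by
      rcases dirk_or j with hd | hd <;> rw [hd] <;> decide
    obtain ⟨g1, g2, _⟩ := D.mode_g A k p
    obtain ⟨g3, g4, _⟩ := D.mode_g A (k + 1) p
    rw [o0] at g2
    rw [o1] at g4
    rcases le_or_gt (tauk (k + 1) (p 2)) 7 with h7 | h7
    · refine live (k + 1) (by linarith) h7 ?_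
      have := zz (dirk (k + 1)) (hd2 _)
      rw [g2, g3] at this
      linarith
    · refine live k ?_ (by linarith) ?_
      · rw [tauk_succ] at h7; linarith
      · have := zz (dirk k) (hd2 _)
        rw [g1, g4] at this
        linarith

theorem wall0 (p : E3) (hp0 : 0 < p 2) (hp1 : p 2 < 1) (hx : p 0 = 0 ∨ p 0 = 1) :
    frJ D U lam A p 0 = 0 := by
  obtain ⟨m, hm1, hm2, ew, eJ, eg⟩ := fr_two D U lam A h.sm h.pde p hp0 hp1
  rw [eJ]
  change (frm D U lam A m).J p 0 + (frm D U lam A (m + 1)).J p 0 = 0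
  have h2 : (frm D U lam A (m + 1)).J p 0 = 0 := D.mode_wall A (m + 1) p 0 (by decide) hx
  have h1 : (frm D U lam A m).J p 0 = 0 := by
    cases m with
    | zero =>
      have : (frm D U lam A 0).J p 0 = (mode0 U lam).Ji p := mode0_J0 U lam p
      rw [this, mode0_Ji]
      rcases hx with hx | hx
      · rw [hx, (h.wall (p 2) hp0).1, Bz_left]; ring
      · rw [hx, (h.wall (p 2) hp0).2, Bz_right U h.sm h.mean _ hp0]; ring
    | succ m => exact D.mode_wall A (m + 1) p 0 (by decide) hx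
  rw [h1, h2]; ring

theorem wall1 (p : E3) (hp0 : 0 < p 2) (hp1 : p 2 < 1) (hx : p 1 = 0 ∨ p 1 = 1) :
    frJ D U lam A p 1 = 0 := by
  obtain ⟨m, hm1, hm2, ew, eJ, eg⟩ := fr_two D U lam A h.sm h.pde p hp0 hp1
  rw [eJ]
  change (frm D U lam A m).J p 1 + (frm D U lam A (m + 1)).J p 1 = 0
  have h2 : (frm D U lam A (m + 1)).J p 1 = 0 := D.mode_wall A (m + 1) p 1 (by decide) hx
  have h1 : (frm D U lam A m).J p 1 = 0 := by
    cases m with
    | zero =>
      have : (frm D U lam A 0).J p 1 = (mode0 U lam).Jo p := mode0_J1 U lam p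
      rw [this, mode0_Jo, fd_sin2_wall 1 _ hx]
      simp
    | succ m => exact D.mode_wall A (m + 1) p 1 (by decide) hx
  rw [h1, h2]; ring

theorem lowreg (p : E3) (hp0 : 0 < p 2) (hp1 : p 2 ≤ 1 / 4) :
    frW D U lam A p = U (p 2, p 0) ∧
    frJ D U lam A p = pt (lam * fderiv ℝ U (p 2, p 0) (0, 1)) 0
      (fderiv ℝ U (p 2, p 0) (1, 0)) := by
  have hlt : p 2 < 1 := by linarith
  obtain ⟨m, hm1, hm2, ew, eJ, eg⟩ := fr_two D U lam A h.sm h.pde p hp0 hlt
  have ht : 8 ≤ tauk 1 (p 2) := by rw [ff_tau1]; linarith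
  have hm : m = 0 := ff_m_zero m (p 2) hlt (by linarith) hm2
  subst hm
  obtain ⟨a1, a2, _⟩ := D.mode_dead A (0 + 1) p (Or.inr ht)
  have a1' : (frm D U lam A (0 + 1)).w p = 0 := a1
  have a2' : (frm D U lam A (0 + 1)).J p = 0 := a2
  have hc : cut0 (p 2) = 1 := cut0_one _ (by linarith)
  have hc' : deriv cut0 (p 2) = 0 := cut0_deriv_zero _ (Or.inl (by linarith))
  rw [ew, eJ, a1', a2']
  refine ⟨?_, ?_⟩
  · rw [add_zero]
    change cut0 (p 2) * U (p 2, p 0) = U (p 2, p 0)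
    rw [hc, one_mul]
  · rw [add_zero]
    have b0 : bz U (p 2, p 0) = 0 := bz_zero U _ (Or.inl (by change p 2 ≤ 1/2; linarith))
    have b1 : Bz U (p 2, p 0) = 0 := Bz_zero U _ (Or.inl (by change p 2 ≤ 1/2; linarith))
    ext i
    fin_cases i
    · change (mode0 U lam).J p 0 = _
      rw [mode0_J0, mode0_Ji, hc, b1]
      simp [pt]
    · change (mode0 U lam).J p 1 = _
      rw [mode0_J1, mode0_Jo, b0]
      simp [pt]
    · change (mode0 U lam).J p 2 = _
      rw [mode0_J2 U lam h.sm p hp0, hc, hc']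
      simp [pt]

theorem bound0 : ∃ N0 : ℝ, 0 ≤ N0 ∧ ∀ p : E3, 0 ≤ p 0 → p 0 ≤ 1 → 1 / 4 ≤ p 2 → p 2 < 1 →
      (∀ i, |fderiv ℝ (mode0 U lam).w p (ee i)| ≤ N0) ∧
      (∀ i, |(mode0 U lam).J p i| ≤ N0) ∧
      |(mode0 U lam).w p| ≤ 3 * N0 * (1 - p 2) := by
  -- compact set
  have hK : IsCompact (Icc (1 / 4 : ℝ) 1 ×ˢ Icc (0:ℝ) 1) := isCompact_Icc.prod isCompact_Icc
  have hKs : Icc (1 / 4 : ℝ) 1 ×ˢ Icc (0:ℝ) 1 ⊆ hp := by
    rintro ⟨a, b⟩ ⟨ha, _⟩
    have := ha.1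
    change 0 < a
    linarith
  obtain ⟨C1, hC1⟩ := hK.exists_bound_of_continuousOn (h.sm.continuousOn.mono hKs)
  obtain ⟨C2, hC2⟩ := hK.exists_bound_of_continuousOn
    ((fb_partial U h.sm (1, 0)).continuousOn.mono hKs)
  obtain ⟨C3, hC3⟩ := hK.exists_bound_of_continuousOn
    ((fb_partial U h.sm (0, 1)).continuousOn.mono hKs)
  obtain ⟨C4, hC4⟩ := hK.exists_bound_of_continuousOn
    ((bz_smooth U h.sm).continuous.continuousOn)
  obtain ⟨C5, hC5⟩ := hK.exists_bound_of_continuousOn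
    ((Bz_smooth U h.sm).continuous.continuousOn)
  obtain ⟨C6, hC6⟩ := (isCompact_Icc (a := (1 / 4 : ℝ)) (b := 1)).exists_bound_of_continuousOn
    (cut0_deriv_smooth.continuous.continuousOn)
  obtain ⟨M, hM0, m1, m2, m3, m4, m5, m6⟩ : ∃ M : ℝ, 0 ≤ M ∧ C1 ≤ M ∧ C2 ≤ M ∧ C3 ≤ M ∧
      C4 ≤ M ∧ C5 ≤ M ∧ C6 ≤ M := by
    refine ⟨|C1| + |C2| + |C3| + |C4| + |C5| + |C6|, by positivity, ?_, ?_, ?_, ?_, ?_, ?_⟩ <;>
    linarith [abs_nonneg C1, abs_nonneg C2, abs_nonneg C3, abs_nonneg C4, abs_nonneg C5,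
      abs_nonneg C6, le_abs_self C1, le_abs_self C2, le_abs_self C3, le_abs_self C4,
      le_abs_self C5, le_abs_self C6]
  have hlam : 0 < lam := lt_of_lt_of_le one_pos h.lam1
  have hMM : 0 ≤ M * M := by positivity
  have hlM : 0 ≤ lam * M := by positivity
  refine ⟨M * M + lam * M + 3 * M, by positivity, fun p h0 h1 h2 h3 => ?_⟩
  have hp2 : 0 < p 2 := by linarith
  have h1m : 0 ≤ 1 - p 2 := by linarith
  have mem : (p 2, p 0) ∈ Icc (1 / 4 : ℝ) 1 ×ˢ Icc (0:ℝ) 1 := ⟨⟨h2, h3.le⟩, h0, h1⟩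
  have b1 : |U (p 2, p 0)| ≤ M := (hC1 _ mem).trans m1
  have b2 : |fderiv ℝ U (p 2, p 0) (1, 0)| ≤ M := (hC2 _ mem).trans m2
  have b3 : |fderiv ℝ U (p 2, p 0) (0, 1)| ≤ M := (hC3 _ mem).trans m3
  have b4 : |bz U (p 2, p 0)| ≤ M := (hC4 _ mem).trans m4
  have b5 : |Bz U (p 2, p 0)| ≤ M := (hC5 _ mem).trans m5
  have b6 : |deriv cut0 (p 2)| ≤ M := (hC6 _ ⟨h2, h3.le⟩).trans m6
  clear hC1 hC2 hC3 hC4 hC5 hC6
  have c0 := cut0_mem (p 2)
  have c0' : |cut0 (p 2)| ≤ 1 := by rw [abs_of_nonneg c0.1]; exact c0.2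
  obtain ⟨k1, k2, k3⟩ := mode0_g U lam h.sm p hp2
  have q1 : |cut0 (p 2) * fderiv ℝ U (p 2, p 0) (0, 1)| ≤ M := by
    rw [abs_mul]
    calc _ ≤ 1 * M := by gcongr
      _ = M := one_mul _
  have q2 : |deriv cut0 (p 2) * U (p 2, p 0) + cut0 (p 2) * fderiv ℝ U (p 2, p 0) (1, 0)| ≤
      M * M + M := by
    refine (abs_add_le _ _).trans ?_
    rw [abs_mul, abs_mul]
    calc _ ≤ M * M + 1 * M := by gcongr
      _ = _ := by ring
  refine ⟨?_, ?_, ?_⟩
  · intro i
    fin_cases i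
    · change |fderiv ℝ (mode0 U lam).w p (ee 0)| ≤ _
      rw [k1]; linarith
    · change |fderiv ℝ (mode0 U lam).w p (ee 1)| ≤ _
      rw [k2, abs_zero]; positivity
    · change |fderiv ℝ (mode0 U lam).w p (ee 2)| ≤ _
      rw [k3]; linarith
  · intro i
    fin_cases i
    · change |(mode0 U lam).J p 0| ≤ _
      rw [mode0_J0, mode0_Ji]
      refine (abs_sub _ _).trans ?_
      have t1 : |lam * cut0 (p 2) * fderiv ℝ U (p 2, p 0) (0, 1)| ≤ lam * M := by
        rw [mul_assoc, abs_mul, abs_of_pos hlam]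
        gcongr
      have t2 : |2 * Real.sin (nk 1 * p 1) ^ 2 * Bz U (p 2, p 0)| ≤ 2 * M := by
        rw [abs_mul, abs_mul, abs_pow, abs_of_pos (by norm_num : (0:ℝ) < 2)]
        have := Real.abs_sin_le_one (nk 1 * p 1)
        calc _ ≤ 2 * 1 ^ 2 * M := by gcongr
          _ = _ := by ring
      linarith
    · change |(mode0 U lam).J p 1| ≤ _
      rw [mode0_J1, mode0_Jo, abs_neg, abs_mul, abs_div,
        abs_of_pos (by have := nk_pos 1; positivity : 0 < 2 * nk 1)]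
      have hn1 := nk_one_le 1
      have := Real.abs_sin_le_one (2 * nk 1 * p 1)
      have t : |Real.sin (2 * nk 1 * p 1)| / (2 * nk 1) ≤ 1 := by
        rw [div_le_one (by positivity)]
        linarith
      calc _ ≤ M * 1 := by gcongr
        _ ≤ _ := by linarith
    · change |(mode0 U lam).J p 2| ≤ _
      rw [mode0_J2 U lam h.sm p hp2]; linarith
  · change |cut0 (p 2) * U (p 2, p 0)| ≤ _
    rcases le_or_gt (5 / 8) (p 2) with hge | hlt
    · rw [cut0_zero _ hge, zero_mul, abs_zero]; positivity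
    · rw [abs_mul]
      have hM3 : 0 ≤ M * (5 / 8 - p 2) := mul_nonneg hM0 (by linarith)
      have hM4 : 0 ≤ (M * M + lam * M + 2 * M) * (1 - p 2) := by positivity
      calc _ ≤ 1 * M := by gcongr
        _ ≤ 3 * M * (1 - p 2) := by linarith
        _ ≤ _ := by linarith

theorem bounds : ∃ N : ℝ, ∀ p : E3, 0 ≤ p 0 → p 0 ≤ 1 → 1 / 4 ≤ p 2 → p 2 < 1 →
    ‖∇ (frW D U lam A) p‖ ≤ N ∧ ‖frJ D U lam A p‖ ≤ N ∧ |frW D U lam A p| ≤ N * (1 - p 2) := by
  have hA := h.Apos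
  have hCd := D.Cd_nonneg
  obtain ⟨M, hM0, hM⟩ := h.bound0
  have hR := abs_nonneg D.R0
  have hACd : 0 ≤ A * D.Cd := by positivity
  obtain ⟨N0, hN00, hle, hle'⟩ : ∃ N0 : ℝ, 0 ≤ N0 ∧ M ≤ N0 ∧ A * D.Cd * (|D.R0| + 10) ≤ N0 :=
    ⟨M + A * D.Cd * (|D.R0| + 10), by positivity, by
      have : 0 ≤ A * D.Cd * (|D.R0| + 10) := by positivity
      linarith, by linarith⟩
  have hle'' : A * D.Cd ≤ N0 := by
    refine le_trans ?_ hle'
    have := mul_nonneg hACd (by positivity : 0 ≤ |D.R0| + 9)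
    linarith
  -- bounds for one mode
  have modeb (j : ℕ) (p : E3) (h0 : 0 ≤ p 0) (h1 : p 0 ≤ 1) (h2 : 1 / 4 ≤ p 2) (h3 : p 2 < 1) :
      (∀ i, |fderiv ℝ (frm D U lam A j).w p (ee i)| ≤ N0) ∧
      (∀ i, |(frm D U lam A j).J p i| ≤ N0) ∧
      |(frm D U lam A j).w p| ≤ 3 * N0 * (1 - p 2) := by
    have h1m : 0 ≤ 1 - p 2 := by linarith
    cases j with
    | zero =>
      obtain ⟨a1, a2, a3⟩ := hM p h0 h1 h2 h3
      refine ⟨fun i => (a1 i).trans hle, fun i => (a2 i).trans hle, a3.trans ?_⟩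
      have : M * (1 - p 2) ≤ N0 * (1 - p 2) := mul_le_mul_of_nonneg_right hle h1m
      linarith
    | succ k =>
      obtain ⟨a1, a2, a3⟩ := D.mode_bound A (k + 1) hA p
      refine ⟨fun i => (a1 i).trans hle'', fun i => (a2 i).trans hle', (a3 h3).trans ?_⟩
      have : A * D.Cd * (1 - p 2) ≤ N0 * (1 - p 2) := mul_le_mul_of_nonneg_right hle'' h1m
      linarith
  refine ⟨6 * N0, fun p h0 h1 h2 h3 => ?_⟩
  have hp2 : 0 < p 2 := by linarith
  obtain ⟨m, hm1, hm2, ew, eJ, eg⟩ := fr_two D U lam A h.sm h.pde p hp2 h3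
  obtain ⟨a1, a2, a3⟩ := modeb m p h0 h1 h2 h3
  obtain ⟨b1, b2, b3⟩ := modeb (m + 1) p h0 h1 h2 h3
  refine ⟨?_, ?_, ?_⟩
  · refine (fd_norm _ (2 * N0) (by positivity) (fun i => ?_)).trans (by linarith)
    rw [fd_grad, eg i]
    exact (abs_add_le _ _).trans (by linarith [a1 i, b1 i])
  · refine (fd_norm _ (2 * N0) (by positivity) (fun i => ?_)).trans (by linarith)
    rw [eJ]
    change |(frm D U lam A m).J p i + (frm D U lam A (m + 1)).J p i| ≤ _
    exact (abs_add_le _ _).trans (by linarith [a2 i, b2 i])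
  · rw [ew]
    exact (abs_add_le _ _).trans (by linarith [a3, b3])

theorem out (p : E3) (hp1 : 1 ≤ p 2) : frW D U lam A p = 0 ∧ frJ D U lam A p = 0 := by
  have key : ∀ j, (frm D U lam A j).w p = 0 ∧ (frm D U lam A j).J p = 0 := by
    intro j
    cases j with
    | zero =>
      obtain ⟨a, b, _⟩ := mode0_dead U lam h.sm p (by linarith)
      exact ⟨a, b⟩
    | succ k =>
      have : tauk (k + 1) (p 2) ≤ 1 / 2 := by
        unfold tauk
        have h8 : (0:ℝ) < 8 ^ (k + 1) * (4 / 3) := by positivity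
        nlinarith
      obtain ⟨a, b, _⟩ := D.mode_dead A (k + 1) p (Or.inl this)
      exact ⟨a, b⟩
  constructor
  · unfold frW
    simp [fun j => (key j).1]
  · unfold frJ
    simp [fun j => (key j).2]

theorem frontJ (ε : ℝ) (hε : 0 < ε) : ∃ s : ℝ, s < 1 ∧ ∀ p : E3, s ≤ p 2 →
    |frJ D U lam A p 2| ≤ ε := by
  have hA := h.Apos
  have hCd := D.Cd_nonneg
  have hlim : Tendsto (fun M : ℕ => 2 * (A * D.Cd) * (1 / 2 : ℝ) ^ M) atTop (𝓝 0) := by
    have := (tendsto_pow_atTop_nhds_zero_of_lt_one (r := (1 / 2 : ℝ)) (by norm_num)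
      (by norm_num)).const_mul (2 * (A * D.Cd))
    simpa using this
  obtain ⟨M0, hM0⟩ := eventually_atTop.1 (hlim.eventually (gt_mem_nhds hε))
  set M := max M0 1 with hM
  have hM1 : 1 ≤ M := le_max_right _ _
  have hMε : 2 * (A * D.Cd) * (1 / 2 : ℝ) ^ M < ε := hM0 M (le_max_left _ _)
  have h8 : (0:ℝ) < 8 ^ M := by positivity
  have h81 : (1:ℝ) ≤ 8 ^ M := one_le_pow₀ (by norm_num)
  refine ⟨1 - 1 / (2 * 8 ^ M), ?_, ?_⟩
  · have : 0 < 1 / (2 * (8:ℝ) ^ M) := by positivity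
    linarith
  · intro p hs
    rcases le_or_gt 1 (p 2) with hp1 | hp1
    · rw [(h.out p hp1).2]
      simpa using hε.le
    · have hs1 : 1 / (2 * (8:ℝ) ^ M) ≤ 1 / 2 := by
        rw [div_le_div_iff₀ (by positivity) (by norm_num)]
        linarith
      have hp0 : 0 < p 2 := by linarith
      obtain ⟨m, hm1, hm2, ew, eJ, eg⟩ := fr_two D U lam A h.sm h.pde p hp0 hp1
      have hτM : tauk M (p 2) < 1 := by
        unfold tauk
        have : 1 - p 2 ≤ 1 / (2 * 8 ^ M) := by linarith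
        calc 8 ^ M * (4 / 3) * (1 - p 2) ≤ 8 ^ M * (4 / 3) * (1 / (2 * 8 ^ M)) := by gcongr
          _ = 2 / 3 := by field_simp; norm_num
          _ < 1 := by norm_num
      have hMm : M ≤ m := by
        by_contra hcon
        have := (tauk_mono (m + 1) M (by omega) (p 2) (tauk_pos _ _ hp1).le).2
        linarith
      rw [eJ]
      change |(frm D U lam A m).J p 2 + (frm D U lam A (m + 1)).J p 2| ≤ ε
      have one (k : ℕ) (hk : M ≤ k) : |(frm D U lam A k).J p 2| ≤ A * D.Cd * (1 / 2) ^ M := by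
        cases k with
        | zero => omega
        | succ k =>
          change |(D.mode A (k + 1)).J p 2| ≤ _
          rw [D.mode_J2, abs_mul, abs_mul, abs_of_pos hA]
          have hd := (D.decay (k + 1) (p 2)).2.1
          have hc := Real.abs_cos_le_one (nk (k + 1) * p (dirk (k + 1)))
          have hpow : ((1:ℝ) / 2) ^ (k + 1) ≤ (1 / 2) ^ M :=
            pow_le_pow_of_le_one (by norm_num) (by norm_num) hk
          calc A * |deriv (D.u (k + 1)) (p 2)| * |Real.cos (nk (k + 1) * p (dirk (k + 1)))|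
              ≤ A * (D.Cd * (1 / 2) ^ (k + 1)) * 1 := by gcongr
            _ ≤ A * (D.Cd * (1 / 2) ^ M) * 1 := by gcongr
            _ = _ := by ring
      have o1 := one m hMm
      have o2 := one (m + 1) (by omega)
      refine (abs_add_le _ _).trans ?_
      linarith

end FrOK

end Crest.Agent.R083
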