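import Crest.Agent.R083.FrontDefs

/-!
Row 83, TM-c (front lemma): exact statements of the sub-lemmas (stubs with `sorry`; never import
this file in a landed proof).  Definitions are in `FrontDefs.lean`.
-/

set_option autoImplicit false

namespace Crest.Agent.R083

open MeasureTheory Set Filter
open scoped Gradient ENNReal NNReal Topology ContDiff

/-! ### File `FrontPrim.lean` -/

theorem fr_prim_smooth (b : ℝ × ℝ → ℝ) (hb : ContDiff ℝ ∞ b) :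
    ContDiff ℝ ∞ (fun q : ℝ × ℝ => ∫ t in (0:ℝ)..q.2, b (q.1, t)) := by
  sorry

theorem fr_prim_deriv (b : ℝ × ℝ → ℝ) (hb : ContDiff ℝ ∞ b) (q : ℝ × ℝ) :
    fderiv ℝ (fun q : ℝ × ℝ => ∫ t in (0:ℝ)..q.2, b (q.1, t)) q (0, 1) = b q := by
  sorry

/-! ### File `FrontMode.lean` -/

theorem mode_field (M : ModeData) (hi : M.i = 0 ∨ M.i = 1) (S : Set (ℝ × ℝ)) (hS : IsOpen S)
    (hm1 : M.m1 ≠ 0) (hm2 : M.m2 ≠ 0)
    (hG : ContDiffOn ℝ ∞ M.G S) (hK : ContDiffOn ℝ ∞ M.K S)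
    (hb1 : ContDiffOn ℝ ∞ M.b1 S) (hB1 : ContDiffOn ℝ ∞ M.B1 S)
    (hb2 : ContDiffOn ℝ ∞ M.b2 S) (hB2 : ContDiffOn ℝ ∞ M.B2 S)
    (h1 : ∀ q ∈ S, fderiv ℝ M.B1 q (0, 1) = M.b1 q)
    (h2 : ∀ q ∈ S, fderiv ℝ M.B2 q (0, 1) = M.b2 q)
    (heq : ∀ q ∈ S, fderiv ℝ (fun q => fderiv ℝ M.G q (1, 0)) q (1, 0) +
      fderiv ℝ M.K q (0, 1) = M.b1 q + M.b2 q) :
    IsFld {p | (p 2, p M.i) ∈ S} M.w M.J := by
  sorry

theorem mode_grad (M : ModeData) (hi : M.i = 0 ∨ M.i = 1) (p : E3)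
    (hG : DifferentiableAt ℝ M.G (p 2, p M.i)) :
    fderiv ℝ M.w p (ee M.i) = fderiv ℝ M.G (p 2, p M.i) (0, 1) ∧
    fderiv ℝ M.w p (ee (oth M.i)) = 0 ∧
    fderiv ℝ M.w p (ee 2) = fderiv ℝ M.G (p 2, p M.i) (1, 0) := by
  sorry

/-! ### File `FrontSum.lean` -/

theorem fld_tsum (Ω : Set E3) (hΩ : IsOpen Ω) (w : ℕ → E3 → ℝ) (J : ℕ → E3 → E3)
    (h : ∀ j, IsFld Ω (w j) (J j))
    (hloc : ∀ p ∈ Ω, ∃ K : ℕ, ∀ᶠ q in 𝓝 p, ∀ j, K ≤ j → w j q = 0 ∧ J j q = 0) :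
    IsFld Ω (fun p => ∑' j, w j p) (fun p => ∑' j, J j p) ∧
    ∀ p ∈ Ω, ∃ K : ℕ, ∀ K', K ≤ K' →
      (∑' j, w j p = ∑ j ∈ Finset.range K', w j p) ∧
      (∑' j, J j p = ∑ j ∈ Finset.range K', J j p) ∧
      fderiv ℝ (fun p => ∑' j, w j p) p = ∑ j ∈ Finset.range K', fderiv ℝ (w j) p := by
  sorry

end Crest.Agent.R083
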