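import Crest.Agent.R083.TMDefs
import Crest.Agent.R083.BoxFubini
import Crest.Agent.R083.Mollify

/-!
Row 83 (S0111): Green identity on a box.
-/

set_option autoImplicit false

namespace Crest.Agent.R083

open MeasureTheory Set Filter
open scoped Gradient ENNReal NNReal Topology ContDiff

namespace GreenBox

/-- The continuous linear equivalence `Fin 3 → ℝ ≃ E3`. -/
noncomputable def tl : (Fin 3 → ℝ) ≃L[ℝ] E3 := (PiLp.continuousLinearEquiv 2 ℝ (fun _ : Fin 3 => ℝ)).symm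

theorem tl_apply (x : Fin 3 → ℝ) : tl x = WithLp.toLp 2 x := rfl

theorem tl_mp : MeasurePreserving tl volume volume := PiLp.volume_preserving_toLp (Fin 3)

theorem tl_single (i : Fin 3) : tl (Pi.single i 1) = ee i := rfl

theorem tl_coord (x : Fin 3 → ℝ) (i : Fin 3) : tl x i = x i := rfl

theorem tl_insert (x : Fin 2 → ℝ) (c : ℝ) :
    tl (Fin.insertNth 2 c x : Fin 3 → ℝ) = pt (x 0) (x 1) c := by
  have h : ∀ i : Fin 3, tl (Fin.insertNth 2 c x : Fin 3 → ℝ) i = pt (x 0) (x 1) c i := by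
    intro i
    rw [tl_coord]
    fin_cases i <;> rfl
  ext i; exact h i

theorem tl_preimage_cbox (a₀ b₀ a₁ b₁ a₂ b₂ : ℝ) :
    tl ⁻¹' (cbox a₀ b₀ a₁ b₁ a₂ b₂) = Icc ![a₀, a₁, a₂] ![b₀, b₁, b₂] := by
  ext x
  simp only [mem_preimage, cbox, mem_ofPred_eq, mem_Icc, Pi.le_def, Fin.forall_fin_succ, tl_coord]
  simp
  tauto

theorem integral_face (a₀ b₀ a₁ b₁ : ℝ) (h0 : a₀ ≤ b₀) (h1 : a₁ ≤ b₁) (F : ℝ → ℝ → ℝ)
    (hF : Continuous (fun q : ℝ × ℝ => F q.1 q.2)) :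
    ∫ x in Icc (![a₀, a₁] : Fin 2 → ℝ) ![b₀, b₁], F (x 0) (x 1) =
      ∫ X in a₀..b₀, ∫ Y in a₁..b₁, F X Y := by
  have hmp := volume_preserving_finTwoArrow ℝ
  have hpre : (MeasurableEquiv.finTwoArrow (α := ℝ)) ⁻¹' (Icc a₀ b₀ ×ˢ Icc a₁ b₁) =
      Icc (![a₀, a₁] : Fin 2 → ℝ) ![b₀, b₁] := by
    ext x
    simp only [mem_preimage, MeasurableEquiv.finTwoArrow, mem_prod, mem_Icc, Pi.le_def,
      Fin.forall_fin_succ]
    simp
    tauto
  rw [← hpre]
  have := hmp.setIntegral_preimage_emb (MeasurableEquiv.finTwoArrow (α := ℝ)).measurableEmbedding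
    (fun q : ℝ × ℝ => F q.1 q.2) (Icc a₀ b₀ ×ˢ Icc a₁ b₁)
  have e1 : (fun x : Fin 2 → ℝ => F (x 0) (x 1)) =
      fun x => (fun q : ℝ × ℝ => F q.1 q.2) (MeasurableEquiv.finTwoArrow x) := rfl
  rw [e1, this, Measure.volume_eq_prod, setIntegral_prod]
  · rw [intervalIntegral.integral_of_le h0, integral_Icc_eq_integral_Ioc]
    refine integral_congr_ae (Eventually.of_forall fun X => ?_)
    simp only
    rw [intervalIntegral.integral_of_le h1, integral_Icc_eq_integral_Ioc]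
  · rw [← Measure.volume_eq_prod]
    exact hF.continuousOn.integrableOn_compact (isCompact_Icc.prod isCompact_Icc)

theorem continuous_coord2 : Continuous (fun p : E3 => p 2) := by fun_prop

theorem isOpen_slab (a₂ b₂ : ℝ) : IsOpen {p : E3 | a₂ < p 2 ∧ p 2 < b₂} := by
  have h1 : IsOpen {p : E3 | a₂ < p 2} := isOpen_lt continuous_const continuous_coord2
  have h2 : IsOpen {p : E3 | p 2 < b₂} := isOpen_lt continuous_coord2 continuous_const
  exact h1.inter h2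

/-- coordinate projection -/
noncomputable def pr (i : Fin 3) : E3 →L[ℝ] ℝ := EuclideanSpace.proj i

theorem pr_apply (i : Fin 3) (p : E3) : pr i p = p i := rfl

theorem continuous_pt : Continuous (fun q : ℝ × ℝ × ℝ => pt q.1 q.2.1 q.2.2) := by
  unfold pt; fun_prop

theorem cont_face {a₂ b₂ : ℝ} {f : E3 → ℝ} (hf : ContinuousOn f {p | a₂ < p 2 ∧ p 2 < b₂})
    {c : ℝ} (hc : a₂ < c) (hc' : c < b₂) :
    Continuous (fun q : ℝ × ℝ => f (pt q.1 q.2 c)) := by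
  have h1 : Continuous (fun q : ℝ × ℝ => pt q.1 q.2 c) :=
    continuous_pt.comp (by fun_prop : Continuous fun q : ℝ × ℝ => (q.1, q.2, c))
  exact hf.comp_continuous h1 (fun q => ⟨by simpa using hc, by simpa using hc'⟩)

/-- smooth interior version -/
theorem smooth_interior (a₀ b₀ a₁ b₁ a₂ b₂ : ℝ) (h0 : a₀ ≤ b₀) (h1 : a₁ ≤ b₁)
    (J : E3 → E3) (hJ : ContDiffOn ℝ ∞ J {p | a₂ < p 2 ∧ p 2 < b₂})
    (hdiv : ∀ p : E3, a₂ < p 2 → p 2 < b₂ → dvg J p = 0)
    (hw0 : ∀ p : E3, a₂ < p 2 → p 2 < b₂ → (p 0 = a₀ ∨ p 0 = b₀) → J p 0 = 0)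
    (hw1 : ∀ p : E3, a₂ < p 2 → p 2 < b₂ → (p 1 = a₁ ∨ p 1 = b₁) → J p 1 = 0)
    (s t : ℝ) (hs : a₂ < s) (hst : s ≤ t) (ht : t < b₂)
    (χ : E3 → ℝ) (hχ : ContDiff ℝ ∞ χ) :
    ∫ p in cbox a₀ b₀ a₁ b₁ s t, inner ℝ (J p) (∇ χ p) =
      (∫ x in a₀..b₀, ∫ y in a₁..b₁, J (pt x y t) 2 * χ (pt x y t)) -
      (∫ x in a₀..b₀, ∫ y in a₁..b₁, J (pt x y s) 2 * χ (pt x y s)) := by
  set S : Set E3 := {p | a₂ < p 2 ∧ p 2 < b₂} with hS
  have hSo : IsOpen S := isOpen_slab a₂ b₂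
  -- the components
  set f : Fin 3 → E3 → ℝ := fun i p => J p i * χ p with hf
  have hfs : ∀ i, ContDiffOn ℝ ∞ (f i) S := by
    intro i
    have h2 : ContDiffOn ℝ ∞ (fun p => J p i) S := by
      have := (pr i).contDiff.comp_contDiffOn hJ
      exact this
    exact h2.mul hχ.contDiffOn
  have hfd : ∀ i, ∀ p ∈ S, HasFDerivAt (f i) (fderiv ℝ (f i) p) p := by
    intro i p hp
    exact (((hfs i).contDiffAt (hSo.mem_nhds hp)).differentiableAt (by simp)).hasFDerivAt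
  have hJd : ∀ p ∈ S, DifferentiableAt ℝ J p := fun p hp =>
    (hJ.contDiffAt (hSo.mem_nhds hp)).differentiableAt (by simp)
  have hsum : ∀ p ∈ S, ∑ i, fderiv ℝ (f i) p (ee i) = inner ℝ (J p) (∇ χ p) := by
    intro p hp
    have hχd : DifferentiableAt ℝ χ p := hχ.differentiable (by simp) p
    have hJi : ∀ i : Fin 3, HasFDerivAt (fun q => J q i)
        ((pr i).comp (fderiv ℝ J p)) p := by
      intro i
      exact (pr i).hasFDerivAt.comp p
        (hJd p hp).hasFDerivAt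
    have hfi : ∀ i : Fin 3, fderiv ℝ (f i) p (ee i) =
        J p i * fderiv ℝ χ p (ee i) + χ p * (fderiv ℝ J p (ee i)) i := by
      intro i
      have := ((hJi i).mul hχd.hasFDerivAt).fderiv
      have e : f i = (fun q => J q i) * χ := rfl
      rw [e, this]
      simp [pr_apply]
    simp_rw [hfi]
    rw [Finset.sum_add_distrib, ← Finset.mul_sum]
    have hd : ∑ i, (fderiv ℝ J p (ee i)) i = 0 := hdiv p hp.1 hp.2
    rw [hd, mul_zero, add_zero, inner_gradient]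
    have hexp : J p = ∑ i, J p i • ee i := by
      ext j
      simp [ee, Fin.sum_univ_three]
      fin_cases j <;> simp
    conv_rhs => rw [hexp]
    rw [map_sum]
    simp
  have hbox : cbox a₀ b₀ a₁ b₁ s t ⊆ S := by
    intro p hp
    exact ⟨lt_of_lt_of_le hs hp.2.2.1, lt_of_le_of_lt hp.2.2.2 ht⟩
  set a : Fin 3 → ℝ := ![a₀, a₁, s] with ha
  set b : Fin 3 → ℝ := ![b₀, b₁, t] with hb
  have hmem : ∀ x ∈ Icc a b, tl x ∈ S := by
    intro x hx
    apply hbox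
    have := tl_preimage_cbox a₀ b₀ a₁ b₁ s t
    rw [← mem_preimage, this]; exact hx
  have hle : a ≤ b := by
    intro i
    fin_cases i
    · exact h0
    · exact h1
    · exact hst
  have key := integral_divergence_of_hasFDerivAt_off_countable' a b hle
    (fun i x => f i (tl x)) (fun i x => (fderiv ℝ (f i) (tl x)).comp (tl : (Fin 3 → ℝ) →L[ℝ] E3))
    ∅ countable_empty
    (fun i => (hfs i).continuousOn.comp tl.continuous.continuousOn hmem)
    (fun x hx i => by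
      have hx' : x ∈ Icc a b := by
        have := hx.1
        simp only [Set.mem_pi, mem_univ, true_imp_iff, mem_Ioo] at this
        exact ⟨fun i => (this i).1.le, fun i => (this i).2.le⟩
      exact (hfd i (tl x) (hmem x hx')).comp x tl.hasFDerivAt)
    (by
      refine ContinuousOn.integrableOn_compact isCompact_Icc ?_
      refine continuousOn_finsetSum _ (fun i _ => ?_)
      have h3 : ContinuousOn (fderiv ℝ (f i)) S :=
        (hfs i).continuousOn_fderiv_of_isOpen hSo (by simp)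
      have h4 : ContinuousOn (fun x => fderiv ℝ (f i) (tl x)) (Icc a b) :=
        h3.comp tl.continuous.continuousOn hmem
      exact (h4.clm_comp continuousOn_const).clm_apply continuousOn_const)
  have hL : ∫ p in cbox a₀ b₀ a₁ b₁ s t, inner ℝ (J p) (∇ χ p) =
      ∫ x in Icc a b, ∑ i, ((fderiv ℝ (f i) (tl x)).comp (tl : (Fin 3 → ℝ) →L[ℝ] E3))
        (Pi.single i 1) := by
    have h5 := tl_mp.setIntegral_preimage_emb tl.toHomeomorph.measurableEmbedding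
      (fun p => inner ℝ (J p) (∇ χ p)) (cbox a₀ b₀ a₁ b₁ s t)
    rw [← h5, tl_preimage_cbox]
    refine setIntegral_congr_fun measurableSet_Icc (fun x hx => ?_)
    simp only [ContinuousLinearMap.comp_apply, ContinuousLinearEquiv.coe_coe, tl_single]
    exact (hsum (tl x) (hmem x hx)).symm
  rw [hL, key, Fin.sum_univ_three]
  have hz0 : ∀ c, (c = a₀ ∨ c = b₀) → ∫ x in Icc (a ∘ (0 : Fin 3).succAbove) (b ∘ (0 : Fin 3).succAbove),
      f 0 (tl (Fin.insertNth 0 c x)) = 0 := by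
    intro c hc
    refine setIntegral_eq_zero_of_forall_eq_zero (fun x hx => ?_)
    have hx2 : s ≤ x 1 ∧ x 1 ≤ t := ⟨hx.1 1, hx.2 1⟩
    have e0 : tl (Fin.insertNth 0 c x : Fin 3 → ℝ) 0 = c := rfl
    have e2 : tl (Fin.insertNth 0 c x : Fin 3 → ℝ) 2 = x 1 := rfl
    have := hw0 (tl (Fin.insertNth 0 c x : Fin 3 → ℝ)) (by rw [e2]; linarith [hx2.1])
      (by rw [e2]; linarith [hx2.2]) (by rw [e0]; exact hc)
    simp only [hf, this, zero_mul]
  have hz1 : ∀ c, (c = a₁ ∨ c = b₁) → ∫ x in Icc (a ∘ (1 : Fin 3).succAbove) (b ∘ (1 : Fin 3).succAbove),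
      f 1 (tl (Fin.insertNth 1 c x)) = 0 := by
    intro c hc
    refine setIntegral_eq_zero_of_forall_eq_zero (fun x hx => ?_)
    have hx2 : s ≤ x 1 ∧ x 1 ≤ t := ⟨hx.1 1, hx.2 1⟩
    have e0 : tl (Fin.insertNth 1 c x : Fin 3 → ℝ) 1 = c := rfl
    have e2 : tl (Fin.insertNth 1 c x : Fin 3 → ℝ) 2 = x 1 := rfl
    have := hw1 (tl (Fin.insertNth 1 c x : Fin 3 → ℝ)) (by rw [e2]; linarith [hx2.1])
      (by rw [e2]; linarith [hx2.2]) (by rw [e0]; exact hc)
    simp only [hf, this, zero_mul]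
  have hz2 : ∀ c, a₂ < c → c < b₂ →
      ∫ x in Icc (a ∘ (2 : Fin 3).succAbove) (b ∘ (2 : Fin 3).succAbove),
      f 2 (tl (Fin.insertNth 2 c x)) = ∫ x in a₀..b₀, ∫ y in a₁..b₁, J (pt x y c) 2 * χ (pt x y c) := by
    intro c hc hc'
    have ea : (a ∘ (2 : Fin 3).succAbove) = ![a₀, a₁] := by
      ext i; fin_cases i <;> rfl
    have eb : (b ∘ (2 : Fin 3).succAbove) = ![b₀, b₁] := by
      ext i; fin_cases i <;> rfl
    rw [ea, eb, ← integral_face a₀ b₀ a₁ b₁ h0 h1 (fun X Y => J (pt X Y c) 2 * χ (pt X Y c))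
      (cont_face (hfs 2).continuousOn hc hc')]
    refine integral_congr_ae (Eventually.of_forall fun x => ?_)
    simp only [hf, tl_insert]
  have q0 : a 0 = a₀ := rfl
  have q1 : b 0 = b₀ := rfl
  have q2 : a 1 = a₁ := rfl
  have q3 : b 1 = b₁ := rfl
  have q4 : a 2 = s := rfl
  have q5 : b 2 = t := rfl
  rw [q0, q1, q2, q3, q4, q5, hz0 _ (Or.inl rfl), hz0 _ (Or.inr rfl), hz1 _ (Or.inl rfl),
    hz1 _ (Or.inr rfl), hz2 t (lt_of_lt_of_le hs hst) ht, hz2 s hs (lt_of_le_of_lt hst ht)]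
  ring

theorem volume_coord2 (c : ℝ) : volume {p : E3 | p 2 = c} = 0 := by
  have h1 : volume (tl ⁻¹' {p : E3 | p 2 = c}) = volume {p : E3 | p 2 = c} :=
    tl_mp.measure_preimage_emb tl.toHomeomorph.measurableEmbedding _
  rw [← h1]
  exact Measure.pi_hyperplane (fun _ : Fin 3 => (volume : Measure ℝ)) 2 c

theorem cbox_mono {a₀ b₀ a₁ b₁ a₂ b₂ s t : ℝ} (hs : a₂ ≤ s) (ht : t ≤ b₂) :
    cbox a₀ b₀ a₁ b₁ s t ⊆ cbox a₀ b₀ a₁ b₁ a₂ b₂ :=
  fun _ hp => ⟨hp.1, hp.2.1, hs.trans hp.2.2.1, hp.2.2.2.trans ht⟩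

theorem inner_bound (J : E3 → E3) (χ : E3 → ℝ) (K : ℝ≥0) (hχ : LipschitzWith K χ) (p : E3) :
    ‖inner ℝ (J p) (∇ χ p)‖ ≤ K * ‖J p‖ := by
  refine (norm_inner_le_norm _ _).trans ?_
  rw [mul_comm]
  exact mul_le_mul_of_nonneg_right (norm_gradient_le χ K hχ p) (norm_nonneg _)

/-- Lipschitz interior version -/
theorem lip_interior (a₀ b₀ a₁ b₁ a₂ b₂ : ℝ) (h0 : a₀ ≤ b₀) (h1 : a₁ ≤ b₁)
    (J : E3 → E3) (hJ : ContDiffOn ℝ ∞ J {p | a₂ < p 2 ∧ p 2 < b₂})
    (hdiv : ∀ p : E3, a₂ < p 2 → p 2 < b₂ → dvg J p = 0)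
    (hw0 : ∀ p : E3, a₂ < p 2 → p 2 < b₂ → (p 0 = a₀ ∨ p 0 = b₀) → J p 0 = 0)
    (hw1 : ∀ p : E3, a₂ < p 2 → p 2 < b₂ → (p 1 = a₁ ∨ p 1 = b₁) → J p 1 = 0)
    (hint : IntegrableOn J (cbox a₀ b₀ a₁ b₁ a₂ b₂) volume)
    (s t : ℝ) (hs : a₂ < s) (hst : s ≤ t) (ht : t < b₂)
    (χ : E3 → ℝ) (K : ℝ≥0) (hχ : LipschitzWith K χ) :
    ∫ p in cbox a₀ b₀ a₁ b₁ s t, inner ℝ (J p) (∇ χ p) =
      (∫ x in a₀..b₀, ∫ y in a₁..b₁, J (pt x y t) 2 * χ (pt x y t)) -
      (∫ x in a₀..b₀, ∫ y in a₁..b₁, J (pt x y s) 2 * χ (pt x y s)) := by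
  obtain ⟨f, fs, fL, fc, -, fg⟩ := mollify χ K hχ
  have hint' : IntegrableOn J (cbox a₀ b₀ a₁ b₁ s t) volume :=
    hint.mono_set (cbox_mono hs.le ht.le)
  have L1 : Tendsto (fun n => ∫ p in cbox a₀ b₀ a₁ b₁ s t, inner ℝ (J p) (∇ (f n) p)) atTop
      (𝓝 (∫ p in cbox a₀ b₀ a₁ b₁ s t, inner ℝ (J p) (∇ χ p))) := by
    refine tendsto_integral_of_dominated_convergence (fun p => K * ‖J p‖) ?_ ?_ ?_ ?_
    · intro n
      exact hint'.aestronglyMeasurable.inner (measurable_gradient (f n)).aestronglyMeasurable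
    · exact hint'.norm.const_mul _
    · intro n
      exact Eventually.of_forall fun p => inner_bound J (f n) K (fL n) p
    · have := ae_restrict_of_ae (s := cbox a₀ b₀ a₁ b₁ s t)
        (hχ.ae_differentiableAt (μ := (volume : Measure E3)))
      filter_upwards [this] with p hp
      exact tendsto_const_nhds.inner (fg p hp)
  have L2 : ∀ c, a₂ < c → c < b₂ →
      Tendsto (fun n => ∫ x in a₀..b₀, ∫ y in a₁..b₁, J (pt x y c) 2 * (f n) (pt x y c)) atTop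
        (𝓝 (∫ x in a₀..b₀, ∫ y in a₁..b₁, J (pt x y c) 2 * χ (pt x y c))) := by
    intro c hc hc'
    have hJ2 : Continuous (fun q : ℝ × ℝ => J (pt q.1 q.2 c) 2) := by
      have h2 : ContinuousOn (fun p => J p 2) {p : E3 | a₂ < p 2 ∧ p 2 < b₂} :=
        (pr 2).continuous.comp_continuousOn hJ.continuousOn
      exact cont_face h2 hc hc'
    have hptc : Continuous (fun q : ℝ × ℝ => pt q.1 q.2 c) :=
      continuous_pt.comp (by fun_prop : Continuous fun q : ℝ × ℝ => (q.1, q.2, c))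
    obtain ⟨M, hM⟩ := (isCompact_Icc.prod isCompact_Icc : IsCompact (Icc a₀ b₀ ×ˢ Icc a₁ b₁)).exists_bound_of_continuousOn
      hJ2.continuousOn
    have hbase : ∀ n, ‖(∫ x in a₀..b₀, ∫ y in a₁..b₁, J (pt x y c) 2 * (f n) (pt x y c)) -
        ∫ x in a₀..b₀, ∫ y in a₁..b₁, J (pt x y c) 2 * χ (pt x y c)‖ ≤
        (M * (K / (n + 1)) * |b₁ - a₁|) * |b₀ - a₀| := by
      intro n
      have c1 : Continuous (fun q : ℝ × ℝ => J (pt q.1 q.2 c) 2 * (f n) (pt q.1 q.2 c)) :=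
        hJ2.mul ((fL n).continuous.comp hptc)
      have c2 : Continuous (fun q : ℝ × ℝ => J (pt q.1 q.2 c) 2 * χ (pt q.1 q.2 c)) :=
        hJ2.mul (hχ.continuous.comp hptc)
      have d1 : Continuous (fun x => ∫ y in a₁..b₁, J (pt x y c) 2 * (f n) (pt x y c)) :=
        intervalIntegral.continuous_parametric_intervalIntegral_of_continuous' c1 _ _
      have d2 : Continuous (fun x => ∫ y in a₁..b₁, J (pt x y c) 2 * χ (pt x y c)) :=
        intervalIntegral.continuous_parametric_intervalIntegral_of_continuous' c2 _ _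
      rw [← intervalIntegral.integral_sub (d1.intervalIntegrable _ _) (d2.intervalIntegrable _ _)]
      refine intervalIntegral.norm_integral_le_of_norm_le_const (fun x hx => ?_)
      have e1 : Continuous (fun y => J (pt x y c) 2 * (f n) (pt x y c)) :=
        c1.comp (Continuous.prodMk_right x)
      have e2 : Continuous (fun y => J (pt x y c) 2 * χ (pt x y c)) :=
        c2.comp (Continuous.prodMk_right x)
      rw [← intervalIntegral.integral_sub (e1.intervalIntegrable _ _) (e2.intervalIntegrable _ _)]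
      refine intervalIntegral.norm_integral_le_of_norm_le_const (fun y hy => ?_)
      rw [← mul_sub, norm_mul]
      rw [uIoc_of_le h0] at hx
      rw [uIoc_of_le h1] at hy
      have hb := hM (x, y) ⟨Ioc_subset_Icc_self hx, Ioc_subset_Icc_self hy⟩
      refine mul_le_mul hb (fc n _) (norm_nonneg _) (le_trans (norm_nonneg _) hb)
    rw [tendsto_iff_norm_sub_tendsto_zero]
    refine squeeze_zero (fun n => norm_nonneg _) hbase ?_
    have hz : Tendsto (fun n : ℕ => (K : ℝ) / ((n : ℝ) + 1)) atTop (𝓝 0) := by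
      have := tendsto_one_div_add_atTop_nhds_zero_nat (𝕜 := ℝ)
      have h3 := this.const_mul (K : ℝ)
      simp only [mul_zero] at h3
      refine h3.congr fun n => ?_
      ring
    have := ((hz.const_mul M).mul_const |b₁ - a₁|).mul_const |b₀ - a₀|
    simpa using this
  have L3 := (L2 t (lt_of_lt_of_le hs hst) ht).sub (L2 s hs (lt_of_le_of_lt hst ht))
  refine tendsto_nhds_unique L1 ?_
  refine L3.congr fun n => ?_
  exact (smooth_interior a₀ b₀ a₁ b₁ a₂ b₂ h0 h1 J hJ hdiv hw0 hw1 s t hs hst ht (f n) (fs n)).symm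

/-- limit of the face integrals -/
theorem face_limit (a₀ b₀ a₁ b₁ a₂ b₂ : ℝ) (h0 : a₀ ≤ b₀) (h1 : a₁ ≤ b₁)
    (J : E3 → E3) (hJ : ContDiffOn ℝ ∞ J {p | a₂ < p 2 ∧ p 2 < b₂})
    (g : ℝ → ℝ) (hg : IntervalIntegrable g volume a₀ b₀)
    (hJg : ∀ᵐ x : ℝ, x ∈ Icc a₀ b₀ → ∀ y ∈ Icc a₁ b₁, ∀ t : ℝ, a₂ < t → t < b₂ →
      |J (pt x y t) 2| ≤ g x)
    (c : ℕ → ℝ) (hc : ∀ n, a₂ < c n ∧ c n < b₂) (c' : ℝ) (hc' : Tendsto c atTop (𝓝 c'))
    (Jl : ℝ → ℝ)
    (hl : ∀ᵐ x : ℝ, x ∈ Icc a₀ b₀ → ∀ y ∈ Icc a₁ b₁,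
      Tendsto (fun n => J (pt x y (c n)) 2) atTop (𝓝 (Jl x)))
    (χ : E3 → ℝ) (K : ℝ≥0) (hχ : LipschitzWith K χ) :
    Tendsto (fun n => ∫ x in a₀..b₀, ∫ y in a₁..b₁, J (pt x y (c n)) 2 * χ (pt x y (c n))) atTop
      (𝓝 (∫ x in a₀..b₀, ∫ y in a₁..b₁, Jl x * χ (pt x y c'))) := by
  have hcomp : IsCompact (Icc a₀ b₀ ×ˢ (Icc a₁ b₁ ×ˢ Icc a₂ b₂)) :=
    isCompact_Icc.prod (isCompact_Icc.prod isCompact_Icc)
  obtain ⟨M, hM⟩ := hcomp.exists_bound_of_continuousOn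
    (hχ.continuous.comp continuous_pt).continuousOn
  have hM' : ∀ x ∈ Icc a₀ b₀, ∀ y ∈ Icc a₁ b₁, ∀ n, |χ (pt x y (c n))| ≤ M := by
    intro x hx y hy n
    exact hM (x, y, c n) ⟨hx, hy, (hc n).1.le, (hc n).2.le⟩
  have hJ2 : ∀ n, Continuous (fun q : ℝ × ℝ => J (pt q.1 q.2 (c n)) 2) := by
    intro n
    have h2 : ContinuousOn (fun p => J p 2) {p : E3 | a₂ < p 2 ∧ p 2 < b₂} :=
      (pr 2).continuous.comp_continuousOn hJ.continuousOn
    exact cont_face h2 (hc n).1 (hc n).2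
  have hptc : ∀ n, Continuous (fun q : ℝ × ℝ => pt q.1 q.2 (c n)) := fun n =>
    continuous_pt.comp (by fun_prop : Continuous fun q : ℝ × ℝ => (q.1, q.2, c n))
  have c1 : ∀ n, Continuous (fun q : ℝ × ℝ => J (pt q.1 q.2 (c n)) 2 * χ (pt q.1 q.2 (c n))) :=
    fun n => (hJ2 n).mul (hχ.continuous.comp (hptc n))
  refine intervalIntegral.tendsto_integral_filter_of_dominated_convergence
    (fun x => g x * M * |b₁ - a₁|) ?_ ?_ ?_ ?_
  · refine Eventually.of_forall fun n => ?_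
    exact (intervalIntegral.continuous_parametric_intervalIntegral_of_continuous' (c1 n) _ _).aestronglyMeasurable
  · refine Eventually.of_forall fun n => ?_
    filter_upwards [hJg] with x hx hx'
    rw [uIoc_of_le h0] at hx'
    have hxI := Ioc_subset_Icc_self hx'
    refine intervalIntegral.norm_integral_le_of_norm_le_const (fun y hy => ?_)
    rw [uIoc_of_le h1] at hy
    have hyI := Ioc_subset_Icc_self hy
    rw [norm_mul]
    have hb := hx hxI y hyI (c n) (hc n).1 (hc n).2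
    exact mul_le_mul hb (hM' x hxI y hyI n) (norm_nonneg _) (le_trans (abs_nonneg _) hb)
  · exact (hg.mul_const M).mul_const _
  · filter_upwards [hJg, hl] with x hx hlx hx'
    rw [uIoc_of_le h0] at hx'
    have hxI := Ioc_subset_Icc_self hx'
    refine intervalIntegral.tendsto_integral_filter_of_dominated_convergence
      (fun _ => g x * M) ?_ ?_ ?_ ?_
    · refine Eventually.of_forall fun n => ?_
      exact ((c1 n).comp (Continuous.prodMk_right x)).aestronglyMeasurable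
    · refine Eventually.of_forall fun n => ?_
      refine Eventually.of_forall fun y hy => ?_
      rw [uIoc_of_le h1] at hy
      have hyI := Ioc_subset_Icc_self hy
      rw [norm_mul]
      have hb := hx hxI y hyI (c n) (hc n).1 (hc n).2
      exact mul_le_mul hb (hM' x hxI y hyI n) (norm_nonneg _) (le_trans (abs_nonneg _) hb)
    · exact intervalIntegrable_const
    · refine Eventually.of_forall fun y hy => ?_
      rw [uIoc_of_le h1] at hy
      have hyI := Ioc_subset_Icc_self hy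
      refine (hlx hxI y hyI).mul ?_
      have h3 : Continuous (fun t : ℝ => χ (pt x y t)) :=
        (lipschitz_pt_two χ K hχ x y).continuous
      exact (h3.tendsto c').comp hc'

end GreenBox

open GreenBox in
theorem green_box (a₀ b₀ a₁ b₁ a₂ b₂ : ℝ) (h0 : a₀ < b₀) (h1 : a₁ < b₁) (h2 : a₂ < b₂)
    (J : E3 → E3) (hJ : ContDiffOn ℝ ∞ J {p | a₂ < p 2 ∧ p 2 < b₂})
    (hdiv : ∀ p : E3, a₂ < p 2 → p 2 < b₂ → dvg J p = 0)
    (hw0 : ∀ p : E3, a₂ < p 2 → p 2 < b₂ → (p 0 = a₀ ∨ p 0 = b₀) → J p 0 = 0)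
    (hw1 : ∀ p : E3, a₂ < p 2 → p 2 < b₂ → (p 1 = a₁ ∨ p 1 = b₁) → J p 1 = 0)
    (hint : IntegrableOn J (cbox a₀ b₀ a₁ b₁ a₂ b₂) volume)
    (g : ℝ → ℝ) (hg : IntervalIntegrable g volume a₀ b₀)
    (hJg : ∀ᵐ x : ℝ, x ∈ Icc a₀ b₀ → ∀ y ∈ Icc a₁ b₁, ∀ t : ℝ, a₂ < t → t < b₂ →
      |J (pt x y t) 2| ≤ g x)
    (Jb Jt : ℝ → ℝ)
    (hb : ∀ᵐ x : ℝ, x ∈ Icc a₀ b₀ → ∀ y ∈ Icc a₁ b₁,
      Tendsto (fun t => J (pt x y t) 2) (𝓝[>] a₂) (𝓝 (Jb x)))
    (ht : ∀ᵐ x : ℝ, x ∈ Icc a₀ b₀ → ∀ y ∈ Icc a₁ b₁,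
      Tendsto (fun t => J (pt x y t) 2) (𝓝[<] b₂) (𝓝 (Jt x)))
    (χ : E3 → ℝ) (K : ℝ≥0) (hχ : LipschitzWith K χ) :
    ∫ p in cbox a₀ b₀ a₁ b₁ a₂ b₂, inner ℝ (J p) (∇ χ p) =
      (∫ x in a₀..b₀, ∫ y in a₁..b₁, Jt x * χ (pt x y b₂)) -
      (∫ x in a₀..b₀, ∫ y in a₁..b₁, Jb x * χ (pt x y a₂)) := by
  -- the approximating levels
  set r : ℕ → ℝ := fun n => (b₂ - a₂) * (1 / ((n : ℝ) + 1 + 1)) with hr
  have hd : 0 < b₂ - a₂ := by linarith
  have r0 : ∀ n, 0 < r n := fun n => by positivity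
  have r1 : ∀ n, r n ≤ (b₂ - a₂) * (1 / 2) := by
    intro n
    refine mul_le_mul_of_nonneg_left ?_ hd.le
    refine one_div_le_one_div_of_le (by norm_num) ?_
    have : (0 : ℝ) ≤ n := Nat.cast_nonneg n
    linarith
  have rlim : Tendsto r atTop (𝓝 0) := by
    have h3 := (tendsto_one_div_add_atTop_nhds_zero_nat (𝕜 := ℝ)).comp (tendsto_add_atTop_nat 1)
    have h4 := h3.const_mul (b₂ - a₂)
    rw [mul_zero] at h4
    refine h4.congr fun n => ?_
    simp [hr]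
  set s : ℕ → ℝ := fun n => a₂ + r n with hs
  set t : ℕ → ℝ := fun n => b₂ - r n with ht'
  have hs1 : ∀ n, a₂ < s n ∧ s n < b₂ := fun n => ⟨by simp only [hs]; linarith [r0 n],
    by simp only [hs]; linarith [r1 n]⟩
  have ht1 : ∀ n, a₂ < t n ∧ t n < b₂ := fun n => ⟨by simp only [ht']; linarith [r1 n],
    by simp only [ht']; linarith [r0 n]⟩
  have hst : ∀ n, s n ≤ t n := fun n => by simp only [hs, ht']; linarith [r1 n]
  have hslim : Tendsto s atTop (𝓝 a₂) := by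
    have := rlim.const_add a₂
    simpa using this
  have htlim : Tendsto t atTop (𝓝 b₂) := by
    have := rlim.const_sub b₂
    simpa using this
  have hslim' : Tendsto s atTop (𝓝[>] a₂) :=
    tendsto_nhdsWithin_iff.2 ⟨hslim, Eventually.of_forall fun n => (hs1 n).1⟩
  have htlim' : Tendsto t atTop (𝓝[<] b₂) :=
    tendsto_nhdsWithin_iff.2 ⟨htlim, Eventually.of_forall fun n => (ht1 n).2⟩
  have T := face_limit a₀ b₀ a₁ b₁ a₂ b₂ h0.le h1.le J hJ g hg hJg t ht1 b₂ htlim Jt (by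
    filter_upwards [ht] with x hx hxI y hy
    exact (hx hxI y hy).comp htlim') χ K hχ
  have B := face_limit a₀ b₀ a₁ b₁ a₂ b₂ h0.le h1.le J hJ g hg hJg s hs1 a₂ hslim Jb (by
    filter_upwards [hb] with x hx hxI y hy
    exact (hx hxI y hy).comp hslim') χ K hχ
  have L : Tendsto (fun n => ∫ p in cbox a₀ b₀ a₁ b₁ (s n) (t n), inner ℝ (J p) (∇ χ p)) atTop
      (𝓝 (∫ p in cbox a₀ b₀ a₁ b₁ a₂ b₂, inner ℝ (J p) (∇ χ p))) := by
    have e1 : ∀ n, ∫ p in cbox a₀ b₀ a₁ b₁ (s n) (t n), inner ℝ (J p) (∇ χ p) =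
        ∫ p in cbox a₀ b₀ a₁ b₁ a₂ b₂, (cbox a₀ b₀ a₁ b₁ (s n) (t n)).indicator
          (fun p => inner ℝ (J p) (∇ χ p)) p := by
      intro n
      rw [setIntegral_indicator (measurableSet_cbox _ _ _ _ _ _),
        inter_eq_self_of_subset_right (cbox_mono (hs1 n).1.le (ht1 n).2.le)]
    simp_rw [e1]
    refine tendsto_integral_of_dominated_convergence (fun p => K * ‖J p‖) ?_ ?_ ?_ ?_
    · intro n
      exact (hint.aestronglyMeasurable.inner
        (measurable_gradient χ).aestronglyMeasurable).indicator (measurableSet_cbox _ _ _ _ _ _)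
    · exact hint.norm.const_mul _
    · intro n
      refine Eventually.of_forall fun p => ?_
      refine (norm_indicator_le_norm_self _ _).trans ?_
      exact inner_bound J χ K hχ p
    · have hn1 : ∀ᵐ p : E3, p 2 ≠ a₂ := measure_eq_zero_iff_ae_notMem.1 (volume_coord2 a₂)
      have hn2 : ∀ᵐ p : E3, p 2 ≠ b₂ := measure_eq_zero_iff_ae_notMem.1 (volume_coord2 b₂)
      filter_upwards [ae_restrict_of_ae hn1, ae_restrict_of_ae hn2,
        ae_restrict_mem (measurableSet_cbox a₀ b₀ a₁ b₁ a₂ b₂)] with p hp1 hp2 hp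
      have hlt1 : a₂ < p 2 := lt_of_le_of_ne hp.2.2.1 (Ne.symm hp1)
      have hlt2 : p 2 < b₂ := lt_of_le_of_ne hp.2.2.2 hp2
      refine tendsto_const_nhds.congr' ?_
      filter_upwards [hslim.eventually (gt_mem_nhds hlt1), htlim.eventually (lt_mem_nhds hlt2)]
        with n hn1 hn2
      rw [indicator_of_mem]
      exact ⟨hp.1, hp.2.1, hn1.le, hn2.le⟩
  refine tendsto_nhds_unique L ((T.sub B).congr fun n => ?_)
  exact (lip_interior a₀ b₀ a₁ b₁ a₂ b₂ h0.le h1.le J hJ hdiv hw0 hw1 hint (s n) (t n) (hs1 n).1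
    (hst n) (ht1 n).2 χ K hχ).symm

end Crest.Agent.R083
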