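import Crest.Agent.R083.Defs

/-!
Row 83: elementary operations on weakly divergence free fields and gradients.
-/

set_option autoImplicit false

namespace Crest.Agent.R083

open MeasureTheory Set Filter
open scoped Gradient ENNReal NNReal Topology

theorem grad_def (ψ : E3 → ℝ) (x : E3) :
    ∇ ψ x = (InnerProductSpace.toDual ℝ E3).symm (fderiv ℝ ψ x) := rfl

theorem norm_grad_eq (ψ : E3 → ℝ) (x : E3) : ‖∇ ψ x‖ = ‖fderiv ℝ ψ x‖ := by
  rw [grad_def, LinearIsometryEquiv.norm_map]

theorem norm_grad_le {ψ : E3 → ℝ} {K : ℝ≥0} (h : LipschitzWith K ψ) (x : E3) :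
    ‖∇ ψ x‖ ≤ K := by
  rw [norm_grad_eq]
  exact norm_fderiv_le_of_lipschitz ℝ h

theorem measurable_grad (ψ : E3 → ℝ) : Measurable (∇ ψ) :=
  (InnerProductSpace.toDual ℝ E3).symm.continuous.measurable.comp (measurable_fderiv ℝ ψ)

theorem integrable_inner_grad {R : E3 → E3} (hR : Integrable R volume) {ψ : E3 → ℝ} {K : ℝ≥0}
    (h : LipschitzWith K ψ) : Integrable (fun x => inner ℝ (R x) (∇ ψ x)) volume := by
  refine Integrable.mono' (hR.norm.mul_const (K : ℝ)) ?_ ?_
  · exact hR.aestronglyMeasurable.inner (measurable_grad ψ).aestronglyMeasurable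
  · refine Filter.Eventually.of_forall fun x => ?_
    exact (norm_inner_le_norm _ _).trans
      (mul_le_mul_of_nonneg_left (norm_grad_le h x) (norm_nonneg _))

/-- gradient of `s`-scaled composition -/
theorem grad_comp_smul_sub (f : E3 → ℝ) (s : ℝ) (a x : E3) :
    ∇ (fun x => f (s • (x - a))) x = s • ∇ f (s • (x - a)) := by
  have h1 : fderiv ℝ (fun x => f (s • (x - a))) x = s • fderiv ℝ f (s • (x - a)) := by
    have := fderiv_comp_sub (𝕜 := ℝ) (f := fun y => f (s • y)) (x := x) a
    rw [this]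
    exact fderiv_comp_smul s
  rw [grad_def, grad_def, h1]
  simp

theorem grad_comp_add_smul (f : E3 → ℝ) (s : ℝ) (a x : E3) :
    ∇ (fun x => f (a + s • x)) x = s • ∇ f (a + s • x) := by
  have h1 : fderiv ℝ (fun x => f (a + s • x)) x = s • fderiv ℝ f (a + s • x) := by
    have h2 := fderiv_comp_smul (𝕜 := ℝ) (f := fun z => f (a + z)) (x := x) s
    rw [h2, fderiv_comp_add_left]
  rw [grad_def, grad_def, h1]
  simp

theorem grad_const_mul (f : E3 → ℝ) (s : ℝ) (x : E3) :
    ∇ (fun x => s * f x) x = s • ∇ f x := by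
  have h1 : fderiv ℝ (fun x => s * f x) x = s • fderiv ℝ f x := by
    by_cases hs : s = 0
    · subst hs
      simp
    · by_cases hd : DifferentiableAt ℝ f x
      · exact fderiv_const_mul hd s
      · have hd' : ¬ DifferentiableAt ℝ (fun x => s * f x) x := by
          intro h
          apply hd
          have h3 : DifferentiableAt ℝ (fun x => s⁻¹ * (s * f x)) x := h.const_mul s⁻¹
          have h4 : (fun x => s⁻¹ * (s * f x)) = f := by
            funext y
            field_simp
          rwa [h4] at h3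
        rw [fderiv_zero_of_not_differentiableAt hd, fderiv_zero_of_not_differentiableAt hd']
        simp
  rw [grad_def, grad_def, h1]
  simp

theorem grad_add {f g : E3 → ℝ} {x : E3} (hf : DifferentiableAt ℝ f x)
    (hg : DifferentiableAt ℝ g x) : ∇ (fun x => f x + g x) x = ∇ f x + ∇ g x := by
  rw [grad_def, grad_def, grad_def]
  have : fderiv ℝ (fun x => f x + g x) x = fderiv ℝ f x + fderiv ℝ g x := fderiv_add hf hg
  rw [this, map_add]

theorem grad_comp_isometry (f : E3 → ℝ) (O : E3 ≃ₗᵢ[ℝ] E3) (x : E3) :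
    ∇ (fun x => f (O x)) x = O.symm (∇ f (O x)) := by
  have h1 : fderiv ℝ (fun x => f (O x)) x
      = (fderiv ℝ f (O x)).comp (O : E3 →L[ℝ] E3) := by
    exact O.toContinuousLinearEquiv.comp_right_fderiv
  rw [grad_def, grad_def, h1]
  apply (InnerProductSpace.toDual ℝ E3).injective
  rw [LinearIsometryEquiv.apply_symm_apply]
  ext y
  rw [ContinuousLinearMap.comp_apply, InnerProductSpace.toDual_apply_apply]
  have h2 : inner ℝ (O.symm ((InnerProductSpace.toDual ℝ E3).symm (fderiv ℝ f (O x)))) y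
      = inner ℝ ((InnerProductSpace.toDual ℝ E3).symm (fderiv ℝ f (O x))) (O y) := by
    rw [← O.inner_map_map, O.apply_symm_apply]
  rw [h2, InnerProductSpace.toDual_symm_apply]
  rfl

theorem WDF.zero : WDF (fun _ => 0) := by
  refine ⟨integrable_zero _ _ _, fun ψ K _ => ?_⟩
  simp

theorem WDF.add {R S : E3 → E3} (hR : WDF R) (hS : WDF S) : WDF (fun x => R x + S x) := by
  refine ⟨hR.1.add hS.1, fun ψ K h => ?_⟩
  simp only [inner_add_left]
  rw [integral_add (integrable_inner_grad hR.1 h) (integrable_inner_grad hS.1 h),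
    hR.2 ψ K h, hS.2 ψ K h, add_zero]

theorem WDF.const_smul {R : E3 → E3} (hR : WDF R) (s : ℝ) : WDF (fun x => s • R x) := by
  refine ⟨hR.1.smul s, fun ψ K h => ?_⟩
  simp only [real_inner_smul_left]
  rw [integral_const_mul, hR.2 ψ K h, mul_zero]

theorem WDF.neg {R : E3 → E3} (hR : WDF R) : WDF (fun x => - R x) := by
  simpa using hR.const_smul (-1)

theorem WDF.sub {R S : E3 → E3} (hR : WDF R) (hS : WDF S) : WDF (fun x => R x - S x) := by
  simpa [sub_eq_add_neg] using hR.add hS.neg

theorem WDF.sum {ι : Type*} (s : Finset ι) (R : ι → E3 → E3) (hR : ∀ i ∈ s, WDF (R i)) :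
    WDF (fun x => ∑ i ∈ s, R i x) := by
  classical
  induction s using Finset.induction_on with
  | empty => simpa using WDF.zero
  | insert a s ha ih =>
    simp only [Finset.sum_insert ha]
    exact (hR a (Finset.mem_insert_self a s)).add
      (ih fun i hi => hR i (Finset.mem_insert_of_mem hi))

/-- scaled and translated copies -/
theorem WDF.scale {R : E3 → E3} (hR : WDF R) (a : E3) {s : ℝ} (hs : 0 < s) :
    WDF (fun x => R (s⁻¹ • (x - a))) := by
  have hs' : s⁻¹ ≠ 0 := (inv_pos.2 hs).ne'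
  refine ⟨?_, fun ψ K h => ?_⟩
  · have h1 : Integrable (fun x => R (s⁻¹ • x)) volume := (integrable_comp_smul_iff _ _ hs').2 hR.1
    exact h1.comp_sub_right a
  · have h2 : ∫ x, inner ℝ (R (s⁻¹ • (x - a))) (∇ ψ x)
        = ∫ x, inner ℝ (R (s⁻¹ • x)) (∇ ψ (x + a)) := by
      rw [← integral_add_right_eq_self (fun x => inner ℝ (R (s⁻¹ • (x - a))) (∇ ψ x)) a]
      simp
    rw [h2]
    have h3 : (fun x : E3 => inner ℝ (R (s⁻¹ • x)) (∇ ψ (x + a)))
        = fun x => (fun y => inner ℝ (R y) (∇ ψ (a + s • y))) (s⁻¹ • x) := by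
      funext x
      simp only [smul_smul, mul_inv_cancel₀ hs.ne', one_smul, add_comm a x]
    have h7 := Measure.integral_comp_smul (volume : Measure E3)
      (fun y => inner ℝ (R y) (∇ ψ (a + s • y))) s⁻¹
    rw [h3, h7]
    have h4 : ∫ y, inner ℝ (R y) (∇ ψ (a + s • y)) = 0 := by
      have hL : LipschitzWith (K * ‖s‖₊) (fun y => ψ (a + s • y)) := by
        have h5 : LipschitzWith ‖s‖₊ (fun y : E3 => a + s • y) := by
          refine LipschitzWith.of_dist_le_mul fun y z => ?_
          rw [dist_add_left, dist_smul₀]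
          rfl
        exact h.comp h5
      have h6 := hR.2 _ _ hL
      simp only [grad_comp_add_smul, real_inner_smul_right] at h6
      rw [integral_const_mul] at h6
      exact (mul_eq_zero.1 h6).resolve_left hs.ne'
    rw [h4, smul_zero]

/-- rotated copies -/
theorem WDF.rot {R : E3 → E3} (hR : WDF R) (O : E3 ≃ₗᵢ[ℝ] E3) :
    WDF (fun x => O (R (O.symm x))) := by
  have hmp : MeasurePreserving O.symm volume volume := O.symm.measurePreserving
  refine ⟨?_, fun ψ K h => ?_⟩
  · have h1 : Integrable (fun x => R (O.symm x)) volume :=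
      hmp.integrable_comp_of_integrable hR.1
    exact (O : E3 →L[ℝ] E3).integrable_comp h1
  · have h2 : (fun x => inner ℝ (O (R (O.symm x))) (∇ ψ x))
        = fun x => (fun y => inner ℝ (R y) (∇ (fun z => ψ (O z)) y)) (O.symm x) := by
      funext x
      simp only [grad_comp_isometry, O.apply_symm_apply]
      rw [← O.symm.inner_map_map, O.symm_apply_apply]
    have h3 := hmp.integral_comp O.symm.toHomeomorph.measurableEmbedding
      (fun y => inner ℝ (R y) (∇ (fun z => ψ (O z)) y))
    rw [h2, h3]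
    exact hR.2 _ K (by
      have h4 := h.comp O.lipschitz
      rw [mul_one] at h4
      exact h4)

theorem fl_integrable_tsum {ι : Type*} [Countable ι] (R : ι → E3 → E3)
    (hR : ∀ i, Integrable (R i) volume) (hs : Summable fun i => ∫ x, ‖R i x‖) :
    Integrable (fun x => ∑' i, R i x) volume := by
  have h0 : ∑' i, ∫⁻ x, ‖R i x‖ₑ ≠ ∞ := by
    have h1 : ∀ i, ∫⁻ x, ‖R i x‖ₑ = ENNReal.ofReal (∫ x, ‖R i x‖) := fun i => by
      rw [ofReal_integral_norm_eq_lintegral_enorm (hR i)]
    simp only [h1]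
    exact hs.tsum_ofReal_ne_top
  have h2 : ∫⁻ x, ∑' i, ‖R i x‖ₑ ≠ ∞ := by
    rw [lintegral_tsum fun i => (hR i).1.enorm]
    exact h0
  have h3 : ∀ᵐ x ∂(volume : Measure E3), ∑' i, ‖R i x‖ₑ < ∞ :=
    ae_lt_top' (AEMeasurable.ennreal_tsum fun i => (hR i).1.enorm) h2
  have h4 : ∀ᵐ x ∂(volume : Measure E3), HasSum (fun i => R i x) (∑' i, R i x) := by
    filter_upwards [h3] with x hx
    have h5 : Summable fun i => ‖R i x‖ := by
      have := ENNReal.summable_toReal hx.ne
      simpa using this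
    exact h5.of_norm.hasSum
  have h6 : AEStronglyMeasurable (fun x => ∑' i, R i x) volume := by
    refine aestronglyMeasurable_of_tendsto_ae (atTop : Filter (Finset ι))
      (f := fun s x => ∑ i ∈ s, R i x) (fun s => ?_) ?_
    · exact Finset.aestronglyMeasurable_fun_sum s fun i _ => (hR i).1
    · filter_upwards [h4] with x hx
      exact hx
  refine ⟨h6, ?_⟩
  refine lt_of_le_of_lt (lintegral_mono fun x => enorm_tsum_le_tsum_enorm) ?_
  exact h2.lt_top

theorem WDF.tsum {ι : Type*} [Countable ι] (R : ι → E3 → E3) (hR : ∀ i, WDF (R i))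
    (hs : Summable fun i => ∫ x, ‖R i x‖) : WDF (fun x => ∑' i, R i x) := by
  refine ⟨fl_integrable_tsum R (fun i => (hR i).1) hs, fun ψ K h => ?_⟩
  have h2 : Summable fun i => ∫ x, ‖inner ℝ (R i x) (∇ ψ x)‖ := by
    refine Summable.of_nonneg_of_le (fun i => integral_nonneg fun x => norm_nonneg _) ?_
      (hs.mul_right (K : ℝ))
    intro i
    rw [← integral_mul_const]
    refine integral_mono (integrable_inner_grad (hR i).1 h).norm ((hR i).1.norm.mul_const _) ?_
    intro x
    exact (norm_inner_le_norm _ _).trans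
      (mul_le_mul_of_nonneg_left (norm_grad_le h x) (norm_nonneg _))
  have h3 := integral_tsum_of_summable_integral_norm
    (fun i => integrable_inner_grad (hR i).1 h) h2
  have h4 : ∀ᵐ x ∂(volume : Measure E3),
      inner ℝ (∑' i, R i x) (∇ ψ x) = ∑' i, inner ℝ (R i x) (∇ ψ x) := by
    have h0 : ∑' i, ∫⁻ x, ‖R i x‖ₑ ≠ ∞ := by
      have h1 : ∀ i, ∫⁻ x, ‖R i x‖ₑ = ENNReal.ofReal (∫ x, ‖R i x‖) := fun i => by
        rw [ofReal_integral_norm_eq_lintegral_enorm (hR i).1]
      simp only [h1]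
      exact hs.tsum_ofReal_ne_top
    have h5 : ∫⁻ x, ∑' i, ‖R i x‖ₑ ≠ ∞ := by
      rw [lintegral_tsum fun i => (hR i).1.1.enorm]
      exact h0
    have h6 : ∀ᵐ x ∂(volume : Measure E3), ∑' i, ‖R i x‖ₑ < ∞ :=
      ae_lt_top' (AEMeasurable.ennreal_tsum fun i => (hR i).1.1.enorm) h5
    filter_upwards [h6] with x hx
    have h7 : Summable fun i => ‖R i x‖ := by
      have := ENNReal.summable_toReal hx.ne
      simpa using this
    have h8 := h7.of_norm.hasSum
    have h9 := (innerSL ℝ (∇ ψ x)).hasSum h8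
    have h10 : (∑' i, inner ℝ (R i x) (∇ ψ x)) = inner ℝ (∇ ψ x) (∑' i, R i x) := by
      rw [← innerSL_apply_apply, ← h9.tsum_eq]
      refine tsum_congr fun i => ?_
      rw [innerSL_apply_apply, real_inner_comm]
    rw [h10, real_inner_comm]
  rw [integral_congr_ae h4, ← h3]
  simp only [(hR _).2 ψ K h, tsum_zero]

end Crest.Agent.R083
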