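import Crest.Agent.R083.Spheroid
import Crest.Agent.R083.WdfOps
import Crest.Agent.R083.Wdf

/-!
# Row 83, RES-c: the inclusion lemma (coated confocal spheroids)
-/

set_option autoImplicit false

namespace Crest.Agent.R083

open MeasureTheory Set Filter
open scoped Gradient ENNReal NNReal Topology



namespace InclAux

theorem hdPhi0 {s : ℝ} (hs : 0 < s) :
    HasDerivAt Phi0 (1 / (2 * s * √s * (s + 1))) s := by
  have h := hasDerivAt_Phi0 hs
  rwa [← mul_assoc] at h

/-! ### Calculus in coordinates -/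

theorem inner_ee (v : E3) (l : Fin 3) : inner ℝ v (ee l) = v l := by
  rw [ee, EuclideanSpace.inner_single_right]
  simp

theorem grad_coord (f : E3 → ℝ) (x : E3) (l : Fin 3) : (∇ f x) l = fderiv ℝ f x (ee l) := by
  rw [← inner_gradient_left, ee, EuclideanSpace.inner_single_right]
  simp

theorem pt_zero (a b c : ℝ) : (pt a b c) 0 = a := rfl
theorem pt_one (a b c : ℝ) : (pt a b c) 1 = b := rfl
theorem pt_two (a b c : ℝ) : (pt a b c) 2 = c := rfl

theorem ee_apply (i j : Fin 3) : (ee i) j = if j = i then 1 else 0 := by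
  simp [ee]

theorem e3_ext {v w : E3} (h0 : v 0 = w 0) (h1 : v 1 = w 1) (h2 : v 2 = w 2) : v = w := by
  ext i
  fin_cases i
  · exact h0
  · exact h1
  · exact h2

theorem pt_eq (a b c : ℝ) : pt a b c = a • ee 0 + b • ee 1 + c • ee 2 := by
  apply e3_ext <;> simp [pt, ee]

theorem norm_le_coords (v : E3) : ‖v‖ ≤ |v 0| + |v 1| + |v 2| := by
  rw [EuclideanSpace.norm_eq, Fin.sum_univ_three]
  rw [Real.sqrt_le_left (by positivity)]
  simp only [Real.norm_eq_abs, sq_abs]
  nlinarith [abs_nonneg (v 0), abs_nonneg (v 1), abs_nonneg (v 2), sq_abs (v 0), sq_abs (v 1),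
    sq_abs (v 2), mul_nonneg (abs_nonneg (v 0)) (abs_nonneg (v 1)),
    mul_nonneg (abs_nonneg (v 0)) (abs_nonneg (v 2)),
    mul_nonneg (abs_nonneg (v 1)) (abs_nonneg (v 2))]

theorem abs_coord_le (v : E3) (k : Fin 3) : |v k| ≤ ‖v‖ := by
  have := PiLp.norm_apply_le v k
  simpa using this

theorem lip_pt {f g h : E3 → ℝ} {K₁ K₂ K₃ : ℝ≥0} (hf : LipschitzWith K₁ f)
    (hg : LipschitzWith K₂ g) (hh : LipschitzWith K₃ h) :
    LipschitzWith (K₁ + K₂ + K₃) (fun x => pt (f x) (g x) (h x)) := by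
  refine LipschitzWith.of_dist_le_mul fun x y => ?_
  rw [dist_eq_norm]
  refine (norm_le_coords _).trans ?_
  have e0 : |(pt (f x) (g x) (h x) - pt (f y) (g y) (h y)) 0| = dist (f x) (f y) := rfl
  have e1 : |(pt (f x) (g x) (h x) - pt (f y) (g y) (h y)) 1| = dist (g x) (g y) := rfl
  have e2 : |(pt (f x) (g x) (h x) - pt (f y) (g y) (h y)) 2| = dist (h x) (h y) := rfl
  rw [e0, e1, e2]
  push_cast
  have h0 := hf.dist_le_mul x y
  have h1 := hg.dist_le_mul x y
  have h2 := hh.dist_le_mul x y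
  linarith

theorem fderiv_coord {Ξ : E3 → E3} {x : E3} (h : DifferentiableAt ℝ Ξ x) (v : E3) (k : Fin 3) :
    (fderiv ℝ Ξ x v) k = fderiv ℝ (fun y => Ξ y k) x v := by
  have h1 := ((EuclideanSpace.proj k : E3 →L[ℝ] ℝ).hasFDerivAt (x := Ξ x)).comp x h.hasFDerivAt
  have h2 : fderiv ℝ (fun y => Ξ y k) x =
      (EuclideanSpace.proj k : E3 →L[ℝ] ℝ).comp (fderiv ℝ Ξ x) := h1.fderiv
  rw [h2]
  rfl

theorem diff_pt {f g h : E3 → ℝ} {x : E3} (hf : DifferentiableAt ℝ f x)
    (hg : DifferentiableAt ℝ g x) (hh : DifferentiableAt ℝ h x) :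
    DifferentiableAt ℝ (fun x => pt (f x) (g x) (h x)) x := by
  rw [differentiableAt_euclidean]
  intro i
  fin_cases i
  · exact hf
  · exact hg
  · exact hh

theorem curlv_pt {f g h : E3 → ℝ} {x : E3} (hf : DifferentiableAt ℝ f x)
    (hg : DifferentiableAt ℝ g x) (hh : DifferentiableAt ℝ h x) :
    curlv (fun x => pt (f x) (g x) (h x)) x =
      pt (fderiv ℝ h x (ee 1) - fderiv ℝ g x (ee 2)) (fderiv ℝ f x (ee 2) - fderiv ℝ h x (ee 0))
        (fderiv ℝ g x (ee 0) - fderiv ℝ f x (ee 1)) := by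
  unfold curlv
  simp only [fderiv_coord (diff_pt hf hg hh)]
  rfl

theorem norm_curlv_le {Ξ : E3 → E3} {K : ℝ≥0} (h : LipschitzWith K Ξ) (x : E3) :
    ‖curlv Ξ x‖ ≤ 6 * K := by
  have hb : ∀ l k : Fin 3, |(fderiv ℝ Ξ x (ee l)) k| ≤ K := by
    intro l k
    refine (abs_coord_le _ k).trans ?_
    have h1 := (fderiv ℝ Ξ x).le_opNorm (ee l)
    have h2 : ‖ee l‖ = 1 := by simp [ee]
    rw [h2, mul_one] at h1
    exact h1.trans (norm_fderiv_le_of_lipschitz ℝ h)
  refine (norm_le_coords _).trans ?_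
  have a0 : |(curlv Ξ x) 0| ≤ 2 * K := by
    have e : (curlv Ξ x) 0 = (fderiv ℝ Ξ x (ee 1)) 2 - (fderiv ℝ Ξ x (ee 2)) 1 := rfl
    rw [e]
    have := abs_sub (fderiv ℝ Ξ x (ee 1) 2) (fderiv ℝ Ξ x (ee 2) 1)
    linarith [hb 1 2, hb 2 1]
  have a1 : |(curlv Ξ x) 1| ≤ 2 * K := by
    have e : (curlv Ξ x) 1 = (fderiv ℝ Ξ x (ee 2)) 0 - (fderiv ℝ Ξ x (ee 0)) 2 := rfl
    rw [e]
    have := abs_sub (fderiv ℝ Ξ x (ee 2) 0) (fderiv ℝ Ξ x (ee 0) 2)
    linarith [hb 2 0, hb 0 2]
  have a2 : |(curlv Ξ x) 2| ≤ 2 * K := by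
    have e : (curlv Ξ x) 2 = (fderiv ℝ Ξ x (ee 0)) 1 - (fderiv ℝ Ξ x (ee 1)) 0 := rfl
    rw [e]
    have := abs_sub (fderiv ℝ Ξ x (ee 0) 1) (fderiv ℝ Ξ x (ee 1) 0)
    linarith [hb 0 1, hb 1 0]
  linarith

theorem measurable_pt {f g h : E3 → ℝ} (hf : Measurable f) (hg : Measurable g)
    (hh : Measurable h) : Measurable (fun x => pt (f x) (g x) (h x)) := by
  simp only [pt_eq]
  exact ((hf.smul_const _).add (hg.smul_const _)).add (hh.smul_const _)

theorem measurable_coord (k : Fin 3) : Measurable (fun x : E3 => x k) :=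
  (EuclideanSpace.proj k : E3 →L[ℝ] ℝ).continuous.measurable

theorem measurable_curlv (Ξ : E3 → E3) : Measurable (curlv Ξ) := by
  have hm : ∀ l k : Fin 3, Measurable (fun x => (fderiv ℝ Ξ x (ee l)) k) := fun l k =>
    (measurable_coord k).comp (measurable_fderiv_apply_const ℝ Ξ (ee l))
  exact measurable_pt ((hm 1 2).sub (hm 2 1)) ((hm 2 0).sub (hm 0 2)) ((hm 0 1).sub (hm 1 0))

/-! ### The basic functions -/

/-- `(g s1 - g (clamped s)) x_k` -/
noncomputable def mm (g : ℝ → ℝ) (s0 s1 : ℝ) (k : Fin 3) (x : E3) : ℝ :=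
  (g s1 - g (sgc s0 s1 x)) * x k

theorem lip_on_of_deriv {g g' : ℝ → ℝ} {s0 s1 : ℝ} (h0 : 0 < s0)
    (hg : ∀ s, 0 < s → HasDerivAt g (g' s) s) (B : ℝ≥0)
    (hB : ∀ s, s0 ≤ s → |g' s| ≤ B) : LipschitzOnWith B (fun s => g s1 - g s) (Icc s0 s1) := by
  refine Convex.lipschitzOnWith_of_nnnorm_hasDerivWithin_le (f' := fun s => -g' s)
    (convex_Icc s0 s1) (fun s hs => ?_) (fun s hs => ?_)
  · exact ((hg s (h0.trans_le hs.1)).const_sub (g s1)).hasDerivWithinAt
  · rw [nnnorm_neg, ← NNReal.coe_le_coe, coe_nnnorm, Real.norm_eq_abs]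
    exact hB s hs.1

theorem mm_lip (s0 s1 : ℝ) (h0 : 0 < s0) (h1 : s0 < s1) :
    ∃ M0 : ℝ≥0, ∀ k, LipschitzWith M0 (mm Phi0 s0 s1 k) ∧ LipschitzWith M0 (mm Phi1 s0 s1 k) := by
  obtain ⟨Cg, hCg⟩ := sgc_prod_lip s0 s1 h0 h1
  have hr0 : 0 < √s0 := Real.sqrt_pos.mpr h0
  set B : ℝ≥0 := Real.toNNReal (1 / (2 * s0 * √s0) + 1 / (2 * √s0)) with hBdef
  have hBv : (B : ℝ) = 1 / (2 * s0 * √s0) + 1 / (2 * √s0) :=
    Real.coe_toNNReal _ (by positivity)
  have hpar : ∀ s, s0 ≤ s → |1 / (2 * s * √s * (s + 1))| ≤ (B : ℝ) := by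
    intro s hs
    have hs' : 0 < s := h0.trans_le hs
    have hrs : 0 < √s := Real.sqrt_pos.mpr hs'
    have hrr : √s0 ≤ √s := Real.sqrt_le_sqrt hs
    rw [abs_of_nonneg (by positivity), hBv]
    have e1 : 1 / (2 * s * √s * (s + 1)) ≤ 1 / (2 * s0 * √s0) := by
      apply one_div_le_one_div_of_le (by positivity)
      calc 2 * s0 * √s0 ≤ 2 * s * √s := by gcongr
        _ ≤ 2 * s * √s * (s + 1) := by
          have : (0:ℝ) ≤ 2 * s * √s := by positivity
          nlinarith
    have e2 : 0 ≤ 1 / (2 * √s0) := by positivity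
    linarith
  have hperp : ∀ s, s0 ≤ s → |1 / (2 * √s * (s + 1) ^ 2)| ≤ (B : ℝ) := by
    intro s hs
    have hs' : 0 < s := h0.trans_le hs
    have hrs : 0 < √s := Real.sqrt_pos.mpr hs'
    have hrr : √s0 ≤ √s := Real.sqrt_le_sqrt hs
    rw [abs_of_nonneg (by positivity), hBv]
    have e1 : 1 / (2 * √s * (s + 1) ^ 2) ≤ 1 / (2 * √s0) := by
      apply one_div_le_one_div_of_le (by positivity)
      calc 2 * √s0 ≤ 2 * √s := by gcongr
        _ ≤ 2 * √s * (s + 1) ^ 2 := by
          have h3 : (0:ℝ) ≤ 2 * √s := by positivity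
          have h4 : (1:ℝ) ≤ (s + 1) ^ 2 := by nlinarith
          nlinarith
    have e2 : 0 ≤ 1 / (2 * s0 * √s0) := by positivity
    linarith
  refine ⟨Cg * B, fun k => ⟨?_, ?_⟩⟩
  · exact hCg (fun s => Phi0 s1 - Phi0 s) B
      (lip_on_of_deriv h0 (fun s hs => hdPhi0 hs) B hpar) (sub_self _) k
  · exact hCg (fun s => Phi1 s1 - Phi1 s) B
      (lip_on_of_deriv h0 (fun s hs => hasDerivAt_Phi1 hs) B hperp) (sub_self _) k

theorem mm_off (g : ℝ → ℝ) {s0 s1 : ℝ} (h1 : s0 < s1) (k : Fin 3) {x : E3} (hx : s1 ≤ sph x) :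
    mm g s0 s1 k x = 0 := by
  have : sgc s0 s1 x = s1 := by
    unfold sgc
    rw [min_eq_left hx, max_eq_right h1.le]
  unfold mm
  rw [this, sub_self, zero_mul]

theorem mm_core (g : ℝ → ℝ) {s0 s1 : ℝ} (k : Fin 3) {x : E3} (hx : sph x ≤ s0) :
    mm g s0 s1 k x = (g s1 - g s0) * x k := by
  have : sgc s0 s1 x = s0 := by
    unfold sgc
    rw [max_eq_left ((min_le_right _ _).trans hx)]
  unfold mm
  rw [this]

theorem coord_fderiv (k : Fin 3) (x : E3) :
    HasFDerivAt (fun y : E3 => y k) (EuclideanSpace.proj k : E3 →L[ℝ] ℝ) x :=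
  (EuclideanSpace.proj k : E3 →L[ℝ] ℝ).hasFDerivAt

theorem proj_ee (k l : Fin 3) : (EuclideanSpace.proj k : E3 →L[ℝ] ℝ) (ee l) =
    if k = l then 1 else 0 := by
  have := ee_apply l k
  simpa using this

theorem mm_core_fderiv (g : ℝ → ℝ) {s0 s1 : ℝ} (k : Fin 3) {x : E3} (hx : sph x < s0) :
    HasFDerivAt (mm g s0 s1 k) ((g s1 - g s0) • (EuclideanSpace.proj k : E3 →L[ℝ] ℝ)) x := by
  have h := (coord_fderiv k x).const_mul (g s1 - g s0)
  refine h.congr_of_eventuallyEq ?_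
  have hopen : {y : E3 | sph y < s0} ∈ 𝓝 x :=
    (isOpen_lt continuous_sph continuous_const).mem_nhds hx
  filter_upwards [hopen] with y hy
  exact mm_core g k (le_of_lt hy)

/-- the partial derivatives of `sph` -/
noncomputable def dsph (x : E3) (l : Fin 3) : ℝ :=
  2 / (sph x + x 0 ^ 2 / sph x) * (sph x * x l + x 0 * (if (0 : Fin 3) = l then 1 else 0))

theorem mm_coat_fderiv (g : ℝ → ℝ) {g' s0 s1 : ℝ} (k : Fin 3) {x : E3} (h0 : 0 < s0)
    (hx0 : s0 < sph x) (hx1 : sph x < s1) (hg : HasDerivAt g g' (sph x)) :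
    DifferentiableAt ℝ (mm g s0 s1 k) x ∧ ∀ l, fderiv ℝ (mm g s0 s1 k) x (ee l) =
      -g' * dsph x l * x k + (g s1 - g (sph x)) * (if k = l then 1 else 0) := by
  have hpos : 0 < sph x := h0.trans hx0
  have hsph := (hasGradientAt_sph x hpos).hasFDerivAt
  have h0' : HasFDerivAt (fun y => g (sph y))
      (g' • (InnerProductSpace.toDual ℝ E3) ((sph x + (x 0) ^ 2 / sph x)⁻¹ •
      ((2 * sph x) • x + (2 * x 0) • ee 0))) x :=
    HasDerivAt.comp_hasFDerivAt x hg hsph
  have h1 := h0'.const_sub (g s1)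
  have h2 := h1.mul (coord_fderiv k x)
  have heq : mm g s0 s1 k =ᶠ[𝓝 x] (fun y => (g s1 - g (sph y)) * y k) := by
    have hopen : {y : E3 | s0 < sph y ∧ sph y < s1} ∈ 𝓝 x :=
      ((isOpen_lt continuous_const continuous_sph).inter
        (isOpen_lt continuous_sph continuous_const)).mem_nhds ⟨hx0, hx1⟩
    filter_upwards [hopen] with y hy
    have : sgc s0 s1 y = sph y := by
      unfold sgc
      rw [min_eq_right hy.2.le, max_eq_right hy.1.le]
    unfold mm
    rw [this]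
  have h3 := h2.congr_of_eventuallyEq heq
  refine ⟨h3.differentiableAt, fun l => ?_⟩
  rw [h3.fderiv]
  have hin : ((InnerProductSpace.toDual ℝ E3) ((sph x + (x 0) ^ 2 / sph x)⁻¹ •
      ((2 * sph x) • x + (2 * x 0) • ee 0))) (ee l) = dsph x l := by
    rw [InnerProductSpace.toDual_apply_apply, inner_ee]
    change (sph x + (x 0) ^ 2 / sph x)⁻¹ * ((2 * sph x) * x l + (2 * x 0) * (ee 0) l) = _
    rw [ee_apply 0 l]
    unfold dsph
    by_cases h : l = 0
    · subst h
      simp only [if_true]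
      rw [div_eq_mul_inv]
      ring
    · rw [if_neg h, if_neg (fun h' => h h'.symm), div_eq_mul_inv]
      ring
  simp only [_root_.add_apply, _root_.smul_apply, proj_ee, _root_.neg_apply, hin, smul_eq_mul]
  ring

/-- the radial functions -/
noncomputable def gi (i : Fin 3) : ℝ → ℝ := if i = 0 then Phi0 else Phi1

/-- vector potentials of the coat, for unit strength -/
noncomputable def xi (s0 s1 : ℝ) (i : Fin 3) : E3 → E3 := fun x =>
  if i = 0 then pt 0 (-mm Phi1 s0 s1 2 x) (mm Phi1 s0 s1 1 x)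
  else if i = 1 then pt (mm Phi1 s0 s1 2 x) 0 (-mm Phi0 s0 s1 0 x)
  else pt (-mm Phi1 s0 s1 1 x) (mm Phi0 s0 s1 0 x) 0

theorem dsph_zero (x : E3) :
    dsph x 0 = 2 / (sph x + x 0 ^ 2 / sph x) * ((sph x + 1) * x 0) := by
  unfold dsph
  rw [if_pos rfl]
  ring

theorem dsph_ne (x : E3) (l : Fin 3) (hl : l ≠ 0) :
    dsph x l = 2 / (sph x + x 0 ^ 2 / sph x) * (sph x * x l) := by
  unfold dsph
  rw [if_neg (fun h => hl h.symm), mul_zero, add_zero]

/-- cross identity -/
theorem id_cross (x : E3) (hx : 0 < sph x) (l : Fin 3) (hl : l ≠ 0) :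
    1 / (2 * √(sph x) * (sph x + 1) ^ 2) * dsph x 0 * x l =
      1 / (2 * sph x * √(sph x) * (sph x + 1)) * dsph x l * x 0 := by
  rw [dsph_zero x, dsph_ne x l hl]
  have hr : 0 < √(sph x) := Real.sqrt_pos.mpr hx
  have hD : 0 < sph x + x 0 ^ 2 / sph x := by positivity
  field_simp

/-- main identity -/
theorem id_main (x : E3) (hx : 0 < sph x) :
    1 / (2 * √(sph x) * (sph x + 1) ^ 2) * (dsph x 1 * x 1 + dsph x 2 * x 2) +
      1 / (2 * sph x * √(sph x) * (sph x + 1)) * dsph x 0 * x 0 = 1 / Vv (sph x) := by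
  rw [dsph_zero x, dsph_ne x 1 (by decide), dsph_ne x 2 (by decide)]
  have hq := sph_quad x
  rw [norm_sq_three] at hq
  unfold Vv
  have hr : 0 < √(sph x) := Real.sqrt_pos.mpr hx
  set s := sph x with hs
  set r := √s with hrdef
  have hD : 0 < s ^ 2 + x 0 ^ 2 := by positivity
  have e : s + x 0 ^ 2 / s = (s ^ 2 + x 0 ^ 2) / s := by field_simp
  rw [e]
  field_simp
  linear_combination (-s) * hq

theorem curl_xi0 {s0 s1 : ℝ} {x : E3} (h1 : ∀ k, DifferentiableAt ℝ (mm Phi1 s0 s1 k) x) :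
    curlv (xi s0 s1 0) x =
      pt (fderiv ℝ (mm Phi1 s0 s1 1) x (ee 1) + fderiv ℝ (mm Phi1 s0 s1 2) x (ee 2))
        (-fderiv ℝ (mm Phi1 s0 s1 1) x (ee 0)) (-fderiv ℝ (mm Phi1 s0 s1 2) x (ee 0)) := by
  have e : xi s0 s1 0 = fun x => pt ((fun _ => (0:ℝ)) x) ((fun x => -mm Phi1 s0 s1 2 x) x)
      (mm Phi1 s0 s1 1 x) := by
    funext y; simp [xi]
  rw [e, curlv_pt (differentiableAt_const _) (h1 2).fun_neg (h1 1)]
  have e1 : fderiv ℝ (fun x => -mm Phi1 s0 s1 2 x) x = -fderiv ℝ (mm Phi1 s0 s1 2) x :=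
    (h1 2).hasFDerivAt.neg.fderiv
  have e2 : fderiv ℝ (fun _ : E3 => (0:ℝ)) x = 0 := (hasFDerivAt_const (0:ℝ) x).fderiv
  rw [e1, e2]
  apply e3_ext <;> simp only [pt_zero, pt_one, pt_two, _root_.neg_apply, _root_.zero_apply] <;>
    ring

theorem curl_xi1 {s0 s1 : ℝ} {x : E3} (h0 : ∀ k, DifferentiableAt ℝ (mm Phi0 s0 s1 k) x)
    (h1 : ∀ k, DifferentiableAt ℝ (mm Phi1 s0 s1 k) x) :
    curlv (xi s0 s1 1) x =
      pt (-fderiv ℝ (mm Phi0 s0 s1 0) x (ee 1))
        (fderiv ℝ (mm Phi1 s0 s1 2) x (ee 2) + fderiv ℝ (mm Phi0 s0 s1 0) x (ee 0))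
        (-fderiv ℝ (mm Phi1 s0 s1 2) x (ee 1)) := by
  have e : xi s0 s1 1 = fun x => pt (mm Phi1 s0 s1 2 x) ((fun _ => (0:ℝ)) x)
      ((fun x => -mm Phi0 s0 s1 0 x) x) := by
    funext y; simp [xi]
  rw [e, curlv_pt (h1 2) (differentiableAt_const _) (h0 0).fun_neg]
  have e1 : fderiv ℝ (fun x => -mm Phi0 s0 s1 0 x) x = -fderiv ℝ (mm Phi0 s0 s1 0) x :=
    (h0 0).hasFDerivAt.neg.fderiv
  have e2 : fderiv ℝ (fun _ : E3 => (0:ℝ)) x = 0 := (hasFDerivAt_const (0:ℝ) x).fderiv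
  rw [e1, e2]
  apply e3_ext <;> simp only [pt_zero, pt_one, pt_two, _root_.neg_apply, _root_.zero_apply] <;>
    ring

theorem curl_xi2 {s0 s1 : ℝ} {x : E3} (h0 : ∀ k, DifferentiableAt ℝ (mm Phi0 s0 s1 k) x)
    (h1 : ∀ k, DifferentiableAt ℝ (mm Phi1 s0 s1 k) x) :
    curlv (xi s0 s1 2) x =
      pt (-fderiv ℝ (mm Phi0 s0 s1 0) x (ee 2)) (-fderiv ℝ (mm Phi1 s0 s1 1) x (ee 2))
        (fderiv ℝ (mm Phi0 s0 s1 0) x (ee 0) + fderiv ℝ (mm Phi1 s0 s1 1) x (ee 1)) := by
  have e : xi s0 s1 2 = fun x => pt ((fun x => -mm Phi1 s0 s1 1 x) x) (mm Phi0 s0 s1 0 x)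
      ((fun _ => (0:ℝ)) x) := by
    funext y; simp [xi]
  rw [e, curlv_pt (h1 1).fun_neg (h0 0) (differentiableAt_const _)]
  have e1 : fderiv ℝ (fun x => -mm Phi1 s0 s1 1 x) x = -fderiv ℝ (mm Phi1 s0 s1 1) x :=
    (h1 1).hasFDerivAt.neg.fderiv
  have e2 : fderiv ℝ (fun _ : E3 => (0:ℝ)) x = 0 := (hasFDerivAt_const (0:ℝ) x).fderiv
  rw [e1, e2]
  apply e3_ext <;> simp only [pt_zero, pt_one, pt_two, _root_.neg_apply, _root_.zero_apply] <;>
    ring

theorem grad_cm {f : E3 → ℝ} (a : ℝ) (x : E3) (l : Fin 3) :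
    (∇ (fun y => a * f y) x) l = a * fderiv ℝ f x (ee l) := by
  rw [grad_const_mul]
  change a * (∇ f x) l = _
  rw [grad_coord]

theorem smul_coord (a : ℝ) (v : E3) (l : Fin 3) : (a • v) l = a * v l := rfl
theorem add_coord (v w : E3) (l : Fin 3) : (v + w) l = v l + w l := rfl

/-- the relation in the coat -/
theorem coat_rel {s0 s1 c0 lam : ℝ} (h0 : 0 < s0) (hs : s0 < s1) (hc : 0 < c0) (i : Fin 3)
    {x : E3} (hx0 : s0 < sph x) (hx1 : sph x < s1) :
    lam • ee i + (c0 * str c0 s1 lam) • curlv (xi s0 s1 i) x =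
      c0 • (ee i + ∇ (fun y => -str c0 s1 lam * mm (gi i) s0 s1 i y) x) := by
  have hpos : 0 < sph x := h0.trans hx0
  have hA := fun k => mm_coat_fderiv Phi1 k h0 hx0 hx1 (hasDerivAt_Phi1 hpos)
  have hB := fun k => mm_coat_fderiv Phi0 k h0 hx0 hx1 (hdPhi0 hpos)
  have hs1 : 0 < s1 := h0.trans hs
  have hV1 : Vv s1 ≠ 0 := by
    have : 0 < √s1 := Real.sqrt_pos.mpr hs1
    have : 0 < Vv s1 := by unfold Vv; positivity
    exact this.ne'
  have c1 := id_cross x hpos 1 (by decide)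
  have c2 := id_cross x hpos 2 (by decide)
  have m := id_main x hpos
  have k1 : Phi0 (sph x) + 2 * Phi1 (sph x) = -(1 / Vv (sph x)) := Phi0_add_two_Phi1 hpos
  have k2 : Phi0 s1 + 2 * Phi1 s1 = -(1 / Vv s1) := Phi0_add_two_Phi1 hs1
  have hstr : c0 * str c0 s1 lam = Vv s1 * (lam - c0) := by
    unfold str; field_simp
  have hlam : lam - c0 = c0 * str c0 s1 lam * (1 / Vv s1) := by
    rw [hstr]; field_simp
  have d12 : dsph x 1 * x 2 = dsph x 2 * x 1 := by
    rw [dsph_ne x 1 (by decide), dsph_ne x 2 (by decide)]; ring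
  set a := str c0 s1 lam with ha
  set p' := 1 / (2 * √(sph x) * (sph x + 1) ^ 2) with hp'
  set q' := 1 / (2 * sph x * √(sph x) * (sph x + 1)) with hq'
  set V := 1 / Vv (sph x) with hV
  set W := 1 / Vv s1 with hW
  fin_cases i
  · change lam • ee 0 + (c0 * a) • curlv (xi s0 s1 0) x =
      c0 • (ee 0 + ∇ (fun y => -a * mm (gi 0) s0 s1 0 y) x)
    have eg : gi 0 = Phi0 := by simp [gi]
    rw [curl_xi0 (fun k => (hA k).1), eg]
    apply e3_ext
    · simp only [add_coord, smul_coord, grad_cm, pt_zero, (hA _).2, (hB _).2, ee_apply]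
      simp
      linear_combination hlam + (c0 * a) * (k2 - k1) - (c0 * a) * m
    · simp only [add_coord, smul_coord, grad_cm, pt_one, (hA _).2, (hB _).2, ee_apply]
      simp
      linear_combination (c0 * a) * c1
    · simp only [add_coord, smul_coord, grad_cm, pt_two, (hA _).2, (hB _).2, ee_apply]
      simp
      linear_combination (c0 * a) * c2
  · change lam • ee 1 + (c0 * a) • curlv (xi s0 s1 1) x =
      c0 • (ee 1 + ∇ (fun y => -a * mm (gi 1) s0 s1 1 y) x)
    have eg : gi 1 = Phi1 := by simp [gi]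
    rw [curl_xi1 (fun k => (hB k).1) (fun k => (hA k).1), eg]
    apply e3_ext
    · simp only [add_coord, smul_coord, grad_cm, pt_zero, (hA _).2, (hB _).2, ee_apply]
      simp
      linear_combination (-(c0 * a)) * c1
    · simp only [add_coord, smul_coord, grad_cm, pt_one, (hA _).2, (hB _).2, ee_apply]
      simp
      linear_combination hlam + (c0 * a) * (k2 - k1) - (c0 * a) * m
    · simp only [add_coord, smul_coord, grad_cm, pt_two, (hA _).2, (hB _).2, ee_apply]
      simp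
      linear_combination (c0 * a * p') * d12
  · change lam • ee 2 + (c0 * a) • curlv (xi s0 s1 2) x =
      c0 • (ee 2 + ∇ (fun y => -a * mm (gi 2) s0 s1 2 y) x)
    have eg : gi 2 = Phi1 := by simp [gi]
    rw [curl_xi2 (fun k => (hB k).1) (fun k => (hA k).1), eg]
    apply e3_ext
    · simp only [add_coord, smul_coord, grad_cm, pt_zero, (hA _).2, (hB _).2, ee_apply]
      simp
      linear_combination (-(c0 * a)) * c2
    · simp only [add_coord, smul_coord, grad_cm, pt_one, (hA _).2, (hB _).2, ee_apply]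
      simp
      linear_combination (-(c0 * a * p')) * d12
    · simp only [add_coord, smul_coord, grad_cm, pt_two, (hA _).2, (hB _).2, ee_apply]
      simp
      linear_combination hlam + (c0 * a) * (k2 - k1) - (c0 * a) * m

theorem core_partial (g : ℝ → ℝ) {s0 s1 : ℝ} (k l : Fin 3) {x : E3} (hx : sph x < s0) :
    fderiv ℝ (mm g s0 s1 k) x (ee l) = (g s1 - g s0) * (if k = l then 1 else 0) := by
  rw [(mm_core_fderiv g k hx).fderiv]
  simp only [_root_.smul_apply, proj_ee, smul_eq_mul]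

/-- the relation in the core -/
theorem core_rel {s0 s1 c0 lam kap : ℝ} (h0 : 0 < s0) (hs : s0 < s1) (hc : 0 < c0) (i : Fin 3)
    (hk : kap * (1 - str c0 s1 lam * (gi i s1 - gi i s0)) =
      c0 * ((1 - str c0 s1 lam * (gi i s1 - gi i s0)) + str c0 s1 lam / Vv s0))
    {x : E3} (hx : sph x < s0) :
    lam • ee i + (c0 * str c0 s1 lam) • curlv (xi s0 s1 i) x =
      (kap * (1 - str c0 s1 lam * (gi i s1 - gi i s0))) • ee i := by
  have hs1 : 0 < s1 := h0.trans hs
  have hA := fun k => (mm_core_fderiv Phi1 (s1 := s1) k hx).differentiableAt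
  have hB := fun k => (mm_core_fderiv Phi0 (s1 := s1) k hx).differentiableAt
  have hV1 : Vv s1 ≠ 0 := by
    have : 0 < √s1 := Real.sqrt_pos.mpr hs1
    have : 0 < Vv s1 := by unfold Vv; positivity
    exact this.ne'
  have k1 : Phi0 s0 + 2 * Phi1 s0 = -(1 / Vv s0) := Phi0_add_two_Phi1 h0
  have k2 : Phi0 s1 + 2 * Phi1 s1 = -(1 / Vv s1) := Phi0_add_two_Phi1 hs1
  have hstr : c0 * str c0 s1 lam = Vv s1 * (lam - c0) := by
    unfold str; field_simp
  have hlam : lam - c0 = c0 * str c0 s1 lam * (1 / Vv s1) := by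
    rw [hstr]; field_simp
  rw [hk]
  rw [div_eq_mul_one_div (str c0 s1 lam) (Vv s0)]
  generalize str c0 s1 lam = a at hlam ⊢
  fin_cases i
  · change lam • ee 0 + (c0 * a) • curlv (xi s0 s1 0) x =
      (c0 * ((1 - a * (gi 0 s1 - gi 0 s0)) + a * (1 / Vv s0))) • ee 0
    have eg : gi 0 = Phi0 := by simp [gi]
    rw [curl_xi0 hA, eg]
    apply e3_ext
    · simp only [add_coord, smul_coord, pt_zero, core_partial _ _ _ hx, ee_apply]
      simp
      linear_combination hlam + (c0 * a) * (k2 - k1)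
    · simp only [add_coord, smul_coord, pt_one, core_partial _ _ _ hx, ee_apply]
      simp
    · simp only [add_coord, smul_coord, pt_two, core_partial _ _ _ hx, ee_apply]
      simp
  · change lam • ee 1 + (c0 * a) • curlv (xi s0 s1 1) x =
      (c0 * ((1 - a * (gi 1 s1 - gi 1 s0)) + a * (1 / Vv s0))) • ee 1
    have eg : gi 1 = Phi1 := by simp [gi]
    rw [curl_xi1 hB hA, eg]
    apply e3_ext
    · simp only [add_coord, smul_coord, pt_zero, core_partial _ _ _ hx, ee_apply]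
      simp
    · simp only [add_coord, smul_coord, pt_one, core_partial _ _ _ hx, ee_apply]
      simp
      linear_combination hlam + (c0 * a) * (k2 - k1)
    · simp only [add_coord, smul_coord, pt_two, core_partial _ _ _ hx, ee_apply]
      simp
  · change lam • ee 2 + (c0 * a) • curlv (xi s0 s1 2) x =
      (c0 * ((1 - a * (gi 2 s1 - gi 2 s0)) + a * (1 / Vv s0))) • ee 2
    have eg : gi 2 = Phi1 := by simp [gi]
    rw [curl_xi2 hB hA, eg]
    apply e3_ext
    · simp only [add_coord, smul_coord, pt_zero, core_partial _ _ _ hx, ee_apply]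
      simp
    · simp only [add_coord, smul_coord, pt_one, core_partial _ _ _ hx, ee_apply]
      simp
    · simp only [add_coord, smul_coord, pt_two, core_partial _ _ _ hx, ee_apply]
      simp
      linear_combination hlam + (c0 * a) * (k2 - k1)

theorem lip_neg {f : E3 → ℝ} {K : ℝ≥0} (h : LipschitzWith K f) :
    LipschitzWith K (fun x => -f x) := by
  refine LipschitzWith.of_dist_le_mul fun x y => ?_
  rw [dist_neg_neg]
  exact h.dist_le_mul x y

theorem lip_zero : LipschitzWith 0 (fun _ : E3 => (0:ℝ)) := LipschitzWith.const 0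

theorem xi_lip {s0 s1 : ℝ} {M0 : ℝ≥0}
    (hM : ∀ k, LipschitzWith M0 (mm Phi0 s0 s1 k) ∧ LipschitzWith M0 (mm Phi1 s0 s1 k))
    (i : Fin 3) : LipschitzWith (2 * M0) (xi s0 s1 i) := by
  fin_cases i
  · have := lip_pt lip_zero (lip_neg (hM 2).2) (hM 1).2
    have e : xi s0 s1 0 = fun x => pt 0 (-mm Phi1 s0 s1 2 x) (mm Phi1 s0 s1 1 x) := by
      funext y; simp [xi]
    change LipschitzWith (2 * M0) (xi s0 s1 0)
    rw [e]
    refine this.weaken (le_of_eq ?_)
    ring
  · have := lip_pt (hM 2).2 lip_zero (lip_neg (hM 0).1)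
    have e : xi s0 s1 1 = fun x => pt (mm Phi1 s0 s1 2 x) 0 (-mm Phi0 s0 s1 0 x) := by
      funext y; simp [xi]
    change LipschitzWith (2 * M0) (xi s0 s1 1)
    rw [e]
    refine this.weaken (le_of_eq ?_)
    ring
  · have := lip_pt (lip_neg (hM 1).2) (hM 0).1 lip_zero
    have e : xi s0 s1 2 = fun x => pt (-mm Phi1 s0 s1 1 x) (mm Phi0 s0 s1 0 x) 0 := by
      funext y; simp [xi]
    change LipschitzWith (2 * M0) (xi s0 s1 2)
    rw [e]
    refine this.weaken (le_of_eq ?_)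
    ring

theorem xi_off {s0 s1 : ℝ} (h1 : s0 < s1) (i : Fin 3) {x : E3} (hx : s1 ≤ sph x) :
    xi s0 s1 i x = 0 := by
  have h := fun g k => mm_off g h1 k hx
  unfold xi
  simp only [h]
  split_ifs <;> (apply e3_ext <;> simp [pt])

theorem curl_off {s0 s1 : ℝ} (h1 : s0 < s1) (i : Fin 3) {x : E3} (hx : s1 < sph x) :
    curlv (xi s0 s1 i) x = 0 := by
  have heq : xi s0 s1 i =ᶠ[𝓝 x] fun _ => (0 : E3) := by
    have hopen : {y : E3 | s1 < sph y} ∈ 𝓝 x :=
      (isOpen_lt continuous_const continuous_sph).mem_nhds hx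
    filter_upwards [hopen] with y hy
    exact xi_off h1 i (le_of_lt hy)
  have h2 : fderiv ℝ (xi s0 s1 i) x = 0 := by
    rw [heq.fderiv_eq]
    exact (hasFDerivAt_const (0 : E3) x).fderiv
  unfold curlv
  rw [h2]
  apply e3_ext <;> simp [pt]

theorem diagL_ee (a : Fin 3 → ℝ) (i : Fin 3) : diagL a (ee i) = a i • ee i := by
  unfold diagL
  rw [_root_.sum_apply]
  rw [Finset.sum_eq_single i]
  · simp only [_root_.smul_apply, ContinuousLinearMap.smulRight_apply, proj_ee, if_true, one_smul]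
  · intro j _ hj
    simp only [_root_.smul_apply, ContinuousLinearMap.smulRight_apply, proj_ee, if_neg hj,
      zero_smul, smul_zero]
  · intro h
    exact absurd (Finset.mem_univ i) h

theorem gi_lip {s0 s1 : ℝ} {M0 : ℝ≥0}
    (hM : ∀ k, LipschitzWith M0 (mm Phi0 s0 s1 k) ∧ LipschitzWith M0 (mm Phi1 s0 s1 k))
    (i k : Fin 3) : LipschitzWith M0 (mm (gi i) s0 s1 k) := by
  unfold gi
  split_ifs
  · exact (hM k).1
  · exact (hM k).2

theorem gi_mono {s0 s1 : ℝ} (h0 : 0 < s0) (h1 : s0 < s1) (i : Fin 3) : gi i s0 ≤ gi i s1 := by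
  have hmono : MonotoneOn (gi i) (Icc s0 s1) := by
    refine monotoneOn_of_hasDerivWithinAt_nonneg
      (f' := fun s => if i = 0 then 1 / (2 * s * √s * (s + 1)) else 1 / (2 * √s * (s + 1) ^ 2))
      (convex_Icc s0 s1) ?_ ?_ ?_
    · intro s hs
      have hs' : 0 < s := h0.trans_le hs.1
      unfold gi
      split_ifs
      · exact (hdPhi0 hs').continuousAt.continuousWithinAt
      · exact (hasDerivAt_Phi1 hs').continuousAt.continuousWithinAt
    · intro s hs
      rw [interior_Icc] at hs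
      have hs' : 0 < s := h0.trans hs.1
      unfold gi
      split_ifs
      · exact (hdPhi0 hs').hasDerivWithinAt
      · exact (hasDerivAt_Phi1 hs').hasDerivWithinAt
    · intro s hs
      rw [interior_Icc] at hs
      have hs' : 0 < s := h0.trans hs.1
      have hr : 0 < √s := Real.sqrt_pos.mpr hs'
      split_ifs <;> positivity
  exact hmono (left_mem_Icc.mpr h1.le) (right_mem_Icc.mpr h1.le) h1.le

/-- Inclusion lemma: coated spheroid with core tensor `kap` looks like `lam` from outside. -/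
theorem incl_cell_aux (s0 s1 m Λ : ℝ) (h0 : 0 < s0) (h1 : s0 < s1) (hm : 0 < m) :
    ∃ K : ℝ≥0, ∀ (c0 : ℝ) (lam kap : Fin 3 → ℝ), m ≤ c0 → (∀ i, lam i ≤ Λ) →
      Coat s0 s1 c0 lam kap →
      ∀ (c C : ℝ) (L : ℝ≥0), c ≤ c0 → c0 ≤ C → Resolves c C L (diagL kap) →
        CellData c C (K + L) (diagL lam) (Dsph s1) := by
  obtain ⟨M0, hM⟩ := mm_lip s0 s1 h0 h1
  have hs1 : 0 < s1 := h0.trans h1
  have hV1 : 0 < Vv s1 := by
    have : 0 < √s1 := Real.sqrt_pos.mpr hs1
    unfold Vv; positivity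
  set A1 : ℝ≥0 := Real.toNNReal (Vv s1 * |Λ| / m) with hA1
  set A2 : ℝ≥0 := Real.toNNReal (Vv s1 * |Λ|) with hA2
  have hA1v : (A1 : ℝ) = Vv s1 * |Λ| / m := Real.coe_toNNReal _ (by positivity)
  have hA2v : (A2 : ℝ) = Vv s1 * |Λ| := Real.coe_toNNReal _ (by positivity)
  refine ⟨A1 * M0 + 12 * A2 * M0, ?_⟩
  intro c0 lam kap hmc hlamΛ hCoat c C L hcc0 hc0C hres
  have hc0 : 0 < c0 := hm.trans_le hmc
  have hUo : IsOpen {x : E3 | sph x < s0} := isOpen_lt continuous_sph continuous_const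
  have hDc := Dsph_compact s1 hs1
  have hUb : Bornology.IsBounded {x : E3 | sph x < s0} :=
    hDc.isBounded.subset fun x hx => (le_of_lt (lt_trans hx h1) : sph x ≤ s1)
  obtain ⟨γ', v', R', hγm, hγb, hvR⟩ := hres _ hUo hUb 1 one_pos
  -- strengths
  have hal0 : ∀ i, 0 ≤ str c0 s1 (lam i) := fun i => by
    have := hCoat.hl i
    unfold str
    have h3 : 0 ≤ lam i - c0 := by linarith
    positivity
  have hlabs : ∀ i, lam i - c0 ≤ |Λ| := fun i => by
    have := hlamΛ i
    have := le_abs_self Λ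
    linarith
  have hal1 : ∀ i, str c0 s1 (lam i) ≤ A1 := fun i => by
    rw [hA1v]
    unfold str
    have h3 : 0 ≤ lam i - c0 := by linarith [hCoat.hl i]
    exact div_le_div₀ (by positivity) (mul_le_mul_of_nonneg_left (hlabs i) hV1.le) hm hmc
  have hal2 : ∀ i, c0 * str c0 s1 (lam i) ≤ A2 := fun i => by
    rw [hA2v]
    have : c0 * str c0 s1 (lam i) = Vv s1 * (lam i - c0) := by unfold str; field_simp
    rw [this]
    exact mul_le_mul_of_nonneg_left (hlabs i) hV1.le
  -- core factors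
  set Fc : Fin 3 → ℝ := fun i => 1 - str c0 s1 (lam i) * (gi i s1 - gi i s0) with hFc
  have hF0 : ∀ i, 0 < Fc i := by
    intro i
    fin_cases i
    · have := hCoat.F0
      unfold Ff at this
      simpa [hFc, gi] using this
    · have := hCoat.G1
      unfold Gf at this
      simpa [hFc, gi] using this
    · have := hCoat.G2
      unfold Gf at this
      simpa [hFc, gi] using this
  have hF1 : ∀ i, Fc i ≤ 1 := by
    intro i
    have h3 : 0 ≤ gi i s1 - gi i s0 := sub_nonneg.mpr (gi_mono h0 h1 i)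
    have := mul_nonneg (hal0 i) h3
    simp only [hFc]
    linarith
  have hk : ∀ i, kap i * Fc i = c0 * (Fc i + str c0 s1 (lam i) / Vv s0) := by
    intro i
    fin_cases i
    · have := hCoat.k0
      unfold Hf Ff at this
      simpa [hFc, gi] using this
    · have := hCoat.k1
      unfold Gf at this
      simpa [hFc, gi] using this
    · have := hCoat.k2
      unfold Gf at this
      simpa [hFc, gi] using this
  classical
  refine ⟨fun x => if sph x < s0 then γ' x else c0,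
    fun i x => -str c0 s1 (lam i) * mm (gi i) s0 s1 i x + Fc i * v' i x,
    fun i x => (c0 * str c0 s1 (lam i)) • curlv (xi s0 s1 i) x + Fc i • R' i x, ?_, ?_, ?_⟩
  · exact Measurable.ite (measurableSet_lt continuous_sph.measurable measurable_const) hγm
      measurable_const
  · intro x
    by_cases hx : sph x < s0
    · simp only [hx, if_true]; exact hγb x
    · simp only [hx, if_false]; exact ⟨hcc0, hc0C⟩
  intro i
  obtain ⟨hvL, hv0, -, hRm, hRb, hR0, hRW, hrel⟩ := hvR i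
  have hv0' : ∀ x, s0 ≤ sph x → v' i x = 0 := fun x hx => hv0 x (by simpa using hx)
  have hR0' : ∀ x, s0 ≤ sph x → R' i x = 0 := fun x hx => hR0 x (by simpa using hx)
  have hxiL := xi_lip hM i
  refine ⟨?_, ?_, ?_, ?_, ?_, ?_, ?_⟩
  · -- Lipschitz
    refine LipschitzWith.of_dist_le_mul fun x y => ?_
    have e1 := (gi_lip hM i i).dist_le_mul x y
    have e2 := hvL.dist_le_mul x y
    rw [Real.dist_eq] at e1 e2 ⊢
    have e3 : -str c0 s1 (lam i) * mm (gi i) s0 s1 i x + Fc i * v' i x -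
        (-str c0 s1 (lam i) * mm (gi i) s0 s1 i y + Fc i * v' i y) =
        -(str c0 s1 (lam i) * (mm (gi i) s0 s1 i x - mm (gi i) s0 s1 i y)) +
          Fc i * (v' i x - v' i y) := by ring
    rw [e3]
    refine (abs_add_le _ _).trans ?_
    rw [abs_neg, abs_mul, abs_mul, abs_of_nonneg (hal0 i), abs_of_pos (hF0 i)]
    have hd : 0 ≤ dist x y := dist_nonneg
    have b1 : str c0 s1 (lam i) * |mm (gi i) s0 s1 i x - mm (gi i) s0 s1 i y| ≤
        A1 * (M0 * dist x y) :=
      mul_le_mul (hal1 i) e1 (abs_nonneg _) A1.2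
    have b2 : Fc i * |v' i x - v' i y| ≤ 1 * (L * dist x y) :=
      mul_le_mul (hF1 i) e2 (abs_nonneg _) zero_le_one
    push_cast
    have b3 : 0 ≤ 12 * (A2 : ℝ) * M0 * dist x y := by positivity
    nlinarith
  · intro x hx
    have hx' : s1 < sph x := by simpa [Dsph] using hx
    simp only [mm_off _ h1 i hx'.le, hv0' x (h1.trans hx').le, mul_zero, add_zero]
  · exact ((measurable_curlv (xi s0 s1 i)).const_smul (c0 * str c0 s1 (lam i))).add
      (hRm.const_smul (Fc i))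
  · intro x
    refine (norm_add_le _ _).trans ?_
    rw [norm_smul, norm_smul, Real.norm_eq_abs, Real.norm_eq_abs, abs_of_pos (hF0 i),
      abs_of_nonneg (mul_nonneg hc0.le (hal0 i))]
    have e1 := norm_curlv_le hxiL x
    have e2 := hRb x
    have b1 : c0 * str c0 s1 (lam i) * ‖curlv (xi s0 s1 i) x‖ ≤ A2 * (6 * (2 * M0 : ℝ≥0)) :=
      mul_le_mul (hal2 i) e1 (norm_nonneg _) A2.2
    have b2 : Fc i * ‖R' i x‖ ≤ 1 * L := mul_le_mul (hF1 i) e2 (norm_nonneg _) zero_le_one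
    push_cast at b1 ⊢
    have b3 : 0 ≤ (A1 : ℝ) * M0 := by positivity
    nlinarith
  · intro x hx
    have hx' : s1 < sph x := by simpa [Dsph] using hx
    simp only [curl_off h1 i hx', hR0' x (h1.trans hx').le, smul_zero, add_zero]
  · obtain ⟨r, hr⟩ := hDc.isBounded.subset_closedBall (0 : E3)
    have hw : WDF (curlv (xi s0 s1 i)) := by
      refine wdf_curl _ _ hxiL r fun x hx => xi_off h1 i ?_
      by_contra hlt
      have : x ∈ Dsph s1 := by
        have : sph x < s1 := not_le.mp hlt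
        exact this.le
      have := hr this
      rw [mem_closedBall_zero_iff] at this
      linarith
    exact (hw.const_smul _).add (hRW.const_smul _)
  · -- the relation
    have hnull0 : ∀ᵐ x ∂(volume.restrict (Dsph s1)), sph x ≠ s0 := by
      refine ae_restrict_of_ae ?_
      rw [ae_iff]
      simpa using sph_level_null s0 h0
    have hnull1 : ∀ᵐ x ∂(volume.restrict (Dsph s1)), sph x ≠ s1 := by
      refine ae_restrict_of_ae ?_
      rw [ae_iff]
      simpa using sph_level_null s1 hs1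
    have hdiff : ∀ᵐ x ∂(volume.restrict (Dsph s1)), DifferentiableAt ℝ (v' i) x :=
      ae_restrict_of_ae hvL.ae_differentiableAt
    have hrel' : ∀ᵐ x ∂(volume.restrict (Dsph s1)), sph x < s0 →
        (diagL kap) (ee i) + R' i x = γ' x • (ee i + ∇ (v' i) x) := by
      refine ae_restrict_of_ae ?_
      exact (ae_restrict_iff' hUo.measurableSet).mp hrel
    have hmem : ∀ᵐ x ∂(volume.restrict (Dsph s1)), x ∈ Dsph s1 :=
      ae_restrict_mem hDc.measurableSet
    filter_upwards [hnull0, hnull1, hdiff, hrel', hmem] with x hx0 hx1 hd hr hxD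
    rw [diagL_ee]
    rcases lt_or_gt_of_ne hx0 with hlt | hgt
    · -- core
      simp only [hlt, if_true]
      have hr' := hr hlt
      rw [diagL_ee] at hr'
      have hcr := core_rel h0 h1 hc0 i (hk i) hlt
      have hgrad : ∇ (fun x => -str c0 s1 (lam i) * mm (gi i) s0 s1 i x + Fc i * v' i x) x =
          (Fc i - 1) • ee i + Fc i • ∇ (v' i) x := by
        have hmd := (mm_core_fderiv (gi i) (s1 := s1) i hlt)
        rw [grad_add (hmd.differentiableAt.const_mul _) (hd.const_mul _), grad_const_mul (v' i)]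
        congr 1
        rw [grad_const_mul]
        apply e3_ext
        all_goals
          simp only [smul_coord, grad_coord, core_partial _ _ _ hlt, ee_apply, hFc]
          simp only [eq_comm]
          ring
      rw [hgrad, ← add_assoc, hcr]
      have e4 : (ee i : E3) + ((Fc i - 1) • ee i + Fc i • ∇ (v' i) x) =
          Fc i • (ee i + ∇ (v' i) x) := by
        rw [smul_add, sub_smul, one_smul]; abel
      rw [e4, smul_comm, ← hr', smul_add, smul_smul]
      congr 2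
      simp only [hFc]
      ring
    · -- coat
      have hnlt : ¬ sph x < s0 := not_lt.mpr hgt.le
      have hx1' : sph x < s1 := lt_of_le_of_ne hxD hx1
      simp only [hnlt, if_false]
      rw [hR0' x hgt.le, smul_zero, add_zero, coat_rel h0 h1 hc0 i hgt hx1']
      congr 2
      have heq : (fun x => -str c0 s1 (lam i) * mm (gi i) s0 s1 i x + Fc i * v' i x) =ᶠ[𝓝 x]
          (fun x => -str c0 s1 (lam i) * mm (gi i) s0 s1 i x) := by
        have hopen : {y : E3 | s0 < sph y} ∈ 𝓝 x :=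
          (isOpen_lt continuous_const continuous_sph).mem_nhds hgt
        filter_upwards [hopen] with y hy
        rw [hv0' y (le_of_lt hy), mul_zero, add_zero]
      rw [grad_def, grad_def, heq.fderiv_eq]

end InclAux

/-- Inclusion lemma: coated spheroid with core tensor `kap` looks like `lam` from outside. -/
theorem incl_cell (s0 s1 m Λ : ℝ) (h0 : 0 < s0) (h1 : s0 < s1) (hm : 0 < m) :
    ∃ K : ℝ≥0, ∀ (c0 : ℝ) (lam kap : Fin 3 → ℝ), m ≤ c0 → (∀ i, lam i ≤ Λ) →
      Coat s0 s1 c0 lam kap →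
      ∀ (c C : ℝ) (L : ℝ≥0), c ≤ c0 → c0 ≤ C → Resolves c C L (diagL kap) →
        CellData c C (K + L) (diagL lam) (Dsph s1) :=
  InclAux.incl_cell_aux s0 s1 m Λ h0 h1 hm

end Crest.Agent.R083
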