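import Crest.Agent.R083.TreeDefs

/-!
Row 83 (S0111): INTERFACE STATEMENTS (stubs with `sorry`, never imported by the final file).
Each `theorem` here is to be proved, with exactly this statement and name, in the file named in
the comment above it.
-/

set_option autoImplicit false

namespace Crest.Agent.R083

open MeasureTheory Set Filter
open scoped Gradient ENNReal NNReal Topology ContDiff

/-- File `Mollify.lean`. -/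
theorem mollify (ψ : E3 → ℝ) (K : ℝ≥0) (hψ : LipschitzWith K ψ) :
    ∃ f : ℕ → E3 → ℝ, (∀ n, ContDiff ℝ ∞ (f n)) ∧ (∀ n, LipschitzWith K (f n)) ∧
      (∀ (n : ℕ) x, |f n x - ψ x| ≤ K / (n + 1)) ∧
      (∀ (n : ℕ) x, (∀ y ∈ Metric.closedBall x (1 / ((n : ℝ) + 1)), ψ y = 0) → f n x = 0) ∧
      (∀ x, DifferentiableAt ℝ ψ x → Tendsto (fun n => ∇ (f n) x) atTop (𝓝 (∇ ψ x))) := by
  sorry

/-- File `Wdf.lean`. -/
theorem wdf_of_smooth (R : E3 → E3) (hR : Integrable R volume) (r : ℝ)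
    (hr : ∀ x, r < ‖x‖ → R x = 0)
    (h : ∀ ψ : E3 → ℝ, ContDiff ℝ ∞ ψ → ∫ x, inner ℝ (R x) (∇ ψ x) = 0) : WDF R := by
  sorry

/-- File `Wdf.lean`. -/
theorem wdf_curl (Ξ : E3 → E3) (K : ℝ≥0) (hΞ : LipschitzWith K Ξ) (r : ℝ)
    (hr : ∀ x, r < ‖x‖ → Ξ x = 0) : WDF (curlv Ξ) := by
  sorry

/-- File `Wdf.lean`. -/
theorem wdf_tsum {ι : Type*} [Countable ι] (R : ι → E3 → E3) (hR : ∀ i, WDF (R i))
    (hs : Summable fun i => ∫ x, ‖R i x‖) : WDF (fun x => ∑' i, R i x) := by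
  sorry

/-- File `Glue.lean`. Disjointly supported Lipschitz functions add up to a Lipschitz function. -/
theorem lip_tsum {ι : Type*} (f : ι → E3 → ℝ) (K : ℝ≥0) (hf : ∀ i, LipschitzWith K (f i))
    (U : ι → Set E3) (hU : Pairwise (Function.onFun Disjoint U))
    (h0 : ∀ i x, x ∉ U i → f i x = 0) : LipschitzWith (2 * K) (fun x => ∑' i, f i x) := by
  sorry

/-- File `Glue.lean`. -/
theorem lip_cover {ι : Type*} [Finite ι] (f : E3 → ℝ) (hf : Continuous f) (K : ℝ≥0)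
    (C : ι → Set E3) (hC : ∀ i, IsClosed (C i)) (hcov : ⋃ i, C i = univ)
    (hL : ∀ i, LipschitzOnWith K f (C i)) : LipschitzWith K f := by
  sorry

/-- File `Resolve.lean` (neutral coated spheroids + Vitali filling). -/
theorem resolves_all (δ : ℝ) (hδ : 0 < δ) :
    ∃ (c C : ℝ) (L : ℝ≥0), 0 < c ∧ ∀ A : E3 →L[ℝ] E3, Ell δ A → Resolves c C L A := by
  sorry

/-- File `Iso.lean` (iterated flattening + filling). -/
theorem iso (δ μ : ℝ) (hδ : 0 < δ) (hμ : 0 < μ) :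
    ∃ (c C : ℝ) (L : ℝ≥0), 0 < c ∧
      ∀ (V : Set E3), IsOpen V → Bornology.IsBounded V →
      ∀ (M : E3 → (E3 →L[ℝ] E3)), (∀ x ∈ V, ∀ᶠ y in 𝓝 x, M y = M x) →
        (∀ x ∈ V, Ell μ (M x)) →
      ∀ (w : E3 → ℝ) (J : E3 → E3) (N : ℝ≥0), ContDiffOn ℝ ∞ w V → ContDiffOn ℝ ∞ J V →
        (∀ x ∈ V, fderiv ℝ w x (ee 2) = J x 2) → (∀ x ∈ V, dvg J x = 0) →
        (∀ x ∈ V, HEll δ (∇ w x) (J x)) → (∀ x ∈ V, ‖∇ w x‖ ≤ N) →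
      ∀ ε : ℝ, 0 < ε →
      ∃ (γ : E3 → ℝ) (u v : E3 → ℝ) (R T : E3 → E3),
        Measurable γ ∧ (∀ x, c ≤ γ x ∧ γ x ≤ C) ∧
        LipschitzWith L u ∧ LipschitzWith (L * N) v ∧
        (∀ x, x ∉ V → u x = 0 ∧ v x = 0 ∧ R x = 0 ∧ T x = 0) ∧
        (∀ x, |u x| ≤ ε ∧ |v x| ≤ ε) ∧ Measurable R ∧ Measurable T ∧
        (∀ x, ‖R x‖ ≤ L ∧ ‖T x‖ ≤ L * N) ∧ WDF R ∧ WDF T ∧
        ∀ᵐ x ∂(volume.restrict V),
          ee 2 + R x = γ x • M x (ee 2 + ∇ u x) ∧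
          J x + T x = γ x • M x (∇ w x + ∇ v x) := by
  sorry

/-- File `TensorModel.lean`: the explicit anisotropic solution on the model boxes. -/
theorem tensor_model :
    ∃ (δ e θ N0 : ℝ) (w : Box → E3 → ℝ) (J : Box → E3 → E3) (V : Box → Set E3)
      (wj : ℕ → Box → E3 → ℝ), 0 < δ ∧ 0 < e ∧ 0 < θ ∧
      (∀ b, IsOpen (V b) ∧ V b ⊆ bxo b ∧ volume (bx b \ V b) = 0) ∧
      (∀ b, ContDiffOn ℝ ∞ (w b) (V b) ∧ ContDiffOn ℝ ∞ (J b) (V b)) ∧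
      (∀ b, ∀ x ∈ V b, fderiv ℝ (w b) x (ee 2) = J b x 2 ∧ dvg (J b) x = 0 ∧
        HEll δ (∇ (w b) x) (J b x) ∧ ‖∇ (w b) x‖ ^ 2 * √(tip2 x) ≤ N0) ∧
      -- Lipschitz approximants
      (∀ j b, ∃ K : ℝ≥0, LipschitzWith K (wj j b)) ∧
      (∀ ε : ℝ, 0 < ε → ∃ j0, ∀ j ≥ j0, ∀ b, ∀ x ∈ bx b, |wj j b x - w b x| ≤ ε) ∧
      (∀ b, IntegrableOn (fun x => ‖∇ (w b) x‖ ^ 2) (bx b) volume) ∧
      (∀ b, Tendsto (fun j => ∫ x in bx b, ‖∇ (wj j b) x - ∇ (w b) x‖ ^ 2) atTop (𝓝 0)) ∧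
      (∀ j, Matching (wj j)) ∧
      (∀ j, ∀ x ∈ bx Box.O, x 2 = 1 → wj j Box.O x = 0) ∧
      (∀ j, ∀ x ∈ bx Box.P, x 2 = 3/5 → wj j Box.P x = e) ∧
      (∀ j, ∀ x ∈ bx Box.N, x 2 = 3/5 → wj j Box.N x = -e) ∧
      -- weak equation with the boundary fluxes
      (∀ χ : Box → E3 → ℝ, (∀ b, ∃ K : ℝ≥0, LipschitzWith K (χ b)) → Matching χ →
        (∫ x in bx Box.O, inner ℝ (J Box.O x) (∇ (χ Box.O) x)) +
        (∫ x in bx Box.P, inner ℝ (J Box.P x) (∇ (χ Box.P) x)) +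
        (∫ x in bx Box.N, inner ℝ (J Box.N x) (∇ (χ Box.N) x)) =
          θ * (faceP (χ Box.P) - faceN (χ Box.N))) := by
  sorry

/-- Everything that the isotropised model provides (for a given metric field `M`). -/
structure ModelOut (M : Box → E3 → (E3 →L[ℝ] E3)) where
  c : ℝ
  C : ℝ
  e : ℝ
  θ : ℝ
  γ : Box → E3 → ℝ
  h : Box → E3 → ℝ
  G : Box → E3 → E3
  wj : ℕ → Box → E3 → ℝ
  w : Box → E3 → ℝ
  hc : 0 < c
  he : 0 < e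
  hθ : 0 < θ
  γm : ∀ b, Measurable (γ b)
  γb : ∀ b x, c ≤ γ b x ∧ γ b x ≤ C
  hL : ∀ b, ∃ K : ℝ≥0, LipschitzWith K (h b)
  h0 : ∀ b x, x ∉ bxo b → h b x = x 2
  wjL : ∀ j b, ∃ K : ℝ≥0, LipschitzWith K (wj j b)
  wju : ∀ ε : ℝ, 0 < ε → ∃ j0, ∀ j ≥ j0, ∀ b, ∀ x ∈ bx b, |wj j b x - w b x| ≤ ε
  Gi : ∀ b, MemLp (G b) 2 (volume.restrict (bx b))
  wjG : ∀ b, Tendsto (fun j => eLpNorm (fun x => ∇ (wj j b) x - G b x) 2
    (volume.restrict (bx b))) atTop (𝓝 0)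
  wjM : ∀ j, Matching (wj j)
  wjO : ∀ j, ∀ x ∈ bx Box.O, x 2 = 1 → wj j Box.O x = 0
  wjP : ∀ j, ∀ x ∈ bx Box.P, x 2 = 3/5 → wj j Box.P x = e
  wjN : ∀ j, ∀ x ∈ bx Box.N, x 2 = 3/5 → wj j Box.N x = -e
  hE : ∀ χ : Box → E3 → ℝ, (∀ b, ∃ K : ℝ≥0, LipschitzWith K (χ b)) → Matching χ →
    (∫ x in bx Box.O, γ Box.O x * inner ℝ (M Box.O x (∇ (h Box.O) x)) (∇ (χ Box.O) x)) +
    (∫ x in bx Box.P, γ Box.P x * inner ℝ (M Box.P x (∇ (h Box.P) x)) (∇ (χ Box.P) x)) +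
    (∫ x in bx Box.N, γ Box.N x * inner ℝ (M Box.N x (∇ (h Box.N) x)) (∇ (χ Box.N) x)) =
      faceO (χ Box.O) - faceP (χ Box.P) - faceN (χ Box.N)
  wE : ∀ χ : Box → E3 → ℝ, (∀ b, ∃ K : ℝ≥0, LipschitzWith K (χ b)) → Matching χ →
    (∫ x in bx Box.O, γ Box.O x * inner ℝ (M Box.O x (G Box.O x)) (∇ (χ Box.O) x)) +
    (∫ x in bx Box.P, γ Box.P x * inner ℝ (M Box.P x (G Box.P x)) (∇ (χ Box.P) x)) +
    (∫ x in bx Box.N, γ Box.N x * inner ℝ (M Box.N x (G Box.N x)) (∇ (χ Box.N) x)) =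
      θ * (faceP (χ Box.P) - faceN (χ Box.N))

/-- File `ModelIso.lean`: `iso` applied to `tensor_model`. -/
theorem model_out (μ : ℝ) (hμ : 0 < μ) (M : Box → E3 → (E3 →L[ℝ] E3))
    (hM : ∀ b, ∃ U : Set E3, IsOpen U ∧ U ⊆ bxo b ∧ volume (bx b \ U) = 0 ∧
      (∀ x ∈ U, ∀ᶠ y in 𝓝 x, M b y = M b x) ∧ (∀ x ∈ U, Ell μ (M b x))) :
    Nonempty (ModelOut M) := by
  sorry

/-- File `Module.lean` (PL chart). -/
theorem module_exists : Nonempty ModData := by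
  sorry

end Crest.Agent.R083
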