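import Crest.Agent.R083.TreeDefs
import Crest.Prelude.Def_Conductivity

/-!
Row 83 (S0111): INTERFACE STATEMENTS, part 2 (stubs with `sorry`, never imported by the final
file): geometry of the tree, pairing identities, Poincare, near-minimisers.
-/

set_option autoImplicit false

namespace Crest.Agent.R083

open MeasureTheory Set Filter
open scoped Gradient ENNReal NNReal Topology ContDiff
open Crest.AnalysisR.PDE.Calderon

/-! ### File `TreeGeom.lean` -/

theorem simInv_sim (b : Bool) (x : E3) : simInv b (sim b x) = x := by sorry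
theorem sim_simInv (b : Bool) (x : E3) : sim b (simInv b x) = x := by sorry
theorem sim_cell_subset (b : Bool) : sim b '' cellBc ⊆ cellB := by sorry
theorem children_disjoint : Disjoint (sim true '' cellBc) (sim false '' cellBc) := by sorry
theorem cellBc_compact : IsCompact cellBc := by sorry
theorem cellB_open : IsOpen cellB := by sorry
theorem cellB_subset : cellB ⊆ cellBc := by sorry
theorem volume_bdry : volume (cellBc \ cellB) = 0 := by sorry
theorem cellBc_norm (x : E3) (hx : x ∈ cellBc) : ‖x‖ ≤ 2 := by sorry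
theorem Kc_compact (n : ℕ) : IsCompact (Kc n) := by sorry
theorem Kc_anti (n : ℕ) : Kc (n + 1) ⊆ Kc n := by sorry
theorem volume_Kc (n : ℕ) :
    volume (Kc n) ≤ ENNReal.ofReal ((54/125 : ℝ) ^ n) * volume cellBc := by sorry
theorem integral_sim (b : Bool) (S : Set E3) (hS : MeasurableSet S) (f : E3 → ℝ) :
    ∫ x in sim b '' S, f x = 27/125 * ∫ x in S, f (sim b x) := by sorry
theorem grad_comp_sim (b : Bool) (ψ : E3 → ℝ) (x : E3) :
    ∇ (ψ ∘ sim b) x = (3/5 : ℝ) • swp (∇ ψ (sim b x)) := by sorry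
theorem grad_comp_simInv (b : Bool) (ψ : E3 → ℝ) (x : E3) :
    ∇ (fun y => ψ (simInv b y)) x = (5/3 : ℝ) • swp (∇ ψ (simInv b x)) := by sorry
theorem inner_swp (x y : E3) : inner ℝ (swp x) (swp y) = inner ℝ x y := by sorry
theorem sim_lipschitz (b : Bool) : LipschitzWith (3/5) (sim b) := by sorry
theorem simInv_lipschitz (b : Bool) : LipschitzWith (5/3) (simInv b) := by sorry
theorem sim_Dbox (b : Bool) : sim b '' Dbox ⊆ Dbox := by sorry
theorem Dbox_disjoint : Disjoint (sim true '' Dbox) (sim false '' Dbox) := by sorry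

/-! ### File `Medium.lean` -/

theorem gam0_measurable (D : ModData) : Measurable D.gam0 := by sorry
theorem gam0_bounds (D : ModData) : ∃ c C : ℝ, 0 < c ∧ ∀ x, c ≤ D.gam0 x ∧ D.gam0 x ≤ C := by
  sorry
theorem gam0_off (D : ModData) (x : E3) (hx : x ∉ cellB) : D.gam0 x = 1 := by sorry
theorem gam0_mod (D : ModData) (x : E3) (hx : x ∈ modQ) : D.gam0 x = D.γ x := by sorry
theorem gam0_sim (D : ModData) (b : Bool) (x : E3) (hx : x ∈ cellB) :
    D.gam0 (sim b x) = D.gam0 x := by sorry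

/-! ### File `Pairing.lean` -/

theorem P_lipschitz (D : ModData) (n : ℕ) : ∃ K : ℝ≥0, LipschitzWith K (D.P n) := by sorry
theorem P_off (D : ModData) (n : ℕ) (x : E3) (hx : x ∉ cellB) : D.P n x = 0 := by sorry
theorem P_Kc (D : ModData) (n : ℕ) (x : E3) (hx : x ∈ Kc n) : D.P n x = D.pv n := by sorry
theorem P_pair (D : ModData) (n : ℕ) (ψ : E3 → ℝ) (K : ℝ≥0) (hψ : LipschitzWith K ψ) :
    ∫ x, D.gam0 x * inner ℝ (∇ (D.P n) x) (∇ ψ x) = avgn n ψ - pavg ψ := by sorry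
theorem PsiJ_lipschitz (D : ModData) (n j : ℕ) : ∃ K : ℝ≥0, LipschitzWith K (D.PsiJ n j) := by
  sorry
theorem PsiJ_off (D : ModData) (n j : ℕ) (x : E3) (hx : x ∉ cellB) : D.PsiJ n j x = 0 := by
  sorry
theorem Psi_off (D : ModData) (n : ℕ) (x : E3) (hx : x ∉ cellB) : D.Psi n x = 0 := by
  sorry
theorem PsiJ_Kc (D : ModData) (n j : ℕ) (b : Bool) (x : E3) (hx : x ∈ sim b '' Kc n) :
    D.PsiJ n j x = sg b * D.tv n := by sorry
theorem Psi_Kc (D : ModData) (n : ℕ) (b : Bool) (x : E3) (hx : x ∈ sim b '' Kc n) :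
    D.Psi n x = sg b * D.tv n := by sorry
theorem PsiJ_unif (D : ModData) (n : ℕ) :
    TendstoUniformly (fun j => D.PsiJ n j) (D.Psi n) atTop := by sorry
theorem PsiG_mem (D : ModData) (n : ℕ) : MemLp (D.PsiG n) 2 volume := by sorry
theorem PsiJ_grad (D : ModData) (n : ℕ) :
    Tendsto (fun j => eLpNorm (fun x => ∇ (D.PsiJ n j) x - D.PsiG n x) 2 volume) atTop (𝓝 0) := by
  sorry
theorem Psi_pair (D : ModData) (n : ℕ) (ψ : E3 → ℝ) (K : ℝ≥0) (hψ : LipschitzWith K ψ) :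
    ∫ x, D.gam0 x * inner ℝ (D.PsiG n x) (∇ ψ x) =
      (avgn n (ψ ∘ sim true) - avgn n (ψ ∘ sim false)) / 2 := by sorry
/-- The potentials `Psi n` converge uniformly. -/
theorem Psi_cauchy (D : ModData) :
    ∃ B : ℝ, ∀ n m x, n ≤ m → |D.Psi m x - D.Psi n x| ≤ B * (5/6 : ℝ) ^ n := by sorry

/-! ### File `Poincare.lean` -/

/-- Poincare inequality on the big box with the cell boundary average. -/
theorem poincare_cell : ∃ Cp : ℝ, ∀ v : E3 → ℝ, ContDiff ℝ 1 v →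
    ∫ x in Dbox, (v x - pavg v) ^ 2 ≤ Cp * ∫ x in Dbox, ‖∇ v x‖ ^ 2 := by sorry

/-- Cutoff around the basic cell. -/
theorem cutoff_cell : ∃ (χ : E3 → ℝ) (K : ℝ), ContDiff ℝ ∞ χ ∧ (∀ x, 0 ≤ χ x ∧ χ x ≤ 1) ∧
    (∀ x, ‖∇ χ x‖ ≤ K) ∧ (∀ x ∈ cellBc, χ x = 0) ∧
    (∀ x ∉ Dbox, χ x = 1) ∧ (∀ x ∉ Dbox, ∇ χ x = 0) := by sorry

/-! ### File `NearMin.lean` -/

/-- Near-minimisers nearly satisfy the weak equation. -/
theorem near_min (γ : E3 → ℝ) (c C : ℝ) (hc : 0 < c) (hγ : Measurable γ)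
    (hb : ∀ x, c ≤ γ x ∧ γ x ≤ C) (φ v : E3 → ℝ) (hv : IsCompetitor φ v) (m δ : ℝ)
    (hm : ∀ u, IsCompetitor φ u → m ≤ ballEnergy γ u) (hvm : ballEnergy γ v ≤ m + δ)
    (r : ℝ) (hr : r < 3) (G : E3 → E3) (hG : SobZ r G) :
    |∫ x in Metric.ball (0 : E3) 3, γ x * inner ℝ (∇ v x) (G x)| ≤
      √(δ * ∫ x in Metric.ball (0 : E3) 3, γ x * ‖G x‖ ^ 2) := by sorry

/-- Sobolev competitors can be replaced by `C¹` competitors. -/
theorem approx_competitor (γ : E3 → ℝ) (c C : ℝ) (hc : 0 < c) (hγ : Measurable γ)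
    (hb : ∀ x, c ≤ γ x ∧ γ x ≤ C) (φ v : E3 → ℝ) (hv : IsCompetitor φ v)
    (r : ℝ) (hr : r < 3) (G : E3 → E3) (hG : SobZ r G) (ε : ℝ) (hε : 0 < ε) :
    ∃ u, IsCompetitor φ u ∧
      ballEnergy γ u < (∫ x in Metric.ball (0 : E3) 3, γ x * ‖∇ v x + G x‖ ^ 2) + ε := by
  sorry

end Crest.Agent.R083
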