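import Crest.Agent.R083.SphDefs

/-!
Row 83 (S0111): INTERFACE STATEMENTS, part 3 (stubs with `sorry`, never imported by the final
file): isotropisation, groups RES and ISO.
-/

set_option autoImplicit false

namespace Crest.Agent.R083

open MeasureTheory Set Filter
open scoped Gradient ENNReal NNReal Topology ContDiff

/-! ### RES-a, file `Spheroid.lean` -/

theorem sph_nonneg (x : E3) : 0 ≤ sph x := by sorry
theorem sph_quad (x : E3) : sph x ^ 2 - (‖x‖ ^ 2 - 1) * sph x - x 0 ^ 2 = 0 := by sorry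
theorem sph_continuous : Continuous sph := by sorry
theorem sph_lip (r : ℝ) : ∃ K : ℝ≥0, LipschitzOnWith K sph (Metric.closedBall 0 r) := by sorry
/-- Sublevel sets are bounded: `‖x‖² ≤ s + 1`. -/
theorem sph_norm (x : E3) : ‖x‖ ^ 2 ≤ sph x + 1 := by sorry
theorem sph_grad (x : E3) (hx : 0 < sph x) :
    HasGradientAt sph ((2 * sph x - ‖x‖ ^ 2 + 1)⁻¹ • ((2 * sph x) • x + (2 * x 0) • ee 0)) x := by
  sorry
/-- The level sets are null and closed sublevel sets have nonempty interior. -/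
theorem sph_level (s : ℝ) (hs : 0 < s) : volume {x : E3 | sph x = s} = 0 := by sorry

/-- Coat identity, axial function. -/
theorem coat_axial (F H : ℝ → ℝ) (α : ℝ) (x : E3) (hx : 0 < sph x)
    (hF : HasDerivAt F (α / (2 * (sph x * √(sph x)) * (sph x + 1))) (sph x))
    (hH : HasDerivAt H (-α / (√(sph x) * (sph x + 1) ^ 2)) (sph x))
    (hHF : H (sph x) = F (sph x) + α / Vs (sph x)) :
    curlv (fun y => pt 0 (-(1/2) * H (sph y) * y 2) ((1/2) * H (sph y) * y 1)) x =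
      ∇ (fun y => y 0 * F (sph y)) x := by sorry

/-- Coat identity, first transversal function. -/
theorem coat_trans1 (G P S : ℝ → ℝ) (β : ℝ) (x : E3) (hx : 0 < sph x)
    (hG : HasDerivAt G (β / (2 * √(sph x) * (sph x + 1) ^ 2)) (sph x))
    (hP : HasDerivAt P (-(β / (2 * √(sph x) * (sph x + 1) ^ 2))) (sph x))
    (hS : HasDerivAt S (-(β / (2 * √(sph x) * (sph x + 1) ^ 2)) * ((sph x + 1) / sph x)) (sph x))
    (hPS : P (sph x) + S (sph x) = G (sph x) + β / Vs (sph x)) :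
    curlv (fun y => pt (P (sph y) * y 2) 0 (-(S (sph y)) * y 0)) x =
      ∇ (fun y => y 1 * G (sph y)) x := by sorry

/-- Coat identity, second transversal function. -/
theorem coat_trans2 (G P S : ℝ → ℝ) (β : ℝ) (x : E3) (hx : 0 < sph x)
    (hG : HasDerivAt G (β / (2 * √(sph x) * (sph x + 1) ^ 2)) (sph x))
    (hP : HasDerivAt P (-(β / (2 * √(sph x) * (sph x + 1) ^ 2))) (sph x))
    (hS : HasDerivAt S (-(β / (2 * √(sph x) * (sph x + 1) ^ 2)) * ((sph x + 1) / sph x)) (sph x))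
    (hPS : P (sph x) + S (sph x) = G (sph x) + β / Vs (sph x)) :
    curlv (fun y => pt (-(P (sph y)) * y 1) (S (sph y) * y 0) 0) x =
      ∇ (fun y => y 2 * G (sph y)) x := by sorry

/-! ### RES-b, file `Fill.lean` -/

theorem resolves_of_incl (c C : ℝ) (L : ℝ≥0) (A : E3 →L[ℝ] E3) (h : Incl c C L A) :
    Resolves c C (2 * L) A := by sorry

theorem resolves_conj (c C : ℝ) (L : ℝ≥0) (A : E3 →L[ℝ] E3) (h : Resolves c C L A)
    (O : E3 ≃ₗᵢ[ℝ] E3) :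
    Resolves c C (3 * L)
      ((O.toContinuousLinearEquiv : E3 →L[ℝ] E3) ∘L A ∘L
        (O.symm.toContinuousLinearEquiv : E3 →L[ℝ] E3)) := by sorry

/-! ### RES-c, file `Incl.lean` -/

theorem incl_spheroid (s1 m : ℝ) (hs1 : 0 < s1) (hm : 0 < m) (c C : ℝ) (L : ℝ≥0) (hc : 0 < c) :
    ∃ (c' C' : ℝ) (L' : ℝ≥0), 0 < c' ∧ ∀ (c0 : ℝ) (lam a kap : Fin 3 → ℝ), m ≤ c0 →
      (∀ i, c0 < lam i ∧ lam i ≤ 1 / m) →
      a 0 = Vs (s1 / 4) * (c0 / (lam 0 - c0) / Vs s1 - Ip (s1 / 4) s1) →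
      a 1 = Vs (s1 / 4) * (c0 / (lam 1 - c0) / Vs s1 - Iq (s1 / 4) s1) →
      a 2 = Vs (s1 / 4) * (c0 / (lam 2 - c0) / Vs s1 - Iq (s1 / 4) s1) →
      (∀ i, m ≤ a i) → (∀ i, kap i = c0 * (1 + 1 / a i)) →
      Resolves c C L (diagT kap) → Incl c' C' L' (diagT lam) := by sorry

/-! ### RES-d, file `Resolve.lean`: `resolves_all` (Interface.lean) from the above -/

/-! ### ISO-a and ISO-b, files `Potential.lean`, `Flatten.lean` -/

/-- Local flattening of a pair `(w, J)` at a point: a small smooth compactly supported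
perturbation respecting the constraints makes `∇ w` and `J` constant near the point. -/
theorem flatten (x0 : E3) (r0 : ℝ) (hr0 : 0 < r0) (w : E3 → ℝ) (J : E3 → E3)
    (hw : ContDiffOn ℝ ∞ w (Metric.ball x0 r0)) (hJ : ContDiffOn ℝ ∞ J (Metric.ball x0 r0))
    (h2 : ∀ x ∈ Metric.ball x0 r0, fderiv ℝ w x (ee 2) = J x 2)
    (hd : ∀ x ∈ Metric.ball x0 r0, dvg J x = 0) (η : ℝ≥0) (hη : 0 < η) :
    ∃ r1 : ℝ, 0 < r1 ∧ r1 ≤ r0 ∧ ∀ r : ℝ, 0 < r → r ≤ r1 →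
      ∃ (v : E3 → ℝ) (T : E3 → E3), ContDiff ℝ ∞ v ∧ ContDiff ℝ ∞ T ∧
        (∀ x, x ∉ Metric.closedBall x0 (3/4 * r) → v x = 0 ∧ T x = 0) ∧
        LipschitzWith η v ∧ (∀ x, |v x| ≤ η) ∧ (∀ x, ‖T x‖ ≤ η) ∧ WDF T ∧
        (∀ x, fderiv ℝ v x (ee 2) = T x 2) ∧ (∀ x, dvg T x = 0) ∧
        (∀ x ∈ Metric.ball x0 (r / 2), ∇ w x + ∇ v x = ∇ w x0 ∧ J x + T x = J x0) := by
  sorry

/-! ### ISO-c, file `IsoAlg.lean` -/

theorem mresolves_all (δ μ : ℝ) (hδ : 0 < δ) (hμ : 0 < μ)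
    (hres : ∀ δ' : ℝ, 0 < δ' → ∃ (c C : ℝ) (L : ℝ≥0), 0 < c ∧ ∀ A : E3 →L[ℝ] E3, Ell δ' A →
      Resolves c C L A) :
    ∃ (c C : ℝ) (L : ℝ≥0), 0 < c ∧ ∀ M A : E3 →L[ℝ] E3, Ell μ M → Ell δ A →
      MResolves c C L M A := by sorry

theorem exists_tensor (δ : ℝ) (hδ : 0 < δ) :
    ∃ δ' : ℝ, 0 < δ' ∧ ∀ p j : E3, HEll δ p j → p 2 = j 2 →
      ∃ A : E3 →L[ℝ] E3, Ell δ' A ∧ A (ee 2) = ee 2 ∧ A p = j := by sorry

theorem hell_stable (δ δ' : ℝ) (hδ : 0 < δ') (hδδ : δ' < δ) (p j : E3) (h : HEll δ p j) :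
    ∃ η : ℝ, 0 < η ∧ ∀ p' j' : E3, ‖p' - p‖ ≤ η → ‖j' - j‖ ≤ η → HEll δ' p' j' := by sorry

/-! ### ISO-d, file `Iso.lean`: `iso` (Interface.lean) from `flatten`, `mresolves_all`,
`exists_tensor`, `hell_stable`, `lip_tsum`, `wdf_tsum`. -/

end Crest.Agent.R083
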