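import Crest.Agent.R083.FinDefs
import Crest.Prelude.Def_Conductivity

/-!
Row 83 (S0111): INTERFACE STATEMENTS, part 4 (stubs with `sorry`, never imported by the final
file): the final energy argument.
-/

set_option autoImplicit false

namespace Crest.Agent.R083

open MeasureTheory Set Filter
open scoped Gradient ENNReal NNReal Topology ContDiff
open Crest.AnalysisR.PDE.Calderon

/-! ### FIN-a, file `CellCharge.lean` -/

/-- For every cell there is a potential whose pairing with `ψ` is the difference of the averages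
over the boundary of this cell and over the boundary of `cellB`.
Induction on the word: `G (a :: w) = ∇ F + sg a • D.G + (5/3) • (gradient of z ∘ simInv a)`. -/
theorem cell_charge (D : ModData) (w : List Bool) :
    ∃ G : E3 → E3, SobZ 2 G ∧ (∀ x, 2 < ‖x‖ → G x = 0) ∧
      ∀ (ψ : E3 → ℝ) (K : ℝ≥0), LipschitzWith K ψ →
        ∫ x, D.gam0 x * inner ℝ (G x) (∇ ψ x) = pavg (ψ ∘ simw w) - pavg ψ := by sorry

/-! ### FIN-b, file `CutLevel.lean` -/

theorem Ln_measurable (n : ℕ) : MeasurableSet (Ln n) := by sorry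
theorem Ln_subset (n : ℕ) : Ln n ⊆ Dbox := by sorry
theorem volume_Ln (n : ℕ) :
    volume (Ln n) ≤ ENNReal.ofReal ((54/125 : ℝ) ^ n) * volume Dbox := by sorry

/-- Make a `C¹` function equal to `κ` on all closed cells of level `n`. -/
theorem cut_level : ∃ C₁ C₂ : ℝ, 0 ≤ C₁ ∧ 0 ≤ C₂ ∧ ∀ (n : ℕ) (v : E3 → ℝ) (κ η : ℝ),
    ContDiff ℝ 1 v → (∀ w : List Bool, w.length = n → |pavg (v ∘ simw w) - κ| ≤ η) →
    ∃ v' : E3 → ℝ, ContDiff ℝ 1 v' ∧ (∀ x ∉ Ln n, v' x = v x) ∧ (∀ x ∉ Ln n, ∇ v' x = ∇ v x) ∧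
      (∀ x ∈ Kc n, v' x = κ) ∧
      ∫ x in Ln n, ‖∇ v' x‖ ^ 2 ≤ C₁ * (∫ x in Ln n, ‖∇ v x‖ ^ 2) + C₂ * (6/5 : ℝ) ^ n * η ^ 2 := by
  sorry

/-! ### FIN-c, file `FlatMin.lean` -/

/-- Near-minimisers which are constant on all closed cells of some deep level. -/
theorem flat_near_min (D : ModData) (φ : E3 → ℝ) (m : ℝ)
    (hm : ∀ u, IsCompetitor φ u → m ≤ ballEnergy D.gam0 u)
    (hm' : ∀ δ : ℝ, 0 < δ → ∃ u, IsCompetitor φ u ∧ ballEnergy D.gam0 u ≤ m + δ)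
    (η : ℝ) (hη : 0 < η) (n0 : ℕ) :
    ∃ n, n0 ≤ n ∧ ∃ (κ : ℝ) (v : E3 → ℝ), IsCompetitor φ v ∧ HasCompactSupport v ∧
      (∀ x ∈ Kc n, v x = κ) ∧ ballEnergy D.gam0 v ≤ m + η := by sorry

/-! ### FIN-d, file `Trace.lean` -/

/-- Friedrichs inequality for the average over the boundary of the cell. -/
theorem friedrichs_cell : ∃ Cf : ℝ, 0 ≤ Cf ∧ ∀ f : E3 → ℝ, ContDiff ℝ 1 f →
    (∀ x, ‖x‖ = 3 → f x = 0) →
    pavg (fun x => f x ^ 2) ≤ Cf * ∫ x in Metric.ball (0 : E3) 3 \ cellB, ‖∇ f x‖ ^ 2 := by sorry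

/-- Trace inequality, uniform in the level (ground state substitution with `M + P n`). -/
theorem trace_unif (D : ModData) : ∃ Ct : ℝ, 0 < Ct ∧ ∀ (n : ℕ) (z0 z : E3 → ℝ) (K : ℝ≥0) (M : ℝ),
    ContDiff ℝ 1 z0 → (∀ x, ‖x‖ = 3 → z0 x = 0) → LipschitzWith K z → (∀ x, |z x| ≤ M) →
    (∀ x, x ∉ cellB → z x = z0 x) →
    avgn n (fun x => z x ^ 2) ≤
      Ct * ∫ x in Metric.ball (0 : E3) 3, D.gam0 x * ‖∇ z x‖ ^ 2 := by sorry

/-! ### FIN-e, file `Doob.lean` -/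

/-- Energy identity for multiplication by the Doob function. -/
theorem doob_mul (D : ModData) (τ : ℝ) (n : ℕ) (f : E3 → ℝ) (K : ℝ≥0) (M : ℝ)
    (hf : LipschitzWith K f) (hM : ∀ x, |f x| ≤ M) :
    Tendsto (fun j => ballEnergy D.gam0 (fun x => D.bj τ n j x * f x)) atTop
      (𝓝 (ballEnergy (fun x => D.bn τ n x ^ 2 * D.gam0 x) f +
        τ / 2 * (avgn n ((fun x => D.bn τ n x * f x ^ 2) ∘ sim true) -
          avgn n ((fun x => D.bn τ n x * f x ^ 2) ∘ sim false)))) := by sorry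

/-- Energy identity for division by the Doob function. -/
theorem doob_div (D : ModData) (τ : ℝ) (n : ℕ) (f : E3 → ℝ) (K : ℝ≥0) (M : ℝ)
    (hf : LipschitzWith K f) (hM : ∀ x, |f x| ≤ M) (hK : ∀ x ∈ Kc (n + 1), f x = 0)
    (hb : ∀ᶠ j in atTop, ∀ x, 1/2 ≤ D.bj τ n j x) :
    Tendsto (fun j => ballEnergy (fun x => D.bn τ n x ^ 2 * D.gam0 x)
        (fun x => f x / D.bj τ n j x)) atTop (𝓝 (ballEnergy D.gam0 f)) := by sorry

end Crest.Agent.R083
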