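import Crest.Agent.R083.ResDefs

/-!
Row 83 (S0111), RES-a: calculus of the confocal oblate spheroids with axis `ee 0`.
-/

set_option autoImplicit false

namespace Crest.Agent.R083

open MeasureTheory Set Filter
open scoped Gradient ENNReal NNReal Topology

theorem norm_sq_three (x : E3) : ‖x‖ ^ 2 = (x 0) ^ 2 + (x 1) ^ 2 + (x 2) ^ 2 := by
  rw [EuclideanSpace.norm_sq_eq, Fin.sum_univ_three]
  simp

theorem sph_rad_sq (x : E3) :
    √((‖x‖ ^ 2 - 1) ^ 2 + 4 * (x 0) ^ 2) ^ 2 = (‖x‖ ^ 2 - 1) ^ 2 + 4 * (x 0) ^ 2 :=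
  Real.sq_sqrt (by positivity)

theorem sph_nonneg (x : E3) : 0 ≤ sph x := by
  unfold sph
  have h : |‖x‖ ^ 2 - 1| ≤ √((‖x‖ ^ 2 - 1) ^ 2 + 4 * (x 0) ^ 2) := by
    rw [← Real.sqrt_sq_eq_abs]
    exact Real.sqrt_le_sqrt (by nlinarith [sq_nonneg (x 0)])
  have := neg_abs_le (‖x‖ ^ 2 - 1)
  linarith

theorem sph_quad (x : E3) : (sph x) ^ 2 - (‖x‖ ^ 2 - 1) * sph x - (x 0) ^ 2 = 0 := by
  have h := sph_rad_sq x
  unfold sph
  generalize √((‖x‖ ^ 2 - 1) ^ 2 + 4 * (x 0) ^ 2) = r at h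
  nlinarith [h]

theorem sph_norm (x : E3) : ‖x‖ ^ 2 ≤ sph x + 1 := by
  have h : |‖x‖ ^ 2 - 1| ≤ √((‖x‖ ^ 2 - 1) ^ 2 + 4 * (x 0) ^ 2) := by
    rw [← Real.sqrt_sq_eq_abs]
    exact Real.sqrt_le_sqrt (by nlinarith [sq_nonneg (x 0)])
  have := le_abs_self (‖x‖ ^ 2 - 1)
  unfold sph
  linarith

/-- The quadratic polynomial evaluated at a positive level decides the position. -/
theorem sph_le_iff_quad (s : ℝ) (hs : 0 < s) (x : E3) :
    sph x ≤ s ↔ 0 ≤ s ^ 2 - (‖x‖ ^ 2 - 1) * s - (x 0) ^ 2 := by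
  have h0 := sph_nonneg x
  have h1 := sph_quad x
  have key : s ^ 2 - (‖x‖ ^ 2 - 1) * s - (x 0) ^ 2
      = (s - sph x) * (s + sph x - (‖x‖ ^ 2 - 1)) := by nlinarith [h1]
  have hpos : 0 < s + sph x - (‖x‖ ^ 2 - 1) ∨ (s = 0) := by
    left
    have := sph_norm x
    linarith
  rcases hpos with hpos | h
  · rw [key]
    constructor
    · intro h; exact mul_nonneg (by linarith) hpos.le
    · intro h
      by_contra hc
      push Not at hc
      have : (s - sph x) * (s + sph x - (‖x‖ ^ 2 - 1)) < 0 :=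
        mul_neg_of_neg_of_pos (by linarith) hpos
      linarith
  · exact absurd h hs.ne'

theorem sph_lt_iff_quad (s : ℝ) (hs : 0 < s) (x : E3) :
    sph x < s ↔ 0 < s ^ 2 - (‖x‖ ^ 2 - 1) * s - (x 0) ^ 2 := by
  have h0 := sph_nonneg x
  have h1 := sph_quad x
  have key : s ^ 2 - (‖x‖ ^ 2 - 1) * s - (x 0) ^ 2
      = (s - sph x) * (s + sph x - (‖x‖ ^ 2 - 1)) := by nlinarith [h1]
  have hpos : 0 < s + sph x - (‖x‖ ^ 2 - 1) := by
    have := sph_norm x
    linarith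
  rw [key]
  constructor
  · intro h; exact mul_pos (by linarith) hpos
  · intro h
    by_contra hc
    push Not at hc
    have : (s - sph x) * (s + sph x - (‖x‖ ^ 2 - 1)) ≤ 0 :=
      mul_nonpos_of_nonpos_of_nonneg (by linarith) hpos.le
    linarith

theorem sph_ellipsoid_aux (s : ℝ) (hs : 0 < s) (x : E3) :
    s ^ 2 - (‖x‖ ^ 2 - 1) * s - (x 0) ^ 2
      = (1 - ((x 0) ^ 2 / s + ((x 1) ^ 2 + (x 2) ^ 2) / (s + 1))) * (s * (s + 1)) := by
  have hs1 : 0 < s + 1 := by linarith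
  rw [norm_sq_three]
  field_simp
  ring

theorem sph_le_iff (s : ℝ) (hs : 0 < s) (x : E3) :
    sph x ≤ s ↔ (x 0) ^ 2 / s + ((x 1) ^ 2 + (x 2) ^ 2) / (s + 1) ≤ 1 := by
  rw [sph_le_iff_quad s hs, sph_ellipsoid_aux s hs]
  have : 0 < s * (s + 1) := by positivity
  constructor
  · intro h
    have := nonneg_of_mul_nonneg_left h this
    linarith
  · intro h
    exact mul_nonneg (by linarith) this.le

theorem sph_lt_iff (s : ℝ) (hs : 0 < s) (x : E3) :
    sph x < s ↔ (x 0) ^ 2 / s + ((x 1) ^ 2 + (x 2) ^ 2) / (s + 1) < 1 := by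
  rw [sph_lt_iff_quad s hs, sph_ellipsoid_aux s hs]
  have : 0 < s * (s + 1) := by positivity
  constructor
  · intro h
    have := (mul_pos_iff_of_pos_right this).1 h
    linarith
  · intro h
    exact mul_pos (by linarith) this

theorem sph_eq_iff (s : ℝ) (hs : 0 < s) (x : E3) :
    sph x = s ↔ (x 0) ^ 2 / s + ((x 1) ^ 2 + (x 2) ^ 2) / (s + 1) = 1 := by
  have h1 := sph_le_iff s hs x
  have h2 := sph_lt_iff s hs x
  constructor
  · intro h
    exact le_antisymm (h1.1 h.le) (not_lt.1 fun hc => (h2.2 hc).ne h)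
  · intro h
    exact le_antisymm (h1.2 h.le) (not_lt.1 fun hc => (h2.1 hc).ne h)

theorem sph_zero : sph 0 = 0 := by
  unfold sph
  simp

theorem continuous_sph : Continuous sph := by
  unfold sph
  fun_prop

/-! ### Gradient -/

theorem sph_rad_eq (x : E3) (hx : 0 < sph x) :
    √((‖x‖ ^ 2 - 1) ^ 2 + 4 * (x 0) ^ 2) = sph x + (x 0) ^ 2 / sph x := by
  have h := sph_quad x
  have h2 : √((‖x‖ ^ 2 - 1) ^ 2 + 4 * (x 0) ^ 2) = 2 * sph x - (‖x‖ ^ 2 - 1) := by
    unfold sph; ring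
  rw [h2]
  field_simp
  nlinarith [h]

theorem sph_den_pos (x : E3) (hx : 0 < sph x) : 0 < sph x + (x 0) ^ 2 / sph x := by
  positivity

theorem hasFDerivAt_sph (x : E3) (hx : 0 < sph x) :
    HasFDerivAt sph ((sph x + (x 0) ^ 2 / sph x)⁻¹ •
      ((2 * sph x) • (innerSL ℝ x : E3 →L[ℝ] ℝ) +
        (2 * x 0) • (EuclideanSpace.proj 0 : E3 →L[ℝ] ℝ))) x := by
  have hD := sph_den_pos x hx
  have hrad := sph_rad_eq x hx
  have hrad0 : (‖x‖ ^ 2 - 1) ^ 2 + 4 * (x 0) ^ 2 ≠ 0 := by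
    intro h
    rw [h, Real.sqrt_zero] at hrad
    linarith
  have h1 : HasFDerivAt (fun y : E3 => ‖y‖ ^ 2 - 1) (2 • (innerSL ℝ x : E3 →L[ℝ] ℝ)) x :=
    ((hasStrictFDerivAt_norm_sq x).hasFDerivAt).sub_const 1
  have h2 : HasFDerivAt (fun y : E3 => y 0) (EuclideanSpace.proj 0 : E3 →L[ℝ] ℝ) x :=
    (EuclideanSpace.proj (𝕜 := ℝ) (0 : Fin 3)).hasFDerivAt
  have h2a := h2.pow 2
  have h2b := h2a.const_mul (4 : ℝ)
  have h1a := h1.pow 2
  have h12 := h1a.add h2b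
  have h3 := h12.sqrt hrad0
  have h4 := h1.add h3
  have h5 := h4.const_mul (1 / 2 : ℝ)
  refine (h5.congr_of_eventuallyEq (f₁ := sph)
    (Filter.Eventually.of_forall fun y => ?_)).congr_fderiv ?_
  · unfold sph
    simp only [Pi.add_apply]
    ring
  ext y
  have hne : √((‖x‖ ^ 2 - 1) ^ 2 + 4 * (x 0) ^ 2) ≠ 0 := by rw [hrad]; exact hD.ne'
  have hsp : sph x = ((‖x‖ ^ 2 - 1) + √((‖x‖ ^ 2 - 1) ^ 2 + 4 * (x 0) ^ 2)) / 2 := rfl
  rw [← hrad]
  simp only [Pi.add_apply, add_apply, smul_apply, smul_eq_mul,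
    nsmul_eq_mul, innerSL_apply_apply, EuclideanSpace.coe_proj]
  rw [hsp]
  generalize √((‖x‖ ^ 2 - 1) ^ 2 + 4 * (x 0) ^ 2) = r at *
  field_simp
  push_cast
  ring

theorem inner_ee (x : E3) (i : Fin 3) : inner ℝ (ee i) x = x i := by
  simp [ee, EuclideanSpace.inner_single_left]

theorem hasGradientAt_sph (x : E3) (hx : 0 < sph x) :
    HasGradientAt sph ((sph x + (x 0) ^ 2 / sph x)⁻¹ •
      ((2 * sph x) • x + (2 * x 0) • ee 0)) x := by
  rw [hasGradientAt_iff_hasFDerivAt]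
  refine (hasFDerivAt_sph x hx).congr_fderiv ?_
  ext y
  simp only [add_apply, smul_apply, smul_eq_mul, innerSL_apply_apply, EuclideanSpace.coe_proj,
    InnerProductSpace.toDual_apply_apply, inner_add_left, real_inner_smul_left, inner_ee]

/-! ### Lipschitz bounds -/

theorem sqrt_sum_sq_sub_le (a b c d : ℝ) :
    √(a ^ 2 + b ^ 2) ≤ √(c ^ 2 + d ^ 2) + (|a - c| + |b - d|) := by
  have h0 : 0 ≤ √(c ^ 2 + d ^ 2) := Real.sqrt_nonneg _
  have h1 : |c| ≤ √(c ^ 2 + d ^ 2) := by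
    rw [← Real.sqrt_sq_eq_abs]; exact Real.sqrt_le_sqrt (by nlinarith [sq_nonneg d])
  have h2 : |d| ≤ √(c ^ 2 + d ^ 2) := by
    rw [← Real.sqrt_sq_eq_abs]; exact Real.sqrt_le_sqrt (by nlinarith [sq_nonneg c])
  have h3 : √(c ^ 2 + d ^ 2) ^ 2 = c ^ 2 + d ^ 2 := Real.sq_sqrt (by positivity)
  rw [Real.sqrt_le_left (by positivity)]
  have h4 : c * (a - c) ≤ √(c ^ 2 + d ^ 2) * |a - c| := by
    calc c * (a - c) ≤ |c * (a - c)| := le_abs_self _
      _ = |c| * |a - c| := abs_mul _ _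
      _ ≤ _ := mul_le_mul_of_nonneg_right h1 (abs_nonneg _)
  have h5 : d * (b - d) ≤ √(c ^ 2 + d ^ 2) * |b - d| := by
    calc d * (b - d) ≤ |d * (b - d)| := le_abs_self _
      _ = |d| * |b - d| := abs_mul _ _
      _ ≤ _ := mul_le_mul_of_nonneg_right h2 (abs_nonneg _)
  have h6 : |a - c| ^ 2 = (a - c) ^ 2 := sq_abs _
  have h7 : |b - d| ^ 2 = (b - d) ^ 2 := sq_abs _
  have h8 : 0 ≤ |a - c| * |b - d| := by positivity
  nlinarith

theorem sph_lip (r : ℝ) (hr : 0 ≤ r) :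
    LipschitzOnWith (Real.toNNReal (2 * r + 1)) sph (Metric.closedBall 0 r) := by
  refine LipschitzOnWith.of_dist_le_mul fun x hx y hy => ?_
  rw [Real.coe_toNNReal _ (by linarith)]
  have hx' : ‖x‖ ≤ r := by simpa using hx
  have hy' : ‖y‖ ≤ r := by simpa using hy
  have hd : 0 ≤ dist x y := dist_nonneg
  have hxy : |‖x‖ - ‖y‖| ≤ dist x y := by rw [dist_eq_norm]; exact abs_norm_sub_norm_le x y
  have hq : |(‖x‖ ^ 2 - 1) - (‖y‖ ^ 2 - 1)| ≤ 2 * r * dist x y := by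
    have : (‖x‖ ^ 2 - 1) - (‖y‖ ^ 2 - 1) = (‖x‖ + ‖y‖) * (‖x‖ - ‖y‖) := by ring
    rw [this, abs_mul, abs_of_nonneg (by positivity : 0 ≤ ‖x‖ + ‖y‖)]
    exact mul_le_mul (by linarith) hxy (abs_nonneg _) (by linarith)
  have h0 : |2 * x 0 - 2 * y 0| ≤ 2 * dist x y := by
    have h1 : |x 0 - y 0| ≤ ‖x - y‖ := by
      have := PiLp.norm_apply_le (x - y) 0
      simpa using this
    rw [dist_eq_norm]
    have : 2 * x 0 - 2 * y 0 = 2 * (x 0 - y 0) := by ring
    rw [this, abs_mul, abs_two]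
    linarith
  have e4 : ∀ z : E3, 4 * (z 0) ^ 2 = (2 * z 0) ^ 2 := fun z => by ring
  have h1 := sqrt_sum_sq_sub_le (‖x‖ ^ 2 - 1) (2 * x 0) (‖y‖ ^ 2 - 1) (2 * y 0)
  have h2 := sqrt_sum_sq_sub_le (‖y‖ ^ 2 - 1) (2 * y 0) (‖x‖ ^ 2 - 1) (2 * x 0)
  rw [abs_sub_comm (‖y‖ ^ 2 - 1), abs_sub_comm (2 * y 0)] at h2
  rw [Real.dist_eq]
  unfold sph
  rw [e4, e4]
  have h3 := le_abs_self ((‖x‖ ^ 2 - 1) - (‖y‖ ^ 2 - 1))
  have h4 := neg_abs_le ((‖x‖ ^ 2 - 1) - (‖y‖ ^ 2 - 1))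
  rw [abs_le]
  constructor <;> linarith

/-- A function which is Lipschitz on a ball and constant from its boundary on is Lipschitz. -/
theorem lip_of_ball {F : Type*} [PseudoMetricSpace F] {f : E3 → F} {K : ℝ≥0} {r : ℝ}
    (hf : LipschitzOnWith K f (Metric.closedBall 0 r)) (c : F)
    (hc : ∀ x, r ≤ ‖x‖ → f x = c) : LipschitzWith K f := by
  have key : ∀ x y : E3, ‖x‖ ≤ r → r ≤ ‖y‖ → dist (f x) (f y) ≤ K * dist x y := by
    intro x y hx hy
    have hcont : ContinuousOn (fun t : ℝ => ‖x + t • (y - x)‖) (Icc 0 1) := by fun_prop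
    have hivt := intermediate_value_Icc (zero_le_one : (0:ℝ) ≤ 1) hcont
    have hr : r ∈ Icc (‖x + (0:ℝ) • (y - x)‖) (‖x + (1:ℝ) • (y - x)‖) := by
      constructor
      · simpa using hx
      · simpa using hy
    obtain ⟨t, ht, htr⟩ := hivt hr
    have h1 : f (x + t • (y - x)) = f y := by rw [hc _ hy, hc _ htr.ge]
    rw [← h1]
    have h2 := hf.dist_le_mul x (by simpa using hx) (x + t • (y - x)) (by simpa using htr.le)
    refine h2.trans (mul_le_mul_of_nonneg_left ?_ K.coe_nonneg)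
    rw [dist_eq_norm, dist_eq_norm]
    have : x - (x + t • (y - x)) = t • (x - y) := by
      rw [sub_add_cancel_left, ← smul_neg, neg_sub]
    rw [this, norm_smul, Real.norm_of_nonneg ht.1]
    exact mul_le_of_le_one_left (norm_nonneg _) ht.2
  refine LipschitzWith.of_dist_le_mul fun x y => ?_
  rcases le_total ‖x‖ r with hx | hx <;> rcases le_total ‖y‖ r with hy | hy
  · exact hf.dist_le_mul x (by simpa using hx) y (by simpa using hy)
  · exact key x y hx hy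
  · rw [dist_comm (f x), dist_comm x]; exact key y x hy hx
  · rw [hc x hx, hc y hy, dist_self]; positivity

theorem sgc_mem (s0 s1 : ℝ) (h1 : s0 ≤ s1) (x : E3) : sgc s0 s1 x ∈ Icc s0 s1 :=
  ⟨le_max_left _ _, max_le h1 (min_le_left _ _)⟩

theorem sgc_of_le (s0 s1 : ℝ) (h1 : s0 ≤ s1) {x : E3} (hx : s1 ≤ sph x) :
    sgc s0 s1 x = s1 := by
  unfold sgc; rw [min_eq_left hx, max_eq_right h1]

theorem sgc_of_mem (s0 s1 : ℝ) {x : E3} (h0 : s0 ≤ sph x) (h1 : sph x ≤ s1) :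
    sgc s0 s1 x = sph x := by
  unfold sgc; rw [min_eq_right h1, max_eq_right h0]

theorem sgc_of_ge (s0 s1 : ℝ) {x : E3} (h0 : sph x ≤ s0) : sgc s0 s1 x = s0 := by
  unfold sgc; exact max_eq_left ((min_le_right _ _).trans h0)

/-- Radius of a ball outside of which `sph` is at least `s1`. -/
theorem sph_ge_of_norm {s1 : ℝ} (h1 : 0 ≤ s1) {x : E3} (hx : √(s1 + 1) ≤ ‖x‖) : s1 ≤ sph x := by
  have h := sph_norm x
  have h2 : √(s1 + 1) ^ 2 = s1 + 1 := Real.sq_sqrt (by linarith)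
  have h3 : √(s1 + 1) ^ 2 ≤ ‖x‖ ^ 2 := pow_le_pow_left₀ (Real.sqrt_nonneg _) hx 2
  linarith

theorem sgc_lipschitz_explicit (s0 s1 : ℝ) (h0 : 0 ≤ s0) (h1 : s0 ≤ s1) :
    LipschitzWith (Real.toNNReal (2 * √(s1 + 1) + 1)) (sgc s0 s1) := by
  refine lip_of_ball (r := √(s1 + 1)) ?_ s1 fun x hx =>
    sgc_of_le s0 s1 h1 (sph_ge_of_norm (h0.trans h1) hx)
  refine LipschitzOnWith.of_dist_le_mul fun x hx y hy => ?_
  have h := (sph_lip (√(s1 + 1)) (Real.sqrt_nonneg _)).dist_le_mul x hx y hy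
  have h2 := (((LipschitzWith.id (α := ℝ)).const_min s1).const_max s0).dist_le_mul
    (sph x) (sph y)
  rw [NNReal.coe_one, one_mul] at h2
  exact h2.trans h

theorem sgc_lipschitz (s0 s1 : ℝ) (h0 : 0 < s0) (h1 : s0 < s1) :
    ∃ K : ℝ≥0, LipschitzWith K (sgc s0 s1) :=
  ⟨_, sgc_lipschitz_explicit s0 s1 h0.le h1.le⟩

/-! ### Topology and measure -/

theorem Dsph_compact (s1 : ℝ) (_h1 : 0 < s1) : IsCompact (Dsph s1) := by
  refine Metric.isCompact_of_isClosed_isBounded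
    (isClosed_le continuous_sph continuous_const) ?_
  refine (Metric.isBounded_closedBall (x := (0:E3)) (r := √(s1 + 1))).subset fun x hx => ?_
  have hx' : sph x ≤ s1 := hx
  have := sph_norm x
  simp only [Metric.mem_closedBall, dist_zero_right]
  exact Real.le_sqrt_of_sq_le (by linarith)

theorem Dsph_interior (s1 : ℝ) (h1 : 0 < s1) : (0 : E3) ∈ interior (Dsph s1) := by
  refine mem_interior.2 ⟨{x | sph x < s1}, fun x hx => (show sph x ≤ s1 from le_of_lt hx),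
    isOpen_lt continuous_sph continuous_const, ?_⟩
  simpa [sph_zero] using h1

theorem Dsph_convex (s : ℝ) (hs : 0 < s) : Convex ℝ (Dsph s) := by
  intro x hx y hy a b ha hb hab
  have hx' := (sph_le_iff s hs x).1 hx
  have hy' := (sph_le_iff s hs y).1 hy
  refine (sph_le_iff s hs _).2 ?_
  have key : ∀ u v : ℝ, (a * u + b * v) ^ 2 ≤ a * u ^ 2 + b * v ^ 2 := by
    intro u v
    have : a * u ^ 2 + b * v ^ 2 - (a * u + b * v) ^ 2 = a * b * (u - v) ^ 2 := by
      have hb' : b = 1 - a := by linarith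
      subst hb'
      ring
    nlinarith [mul_nonneg (mul_nonneg ha hb) (sq_nonneg (u - v))]
  have e : ∀ i : Fin 3, (a • x + b • y) i = a * x i + b * y i := fun i => by simp
  rw [e, e, e]
  have hs1 : 0 < s + 1 := by linarith
  calc (a * x 0 + b * y 0) ^ 2 / s +
        ((a * x 1 + b * y 1) ^ 2 + (a * x 2 + b * y 2) ^ 2) / (s + 1)
      ≤ (a * x 0 ^ 2 + b * y 0 ^ 2) / s +
        ((a * x 1 ^ 2 + b * y 1 ^ 2) + (a * x 2 ^ 2 + b * y 2 ^ 2)) / (s + 1) := by
        gcongr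
        · exact key _ _
        · exact key _ _
        · exact key _ _
    _ = a * ((x 0) ^ 2 / s + ((x 1) ^ 2 + (x 2) ^ 2) / (s + 1)) +
        b * ((y 0) ^ 2 / s + ((y 1) ^ 2 + (y 2) ^ 2) / (s + 1)) := by ring
    _ ≤ a * 1 + b * 1 := by gcongr
    _ = 1 := by linarith

theorem sph_level_subset_frontier (s : ℝ) (hs : 0 < s) :
    {x : E3 | sph x = s} ⊆ frontier (Dsph s) := by
  intro x hx
  have hx' : sph x = s := hx
  have hq := (sph_eq_iff s hs x).1 hx'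
  refine ⟨subset_closure (le_of_eq hx'), fun hint => ?_⟩
  have hcont : Tendsto (fun t : ℝ => t • x) (𝓝 1) (𝓝 x) := by
    have : Continuous fun t : ℝ => t • x := by fun_prop
    simpa using this.tendsto 1
  have hev : ∀ᶠ t : ℝ in 𝓝 1, t • x ∈ Dsph s :=
    (hcont.eventually (mem_interior_iff_mem_nhds.1 hint))
  obtain ⟨t, ht1, ht2⟩ : ∃ t : ℝ, 1 < t ∧ t • x ∈ Dsph s := by
    have h2 : ∃ᶠ t : ℝ in 𝓝 1, 1 < t := frequently_gt_nhds 1
    exact (h2.and_eventually hev).exists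
  have h3 := (sph_le_iff s hs _).1 ht2
  have e : ∀ i : Fin 3, (t • x) i = t * x i := fun i => by simp
  rw [e, e, e] at h3
  have h4 : (t * x 0) ^ 2 / s + ((t * x 1) ^ 2 + (t * x 2) ^ 2) / (s + 1)
      = t ^ 2 * ((x 0) ^ 2 / s + ((x 1) ^ 2 + (x 2) ^ 2) / (s + 1)) := by ring
  rw [h4, hq] at h3
  nlinarith

theorem sph_level_null (s : ℝ) (hs : 0 < s) : volume {x : E3 | sph x = s} = 0 :=
  measure_mono_null (sph_level_subset_frontier s hs)
    ((Dsph_convex s hs).addHaar_frontier volume)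

theorem Dsph_frontier (s1 : ℝ) (h1 : 0 < s1) : volume (frontier (Dsph s1)) = 0 :=
  (Dsph_convex s1 h1).addHaar_frontier volume

/-! ### Radial functions -/

theorem hasDerivAt_Phi0 {s : ℝ} (hs : 0 < s) :
    HasDerivAt Phi0 (1 / (2 * (s * √s) * (s + 1))) s := by
  have hr : 0 < √s := Real.sqrt_pos.2 hs
  have hsq : √s ^ 2 = s := Real.sq_sqrt hs.le
  have h1 : HasDerivAt (fun t => √t) (1 / (2 * √s)) s := Real.hasDerivAt_sqrt hs.ne'
  have h2 := (h1.fun_inv hr.ne').fun_neg.fun_sub h1.arctan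
  refine h2.congr_deriv ?_
  rw [hsq]
  have h3 : (1 + s) ≠ 0 := by positivity
  field_simp
  ring

theorem hasDerivAt_Phi1 {s : ℝ} (hs : 0 < s) :
    HasDerivAt Phi1 (1 / (2 * √s * (s + 1) ^ 2)) s := by
  have hr : 0 < √s := Real.sqrt_pos.2 hs
  have hsq : √s ^ 2 = s := Real.sq_sqrt hs.le
  have h1 : HasDerivAt (fun t => √t) (1 / (2 * √s)) s := Real.hasDerivAt_sqrt hs.ne'
  have h0 : HasDerivAt (fun t : ℝ => t + 1) 1 s := (hasDerivAt_id s).add_const 1
  have h2 := ((h1.fun_div h0 (by positivity)).fun_add h1.arctan).div_const 2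
  refine h2.congr_deriv ?_
  have h3 : (1 + s) ≠ 0 := by positivity
  rw [hsq]
  have hs' : s = √s * √s := (Real.mul_self_sqrt hs.le).symm
  generalize √s = r at *
  subst hs'
  field_simp
  ring

theorem Phi0_add_two_Phi1 {s : ℝ} (hs : 0 < s) : Phi0 s + 2 * Phi1 s = -(1 / Vv s) := by
  have hr : 0 < √s := Real.sqrt_pos.2 hs
  have hs' : s = √s * √s := (Real.mul_self_sqrt hs.le).symm
  unfold Phi0 Phi1 Vv
  generalize √s = r at *
  subst hs'
  field_simp
  ring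

theorem hasDerivAt_inv_Vv {s : ℝ} (hs : 0 < s) :
    HasDerivAt (fun t => 1 / Vv t) (-((3 * s + 1) / (2 * (s * √s) * (s + 1) ^ 2))) s := by
  have h2 := ((hasDerivAt_Phi0 hs).fun_add ((hasDerivAt_Phi1 hs).const_mul 2)).fun_neg
  have h3 : (fun t => 1 / Vv t) =ᶠ[𝓝 s] fun t => -(Phi0 t + 2 * Phi1 t) := by
    filter_upwards [lt_mem_nhds hs] with t ht
    rw [Phi0_add_two_Phi1 ht, neg_neg]
  refine (h2.congr_of_eventuallyEq h3).congr_deriv ?_
  have hr : 0 < √s := Real.sqrt_pos.2 hs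
  field_simp
  ring

theorem hasDerivAt_Ff (al s1 : ℝ) {s : ℝ} (hs : 0 < s) :
    HasDerivAt (Ff al s1) (al / (2 * (s * √s) * (s + 1))) s := by
  have h := (((hasDerivAt_Phi0 hs).const_sub (Phi0 s1)).const_mul al).const_sub 1
  refine h.congr_deriv ?_
  ring

theorem hasDerivAt_Gf (be s1 : ℝ) {s : ℝ} (hs : 0 < s) :
    HasDerivAt (Gf be s1) (be / (2 * √s * (s + 1) ^ 2)) s := by
  have h := (((hasDerivAt_Phi1 hs).const_sub (Phi1 s1)).const_mul be).const_sub 1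
  refine h.congr_deriv ?_
  ring

theorem hasDerivAt_Hf (c0 al s1 : ℝ) {s : ℝ} (hs : 0 < s) :
    HasDerivAt (Hf c0 al s1) (-(c0 * al / (√s * (s + 1) ^ 2))) s := by
  have h := ((hasDerivAt_Ff al s1 hs).fun_add ((hasDerivAt_inv_Vv hs).const_mul al)).const_mul c0
  have h3 : Hf c0 al s1 = fun t => c0 * (Ff al s1 t + al * (1 / Vv t)) := by
    funext t; unfold Hf; ring
  rw [h3]
  refine h.congr_deriv ?_
  have hr : 0 < √s := Real.sqrt_pos.2 hs
  field_simp
  ring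

theorem hasDerivAt_Pf (c0 lam be s1 : ℝ) {s : ℝ} (hs : 0 < s) :
    HasDerivAt (Pf c0 lam be s1) (-(c0 * (be / (2 * √s * (s + 1) ^ 2)))) s := by
  have h := (((hasDerivAt_Gf be s1 hs).const_sub 1).const_mul c0).const_add (lam / 2)
  refine h.congr_deriv ?_
  ring

theorem hasDerivAt_Sf (c0 lam be s1 : ℝ) {s : ℝ} (hs : 0 < s) :
    HasDerivAt (Sf c0 lam be s1) (-(c0 * (be / (2 * √s * (s + 1) ^ 2)) * ((s + 1) / s))) s := by
  have h := (((hasDerivAt_Gf be s1 hs).fun_add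
    ((hasDerivAt_inv_Vv hs).const_mul be)).const_mul c0).fun_sub (hasDerivAt_Pf c0 lam be s1 hs)
  have h3 : Sf c0 lam be s1 = fun t => c0 * (Gf be s1 t + be * (1 / Vv t)) -
      Pf c0 lam be s1 t := by
    funext t; unfold Sf; ring
  rw [h3]
  refine h.congr_deriv ?_
  have hr : 0 < √s := Real.sqrt_pos.2 hs
  field_simp
  ring

/-! ### Coordinates of gradients and curls -/

theorem grad_apply_ee (f : E3 → ℝ) (x : E3) (i : Fin 3) : (∇ f x) i = fderiv ℝ f x (ee i) := by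
  rw [← inner_ee (∇ f x) i, real_inner_comm]
  exact InnerProductSpace.toDual_symm_apply

theorem fderiv_apply_comp {Ξ : E3 → E3} {x : E3} (h : DifferentiableAt ℝ Ξ x) (v : E3)
    (i : Fin 3) : (fderiv ℝ Ξ x v) i = fderiv ℝ (fun y => Ξ y i) x v := by
  have h1 : HasFDerivAt (fun y => Ξ y i)
      ((EuclideanSpace.proj i : E3 →L[ℝ] ℝ).comp (fderiv ℝ Ξ x)) x :=
    (EuclideanSpace.proj (𝕜 := ℝ) i).hasFDerivAt.comp x h.hasFDerivAt
  rw [h1.fderiv]
  rfl

theorem differentiableAt_pt {a b c : E3 → ℝ} {x : E3} (ha : DifferentiableAt ℝ a x)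
    (hb : DifferentiableAt ℝ b x) (hc : DifferentiableAt ℝ c x) :
    DifferentiableAt ℝ (fun y => pt (a y) (b y) (c y)) x := by
  rw [differentiableAt_euclidean]
  intro i
  fin_cases i
  · simpa [pt] using ha
  · simpa [pt] using hb
  · simpa [pt] using hc

theorem curlv_pt {a b c : E3 → ℝ} {x : E3} (ha : DifferentiableAt ℝ a x)
    (hb : DifferentiableAt ℝ b x) (hc : DifferentiableAt ℝ c x) :
    curlv (fun y => pt (a y) (b y) (c y)) x =
      pt (fderiv ℝ c x (ee 1) - fderiv ℝ b x (ee 2))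
         (fderiv ℝ a x (ee 2) - fderiv ℝ c x (ee 0))
         (fderiv ℝ b x (ee 0) - fderiv ℝ a x (ee 1)) := by
  have h := differentiableAt_pt ha hb hc
  unfold curlv
  simp only [fderiv_apply_comp h]
  simp [pt]

/-- Derivative of `sph` as a linear map. -/
noncomputable def sphL (x : E3) : E3 →L[ℝ] ℝ :=
  (sph x + (x 0) ^ 2 / sph x)⁻¹ •
      ((2 * sph x) • (innerSL ℝ x : E3 →L[ℝ] ℝ) +
        (2 * x 0) • (EuclideanSpace.proj 0 : E3 →L[ℝ] ℝ))

theorem inner_ee' (x : E3) (i : Fin 3) : inner ℝ x (ee i) = x i := by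
  rw [real_inner_comm, inner_ee]

theorem ee_apply (i j : Fin 3) : (ee i) j = if j = i then 1 else 0 := by
  simp [ee]

theorem sphL_ee0 (x : E3) :
    sphL x (ee 0) = (sph x + (x 0) ^ 2 / sph x)⁻¹ * (2 * sph x * x 0 + 2 * x 0) := by
  simp [sphL, inner_ee', ee_apply]
  ring

theorem sphL_ee1 (x : E3) :
    sphL x (ee 1) = (sph x + (x 0) ^ 2 / sph x)⁻¹ * (2 * sph x * x 1) := by
  simp [sphL, inner_ee', ee_apply]

theorem sphL_ee2 (x : E3) :
    sphL x (ee 2) = (sph x + (x 0) ^ 2 / sph x)⁻¹ * (2 * sph x * x 2) := by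
  simp [sphL, inner_ee', ee_apply]

theorem hasFDerivAt_rad {φ : ℝ → ℝ} {φ' : ℝ} {x : E3} (hx : 0 < sph x)
    (hφ : HasDerivAt φ φ' (sph x)) (k : Fin 3) :
    HasFDerivAt (fun y : E3 => φ (sph y) * y k)
      (φ (sph x) • (EuclideanSpace.proj k : E3 →L[ℝ] ℝ) + (x k) • φ' • sphL x) x := by
  have h1 : HasFDerivAt (fun y : E3 => φ (sph y)) (φ' • sphL x) x :=
    hφ.comp_hasFDerivAt x (hasFDerivAt_sph x hx)
  have h2 : HasFDerivAt (fun y : E3 => y k) (EuclideanSpace.proj k : E3 →L[ℝ] ℝ) x :=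
    (EuclideanSpace.proj (𝕜 := ℝ) k).hasFDerivAt
  exact h1.mul h2

theorem fderiv_rad {φ : ℝ → ℝ} {φ' : ℝ} {x : E3} (hx : 0 < sph x)
    (hφ : HasDerivAt φ φ' (sph x)) (k j : Fin 3) :
    fderiv ℝ (fun y : E3 => φ (sph y) * y k) x (ee j) =
      φ (sph x) * (if k = j then 1 else 0) + x k * (φ' * sphL x (ee j)) := by
  rw [(hasFDerivAt_rad hx hφ k).fderiv]
  simp [ee_apply]

theorem differentiableAt_rad {φ : ℝ → ℝ} {φ' : ℝ} {x : E3} (hx : 0 < sph x)
    (hφ : HasDerivAt φ φ' (sph x)) (k : Fin 3) :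
    DifferentiableAt ℝ (fun y : E3 => φ (sph y) * y k) x :=
  (hasFDerivAt_rad hx hφ k).differentiableAt

/-- The quadratic relation in coordinates. -/
theorem sph_quad' (x : E3) :
    (sph x) ^ 2 - ((x 0) ^ 2 + (x 1) ^ 2 + (x 2) ^ 2 - 1) * sph x - (x 0) ^ 2 = 0 := by
  rw [← norm_sq_three]; exact sph_quad x

theorem e3_ext {u v : E3} (h0 : u 0 = v 0) (h1 : u 1 = v 1) (h2 : u 2 = v 2) : u = v := by
  ext i
  fin_cases i
  · exact h0
  · exact h1
  · exact h2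

theorem pt_apply0 (a b c : ℝ) : (pt a b c) 0 = a := by simp [pt]
theorem pt_apply1 (a b c : ℝ) : (pt a b c) 1 = b := by simp [pt]
theorem pt_apply2 (a b c : ℝ) : (pt a b c) 2 = c := by simp [pt]

/-- In the coat the curl of the flux potential is `c0` times the gradient of the potential. -/
theorem coat0 (c0 al s1 : ℝ) (x : E3) (hx : 0 < sph x) :
    curlv (fp0 (fun y => Hf c0 al s1 (sph y))) x =
      c0 • ∇ (fun y : E3 => y 0 * Ff al s1 (sph y)) x := by
  have hH := (hasDerivAt_Hf c0 al s1 hx).div_const 2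
  have hHn := hH.fun_neg
  have hF := hasDerivAt_Ff al s1 hx
  have e1 : fp0 (fun y => Hf c0 al s1 (sph y)) = fun y => pt ((fun _ => (0:ℝ)) y)
      ((fun y => (fun t => -(Hf c0 al s1 t / 2)) (sph y) * y 2) y)
      ((fun y => (fun t => Hf c0 al s1 t / 2) (sph y) * y 1) y) := by
    funext y
    simp [fp0]
  have e2 : (fun y : E3 => y 0 * Ff al s1 (sph y)) = fun y => Ff al s1 (sph y) * y 0 := by
    funext y; ring
  rw [e1, curlv_pt (differentiableAt_const _) (differentiableAt_rad hx hHn 2)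
    (differentiableAt_rad hx hH 1), e2]
  have hr : 0 < √(sph x) := Real.sqrt_pos.2 hx
  have hD := sph_den_pos x hx
  have hDe : (sph x + (x 0) ^ 2 / sph x)⁻¹ = sph x / (sph x ^ 2 + (x 0) ^ 2) := by
    have : sph x ^ 2 + (x 0) ^ 2 ≠ 0 := by positivity
    field_simp
  have hD2 : sph x ^ 2 + (x 0) ^ 2 ≠ 0 := by positivity
  have hq := sph_quad' x
  have hs1 : sph x + 1 ≠ 0 := by positivity
  refine e3_ext ?_ ?_ ?_
  · rw [pt_apply0, PiLp.smul_apply, grad_apply_ee, fderiv_rad hx hH, fderiv_rad hx hHn,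
      fderiv_rad hx hF, sphL_ee0, sphL_ee1, sphL_ee2, hDe]
    simp only [if_true, smul_eq_mul]
    have : Hf c0 al s1 (sph x) = c0 * (Ff al s1 (sph x) + al / (√(sph x) * (sph x + 1))) := rfl
    rw [this]
    generalize √(sph x) = r at *
    generalize Ff al s1 (sph x) = F at *
    generalize sph x = s at *
    rw [← sub_eq_zero]
    have key : (c0 * (F + al / (r * (s + 1))) / 2 * 1 +
        x 1 * (-(c0 * al / (r * (s + 1) ^ 2)) / 2 * (s / (s ^ 2 + x 0 ^ 2) * (2 * s * x 1))) -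
        (-(c0 * (F + al / (r * (s + 1))) / 2) * 1 +
          x 2 * (-(-(c0 * al / (r * (s + 1) ^ 2)) / 2) *
            (s / (s ^ 2 + x 0 ^ 2) * (2 * s * x 2)))) -
        c0 * (F * 1 + x 0 * (al / (2 * (s * r) * (s + 1)) *
          (s / (s ^ 2 + x 0 ^ 2) * (2 * s * x 0 + 2 * x 0))))) =
        c0 * al * s * (s ^ 2 - (x 0 ^ 2 + x 1 ^ 2 + x 2 ^ 2 - 1) * s - x 0 ^ 2) /
          (r * (s + 1) ^ 2 * (s ^ 2 + x 0 ^ 2)) := by
      field_simp
      ring
    rw [key, hq]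
    ring
  · rw [pt_apply1, PiLp.smul_apply, grad_apply_ee, fderiv_rad hx hH, fderiv_rad hx hF,
      sphL_ee0, sphL_ee1, hDe]
    simp only [fderiv_fun_const, Pi.zero_apply, zero_apply, smul_eq_mul]
    norm_num
    generalize √(sph x) = r at *
    generalize sph x = s at *
    field_simp
  · rw [pt_apply2, PiLp.smul_apply, grad_apply_ee, fderiv_rad hx hHn, fderiv_rad hx hF,
      sphL_ee0, sphL_ee2, hDe]
    simp only [fderiv_fun_const, Pi.zero_apply, zero_apply, smul_eq_mul,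
      if_neg (show ¬ ((2:Fin 3) = 0) by decide), if_neg (show ¬ ((0:Fin 3) = 2) by decide)]
    norm_num
    generalize √(sph x) = r at *
    generalize sph x = s at *
    field_simp

theorem coat1 (c0 lam be s1 : ℝ) (x : E3) (hx : 0 < sph x) :
    curlv (fp1 (fun y => Pf c0 lam be s1 (sph y)) (fun y => Sf c0 lam be s1 (sph y))) x =
      c0 • ∇ (fun y : E3 => y 1 * Gf be s1 (sph y)) x := by
  have hP := hasDerivAt_Pf c0 lam be s1 hx
  have hS := (hasDerivAt_Sf c0 lam be s1 hx).fun_neg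
  have hG := hasDerivAt_Gf be s1 hx
  have e1 : fp1 (fun y => Pf c0 lam be s1 (sph y)) (fun y => Sf c0 lam be s1 (sph y)) =
      fun y => pt ((fun y => Pf c0 lam be s1 (sph y) * y 2) y) ((fun _ => (0:ℝ)) y)
      ((fun y => (fun t => -(Sf c0 lam be s1 t)) (sph y) * y 0) y) := by
    funext y
    simp [fp1]
  have e2 : (fun y : E3 => y 1 * Gf be s1 (sph y)) = fun y => Gf be s1 (sph y) * y 1 := by
    funext y; ring
  rw [e1, curlv_pt (differentiableAt_rad hx hP 2) (differentiableAt_const _)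
    (differentiableAt_rad hx hS 0), e2]
  have hr : 0 < √(sph x) := Real.sqrt_pos.2 hx
  have hD := sph_den_pos x hx
  have hDe : (sph x + (x 0) ^ 2 / sph x)⁻¹ = sph x / (sph x ^ 2 + (x 0) ^ 2) := by
    have : sph x ^ 2 + (x 0) ^ 2 ≠ 0 := by positivity
    field_simp
  have hD2 : sph x ^ 2 + (x 0) ^ 2 ≠ 0 := by positivity
  have hq := sph_quad' x
  have hs1 : sph x + 1 ≠ 0 := by positivity
  refine e3_ext ?_ ?_ ?_
  · rw [pt_apply0, PiLp.smul_apply, grad_apply_ee, fderiv_rad hx hS, fderiv_rad hx hG,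
      sphL_ee0, sphL_ee1, hDe]
    simp only [fderiv_fun_const, Pi.zero_apply, zero_apply, smul_eq_mul,
      if_neg (show ¬ ((0:Fin 3) = 1) by decide), if_neg (show ¬ ((1:Fin 3) = 0) by decide)]
    generalize √(sph x) = r at *
    generalize sph x = s at *
    field_simp
    ring
  · rw [pt_apply1, PiLp.smul_apply, grad_apply_ee, fderiv_rad hx hP, fderiv_rad hx hS,
      fderiv_rad hx hG, sphL_ee0, sphL_ee1, sphL_ee2, hDe]
    simp only [if_true, smul_eq_mul]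
    have : Sf c0 lam be s1 (sph x) = c0 * (Gf be s1 (sph x) + be / (√(sph x) * (sph x + 1)))
      - Pf c0 lam be s1 (sph x) := rfl
    rw [this]
    generalize √(sph x) = r at *
    generalize Gf be s1 (sph x) = G at *
    generalize Pf c0 lam be s1 (sph x) = P at *
    generalize sph x = s at *
    rw [← sub_eq_zero]
    have key : (P * 1 + x 2 * (-(c0 * (be / (2 * r * (s + 1) ^ 2))) *
          (s / (s ^ 2 + x 0 ^ 2) * (2 * s * x 2))) -
        (-(c0 * (G + be / (r * (s + 1))) - P) * 1 +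
          x 0 * (-(-(c0 * (be / (2 * r * (s + 1) ^ 2)) * ((s + 1) / s))) *
            (s / (s ^ 2 + x 0 ^ 2) * (2 * s * x 0 + 2 * x 0)))) -
        c0 * (G * 1 + x 1 * (be / (2 * r * (s + 1) ^ 2) *
          (s / (s ^ 2 + x 0 ^ 2) * (2 * s * x 1))))) =
        c0 * be * s * (s ^ 2 - (x 0 ^ 2 + x 1 ^ 2 + x 2 ^ 2 - 1) * s - x 0 ^ 2) /
          (r * (s + 1) ^ 2 * (s ^ 2 + x 0 ^ 2)) := by
      field_simp
      ring
    rw [key, hq]
    ring
  · rw [pt_apply2, PiLp.smul_apply, grad_apply_ee, fderiv_rad hx hP, fderiv_rad hx hG,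
      sphL_ee1, sphL_ee2, hDe]
    simp only [fderiv_fun_const, Pi.zero_apply, zero_apply, smul_eq_mul,
      if_neg (show ¬ ((2:Fin 3) = 1) by decide), if_neg (show ¬ ((1:Fin 3) = 2) by decide)]
    generalize √(sph x) = r at *
    generalize sph x = s at *
    field_simp
    ring

theorem coat2 (c0 lam be s1 : ℝ) (x : E3) (hx : 0 < sph x) :
    curlv (fp2 (fun y => Pf c0 lam be s1 (sph y)) (fun y => Sf c0 lam be s1 (sph y))) x =
      c0 • ∇ (fun y : E3 => y 2 * Gf be s1 (sph y)) x := by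
  have hP := (hasDerivAt_Pf c0 lam be s1 hx).fun_neg
  have hS := hasDerivAt_Sf c0 lam be s1 hx
  have hG := hasDerivAt_Gf be s1 hx
  have e1 : fp2 (fun y => Pf c0 lam be s1 (sph y)) (fun y => Sf c0 lam be s1 (sph y)) =
      fun y => pt ((fun y => (fun t => -(Pf c0 lam be s1 t)) (sph y) * y 1) y)
        ((fun y => Sf c0 lam be s1 (sph y) * y 0) y) ((fun _ => (0:ℝ)) y) := by
    funext y
    simp [fp2]
  have e2 : (fun y : E3 => y 2 * Gf be s1 (sph y)) = fun y => Gf be s1 (sph y) * y 2 := by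
    funext y; ring
  rw [e1, curlv_pt (differentiableAt_rad hx hP 1) (differentiableAt_rad hx hS 0)
    (differentiableAt_const _), e2]
  have hr : 0 < √(sph x) := Real.sqrt_pos.2 hx
  have hD := sph_den_pos x hx
  have hDe : (sph x + (x 0) ^ 2 / sph x)⁻¹ = sph x / (sph x ^ 2 + (x 0) ^ 2) := by
    have : sph x ^ 2 + (x 0) ^ 2 ≠ 0 := by positivity
    field_simp
  have hD2 : sph x ^ 2 + (x 0) ^ 2 ≠ 0 := by positivity
  have hq := sph_quad' x
  have hs1 : sph x + 1 ≠ 0 := by positivity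
  refine e3_ext ?_ ?_ ?_
  · rw [pt_apply0, PiLp.smul_apply, grad_apply_ee, fderiv_rad hx hS, fderiv_rad hx hG,
      sphL_ee0, sphL_ee2, hDe]
    simp only [fderiv_fun_const, Pi.zero_apply, zero_apply, smul_eq_mul,
      if_neg (show ¬ ((0:Fin 3) = 2) by decide), if_neg (show ¬ ((2:Fin 3) = 0) by decide)]
    generalize √(sph x) = r at *
    generalize sph x = s at *
    field_simp
    ring
  · rw [pt_apply1, PiLp.smul_apply, grad_apply_ee, fderiv_rad hx hP, fderiv_rad hx hG,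
      sphL_ee1, sphL_ee2, hDe]
    simp only [fderiv_fun_const, Pi.zero_apply, zero_apply, smul_eq_mul,
      if_neg (show ¬ ((2:Fin 3) = 1) by decide), if_neg (show ¬ ((1:Fin 3) = 2) by decide)]
    generalize √(sph x) = r at *
    generalize sph x = s at *
    field_simp
    ring
  · rw [pt_apply2, PiLp.smul_apply, grad_apply_ee, fderiv_rad hx hP, fderiv_rad hx hS,
      fderiv_rad hx hG, sphL_ee0, sphL_ee1, sphL_ee2, hDe]
    simp only [if_true, smul_eq_mul]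
    have : Sf c0 lam be s1 (sph x) = c0 * (Gf be s1 (sph x) + be / (√(sph x) * (sph x + 1)))
      - Pf c0 lam be s1 (sph x) := rfl
    rw [this]
    generalize √(sph x) = r at *
    generalize Gf be s1 (sph x) = G at *
    generalize Pf c0 lam be s1 (sph x) = P at *
    generalize sph x = s at *
    rw [← sub_eq_zero]
    have key : ((c0 * (G + be / (r * (s + 1))) - P) * 1 +
          x 0 * (-(c0 * (be / (2 * r * (s + 1) ^ 2)) * ((s + 1) / s)) *
            (s / (s ^ 2 + x 0 ^ 2) * (2 * s * x 0 + 2 * x 0))) -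
        (-P * 1 + x 1 * (-(-(c0 * (be / (2 * r * (s + 1) ^ 2)))) *
          (s / (s ^ 2 + x 0 ^ 2) * (2 * s * x 1)))) -
        c0 * (G * 1 + x 2 * (be / (2 * r * (s + 1) ^ 2) *
          (s / (s ^ 2 + x 0 ^ 2) * (2 * s * x 2))))) =
        c0 * be * s * (s ^ 2 - (x 0 ^ 2 + x 1 ^ 2 + x 2 ^ 2 - 1) * s - x 0 ^ 2) /
          (r * (s + 1) ^ 2 * (s ^ 2 + x 0 ^ 2)) := by
      field_simp
      ring
    rw [key, hq]
    ring

/-! ### Products with the clamped coordinate -/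

/-- Functions `φ (sgc x) * x k` with `φ` Lipschitz on `[s0, s1]` and `φ s1 = 0` are Lipschitz. -/
theorem sgc_prod_lip (s0 s1 : ℝ) (h0 : 0 < s0) (h1 : s0 < s1) :
    ∃ Cg : ℝ≥0, ∀ (φ : ℝ → ℝ) (K : ℝ≥0), LipschitzOnWith K φ (Icc s0 s1) → φ s1 = 0 →
      ∀ k : Fin 3, LipschitzWith (Cg * K) (fun x : E3 => φ (sgc s0 s1 x) * x k) := by
  obtain ⟨Kg, hKg⟩ := sgc_lipschitz s0 s1 h0 h1
  refine ⟨Real.toNNReal (s1 - s0) + Real.toNNReal √(s1 + 1) * Kg, fun φ K hφ hφ1 k => ?_⟩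
  refine lip_of_ball (r := √(s1 + 1)) ?_ 0 fun x hx => ?_
  · refine LipschitzOnWith.of_dist_le_mul fun x _ y hy => ?_
    have hy' : ‖y‖ ≤ √(s1 + 1) := by simpa using hy
    push_cast
    rw [Real.coe_toNNReal _ (by linarith), Real.coe_toNNReal _ (Real.sqrt_nonneg _),
      Real.dist_eq]
    have hxm := sgc_mem s0 s1 h1.le x
    have hym := sgc_mem s0 s1 h1.le y
    have b1 : |φ (sgc s0 s1 x)| ≤ K * (s1 - s0) := by
      have h := hφ.dist_le_mul _ hxm s1 ⟨h1.le, le_rfl⟩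
      rw [hφ1, Real.dist_eq, sub_zero] at h
      refine h.trans (mul_le_mul_of_nonneg_left ?_ K.coe_nonneg)
      rw [Real.dist_eq, abs_le]
      constructor <;> linarith [hxm.1, hxm.2]
    have b2 : |φ (sgc s0 s1 x) - φ (sgc s0 s1 y)| ≤ K * (Kg * dist x y) := by
      rw [← Real.dist_eq]
      exact (hφ.dist_le_mul _ hxm _ hym).trans
        (mul_le_mul_of_nonneg_left (hKg.dist_le_mul x y) K.coe_nonneg)
    have b3 : |x k - y k| ≤ dist x y := by
      rw [dist_eq_norm]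
      simpa using PiLp.norm_apply_le (x - y) k
    have b4 : |y k| ≤ √(s1 + 1) := by
      have : |y k| ≤ ‖y‖ := by simpa using PiLp.norm_apply_le y k
      exact this.trans hy'
    have e : φ (sgc s0 s1 x) * x k - φ (sgc s0 s1 y) * y k
        = φ (sgc s0 s1 x) * (x k - y k) + y k * (φ (sgc s0 s1 x) - φ (sgc s0 s1 y)) := by ring
    rw [e]
    have hd : 0 ≤ dist x y := dist_nonneg
    calc |φ (sgc s0 s1 x) * (x k - y k) + y k * (φ (sgc s0 s1 x) - φ (sgc s0 s1 y))|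
        ≤ |φ (sgc s0 s1 x)| * |x k - y k| + |y k| * |φ (sgc s0 s1 x) - φ (sgc s0 s1 y)| := by
          rw [← abs_mul, ← abs_mul]; exact abs_add_le _ _
      _ ≤ K * (s1 - s0) * dist x y + √(s1 + 1) * (K * (Kg * dist x y)) := by
          refine add_le_add (mul_le_mul b1 b3 (abs_nonneg _) ?_)
            (mul_le_mul b4 b2 (abs_nonneg _) (Real.sqrt_nonneg _))
          exact mul_nonneg K.coe_nonneg (by linarith)
      _ = (s1 - s0 + √(s1 + 1) * Kg) * K * dist x y := by ring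
  · rw [sgc_of_le s0 s1 h1.le (sph_ge_of_norm (h0.trans h1).le hx), hφ1, zero_mul]

end Crest.Agent.R083
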