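import Crest.Agent.R083.ResParam
import Crest.Agent.R083.Fill
import Crest.Agent.R083.Spheroid
import Crest.Agent.R083.Incl

/-!
Row 83 (S0111), RES group: every elliptic tensor is realised exactly by scalar conductivities.
-/

set_option autoImplicit false

namespace Crest.Agent.R083

open MeasureTheory Set Filter
open scoped Gradient ENNReal NNReal Topology

theorem rs_mono {c C c' C' : ℝ} {L L' : ℝ≥0} {A : E3 →L[ℝ] E3} (h : Resolves c C L A)
    (hc : c' ≤ c) (hC : C ≤ C') (hL : L ≤ L') : Resolves c' C' L' A := by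
  intro U hU hUb ε hε
  obtain ⟨γ, v, R, hγm, hγb, hi⟩ := h U hU hUb ε hε
  refine ⟨γ, v, R, hγm, fun x => ⟨hc.trans (hγb x).1, (hγb x).2.trans hC⟩, fun i => ?_⟩
  obtain ⟨h1, h2, h3, h4, h5, h6, h7, h8⟩ := hi i
  exact ⟨h1.weaken hL, h2, h3, h4, fun x => (h5 x).trans (by exact_mod_cast hL), h6, h7, h8⟩

theorem rs_scalar {c C κ : ℝ} {A : E3 →L[ℝ] E3} (hA : ∀ i, A (ee i) = κ • ee i)
    (hc : c ≤ κ) (hC : κ ≤ C) (L : ℝ≥0) : Resolves c C L A := by
  intro U hU hUb ε hε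
  refine ⟨fun _ => κ, fun _ _ => 0, fun _ _ => 0, measurable_const, fun x => ⟨hc, hC⟩,
    fun i => ⟨?_, fun _ _ => rfl, fun x => by simpa using hε.le, measurable_const,
      fun x => by simp, fun _ _ => rfl, ?_, ?_⟩⟩
  · exact (LipschitzWith.const (0 : ℝ)).weaken bot_le
  · refine ⟨integrable_zero _ _ _, fun ψ K hψ => by simp⟩
  · refine Eventually.of_forall fun x => ?_
    have : ∇ (fun _ : E3 => (0 : ℝ)) x = 0 := by
      simp [gradient]
    simp only [this, add_zero, hA i]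

theorem rs_diagL_apply (a : Fin 3 → ℝ) (x : E3) (i : Fin 3) : diagL a x i = a i * x i := by
  simp [diagL, ee, Fin.sum_univ_three]
  fin_cases i <;> simp

theorem rs_diagL_ee (a : Fin 3 → ℝ) (i : Fin 3) : diagL a (ee i) = a i • ee i := by
  ext j
  rw [rs_diagL_apply]
  simp only [ee, PiLp.smul_apply, smul_eq_mul, PiLp.single_apply]
  split_ifs with h
  · rw [h]
  · simp

/-- Coordinate permutations. -/
noncomputable def swO (e : Equiv.Perm (Fin 3)) : E3 ≃ₗᵢ[ℝ] E3 :=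
  LinearIsometryEquiv.piLpCongrLeft 2 ℝ ℝ e

theorem rs_swO_apply (e : Equiv.Perm (Fin 3)) (x : E3) (i : Fin 3) :
    swO e x i = x (e.symm i) := rfl

theorem rs_swO_symm_apply (e : Equiv.Perm (Fin 3)) (x : E3) (i : Fin 3) :
    (swO e).symm x i = x (e i) := by
  simp [swO]

theorem rs_rotT_apply (O : E3 ≃ₗᵢ[ℝ] E3) (A : E3 →L[ℝ] E3) (x : E3) :
    rotT O A x = O (A (O.symm x)) := rfl

theorem rs_rotT_swap (e : Equiv.Perm (Fin 3)) (a : Fin 3 → ℝ) :
    rotT (swO e) (diagL a) = diagL (fun i => a (e.symm i)) := by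
  ext x i
  rw [rs_rotT_apply, rs_swO_apply, rs_diagL_apply, rs_swO_symm_apply, rs_diagL_apply]
  simp

theorem rs_e3_sum (y : E3) : y = ∑ i : Fin 3, y i • ee i := by
  ext j
  simp [ee, Fin.sum_univ_three]
  fin_cases j <;> simp

/-- Diagonalisation with the smallest eigenvalue first and the largest second. -/
theorem diagonalise (A : E3 →L[ℝ] E3) (δ : ℝ) (hA : Ell δ A) :
    ∃ (O : E3 ≃ₗᵢ[ℝ] E3) (lam : Fin 3 → ℝ), A = rotT O (diagL lam) ∧
      (∀ i, δ ≤ lam i ∧ lam i ≤ δ⁻¹) ∧ lam 0 ≤ lam 2 ∧ lam 2 ≤ lam 1 := by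
  have hn : Module.finrank ℝ E3 = 3 := by simp [E3]
  have hT : (A : E3 →ₗ[ℝ] E3).IsSymmetric := fun x y => hA.1 x y
  set b := hT.eigenvectorBasis hn with hb
  set μ := hT.eigenvalues hn with hμ
  have hanti : Antitone μ := hT.eigenvalues_antitone hn
  have hbe : ∀ i, A (b i) = μ i • b i := fun i => by
    exact hT.apply_eigenvectorBasis hn i
  set O : E3 ≃ₗᵢ[ℝ] E3 := (b.reindex (finRotate 3)).repr.symm with hO
  set lam : Fin 3 → ℝ := fun i => μ ((finRotate 3).symm i) with hlam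
  have hOe : ∀ i, O (ee i) = b ((finRotate 3).symm i) := fun i => by
    rw [hO, ee, OrthonormalBasis.repr_symm_single, OrthonormalBasis.reindex_apply]
  have h0 : (finRotate 3).symm 0 = 2 := by decide
  have h1 : (finRotate 3).symm 1 = 0 := by decide
  have h2 : (finRotate 3).symm 2 = 1 := by decide
  have key : ∀ y, A (O y) = O (diagL lam y) := by
    intro y
    rw [rs_e3_sum y]
    simp only [map_sum, map_smul]
    refine Finset.sum_congr rfl fun i _ => ?_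
    rw [hOe, hbe, rs_diagL_ee, map_smul, hOe]
  refine ⟨O, lam, ?_, ?_, ?_, ?_⟩
  · ext1 x
    rw [rs_rotT_apply, ← key, LinearIsometryEquiv.apply_symm_apply]
  · intro i
    have hnorm : ‖b ((finRotate 3).symm i)‖ = 1 := b.orthonormal.1 _
    have h := hA.2 (b ((finRotate 3).symm i))
    rw [hbe, inner_smul_left, real_inner_self_eq_norm_sq, hnorm] at h
    simp only [one_pow, mul_one, conj_trivial] at h
    exact h
  · simp only [hlam, h0, h2]
    exact hanti (by decide)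
  · simp only [hlam, h2, h1]
    exact hanti (by decide)

/-- One level of coated spheroids. -/
theorem level_resolve (δ : ℝ) (hδ : 0 < δ) (hδ1 : δ ≤ 1) :
    ∃ (δ' : ℝ) (K : ℝ≥0), 0 < δ' ∧ δ' ≤ 1 ∧ ∀ lam : Fin 3 → ℝ,
      (∀ i, δ ≤ lam i ∧ lam i ≤ δ⁻¹) → lam 0 < lam 1 → lam 0 ≤ lam 2 → lam 2 ≤ lam 1 →
      ∃ kap : Fin 3 → ℝ, (∀ i, δ' ≤ kap i ∧ kap i ≤ δ'⁻¹) ∧ kap 0 = kap 1 ∧
        kap 2 ≤ kap 1 ∧ (lam 2 = lam 1 → kap 2 = kap 1) ∧
        ∀ (c C : ℝ) (L : ℝ≥0), c ≤ δ' → δ'⁻¹ ≤ C → Resolves c C L (diagL kap) →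
          Resolves c C (2 * (K + L)) (diagL lam) := by
  obtain ⟨s0, s1, δ', h0, h01, hδ', hδ'1, hp⟩ := level_param δ hδ hδ1
  obtain ⟨K, hK⟩ := incl_cell s0 s1 δ' δ⁻¹ h0 h01 hδ'
  refine ⟨δ', K, hδ', hδ'1, fun lam hb h1 h2 h3 => ?_⟩
  obtain ⟨c0, kap, hc0, hc0', hkb, hcoat, hk01, hk21, hk2⟩ := hp lam hb h1 h2 h3
  refine ⟨kap, hkb, hk01, hk21, hk2, fun c C L hc hC hR => ?_⟩
  have hs1 : 0 < s1 := h0.trans h01
  exact fill_core c C (K + L) (diagL lam) (Dsph s1) (Dsph_compact s1 hs1)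
    ⟨0, Dsph_interior s1 hs1⟩ (Dsph_frontier s1 hs1) (hK c0 lam kap hc0 (fun i => (hb i).2) hcoat c C L
      (hc.trans hc0) (hc0'.trans hC) hR)

/-- Uniaxial tensors with the small eigenvalue on the axis `0`. -/
theorem uniaxial (δ : ℝ) (hδ : 0 < δ) (hδ1 : δ ≤ 1) :
    ∃ (c C : ℝ) (L : ℝ≥0), 0 < c ∧ c ≤ δ ∧ δ⁻¹ ≤ C ∧ ∀ lam : Fin 3 → ℝ,
      (∀ i, δ ≤ lam i ∧ lam i ≤ δ⁻¹) → lam 0 ≤ lam 1 → lam 2 = lam 1 →
      Resolves c C L (diagL lam) := by
  obtain ⟨δ', K, hδ', hδ'1, hlev⟩ := level_resolve δ hδ hδ1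
  refine ⟨min δ' δ, max δ'⁻¹ δ⁻¹, 2 * (K + 0), lt_min hδ' hδ, min_le_right _ _,
    le_max_right _ _, fun lam hb h1 h2 => ?_⟩
  rcases h1.eq_or_lt with h | h
  · refine rs_scalar (κ := lam 0) (fun i => ?_) ((min_le_right _ _).trans (hb 0).1)
      ((hb 0).2.trans (le_max_right _ _)) _
    rw [rs_diagL_ee]
    fin_cases i
    · rfl
    · show lam 1 • _ = _
      rw [← h]
    · show lam 2 • _ = _
      rw [h2, ← h]
  · obtain ⟨kap, hkb, hk01, -, hk2, hres⟩ := hlev lam hb h (h2 ▸ h1) h2.le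
    refine hres _ _ 0 (min_le_left _ _) (le_max_left _ _) ?_
    refine rs_scalar (κ := kap 1) (fun i => ?_) ((min_le_left _ _).trans (hkb 1).1)
      ((hkb 1).2.trans (le_max_left _ _)) _
    rw [rs_diagL_ee]
    fin_cases i
    · show kap 0 • _ = _
      rw [hk01]
    · rfl
    · show kap 2 • _ = _
      rw [hk2 h2]

/-- Ordered diagonal tensors. -/
theorem resolves_diag (δ : ℝ) (hδ : 0 < δ) (hδ1 : δ ≤ 1) :
    ∃ (c C : ℝ) (L : ℝ≥0), 0 < c ∧ ∀ lam : Fin 3 → ℝ,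
      (∀ i, δ ≤ lam i ∧ lam i ≤ δ⁻¹) → lam 0 ≤ lam 2 → lam 2 ≤ lam 1 →
      Resolves c C L (diagL lam) := by
  obtain ⟨δ', K, hδ', hδ'1, hlev⟩ := level_resolve δ hδ hδ1
  obtain ⟨c, C, L, hc, hcδ, hCδ, huni⟩ := uniaxial δ' hδ' hδ'1
  refine ⟨min c δ, max C δ⁻¹, 2 * (K + 2 * L), lt_min hc hδ, fun lam hb h02 h21 => ?_⟩
  rcases (h02.trans h21).eq_or_lt with h | h
  · refine rs_scalar (κ := lam 0) (fun i => ?_) ((min_le_right _ _).trans (hb 0).1)
      ((hb 0).2.trans (le_max_right _ _)) _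
    rw [rs_diagL_ee]
    fin_cases i
    · rfl
    · show lam 1 • _ = _
      rw [← h]
    · show lam 2 • _ = _
      rw [show lam 2 = lam 0 from le_antisymm (h ▸ h21) h02]
  · obtain ⟨kap, hkb, hk01, hk21, -, hres⟩ := hlev lam hb h h02 h21
    have h1 : Resolves c C L (diagL fun i => kap (Equiv.swap (0 : Fin 3) 2 i)) := by
      refine huni _ (fun i => hkb _) ?_ ?_
      · have e0 : Equiv.swap (0 : Fin 3) 2 0 = 2 := by decide
        have e1 : Equiv.swap (0 : Fin 3) 2 1 = 1 := by decide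
        rw [e0, e1]; exact hk21
      · have e2 : Equiv.swap (0 : Fin 3) 2 2 = 0 := by decide
        have e1 : Equiv.swap (0 : Fin 3) 2 1 = 1 := by decide
        rw [e2, e1]; exact hk01
    have h2 : Resolves c C (2 * L) (rotT (swO (Equiv.swap (0 : Fin 3) 2)) (diagL fun i =>
        kap (Equiv.swap (0 : Fin 3) 2 i))) := resolves_conj c C L _ h1 _
    rw [rs_rotT_swap] at h2
    have h3 : (fun i => kap (Equiv.swap (0 : Fin 3) 2 ((Equiv.swap (0 : Fin 3) 2).symm i)))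
        = kap := by
      funext i; simp
    rw [h3] at h2
    exact hres _ _ (2 * L) ((min_le_left _ _).trans hcδ) (hCδ.trans (le_max_left _ _))
      (rs_mono h2 (min_le_left _ _) (le_max_left _ _) le_rfl)

/-- Every elliptic tensor is realised exactly by scalar conductivities. -/
theorem resolves_all (δ : ℝ) (hδ : 0 < δ) :
    ∃ (c C : ℝ) (L : ℝ≥0), 0 < c ∧ ∀ A : E3 →L[ℝ] E3, Ell δ A → Resolves c C L A := by
  rcases le_or_gt δ 1 with hδ1 | hδ1
  · obtain ⟨c, C, L, hc, h⟩ := resolves_diag δ hδ hδ1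
    refine ⟨c, C, 2 * L, hc, fun A hA => ?_⟩
    obtain ⟨O, lam, rfl, hb, h02, h21⟩ := diagonalise A δ hA
    exact resolves_conj c C L _ (h lam hb h02 h21) O
  · refine ⟨1, 1, 0, one_pos, fun A hA => ?_⟩
    exfalso
    have h := hA.2 (ee 0)
    have hn : ‖ee 0‖ = 1 := by simp [ee]
    rw [hn] at h
    have h2 : δ⁻¹ < 1 := inv_lt_one_of_one_lt₀ hδ1
    have h3 := h.1.trans h.2
    simp only [one_pow, mul_one] at h3
    linarith

end Crest.Agent.R083
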