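import Crest.Agent.R083.IsoRes
import Crest.Agent.R083.Resolve

/-!
Row 83 (S0111), ISO group: the isotropisation theorem (helper771).
-/

set_option autoImplicit false

namespace Crest.Agent.R083

open MeasureTheory Set Filter
open scoped Gradient ENNReal NNReal Topology ContDiff

theorem iso (δ μ : ℝ) (hδ : 0 < δ) (hμ : 0 < μ) :
    ∃ (c C : ℝ) (L : ℝ≥0), 0 < c ∧
      ∀ (V : Set E3), IsOpen V → Bornology.IsBounded V →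
      ∀ (M : E3 → (E3 →L[ℝ] E3)), (∀ x ∈ V, ∀ᶠ y in 𝓝 x, M y = M x) →
        (∀ x ∈ V, Ell μ (M x)) →
      ∀ (w : E3 → ℝ) (J : E3 → E3) (N : ℝ≥0), ContDiffOn ℝ ∞ w V → ContDiffOn ℝ ∞ J V →
        (∀ x ∈ V, fderiv ℝ w x (ee 2) = J x 2) → (∀ x ∈ V, dvg J x = 0) →
        (∀ x ∈ V, HEll δ (∇ w x) (J x)) → (∀ x ∈ V, ‖∇ w x‖ ≤ N) →
      ∀ ε : ℝ, 0 < ε →
      ∃ (γ : E3 → ℝ) (u v : E3 → ℝ) (R T : E3 → E3),
        Measurable γ ∧ (∀ x, c ≤ γ x ∧ γ x ≤ C) ∧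
        LipschitzWith L u ∧ LipschitzWith (L * N) v ∧
        (∀ x, x ∉ V → u x = 0 ∧ v x = 0 ∧ R x = 0 ∧ T x = 0) ∧
        (∀ x, |u x| ≤ ε ∧ |v x| ≤ ε) ∧ Measurable R ∧ Measurable T ∧
        (∀ x, ‖R x‖ ≤ L ∧ ‖T x‖ ≤ L * N) ∧ WDF R ∧ WDF T ∧
        ∀ᵐ x ∂(volume.restrict V),
          ee 2 + R x = γ x • M x (ee 2 + ∇ u x) ∧
          J x + T x = γ x • M x (∇ w x + ∇ v x) :=
  Iso.iso_of_resolves resolves_all δ μ hδ hμ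

end Crest.Agent.R083
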