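import Crest.Agent.R083.IsoDefs
import Crest.Agent.R083.IsoAlg

/-!
Row 83 (S0111), task ISO-c: the statements of `IsoIface.lean` (`exists_tensor`,
`resolvesM_all`), the latter from `resolves_all` as a hypothesis.
-/

set_option autoImplicit false

namespace Crest.Agent.R083

open MeasureTheory Set Filter Metric
open scoped Gradient ENNReal NNReal Topology ContDiff

/-- ISO-c. -/
theorem exists_tensor (δ : ℝ) (hδ : 0 < δ) :
    ∃ δ' : ℝ, 0 < δ' ∧ ∀ p j : E3, HEll δ p j → p 2 = j 2 →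
      ∃ A : E3 →L[ℝ] E3, Ell δ' A ∧ A (ee 2) = ee 2 ∧ A p = j := by
  obtain ⟨δ', h, h'⟩ := hell_tensor δ hδ
  exact ⟨δ', h, fun p j hp h2 => h' p j hp h2.symm⟩

/-- ISO-c: `resolvesM_all`, from `resolves_all`. -/
theorem resolvesM_of
    (H : ∀ δ : ℝ, 0 < δ → ∃ (c C : ℝ) (L : ℝ≥0), 0 < c ∧
      ∀ A : E3 →L[ℝ] E3, Ell δ A → Resolves c C L A)
    (δ μ : ℝ) (hδ : 0 < δ) (hμ : 0 < μ) :
    ∃ (c C : ℝ) (L : ℝ≥0), 0 < c ∧
      ∀ M A : E3 →L[ℝ] E3, Ell μ M → Ell δ A → ResolvesM c C L M A := by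
  obtain ⟨c, C, L, hc, h⟩ := resolves_metric_of H δ μ hδ hμ
  refine ⟨c, C, L, hc, fun M A hM hA U hU hUb ε B hε => ?_⟩
  obtain ⟨γ, v, R, hγ, hγb, hvR⟩ := h A M hA hM U hU hUb (ε / (|B| + 1)) (by positivity)
  refine ⟨γ, hγ, hγb, fun g hg => ?_⟩
  obtain ⟨h1, h2, h3, h4, h5, h6, h7, h8⟩ := hvR g
  refine ⟨v g, R g, h1, h2, fun x => (h3 x).trans ?_, h4, h5, h6, h7, h8⟩
  have hg' : ‖g‖ ≤ |B| + 1 := hg.trans ((le_abs_self B).trans (by linarith))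
  rw [div_mul_eq_mul_div, div_le_iff₀ (by positivity)]
  gcongr

end Crest.Agent.R083
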