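import Crest.Agent.R083.Defs

/-!
Row 83 (S0111), ISO group: shared definitions.
-/

set_option autoImplicit false

namespace Crest.Agent.R083

open MeasureTheory Set Filter Metric
open scoped Gradient ENNReal NNReal Topology ContDiff

/-- Partial derivative in the coordinate direction `i`. -/
noncomputable def pd (i : Fin 3) (f : E3 → ℝ) (x : E3) : ℝ := fderiv ℝ f x (ee i)

/-- Like `Resolves`, but relative to a constant metric `M` and for all affine functions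
`x ↦ ⟪g, x⟫` at once: the tensor `A` is realised in `U` by `γ • M`, `γ` scalar. -/
def ResolvesM (c C : ℝ) (L : ℝ≥0) (M A : E3 →L[ℝ] E3) : Prop :=
  ∀ U : Set E3, IsOpen U → Bornology.IsBounded U → ∀ (ε B : ℝ), 0 < ε →
    ∃ γ : E3 → ℝ, Measurable γ ∧ (∀ x, c ≤ γ x ∧ γ x ≤ C) ∧
      ∀ g : E3, ‖g‖ ≤ B → ∃ (v : E3 → ℝ) (R : E3 → E3),
        LipschitzWith (L * ‖g‖₊) v ∧ (∀ x, x ∉ U → v x = 0) ∧ (∀ x, |v x| ≤ ε) ∧
        Measurable R ∧ (∀ x, ‖R x‖ ≤ L * ‖g‖) ∧ (∀ x, x ∉ U → R x = 0) ∧ WDF R ∧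
        ∀ᵐ x ∂(volume.restrict U), A g + R x = γ x • M (g + ∇ v x)

/-- The differential system satisfied by the anisotropic model fields on a set. -/
structure Sys (Ω : Set E3) (w : E3 → ℝ) (J : E3 → E3) : Prop where
  op : IsOpen Ω
  hw : ContDiffOn ℝ ∞ w Ω
  hJ : ContDiffOn ℝ ∞ J Ω
  h2 : ∀ x ∈ Ω, fderiv ℝ w x (ee 2) = J x 2
  hd : ∀ x ∈ Ω, dvg J x = 0

end Crest.Agent.R083
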