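import Crest.Agent.R083.IsoDefs

/-!
Row 83 (S0111), ISO group: exact statements (stubs, never imported by a final file).
Owner of the group: helper771.
-/

set_option autoImplicit false

namespace Crest.Agent.R083

open MeasureTheory Set Filter Metric
open scoped Gradient ENNReal NNReal Topology ContDiff

/-- ISO-a, file `Potential.lean`.  Second order potentials near a point. -/
theorem local_potential (Ω : Set E3) (w : E3 → ℝ) (J : E3 → E3) (hS : Sys Ω w J)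
    (a : E3) (ha : a ∈ Ω) :
    ∃ (ρ : ℝ) (X Y : E3 → ℝ), 0 < ρ ∧ ball a ρ ⊆ Ω ∧ ContDiff ℝ ∞ X ∧ ContDiff ℝ ∞ Y ∧
      ∀ x ∈ ball a ρ, w x = pd 1 X x - pd 0 Y x ∧ J x 0 = pd 2 (pd 2 Y) x ∧
        J x 1 = - pd 2 (pd 2 X) x := by
  sorry

/-- ISO-b, file `Flatten.lean` (may use `local_potential`, `wdf_curl`). -/
theorem flatten (Ω : Set E3) (w : E3 → ℝ) (J : E3 → E3) (hS : Sys Ω w J)
    (a : E3) (ha : a ∈ Ω) (η : ℝ≥0) (hη : 0 < η) :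
    ∃ r0 : ℝ, 0 < r0 ∧ ∀ r : ℝ, 0 < r → r < r0 → ∃ (v : E3 → ℝ) (T : E3 → E3),
      ContDiff ℝ ∞ v ∧ ContDiff ℝ ∞ T ∧ (∀ x, x ∉ ball a r → v x = 0 ∧ T x = 0) ∧
      LipschitzWith η v ∧ (∀ x, |v x| ≤ η) ∧ (∀ x, ‖T x‖ ≤ η) ∧ WDF T ∧
      (∀ x, fderiv ℝ v x (ee 2) = T x 2) ∧ (∀ x, dvg T x = 0) ∧
      ∀ x ∈ ball a (r / 2), w x + v x = w a + inner ℝ (∇ w a) (x - a) ∧ J x + T x = J a := by
  sorry

/-- ISO-c, file `IsoAlg.lean`. -/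
theorem exists_tensor (δ : ℝ) (hδ : 0 < δ) :
    ∃ δ' : ℝ, 0 < δ' ∧ ∀ p j : E3, HEll δ p j → p 2 = j 2 →
      ∃ A : E3 →L[ℝ] E3, Ell δ' A ∧ A (ee 2) = ee 2 ∧ A p = j := by
  sorry

/-- ISO-c, file `IsoAlg.lean` (uses `resolves_all`; use a local stub until RES is done). -/
theorem resolvesM_all (δ μ : ℝ) (hδ : 0 < δ) (hμ : 0 < μ) :
    ∃ (c C : ℝ) (L : ℝ≥0), 0 < c ∧
      ∀ M A : E3 →L[ℝ] E3, Ell μ M → Ell δ A → ResolvesM c C L M A := by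
  sorry

end Crest.Agent.R083
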