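import Crest.Agent.R083.IsoStep

/-!
Row 83 (S0111), ISO group: the iteration of the global step (helper771).
-/

set_option autoImplicit false

namespace Crest.Agent.R083.Iso

open MeasureTheory Set Filter Metric
open scoped Gradient ENNReal NNReal Topology ContDiff

/-- A sequence of steps. -/
structure Sq (c C : ℝ) (L Nb : ℝ≥0) (δ N ε : ℕ → ℝ) (η : ℕ → ℝ≥0)
    (M : E3 → (E3 →L[ℝ] E3)) (V : Set E3) (w : E3 → ℝ) (J : E3 → E3) where
  Ω : ℕ → Set E3
  wk : ℕ → E3 → ℝ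
  Jk : ℕ → E3 → E3
  O : ∀ k, StepOut c C L Nb (δ (k + 1)) (N (k + 1)) (ε k) (η k) M (Ω k) (wk k) (Jk k)
  Ω0 : Ω 0 = V
  w0 : wk 0 = w
  J0 : Jk 0 = J
  Ωs : ∀ k, Ω (k + 1) = (O k).Ω'
  ws : ∀ k, wk (k + 1) = fun x => wk k x + (O k).v1 x
  Js : ∀ k, Jk (k + 1) = fun x => Jk k x + (O k).T1 x

section

variable {c C : ℝ} {L Nb : ℝ≥0} {δ N ε : ℕ → ℝ} {η : ℕ → ℝ≥0}
    {M : E3 → (E3 →L[ℝ] E3)} {V : Set E3} {w : E3 → ℝ} {J : E3 → E3}

theorem exists_sq
    (hstep : ∀ k (Ω : Set E3) (w : E3 → ℝ) (J : E3 → E3), Ω ⊆ V → Sys Ω w J →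
      (∀ x ∈ Ω, HEll (δ k) (∇ w x) (J x)) → (∀ x ∈ Ω, ‖∇ w x‖ ≤ N k) →
      Nonempty (StepOut c C L Nb (δ (k + 1)) (N (k + 1)) (ε k) (η k) M Ω w J))
    (hS : Sys V w J) (hE : ∀ x ∈ V, HEll (δ 0) (∇ w x) (J x))
    (hN : ∀ x ∈ V, ‖∇ w x‖ ≤ N 0) :
    Nonempty (Sq c C L Nb δ N ε η M V w J) := by
  classical
  let Inv : ℕ → Set E3 × (E3 → ℝ) × (E3 → E3) → Prop := fun k s =>
    s.1 ⊆ V ∧ Sys s.1 s.2.1 s.2.2 ∧ (∀ x ∈ s.1, HEll (δ k) (∇ s.2.1 x) (s.2.2 x)) ∧
      (∀ x ∈ s.1, ‖∇ s.2.1 x‖ ≤ N k)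
  let out : ∀ k (s : {s // Inv k s}),
      StepOut c C L Nb (δ (k + 1)) (N (k + 1)) (ε k) (η k) M s.1.1 s.1.2.1 s.1.2.2 :=
    fun k s => (hstep k _ _ _ s.2.1 s.2.2.1 s.2.2.2.1 s.2.2.2.2).some
  let st : ∀ k, {s // Inv k s} := fun k => Nat.rec (motive := fun k => {s // Inv k s})
    ⟨(V, w, J), Subset.rfl, hS, hE, hN⟩
    (fun k s => ⟨((out k s).Ω', fun x => s.1.2.1 x + (out k s).v1 x,
      fun x => s.1.2.2 x + (out k s).T1 x),
      (out k s).sub.trans s.2.1, (out k s).sys, (out k s).ell, (out k s).bd⟩) k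
  exact ⟨{ Ω := fun k => (st k).1.1, wk := fun k => (st k).1.2.1, Jk := fun k => (st k).1.2.2
           O := fun k => out k (st k), Ω0 := rfl, w0 := rfl, J0 := rfl, Ωs := fun k => rfl
           ws := fun k => rfl, Js := fun k => rfl }⟩

variable (S : Sq c C L Nb δ N ε η M V w J)

theorem Sq.anti : Antitone S.Ω :=
  antitone_nat_of_succ_le fun k => by
    rw [S.Ωs]
    exact (S.O k).sub

theorem Sq.subV (k : ℕ) : S.Ω k ⊆ V := by
  have := S.anti (Nat.zero_le k)
  rwa [S.Ω0] at this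

theorem Sq.GV (k : ℕ) : (S.O k).G ⊆ V := (S.O k).Gsub.trans (S.subV k)

theorem Sq.GΩ {j k : ℕ} (h : j < k) : Disjoint (S.O j).G (S.Ω k) :=
  (S.O j).disj.mono_right (by rw [← S.Ωs]; exact S.anti h)

theorem Sq.Gd : Pairwise (Function.onFun Disjoint fun k => (S.O k).G) := by
  intro i j hij
  rcases lt_or_gt_of_ne hij with h | h
  · exact (S.GΩ h).mono_right (S.O j).Gsub
  · exact ((S.GΩ h).mono_right (S.O i).Gsub).symm

theorem Sq.vol (k : ℕ) : volume (S.Ω k) ≤ ENNReal.ofReal (7 / 8) ^ k * volume V := by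
  induction k with
  | zero => simp [S.Ω0]
  | succ k ih =>
    rw [S.Ωs, pow_succ', mul_assoc]
    exact (S.O k).vol.trans (by gcongr)

theorem Sq.null (hV : volume V ≠ ⊤) : volume (V \ ⋃ k, (S.O k).G) = 0 := by
  classical
  have h1 : V \ ⋃ k, (S.O k).G ⊆ (⋃ k, S.Ω k \ ((S.O k).G ∪ S.Ω (k + 1))) ∪ ⋂ k, S.Ω k := by
    intro x hx
    by_cases h : x ∈ ⋂ k, S.Ω k
    · exact Or.inr h
    · left
      rw [mem_iInter] at h
      push Not at h
      have hk := Nat.find_spec h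
      have hmin : ∀ m < Nat.find h, x ∈ S.Ω m := fun m hm => by
        by_contra hc
        exact Nat.find_min h hm hc
      have hk0 : Nat.find h ≠ 0 := by
        intro h0
        rw [h0, S.Ω0] at hk
        exact hk hx.1
      obtain ⟨m, hm⟩ := Nat.exists_eq_succ_of_ne_zero hk0
      refine mem_iUnion.2 ⟨m, hmin m (by omega), ?_⟩
      rintro (h2 | h2)
      · exact hx.2 (mem_iUnion.2 ⟨m, h2⟩)
      · rw [hm] at hk
        exact hk h2
  refine measure_mono_null h1 (measure_union_null (measure_iUnion_null fun k => ?_) ?_)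
  · rw [S.Ωs]
    exact (S.O k).null
  · have h2 : Tendsto (fun k => ENNReal.ofReal (7 / 8) ^ k * volume V) atTop (𝓝 0) := by
      have h3 : Tendsto (fun k : ℕ => ENNReal.ofReal (7 / 8) ^ k) atTop (𝓝 0) := by
        apply ENNReal.tendsto_pow_atTop_nhds_zero_of_lt_one
        rw [ENNReal.ofReal_lt_one]
        norm_num
      simpa using ENNReal.Tendsto.mul_const h3 (Or.inr hV)
    have h4 : volume (⋂ k, S.Ω k) ≤ 0 :=
      ge_of_tendsto' h2 fun k => (measure_mono (iInter_subset _ k)).trans (S.vol k)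
    exact le_antisymm h4 bot_le

theorem Sq.wsum (k : ℕ) (x : E3) :
    S.wk k x = w x + ∑ j ∈ Finset.range k, (S.O j).v1 x := by
  induction k with
  | zero => simp [S.w0]
  | succ k ih =>
    rw [S.ws, Finset.sum_range_succ, ← add_assoc, ← ih]

theorem Sq.Jsum (k : ℕ) (x : E3) :
    S.Jk k x = J x + ∑ j ∈ Finset.range k, (S.O j).T1 x := by
  induction k with
  | zero => simp [S.J0]
  | succ k ih =>
    rw [S.Js, Finset.sum_range_succ, ← add_assoc, ← ih]

theorem measurable_vtsum {F : Type*} [NormedAddCommGroup F]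
    [MeasurableSpace F] [BorelSpace F] [SecondCountableTopology F]
    (f : ℕ → E3 → F) (hs : ∀ x, Summable fun j => f j x) (hf : ∀ i, Measurable (f i)) :
    Measurable fun x => ∑' j, f j x := by
  refine measurable_of_tendsto_metrizable' (u := (atTop : Filter (Finset ℕ)))
    (f := fun s x => ∑ j ∈ s, f j x) (fun s => ?_) ?_
  · exact Finset.measurable_fun_sum s fun i _ => hf i
  · rw [tendsto_pi_nhds]
    intro x
    exact (hs x).hasSum

include S in
theorem Sq.final (hcC : c ≤ C) (hVo : IsOpen V) (hVb : Bornology.IsBounded V)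
    (hw : ContDiffOn ℝ ∞ w V) {N' : ℝ≥0} {ε' : ℝ} (hε : ∀ k, 0 ≤ ε k)
    (hεs : HasSum ε (ε' / 2)) (hηs : HasSum (fun k => 2 * (η k : ℝ)) N') :
    ∃ (γ : E3 → ℝ) (u v : E3 → ℝ) (R T : E3 → E3),
      Measurable γ ∧ (∀ x, c ≤ γ x ∧ γ x ≤ C) ∧
      LipschitzWith (4 * L) u ∧ LipschitzWith (N' + 4 * (L * Nb)) v ∧
      (∀ x, x ∉ V → u x = 0 ∧ v x = 0 ∧ R x = 0 ∧ T x = 0) ∧
      (∀ x, |u x| ≤ ε' ∧ |v x| ≤ ε') ∧ Measurable R ∧ Measurable T ∧
      (∀ x, ‖R x‖ ≤ L ∧ ‖T x‖ ≤ N' + L * Nb) ∧ WDF R ∧ WDF T ∧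
      ∀ᵐ x ∂(volume.restrict V),
        ee 2 + R x = γ x • M x (ee 2 + ∇ u x) ∧
        J x + T x = γ x • M x (∇ w x + ∇ v x) := by
  classical
  have hvolV : volume V ≠ ⊤ := hVb.measure_lt_top.ne
  let G : ℕ → Set E3 := fun k => (S.O k).G
  have hGd : Pairwise (Function.onFun Disjoint G) := S.Gd
  have hGm : ∀ k, MeasurableSet (G k) := fun k => (S.O k).Gop.measurableSet
  have zu : ∀ k x, x ∉ G k → (S.O k).u x = 0 := fun k x hx => ((S.O k).zG x hx).1
  have zv : ∀ k x, x ∉ G k → (S.O k).v2 x = 0 := fun k x hx => ((S.O k).zG x hx).2.1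
  have zR : ∀ k x, x ∉ G k → (S.O k).R x = 0 := fun k x hx => ((S.O k).zG x hx).2.2.1
  have zT : ∀ k x, x ∉ G k → (S.O k).T2 x = 0 := fun k x hx => ((S.O k).zG x hx).2.2.2
  have z1v : ∀ k x, x ∉ S.Ω k → (S.O k).v1 x = 0 := fun k x hx => ((S.O k).zΩ x hx).1
  have z1T : ∀ k x, x ∉ S.Ω k → (S.O k).T1 x = 0 := fun k x hx => ((S.O k).zΩ x hx).2
  have hεs' : Summable ε := hεs.summable
  have hεk : ∀ k, ε k ≤ ε' / 2 := fun k => le_hasSum hεs k fun j _ => hε j
  have hε'0 : 0 ≤ ε' / 2 := (hε 0).trans (hεk 0)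
  have hηs' : Summable (fun k => 2 * (η k : ℝ)) := hηs.summable
  have hηs1 : Summable (fun k => (η k : ℝ)) := by
    have := hηs'.mul_left (1 / 2)
    simpa using this
  have sv1 : ∀ x, Summable fun k => (S.O k).v1 x := fun x =>
    Summable.of_norm_bounded hεs' fun k => ((S.O k).small x).2.1
  have sT1 : ∀ x, Summable fun k => (S.O k).T1 x := fun x =>
    Summable.of_norm_bounded hηs1 fun k => ((S.O k).bds x).2.1
  -- the sums
  let u : E3 → ℝ := fun x => ∑' k, (S.O k).u x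
  let V1 : E3 → ℝ := fun x => ∑' k, (S.O k).v1 x
  let V2 : E3 → ℝ := fun x => ∑' k, (S.O k).v2 x
  let R : E3 → E3 := fun x => ∑' k, (S.O k).R x
  let T1 : E3 → E3 := fun x => ∑' k, (S.O k).T1 x
  let T2 : E3 → E3 := fun x => ∑' k, (S.O k).T2 x
  have eu : ∀ k, ∀ x ∈ G k, u x = (S.O k).u x := fun k x hx =>
    vtsum_of_mem (fun k => (S.O k).u) G hGd zu hx
  have eV2 : ∀ k, ∀ x ∈ G k, V2 x = (S.O k).v2 x := fun k x hx =>
    vtsum_of_mem (fun k => (S.O k).v2) G hGd zv hx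
  have eR : ∀ k, ∀ x ∈ G k, R x = (S.O k).R x := fun k x hx =>
    vtsum_of_mem (fun k => (S.O k).R) G hGd zR hx
  have eT2 : ∀ k, ∀ x ∈ G k, T2 x = (S.O k).T2 x := fun k x hx =>
    vtsum_of_mem (fun k => (S.O k).T2) G hGd zT hx
  have hlate : ∀ k, ∀ x ∈ G k, ∀ j, j ∉ Finset.range (k + 1) → x ∉ S.Ω j := by
    intro k x hx j hj hxj
    have hkj : k < j := by
      rw [Finset.mem_range] at hj
      omega
    exact disjoint_left.1 (S.GΩ hkj) hx hxj
  have eV1 : ∀ k, ∀ x ∈ G k, w x + V1 x = S.wk k x + (S.O k).v1 x := by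
    intro k x hx
    have h1 : V1 x = ∑ j ∈ Finset.range (k + 1), (S.O j).v1 x :=
      tsum_eq_sum fun j hj => z1v j x (hlate k x hx j hj)
    rw [h1, S.wsum, Finset.sum_range_succ, add_assoc]
  have eT1 : ∀ k, ∀ x ∈ G k, J x + T1 x = S.Jk k x + (S.O k).T1 x := by
    intro k x hx
    have h1 : T1 x = ∑ j ∈ Finset.range (k + 1), (S.O j).T1 x :=
      tsum_eq_sum fun j hj => z1T j x (hlate k x hx j hj)
    rw [h1, S.Jsum, Finset.sum_range_succ, add_assoc]
  -- the medium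
  let f : ℕ → E3 → ℝ := fun k => (G k).indicator (fun x => (S.O k).γ x - c)
  have hf0 : ∀ k x, x ∉ G k → f k x = 0 := fun k x hx => indicator_of_notMem hx _
  let γ : E3 → ℝ := fun x => c + ∑' k, f k x
  have eγ : ∀ k, ∀ x ∈ G k, γ x = (S.O k).γ x := by
    intro k x hx
    have : ∑' k, f k x = f k x := vtsum_of_mem f G hGd hf0 hx
    simp only [γ, this, f, indicator_of_mem hx]
    ring
  have hγm : Measurable γ := by
    refine measurable_const.add (vtsum_measurable f G hGd hf0 fun k => ?_)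
    exact ((S.O k).γm.sub_const c).indicator (hGm k)
  have hγb : ∀ x, c ≤ γ x ∧ γ x ≤ C := by
    intro x
    by_cases h : ∃ k, x ∈ G k
    · obtain ⟨k, hk⟩ := h
      rw [eγ k x hk]
      exact (S.O k).γb x
    · push Not at h
      have : ∑' k, f k x = 0 := vtsum_of_notMem f G hf0 h
      simp only [γ, this, add_zero]
      exact ⟨le_rfl, hcC⟩
  -- Lipschitz bounds
  have uL : LipschitzWith (4 * L) u := by
    have h := lip_tsum _ _ (fun k => (S.O k).uL) G hGd zu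
    have e : (2 : ℝ≥0) * (2 * L) = 4 * L := by ring
    rwa [e] at h
  have V2L : LipschitzWith (4 * (L * Nb)) V2 := by
    have h := lip_tsum _ _ (fun k => (S.O k).v2L) G hGd zv
    have e : (2 : ℝ≥0) * (2 * (L * Nb)) = 4 * (L * Nb) := by ring
    rwa [e] at h
  have V1L : LipschitzWith N' V1 := by
    refine LipschitzWith.of_dist_le_mul fun x y => ?_
    have h1 : dist (V1 x) (V1 y) = ‖∑' k, ((S.O k).v1 x - (S.O k).v1 y)‖ := by
      rw [dist_eq_norm, Summable.tsum_sub (sv1 x) (sv1 y)]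
    have h2 : HasSum (fun k => 2 * (η k : ℝ) * dist x y) (N' * dist x y) := hηs.mul_right _
    rw [h1]
    refine tsum_of_norm_bounded h2 fun k => ?_
    have h3 := (S.O k).v1L.dist_le_mul x y
    rw [dist_eq_norm] at h3
    simpa using h3
  -- weak divergence
  have hW : ∀ g : ℕ → E3 → E3, (∀ k x, x ∉ G k → g k x = 0) → ∀ K : ℝ,
      (∀ k x, ‖g k x‖ ≤ K) → (∀ k, WDF (g k)) → WDF fun x => ∑' k, g k x := by
    intro g h0 K hK hWg
    exact wdf_tsum g hWg (vsummable_integral g G hGd hGm hvolV S.GV h0 K hK)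
  have RW : WDF R := hW _ zR _ (fun k x => ((S.O k).bds x).1) fun k => (S.O k).RW
  have T2W : WDF T2 := hW _ zT _ (fun k x => ((S.O k).bds x).2.2) fun k => (S.O k).T2W
  have T1W : WDF T1 := by
    refine wdf_tsum _ (fun k => (S.O k).T1W) ?_
    have hs : Summable fun k => (η k : ℝ) * volume.real V := hηs1.mul_right _
    refine Summable.of_nonneg_of_le (fun k => integral_nonneg fun x => norm_nonneg _) ?_ hs
    intro k
    have h1 : (∫ x, ‖(S.O k).T1 x‖) = ∫ x in V, ‖(S.O k).T1 x‖ := by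
      rw [setIntegral_eq_integral_of_forall_compl_eq_zero]
      intro x hx
      rw [z1T k x fun h => hx (S.subV k h), norm_zero]
    rw [h1]
    have h2 : ‖∫ x in V, ‖(S.O k).T1 x‖‖ ≤ η k * volume.real V := by
      refine norm_setIntegral_le_of_norm_le_const ?_ fun x _ => ?_
      · exact hvolV.lt_top
      · rw [norm_norm]; exact ((S.O k).bds x).2.1
    exact (le_abs_self _).trans h2
  have hRm : Measurable R := vtsum_measurable _ G hGd zR fun k => (S.O k).Rm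
  have hT2m : Measurable T2 := vtsum_measurable _ G hGd zT fun k => (S.O k).T2m
  have hT1m : Measurable T1 := measurable_vtsum _ sT1 fun k => (S.O k).T1m
  refine ⟨γ, u, fun x => V1 x + V2 x, R, fun x => T1 x + T2 x, hγm, hγb, uL, ?_, ?_, ?_, hRm,
    hT1m.add hT2m, ?_, RW, T1W.add T2W, ?_⟩
  · exact V1L.add V2L
  · intro x hx
    have hG : ∀ k, x ∉ G k := fun k h => hx (S.GV k h)
    have hΩ : ∀ k, x ∉ S.Ω k := fun k h => hx (S.subV k h)
    have e1 : V1 x = 0 := vtsum_of_notMem _ S.Ω z1v hΩ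
    have e2 : V2 x = 0 := vtsum_of_notMem _ G zv hG
    have e3 : T1 x = 0 := vtsum_of_notMem _ S.Ω z1T hΩ
    have e4 : T2 x = 0 := vtsum_of_notMem _ G zT hG
    refine ⟨vtsum_of_notMem _ G zu hG, ?_, vtsum_of_notMem _ G zR hG, ?_⟩
    · simp only [e1, e2, add_zero]
    · simp only [e3, e4, add_zero]
  · intro x
    have h1 : |u x| ≤ ε' / 2 :=
      vtsum_prop (fun k => (S.O k).u) G hGd zu (fun s => |s| ≤ ε' / 2) (by simpa using hε'0) x
        fun k => ((S.O k).small x).1.trans (hεk k)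
    have h2 : |V2 x| ≤ ε' / 2 :=
      vtsum_prop (fun k => (S.O k).v2) G hGd zv (fun s => |s| ≤ ε' / 2) (by simpa using hε'0) x
        fun k => ((S.O k).small x).2.2.trans (hεk k)
    have h3 : |V1 x| ≤ ε' / 2 := by
      rw [← Real.norm_eq_abs]
      exact tsum_of_norm_bounded hεs fun k => ((S.O k).small x).2.1
    refine ⟨by linarith, (abs_add_le _ _).trans (by linarith)⟩
  · intro x
    have h1 : ‖R x‖ ≤ L :=
      vtsum_prop (fun k => (S.O k).R) G hGd zR (fun s => ‖s‖ ≤ L) (by simp) x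
        fun k => ((S.O k).bds x).1
    have h2 : ‖T2 x‖ ≤ L * Nb :=
      vtsum_prop (fun k => (S.O k).T2) G hGd zT (fun s => ‖s‖ ≤ L * Nb)
        (by simp only [norm_zero]; positivity) x fun k => ((S.O k).bds x).2.2
    have h3 : ‖T1 x‖ ≤ N' := by
      refine tsum_of_norm_bounded hηs fun k => ?_
      have := ((S.O k).bds x).2.1
      have h0 : (0 : ℝ) ≤ η k := (η k).2
      linarith
    exact ⟨h1, (norm_add_le _ _).trans (add_le_add h3 h2)⟩
  · -- the relation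
    have hd1 : ∀ᵐ x, DifferentiableAt ℝ V1 x := V1L.ae_differentiableAt
    have hd2 : ∀ᵐ x, DifferentiableAt ℝ V2 x := V2L.ae_differentiableAt
    have hG : ∀ᵐ x ∂(volume.restrict (⋃ k, G k)),
        ee 2 + R x = γ x • M x (ee 2 + ∇ u x) ∧
        J x + (T1 x + T2 x) = γ x • M x (∇ w x + ∇ (fun x => V1 x + V2 x) x) := by
      refine (ae_restrict_iUnion_iff _ _).2 fun k => ?_
      filter_upwards [(S.O k).rel, ae_restrict_mem (hGm k), ae_restrict_of_ae hd1,
        ae_restrict_of_ae hd2] with x hx hxk hx1 hx2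
      have hxV : x ∈ V := S.GV k hxk
      have hwd : DifferentiableAt ℝ w x :=
        (hw.contDiffAt (hVo.mem_nhds hxV)).differentiableAt (by simp)
      have hnh : G k ∈ 𝓝 x := (S.O k).Gop.mem_nhds hxk
      have g1 : ∇ u x = ∇ (S.O k).u x := grad_congr (by
        filter_upwards [hnh] with y hy using eu k y hy)
      have g2 : ∇ V2 x = ∇ (S.O k).v2 x := grad_congr (by
        filter_upwards [hnh] with y hy using eV2 k y hy)
      have g3 : ∇ (fun y => w y + V1 y) x = ∇ (fun y => S.wk k y + (S.O k).v1 y) x :=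
        grad_congr (by filter_upwards [hnh] with y hy using eV1 k y hy)
      rw [grad_add hwd hx1] at g3
      have g4 : ∇ (fun x => V1 x + V2 x) x = ∇ V1 x + ∇ V2 x := grad_add hx1 hx2
      refine ⟨?_, ?_⟩
      · rw [g1, eγ k x hxk, eR k x hxk]
        exact hx.1
      · rw [g4, ← add_assoc, ← add_assoc, g3, g2, eγ k x hxk, eT1 k x hxk, eT2 k x hxk]
        exact hx.2
    have hdiff : ∀ᵐ x ∂(volume.restrict V), x ∈ ⋃ k, G k := by
      rw [ae_restrict_iff' hVo.measurableSet, ae_iff]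
      have : {x | ¬(x ∈ V → x ∈ ⋃ k, G k)} = V \ ⋃ k, G k := by
        ext x
        exact Classical.not_imp
      rw [this]
      exact S.null hvolV
    have hmU : MeasurableSet (⋃ k, G k) := MeasurableSet.iUnion hGm
    rw [ae_restrict_iff' hmU] at hG
    filter_upwards [ae_restrict_of_ae hG, hdiff] with x h1 h2 using h1 h2

end

end Crest.Agent.R083.Iso
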