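import Crest.Agent.R083.IsoDefs
import Crest.Agent.R083.Glue
import Crest.Agent.R083.WdfOps

/-!
Row 83 (S0111), ISO group: the local step of the isotropisation (helper771).
-/

set_option autoImplicit false

namespace Crest.Agent.R083.Iso

open MeasureTheory Set Filter Metric
open scoped Gradient ENNReal NNReal Topology ContDiff

/-- `HEll` is stable under small perturbations (with a loss in the constant). -/
theorem HEll_near {δ1 δ2 : ℝ} (h : δ2 < δ1) {p j : E3} (hE : HEll δ1 p j) :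
    ∃ κ : ℝ, 0 < κ ∧ ∀ p' j' : E3, ‖p' - p‖ ≤ κ → ‖j' - j‖ ≤ κ → HEll δ2 p' j' := by
  let S : Set (E3 × E3) := {q | 0 < q.1 0 ^ 2 + q.1 1 ^ 2 ∧
    δ2 * (q.1 0 ^ 2 + q.1 1 ^ 2 + q.2 0 ^ 2 + q.2 1 ^ 2) < q.2 0 * q.1 0 + q.2 1 * q.1 1}
  have hc1 : ∀ i : Fin 3, Continuous fun q : E3 × E3 => q.1 i := fun i => by fun_prop
  have hc2 : ∀ i : Fin 3, Continuous fun q : E3 × E3 => q.2 i := fun i => by fun_prop
  have o1 : IsOpen {q : E3 × E3 | 0 < q.1 0 ^ 2 + q.1 1 ^ 2} :=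
    isOpen_lt continuous_const (((hc1 0).pow 2).add ((hc1 1).pow 2))
  have o2 : IsOpen {q : E3 × E3 | δ2 * (q.1 0 ^ 2 + q.1 1 ^ 2 + q.2 0 ^ 2 + q.2 1 ^ 2) <
      q.2 0 * q.1 0 + q.2 1 * q.1 1} :=
    isOpen_lt (continuous_const.mul (((((hc1 0).pow 2).add ((hc1 1).pow 2)).add
      ((hc2 0).pow 2)).add ((hc2 1).pow 2)))
      (((hc2 0).mul (hc1 0)).add ((hc2 1).mul (hc1 1)))
  have hS : IsOpen S := o1.inter o2
  have hm : (p, j) ∈ S := by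
    refine ⟨hE.1, lt_of_lt_of_le ?_ hE.2⟩
    have h1 : 0 < p 0 ^ 2 + p 1 ^ 2 + j 0 ^ 2 + j 1 ^ 2 := by
      have := hE.1
      positivity
    exact mul_lt_mul_of_pos_right h h1
  obtain ⟨ρ, hρ, hb⟩ := Metric.isOpen_iff.1 hS _ hm
  refine ⟨ρ / 2, by positivity, fun p' j' h1 h2 => ?_⟩
  have h3 : (p', j') ∈ S := by
    apply hb
    rw [mem_ball, Prod.dist_eq, max_lt_iff]
    constructor
    · rw [dist_eq_norm]; simp only; linarith
    · rw [dist_eq_norm]; simp only; linarith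
  exact ⟨h3.1, h3.2.le⟩

/-- The local output of one step in the ball `ball a r`. -/
structure Loc (c C : ℝ) (L Nb : ℝ≥0) (δ2 N2 ε : ℝ) (η : ℝ≥0) (M : E3 → (E3 →L[ℝ] E3))
    (Ω : Set E3) (w : E3 → ℝ) (J : E3 → E3) (a : E3) (r : ℝ) where
  γ : E3 → ℝ
  u : E3 → ℝ
  v1 : E3 → ℝ
  v2 : E3 → ℝ
  R : E3 → E3
  T1 : E3 → E3
  T2 : E3 → E3
  cb : closedBall a r ⊆ Ω
  v1s : ContDiff ℝ ∞ v1
  T1s : ContDiff ℝ ∞ T1
  pde : ∀ x, fderiv ℝ v1 x (ee 2) = T1 x 2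
  dv : ∀ x, dvg T1 x = 0
  ell : ∀ x ∈ ball a r, HEll δ2 (∇ (fun x => w x + v1 x) x) (J x + T1 x)
  bd : ∀ x ∈ ball a r, ‖∇ (fun x => w x + v1 x) x‖ ≤ N2
  γm : Measurable γ
  γb : ∀ x, c ≤ γ x ∧ γ x ≤ C
  uL : LipschitzWith L u
  v1L : LipschitzWith η v1
  v2L : LipschitzWith (L * Nb) v2
  z1 : ∀ x, x ∉ ball a r → v1 x = 0 ∧ T1 x = 0
  z2 : ∀ x, x ∉ ball a (r / 2) → u x = 0 ∧ v2 x = 0 ∧ R x = 0 ∧ T2 x = 0
  small : ∀ x, |u x| ≤ ε ∧ |v1 x| ≤ ε ∧ |v2 x| ≤ ε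
  Rm : Measurable R
  T1m : Measurable T1
  T2m : Measurable T2
  bds : ∀ x, ‖R x‖ ≤ L ∧ ‖T1 x‖ ≤ η ∧ ‖T2 x‖ ≤ L * Nb
  RW : WDF R
  T1W : WDF T1
  T2W : WDF T2
  rel : ∀ᵐ x ∂(volume.restrict (ball a (r / 2))),
    ee 2 + R x = γ x • M x (ee 2 + ∇ u x) ∧
    J x + T1 x + T2 x = γ x • M x (∇ (fun x => w x + v1 x) x + ∇ v2 x)

theorem norm_ee (i : Fin 3) : ‖ee i‖ = 1 := by
  simp [ee]

theorem fderiv_eq_inner_grad (f : E3 → ℝ) (x y : E3) : fderiv ℝ f x y = inner ℝ (∇ f x) y := by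
  rw [grad_def, InnerProductSpace.toDual_symm_apply]

theorem grad_apply_two (f : E3 → ℝ) (x : E3) : (∇ f x) 2 = fderiv ℝ f x (ee 2) := by
  rw [fderiv_eq_inner_grad, ee, EuclideanSpace.inner_single_right]
  simp

/-- The gradient of an affine function. -/
theorem grad_affine (b : ℝ) (g a x : E3) : ∇ (fun y => b + inner ℝ g (y - a)) x = g := by
  have h1 : HasFDerivAt (fun y : E3 => b + inner ℝ g (y - a)) (innerSL ℝ g) x := by
    have h2 : HasFDerivAt (fun y : E3 => (innerSL ℝ g) (y - a)) (innerSL ℝ g) x :=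
      (innerSL ℝ g).hasFDerivAt.comp x ((hasFDerivAt_id x).sub_const a)
    simpa using h2.const_add b
  have h3 : ∇ (fun y : E3 => b + inner ℝ g (y - a)) x
      = (InnerProductSpace.toDual ℝ E3).symm (innerSL ℝ g) := by
    rw [grad_def, h1.fderiv]
  rw [h3]
  apply (InnerProductSpace.toDual ℝ E3).injective
  rw [LinearIsometryEquiv.apply_symm_apply]
  ext y
  simp

theorem HEll_mono {δ0 δ1 : ℝ} (h : δ0 ≤ δ1) {p j : E3} (hE : HEll δ1 p j) : HEll δ0 p j := by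
  refine ⟨hE.1, le_trans (mul_le_mul_of_nonneg_right h ?_) hE.2⟩
  positivity

theorem grad_continuousAt {f : E3 → ℝ} {Ω : Set E3} (hΩ : IsOpen Ω) (hf : ContDiffOn ℝ ∞ f Ω)
    {a : E3} (ha : a ∈ Ω) : ContinuousAt (∇ f) a := by
  have h1 : ContinuousAt (fderiv ℝ f) a :=
    (hf.continuousOn_fderiv_of_isOpen hΩ (by simp)).continuousAt (hΩ.mem_nhds ha)
  exact (InnerProductSpace.toDual ℝ E3).symm.continuous.continuousAt.comp h1

theorem grad_congr {f g : E3 → ℝ} {x : E3} (h : f =ᶠ[𝓝 x] g) : ∇ f x = ∇ g x := by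
  rw [grad_def, grad_def, h.fderiv_eq]

section
variable
    (flatten : ∀ (Ω : Set E3) (w : E3 → ℝ) (J : E3 → E3) (_ : Sys Ω w J)
    (a : E3) (_ : a ∈ Ω) (η : ℝ≥0) (_ : 0 < η),
    ∃ r0 : ℝ, 0 < r0 ∧ ∀ r : ℝ, 0 < r → r < r0 → ∃ (v : E3 → ℝ) (T : E3 → E3),
      ContDiff ℝ ∞ v ∧ ContDiff ℝ ∞ T ∧ (∀ x, x ∉ ball a r → v x = 0 ∧ T x = 0) ∧
      LipschitzWith η v ∧ (∀ x, |v x| ≤ η) ∧ (∀ x, ‖T x‖ ≤ η) ∧ WDF T ∧
      (∀ x, fderiv ℝ v x (ee 2) = T x 2) ∧ (∀ x, dvg T x = 0) ∧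
      ∀ x ∈ ball a (r / 2), w x + v x = w a + inner ℝ (∇ w a) (x - a) ∧ J x + T x = J a)

include flatten

theorem exists_loc {c C : ℝ} {L Nb : ℝ≥0} {δ0 δ' μ δ1 δ2 N1 N2 ε : ℝ} {η : ℝ≥0}
    (hT : ∀ p j : E3, HEll δ0 p j → p 2 = j 2 →
      ∃ A : E3 →L[ℝ] E3, Ell δ' A ∧ A (ee 2) = ee 2 ∧ A p = j)
    (hR : ∀ M A : E3 →L[ℝ] E3, Ell μ M → Ell δ' A → ResolvesM c C L M A)
    (h21 : δ2 < δ1) (h01 : δ0 ≤ δ1) (hN : N1 < N2) (hNb : N1 ≤ Nb)
    {Ω : Set E3} {w : E3 → ℝ} {J : E3 → E3} (hS : Sys Ω w J)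
    {M : E3 → (E3 →L[ℝ] E3)} (hM1 : ∀ x ∈ Ω, ∀ᶠ y in 𝓝 x, M y = M x)
    (hM2 : ∀ x ∈ Ω, Ell μ (M x)) (hE : ∀ x ∈ Ω, HEll δ1 (∇ w x) (J x))
    (hN1 : ∀ x ∈ Ω, ‖∇ w x‖ ≤ N1) (hε : 0 < ε) (hη : 0 < η) {a : E3} (ha : a ∈ Ω) :
    ∃ ρ : ℝ, 0 < ρ ∧ ∀ r, 0 < r → r < ρ → Nonempty (Loc c C L Nb δ2 N2 ε η M Ω w J a r) := by
  obtain ⟨κ, hκ, hκ'⟩ := HEll_near h21 (hE a ha)
  have hη' : (0 : ℝ) < η := hη
  have he1 : 0 < min (min (η : ℝ) ε) (min (κ / 2) (N2 - N1)) :=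
    lt_min (lt_min hη' hε) (lt_min (by positivity) (by linarith))
  obtain ⟨η1, hη1⟩ : ∃ η1 : ℝ≥0, (η1 : ℝ) = min (min (η : ℝ) ε) (min (κ / 2) (N2 - N1)) :=
    ⟨⟨_, he1.le⟩, rfl⟩
  have hη1pos : 0 < η1 := by
    have : (0 : ℝ) < η1 := by rw [hη1]; exact he1
    exact_mod_cast this
  have hη1η : (η1 : ℝ) ≤ η := by
    rw [hη1]; exact (min_le_left _ _).trans (min_le_left _ _)
  have hη1ε : (η1 : ℝ) ≤ ε := by
    rw [hη1]; exact (min_le_left _ _).trans (min_le_right _ _)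
  have hη1κ : (η1 : ℝ) ≤ κ / 2 := by
    rw [hη1]; exact (min_le_right _ _).trans (min_le_left _ _)
  have hη1N : (η1 : ℝ) ≤ N2 - N1 := by
    rw [hη1]; exact (min_le_right _ _).trans (min_le_right _ _)
  obtain ⟨r0, hr0, hfl⟩ := flatten Ω w J hS a ha η1 hη1pos
  have hev : ∀ᶠ y in 𝓝 a, y ∈ Ω ∧ M y = M a ∧ ‖∇ w y - ∇ w a‖ < κ / 2 ∧ ‖J y - J a‖ < κ / 2 := by
    have e1 : ∀ᶠ y in 𝓝 a, y ∈ Ω := hS.op.mem_nhds ha
    have e2 := hM1 a ha
    have e3 : ∀ᶠ y in 𝓝 a, ‖∇ w y - ∇ w a‖ < κ / 2 := by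
      have h1 := grad_continuousAt hS.op hS.hw ha
      have h2 : Tendsto (fun y => ‖∇ w y - ∇ w a‖) (𝓝 a) (𝓝 0) := by
        have := (h1.tendsto.sub_const (∇ w a)).norm
        simpa using this
      exact h2.eventually (gt_mem_nhds (by positivity))
    have e4 : ∀ᶠ y in 𝓝 a, ‖J y - J a‖ < κ / 2 := by
      have h1 : ContinuousAt J a := hS.hJ.continuousOn.continuousAt (hS.op.mem_nhds ha)
      have h2 : Tendsto (fun y => ‖J y - J a‖) (𝓝 a) (𝓝 0) := by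
        have := (h1.tendsto.sub_const (J a)).norm
        simpa using this
      exact h2.eventually (gt_mem_nhds (by positivity))
    filter_upwards [e1, e2, e3, e4] with y h1 h2 h3 h4 using ⟨h1, h2, h3, h4⟩
  obtain ⟨ρ1, hρ1, hball⟩ := Metric.eventually_nhds_iff.1 hev
  refine ⟨min r0 ρ1, lt_min hr0 hρ1, fun r hr hrρ => ?_⟩
  have hrr0 : r < r0 := lt_of_lt_of_le hrρ (min_le_left _ _)
  have hrρ1 : r < ρ1 := lt_of_lt_of_le hrρ (min_le_right _ _)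
  obtain ⟨v, T, hvs, hTs, hz, hvL, hvb, hTb, hTW, hpde, hdv, haff⟩ := hfl r hr hrr0
  obtain ⟨A, hA, hA2, hAp⟩ := hT (∇ w a) (J a) (HEll_mono h01 (hE a ha))
    (by rw [grad_apply_two]; exact hS.h2 a ha)
  obtain ⟨γ, hγm, hγb, hγ⟩ := hR (M a) A (hM2 a ha) hA (ball a (r / 2)) isOpen_ball
    isBounded_ball ε (max 1 ‖∇ w a‖) hε
  obtain ⟨u, R, huL, hu0, hub, hRm, hRb, hR0, hRW, hRrel⟩ := hγ (ee 2) (by
    rw [norm_ee]; exact le_max_left _ _)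
  obtain ⟨v2, T2, hv2L, hv20, hv2b, hT2m, hT2b, hT20, hT2W, hT2rel⟩ := hγ (∇ w a)
    (le_max_right _ _)
  have hNa : ‖∇ w a‖ ≤ Nb := (hN1 a ha).trans hNb
  have hin : ∀ y ∈ closedBall a r, y ∈ Ω ∧ M y = M a ∧ ‖∇ w y - ∇ w a‖ < κ / 2 ∧
      ‖J y - J a‖ < κ / 2 := fun y hy => hball (lt_of_le_of_lt (mem_closedBall.1 hy) hrρ1)
  have hgr : ∀ y ∈ ball a r, ∇ (fun x => w x + v x) y = ∇ w y + ∇ v y := by
    intro y hy
    have hyΩ := (hin y (ball_subset_closedBall hy)).1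
    refine grad_add ?_ ?_
    · exact (hS.hw.contDiffAt (hS.op.mem_nhds hyΩ)).differentiableAt (by simp)
    · exact (hvs.contDiffAt).differentiableAt (by simp)
  have hgv : ∀ y, ‖∇ v y‖ ≤ η1 := fun y => norm_grad_le hvL y
  refine ⟨{ γ := γ, u := u, v1 := v, v2 := v2, R := R, T1 := T, T2 := T2,
            cb := fun y hy => (hin y hy).1
            v1s := hvs, T1s := hTs, pde := hpde, dv := hdv
            ell := ?_, bd := ?_, γm := hγm, γb := hγb, uL := ?_, v1L := ?_, v2L := ?_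
            z1 := hz
            z2 := fun x hx => ⟨hu0 x hx, hv20 x hx, hR0 x hx, hT20 x hx⟩
            small := fun x => ⟨hub x, (hvb x).trans hη1ε, hv2b x⟩
            Rm := hRm, T1m := hTs.continuous.measurable, T2m := hT2m
            bds := ?_, RW := hRW, T1W := hTW, T2W := hT2W, rel := ?_ }⟩
  · intro x hx
    obtain ⟨_, _, h3, h4⟩ := hin x (ball_subset_closedBall hx)
    refine hκ' _ _ ?_ ?_
    · rw [hgr x hx]
      have : ∇ w x + ∇ v x - ∇ w a = (∇ w x - ∇ w a) + ∇ v x := by abel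
      rw [this]
      refine (norm_add_le _ _).trans ?_
      have := hgv x
      linarith
    · have : J x + T x - J a = (J x - J a) + T x := by abel
      rw [this]
      refine (norm_add_le _ _).trans ?_
      have := hTb x
      linarith
  · intro x hx
    rw [hgr x hx]
    refine (norm_add_le _ _).trans ?_
    have h1 := hgv x
    have h2 := hN1 x (hin x (ball_subset_closedBall hx)).1
    linarith
  · have : ‖ee 2‖₊ = 1 := by
      apply NNReal.coe_injective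
      rw [coe_nnnorm, norm_ee]; rfl
    rw [this, mul_one] at huL
    exact huL
  · exact hvL.weaken hη1η
  · refine hv2L.weaken ?_
    gcongr
    exact_mod_cast hNa
  · intro x
    refine ⟨?_, (hTb x).trans hη1η, (hT2b x).trans ?_⟩
    · have := hRb x
      rwa [norm_ee, mul_one] at this
    · gcongr
  · have hsub : ball a (r / 2) ⊆ ball a r := ball_subset_ball (by linarith)
    filter_upwards [hRrel, hT2rel, ae_restrict_mem measurableSet_ball] with x h1 h2 hx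
    have hMx : M x = M a := (hin x (ball_subset_closedBall (hsub hx))).2.1
    have hJx : J x + T x = J a := (haff x hx).2
    have hgx : ∇ (fun x => w x + v x) x = ∇ w a := by
      have : (fun x => w x + v x) =ᶠ[𝓝 x] fun y => w a + inner ℝ (∇ w a) (y - a) := by
        filter_upwards [isOpen_ball.mem_nhds hx] with y hy using (haff y hy).1
      rw [grad_congr this, grad_affine]
    refine ⟨?_, ?_⟩
    · rw [hMx, ← h1, hA2]
    · rw [hMx, hgx, hJx, ← h2, hAp]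

end

end Crest.Agent.R083.Iso
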