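import Crest.Agent.R083.IsoIter

/-!
Row 83 (S0111), ISO group: isotropisation, from the flattening lemma and the realisation of
constant tensors (helper771).
-/

set_option autoImplicit false

namespace Crest.Agent.R083.Iso

open MeasureTheory Set Filter Metric
open scoped Gradient ENNReal NNReal Topology ContDiff

theorem ResolvesM_mono {c C C' : ℝ} {L : ℝ≥0} {M A : E3 →L[ℝ] E3} (h : C ≤ C')
    (hR : ResolvesM c C L M A) : ResolvesM c C' L M A := by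
  intro U hU hUb ε B hε
  obtain ⟨γ, h1, h2, h3⟩ := hR U hU hUb ε B hε
  exact ⟨γ, h1, fun x => ⟨(h2 x).1, (h2 x).2.trans h⟩, h3⟩

theorem iso_of
    (exists_tensor : ∀ (δ : ℝ) (_ : 0 < δ), ∃ δ' : ℝ, 0 < δ' ∧ ∀ p j : E3, HEll δ p j →
      p 2 = j 2 → ∃ A : E3 →L[ℝ] E3, Ell δ' A ∧ A (ee 2) = ee 2 ∧ A p = j)
    (resolvesM_all : ∀ (δ μ : ℝ) (_ : 0 < δ) (_ : 0 < μ),
      ∃ (c C : ℝ) (L : ℝ≥0), 0 < c ∧
        ∀ M A : E3 →L[ℝ] E3, Ell μ M → Ell δ A → ResolvesM c C L M A)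
    (flatten : ∀ (Ω : Set E3) (w : E3 → ℝ) (J : E3 → E3) (_ : Sys Ω w J)
      (a : E3) (_ : a ∈ Ω) (η : ℝ≥0) (_ : 0 < η),
      ∃ r0 : ℝ, 0 < r0 ∧ ∀ r : ℝ, 0 < r → r < r0 → ∃ (v : E3 → ℝ) (T : E3 → E3),
        ContDiff ℝ ∞ v ∧ ContDiff ℝ ∞ T ∧ (∀ x, x ∉ ball a r → v x = 0 ∧ T x = 0) ∧
        LipschitzWith η v ∧ (∀ x, |v x| ≤ η) ∧ (∀ x, ‖T x‖ ≤ η) ∧ WDF T ∧
        (∀ x, fderiv ℝ v x (ee 2) = T x 2) ∧ (∀ x, dvg T x = 0) ∧
        ∀ x ∈ ball a (r / 2), w x + v x = w a + inner ℝ (∇ w a) (x - a) ∧ J x + T x = J a)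
    (δ μ : ℝ) (hδ : 0 < δ) (hμ : 0 < μ) :
    ∃ (c C : ℝ) (L : ℝ≥0), 0 < c ∧
      ∀ (V : Set E3), IsOpen V → Bornology.IsBounded V →
      ∀ (M : E3 → (E3 →L[ℝ] E3)), (∀ x ∈ V, ∀ᶠ y in 𝓝 x, M y = M x) →
        (∀ x ∈ V, Ell μ (M x)) →
      ∀ (w : E3 → ℝ) (J : E3 → E3) (N : ℝ≥0), ContDiffOn ℝ ∞ w V → ContDiffOn ℝ ∞ J V →
        (∀ x ∈ V, fderiv ℝ w x (ee 2) = J x 2) → (∀ x ∈ V, dvg J x = 0) →
        (∀ x ∈ V, HEll δ (∇ w x) (J x)) → (∀ x ∈ V, ‖∇ w x‖ ≤ N) →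
      ∀ ε : ℝ, 0 < ε →
      ∃ (γ : E3 → ℝ) (u v : E3 → ℝ) (R T : E3 → E3),
        Measurable γ ∧ (∀ x, c ≤ γ x ∧ γ x ≤ C) ∧
        LipschitzWith L u ∧ LipschitzWith (L * N) v ∧
        (∀ x, x ∉ V → u x = 0 ∧ v x = 0 ∧ R x = 0 ∧ T x = 0) ∧
        (∀ x, |u x| ≤ ε ∧ |v x| ≤ ε) ∧ Measurable R ∧ Measurable T ∧
        (∀ x, ‖R x‖ ≤ L ∧ ‖T x‖ ≤ L * N) ∧ WDF R ∧ WDF T ∧
        ∀ᵐ x ∂(volume.restrict V),
          ee 2 + R x = γ x • M x (ee 2 + ∇ u x) ∧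
          J x + T x = γ x • M x (∇ w x + ∇ v x) := by
  obtain ⟨δ', hδ', hT⟩ := exists_tensor (δ / 2) (half_pos hδ)
  obtain ⟨c, C, L0, hc, hR⟩ := resolvesM_all δ' μ hδ' hμ
  refine ⟨c, max c C, 8 * L0 + 1, hc, ?_⟩
  intro V hV hVb M hM1 hM2 w J N hw hJ h2 hd hE hN ε hε
  have hR' : ∀ M A : E3 →L[ℝ] E3, Ell μ M → Ell δ' A → ResolvesM c (max c C) L0 M A :=
    fun M A h1 h2 => ResolvesM_mono (le_max_right _ _) (hR M A h1 h2)
  have hcC : c ≤ max c C := le_max_left _ _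
  have hS : Sys V w J := ⟨hV, hw, hJ, h2, hd⟩
  rcases eq_or_lt_of_le (show (0 : ℝ≥0) ≤ N from bot_le) with hN0 | hN0
  · -- the set is empty
    have hVe : V = ∅ := by
      refine eq_empty_of_forall_notMem fun x hx => ?_
      have h3 : ‖∇ w x‖ ≤ 0 := by
        have := hN x hx
        rwa [← hN0, NNReal.coe_zero] at this
      have h4 : ∇ w x = 0 := norm_le_zero_iff.1 h3
      have h5 := (hE x hx).1
      rw [h4] at h5
      simp at h5
    refine ⟨fun _ => c, fun _ => 0, fun _ => 0, fun _ => 0, fun _ => 0, measurable_const,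
      fun _ => ⟨le_rfl, hcC⟩, ?_, ?_, fun _ _ => ⟨rfl, rfl, rfl, rfl⟩, ?_, measurable_const,
      measurable_const, ?_, WDF.zero, WDF.zero, ?_⟩
    · exact (LipschitzWith.const 0).weaken bot_le
    · exact (LipschitzWith.const 0).weaken bot_le
    · intro x
      simp [hε.le]
    · intro x
      simp only [norm_zero]
      exact ⟨by positivity, by positivity⟩
    · rw [hVe, Measure.restrict_empty]
      simp
  · have hN0' : (0 : ℝ) < N := hN0
    let δs : ℕ → ℝ := fun k => δ / 2 + δ / 2 * (1 / 2) ^ k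
    let Ns : ℕ → ℝ := fun k => N * (2 - (1 / 2) ^ k)
    let εs : ℕ → ℝ := fun k => ε / 2 / 2 / 2 ^ k
    let ηs : ℕ → ℝ≥0 := fun k => N / 4 / 2 ^ k
    have hp0 : ∀ k : ℕ, (0 : ℝ) < (1 / 2) ^ k := fun k => by positivity
    have hp1 : ∀ k : ℕ, ((1 : ℝ) / 2) ^ (k + 1) < (1 / 2) ^ k := fun k => by
      rw [pow_succ]
      have := hp0 k
      linarith
    have hεs0 : ∀ k, 0 < εs k := fun k => by
      simp only [εs]; positivity
    have hstep : ∀ k (Ω : Set E3) (w : E3 → ℝ) (J : E3 → E3), Ω ⊆ V → Sys Ω w J →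
        (∀ x ∈ Ω, HEll (δs k) (∇ w x) (J x)) → (∀ x ∈ Ω, ‖∇ w x‖ ≤ Ns k) →
        Nonempty (StepOut c (max c C) L0 (2 * N) (δs (k + 1)) (Ns (k + 1)) (εs k) (ηs k)
          M Ω w J) := by
      intro k Ω w J hΩ hS' hE' hN'
      refine iso_step hcC (hεs0 k).le hS' (hVb.subset hΩ) fun a ha => ?_
      refine exists_loc flatten hT hR' ?_ ?_ ?_ ?_ hS' (fun x hx => hM1 x (hΩ hx))
        (fun x hx => hM2 x (hΩ hx)) hE' hN' (hεs0 k) ?_ ha
      · have h3 := hp1 k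
        have h4 : 0 < δ / 2 := half_pos hδ
        simp only [δs]
        nlinarith
      · have h4 : 0 < δ / 2 := half_pos hδ
        have h5 := mul_pos h4 (hp0 k)
        simp only [δs]
        linarith
      · have h3 := hp1 k
        simp only [Ns]
        nlinarith
      · have h5 := mul_pos hN0' (hp0 k)
        simp only [Ns]
        push_cast
        nlinarith
      · simp only [ηs]; positivity
    obtain ⟨S⟩ := exists_sq (δ := δs) (N := Ns) (ε := εs) (η := ηs) hstep hS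
      (by
        intro x hx
        have : δs 0 = δ := by simp only [δs, pow_zero]; ring
        rw [this]
        exact hE x hx)
      (by
        intro x hx
        have : Ns 0 = N := by simp only [Ns, pow_zero]; ring
        rw [this]
        exact hN x hx)
    obtain ⟨γ, u, v, R, T, h1, h2, h3, h4, h5, h6, h7, h8, h9, h10, h11, h12⟩ :=
      S.final (N' := N) (ε' := ε) hcC hV hVb hw (fun k => (hεs0 k).le)
        (hasSum_geometric_two' (ε / 2))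
        (by
          have := hasSum_geometric_two' (N : ℝ)
          convert this using 1
          ext k
          simp only [ηs]
          push_cast
          ring)
    refine ⟨γ, u, v, R, T, h1, h2, h3.weaken ?_, h4.weaken ?_, h5, h6, h7, h8, ?_, h10, h11, h12⟩
    · have : (4 : ℝ≥0) * L0 ≤ 8 * L0 := by gcongr; norm_num
      exact this.trans (le_add_of_nonneg_right (by norm_num))
    · apply le_of_eq
      ring
    · intro x
      obtain ⟨h13, h14⟩ := h9 x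
      have hL0 : (0 : ℝ) ≤ L0 := L0.2
      push_cast at h14 ⊢
      refine ⟨by linarith, ?_⟩
      have h15 : 0 ≤ (L0 : ℝ) * N := by positivity
      nlinarith

end Crest.Agent.R083.Iso
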