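import Crest.Agent.R083.IsoLoc
import Crest.Agent.R083.Wdf

/-!
Row 83 (S0111), ISO group: one global step of the isotropisation (helper771).
-/

set_option autoImplicit false

namespace Crest.Agent.R083.Iso

open MeasureTheory Set Filter Metric
open scoped Gradient ENNReal NNReal Topology ContDiff

section Sums

variable {ι : Type*} {F : Type*}

theorem vtsum_of_mem [AddCommMonoid F] [TopologicalSpace F] (f : ι → E3 → F) (U : ι → Set E3)
    (hU : Pairwise (Function.onFun Disjoint U))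
    (h0 : ∀ i x, x ∉ U i → f i x = 0) {i : ι} {x : E3} (hx : x ∈ U i) :
    ∑' j, f j x = f i x := by
  refine tsum_eq_single i fun j hj => h0 j x fun hxj => ?_
  exact Set.disjoint_left.1 (hU hj) hxj hx

theorem vtsum_of_notMem [AddCommMonoid F] [TopologicalSpace F] (f : ι → E3 → F) (U : ι → Set E3)
    (h0 : ∀ i x, x ∉ U i → f i x = 0) {x : E3} (hx : ∀ i, x ∉ U i) :
    ∑' j, f j x = 0 := by
  have : (fun j => f j x) = fun _ => 0 := funext fun j => h0 j x (hx j)
  rw [this, tsum_zero]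

/-- A property of the value of a disjoint sum. -/
theorem vtsum_prop [AddCommMonoid F] [TopologicalSpace F] (f : ι → E3 → F) (U : ι → Set E3)
    (hU : Pairwise (Function.onFun Disjoint U))
    (h0 : ∀ i x, x ∉ U i → f i x = 0) (P : F → Prop) (hP0 : P 0) (x : E3)
    (hP : ∀ i, P (f i x)) : P (∑' j, f j x) := by
  by_cases h : ∃ i, x ∈ U i
  · obtain ⟨i, hi⟩ := h
    rw [vtsum_of_mem f U hU h0 hi]
    exact hP i
  · push Not at h
    rw [vtsum_of_notMem f U h0 h]
    exact hP0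

theorem vtsum_measurable [Countable ι] [NormedAddCommGroup F]
    [MeasurableSpace F] [BorelSpace F] [SecondCountableTopology F]
    (f : ι → E3 → F) (U : ι → Set E3)
    (hU : Pairwise (Function.onFun Disjoint U))
    (h0 : ∀ i x, x ∉ U i → f i x = 0) (hf : ∀ i, Measurable (f i)) :
    Measurable fun x => ∑' j, f j x := by
  classical
  have hs : ∀ x, HasSum (fun j => f j x) (∑' j, f j x) := by
    intro x
    by_cases h : ∃ i, x ∈ U i
    · obtain ⟨i, hi⟩ := h
      rw [vtsum_of_mem f U hU h0 hi]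
      refine hasSum_single i fun j hj => h0 j x fun hxj => ?_
      exact Set.disjoint_left.1 (hU hj) hxj hi
    · push Not at h
      rw [vtsum_of_notMem f U h0 h]
      have : (fun j => f j x) = fun _ => 0 := funext fun j => h0 j x (h j)
      rw [this]
      exact hasSum_zero
  refine measurable_of_tendsto_metrizable' (u := (atTop : Filter (Finset ι)))
    (f := fun s x => ∑ j ∈ s, f j x) (fun s => ?_) ?_
  · exact Finset.measurable_fun_sum s fun i _ => hf i
  · rw [tendsto_pi_nhds]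
    intro x
    exact hs x

/-- Integrals of bounded fields with disjoint bounded supports are summable. -/
theorem vsummable_integral [Countable ι] [NormedAddCommGroup F] (f : ι → E3 → F) (U : ι → Set E3)
    (hU : Pairwise (Function.onFun Disjoint U)) (hUm : ∀ i, MeasurableSet (U i))
    {Ω : Set E3} (hΩ : volume Ω ≠ ⊤) (hUΩ : ∀ i, U i ⊆ Ω)
    (h0 : ∀ i x, x ∉ U i → f i x = 0) (K : ℝ) (hK : ∀ i x, ‖f i x‖ ≤ K) :
    Summable fun i => ∫ x, ‖f i x‖ := by
  have hfin : ∑' i, volume (U i) ≠ ⊤ := by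
    rw [← measure_iUnion hU hUm]
    exact ne_top_of_le_ne_top hΩ (measure_mono (iUnion_subset hUΩ))
  have hs : Summable fun i => K * volume.real (U i) :=
    (ENNReal.summable_toReal hfin).mul_left K
  refine Summable.of_nonneg_of_le (fun i => integral_nonneg fun x => norm_nonneg _) ?_ hs
  intro i
  have h1 : (∫ x, ‖f i x‖) = ∫ x in U i, ‖f i x‖ := by
    rw [setIntegral_eq_integral_of_forall_compl_eq_zero]
    intro x hx
    rw [h0 i x hx, norm_zero]
  rw [h1]
  have h2 : ‖∫ x in U i, ‖f i x‖‖ ≤ K * volume.real (U i) := by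
    refine norm_setIntegral_le_of_norm_le_const ?_ fun x _ => ?_
    · exact lt_of_le_of_lt (measure_mono (hUΩ i)) hΩ.lt_top
    · rw [norm_norm]; exact hK i x
  exact (le_abs_self _).trans h2

end Sums

/-- The output of one global step. -/
structure StepOut (c C : ℝ) (L Nb : ℝ≥0) (δ2 N2 ε : ℝ) (η : ℝ≥0) (M : E3 → (E3 →L[ℝ] E3))
    (Ω : Set E3) (w : E3 → ℝ) (J : E3 → E3) where
  Ω' : Set E3
  G : Set E3
  γ : E3 → ℝ
  u : E3 → ℝ
  v1 : E3 → ℝ
  v2 : E3 → ℝ
  R : E3 → E3
  T1 : E3 → E3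
  T2 : E3 → E3
  sub : Ω' ⊆ Ω
  Gop : IsOpen G
  Gsub : G ⊆ Ω
  disj : Disjoint G Ω'
  null : volume (Ω \ (G ∪ Ω')) = 0
  vol : volume Ω' ≤ ENNReal.ofReal (7 / 8) * volume Ω
  sys : Sys Ω' (fun x => w x + v1 x) (fun x => J x + T1 x)
  ell : ∀ x ∈ Ω', HEll δ2 (∇ (fun x => w x + v1 x) x) (J x + T1 x)
  bd : ∀ x ∈ Ω', ‖∇ (fun x => w x + v1 x) x‖ ≤ N2
  γm : Measurable γ
  γb : ∀ x, c ≤ γ x ∧ γ x ≤ C
  uL : LipschitzWith (2 * L) u
  v1L : LipschitzWith (2 * η) v1
  v2L : LipschitzWith (2 * (L * Nb)) v2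
  zG : ∀ x, x ∉ G → u x = 0 ∧ v2 x = 0 ∧ R x = 0 ∧ T2 x = 0
  zΩ : ∀ x, x ∉ Ω → v1 x = 0 ∧ T1 x = 0
  small : ∀ x, |u x| ≤ ε ∧ |v1 x| ≤ ε ∧ |v2 x| ≤ ε
  Rm : Measurable R
  T1m : Measurable T1
  T2m : Measurable T2
  bds : ∀ x, ‖R x‖ ≤ L ∧ ‖T1 x‖ ≤ η ∧ ‖T2 x‖ ≤ L * Nb
  RW : WDF R
  T1W : WDF T1
  T2W : WDF T2
  rel : ∀ᵐ x ∂(volume.restrict G),
    ee 2 + R x = γ x • M x (ee 2 + ∇ u x) ∧
    J x + T1 x + T2 x = γ x • M x (∇ (fun x => w x + v1 x) x + ∇ v2 x)

theorem volume_annulus (a : E3) {r : ℝ} (hr : 0 < r) :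
    volume (ball a r \ closedBall a (r / 2)) = ENNReal.ofReal (7 / 8) * volume (ball a r) := by
  have hfr : Module.finrank ℝ E3 = 3 := by simp [E3]
  have h1 : volume (closedBall a (r / 2)) = ENNReal.ofReal (1 / 8) * volume (ball a r) := by
    rw [Measure.addHaar_closedBall volume a (by positivity : 0 ≤ r / 2),
      Measure.addHaar_ball volume a hr.le, hfr, ← mul_assoc,
      ← ENNReal.ofReal_mul (by norm_num)]
    congr 2
    ring
  have hfin : volume (ball a r) ≠ ⊤ := measure_ball_lt_top.ne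
  have hsub : closedBall a (r / 2) ⊆ ball a r := closedBall_subset_ball (by linarith)
  rw [measure_diff hsub isClosed_closedBall.measurableSet.nullMeasurableSet
    (ne_top_of_le_ne_top hfin (measure_mono hsub)), h1]
  have h2 : volume (ball a r) = ENNReal.ofReal 1 * volume (ball a r) := by simp
  conv_lhs => rw [h2]
  rw [ENNReal.ofReal_one, one_mul]
  refine ENNReal.sub_eq_of_eq_add ?_ ?_
  · exact ENNReal.mul_ne_top ENNReal.ofReal_ne_top hfin
  · rw [← add_mul, ← ENNReal.ofReal_add (by norm_num) (by norm_num)]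
    norm_num

theorem iso_step
    {c C : ℝ} {L Nb : ℝ≥0} {δ2 N2 ε : ℝ} {η : ℝ≥0} (hcC : c ≤ C) (hε : 0 ≤ ε)
    {Ω : Set E3} {w : E3 → ℝ} {J : E3 → E3} (hS : Sys Ω w J) (hΩb : Bornology.IsBounded Ω)
    {M : E3 → (E3 →L[ℝ] E3)}
    (hloc : ∀ a ∈ Ω, ∃ ρ : ℝ, 0 < ρ ∧ ∀ r, 0 < r → r < ρ →
      Nonempty (Loc c C L Nb δ2 N2 ε η M Ω w J a r)) :
    Nonempty (StepOut c C L Nb δ2 N2 ε η M Ω w J) := by
  classical
  have hvolΩ : volume Ω ≠ ⊤ := hΩb.measure_lt_top.ne
  choose! ρ hρ hL using hloc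
  obtain ⟨t, r, htc, htΩ, hr, hnull, hdis⟩ :=
    Besicovitch.exists_disjoint_closedBall_covering_ae (volume : Measure E3) (fun _ => univ) Ω
      (fun x _ δ hδ => ⟨δ / 2, mem_univ _, by constructor <;> linarith⟩) ρ hρ
  haveI : Countable t := htc.to_subtype
  have hr0 : ∀ i : t, 0 < r i := fun i => (hr i i.2).2.1
  let D : ∀ i : t, Loc c C L Nb δ2 N2 ε η M Ω w J i (r i) := fun i =>
    (hL i (htΩ i.2) (r i) (hr0 i) (hr i i.2).2.2).some
  let B : t → Set E3 := fun i => ball i (r i)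
  let Bh : t → Set E3 := fun i => ball i (r i / 2)
  have hBhB : ∀ i, Bh i ⊆ B i := fun i => ball_subset_ball (by have := hr0 i; linarith)
  have hcd : Pairwise (Function.onFun Disjoint fun i : t => closedBall (i : E3) (r i)) := by
    intro i j hij
    exact hdis i.2 j.2 (fun h => hij (Subtype.ext h))
  have hBd : Pairwise (Function.onFun Disjoint B) := fun i j hij =>
    (hcd hij).mono ball_subset_closedBall ball_subset_closedBall
  have hBhd : Pairwise (Function.onFun Disjoint Bh) := fun i j hij =>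
    (hBd hij).mono (hBhB i) (hBhB j)
  have hBΩ : ∀ i, B i ⊆ Ω := fun i => ball_subset_closedBall.trans (D i).cb
  have z1v : ∀ i x, x ∉ B i → (D i).v1 x = 0 := fun i x hx => ((D i).z1 x hx).1
  have z1T : ∀ i x, x ∉ B i → (D i).T1 x = 0 := fun i x hx => ((D i).z1 x hx).2
  have z2u : ∀ i x, x ∉ Bh i → (D i).u x = 0 := fun i x hx => ((D i).z2 x hx).1
  have z2v : ∀ i x, x ∉ Bh i → (D i).v2 x = 0 := fun i x hx => ((D i).z2 x hx).2.1
  have z2R : ∀ i x, x ∉ Bh i → (D i).R x = 0 := fun i x hx => ((D i).z2 x hx).2.2.1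
  have z2T : ∀ i x, x ∉ Bh i → (D i).T2 x = 0 := fun i x hx => ((D i).z2 x hx).2.2.2
  -- the sums
  let u : E3 → ℝ := fun x => ∑' i, (D i).u x
  let v1 : E3 → ℝ := fun x => ∑' i, (D i).v1 x
  let v2 : E3 → ℝ := fun x => ∑' i, (D i).v2 x
  let R : E3 → E3 := fun x => ∑' i, (D i).R x
  let T1 : E3 → E3 := fun x => ∑' i, (D i).T1 x
  let T2 : E3 → E3 := fun x => ∑' i, (D i).T2 x
  have ev1 : ∀ i, ∀ x ∈ B i, v1 x = (D i).v1 x := fun i x hx =>
    vtsum_of_mem (fun i => (D i).v1) B hBd z1v hx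
  have eT1 : ∀ i, ∀ x ∈ B i, T1 x = (D i).T1 x := fun i x hx =>
    vtsum_of_mem (fun i => (D i).T1) B hBd z1T hx
  have eu : ∀ i, ∀ x ∈ Bh i, u x = (D i).u x := fun i x hx =>
    vtsum_of_mem (fun i => (D i).u) Bh hBhd z2u hx
  have ev2 : ∀ i, ∀ x ∈ Bh i, v2 x = (D i).v2 x := fun i x hx =>
    vtsum_of_mem (fun i => (D i).v2) Bh hBhd z2v hx
  have eR : ∀ i, ∀ x ∈ Bh i, R x = (D i).R x := fun i x hx =>
    vtsum_of_mem (fun i => (D i).R) Bh hBhd z2R hx
  have eT2 : ∀ i, ∀ x ∈ Bh i, T2 x = (D i).T2 x := fun i x hx =>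
    vtsum_of_mem (fun i => (D i).T2) Bh hBhd z2T hx
  -- the medium
  let f : t → E3 → ℝ := fun i => (Bh i).indicator (fun x => (D i).γ x - c)
  have hf0 : ∀ i x, x ∉ Bh i → f i x = 0 := fun i x hx => indicator_of_notMem hx _
  let γ : E3 → ℝ := fun x => c + ∑' i, f i x
  have eγ : ∀ i, ∀ x ∈ Bh i, γ x = (D i).γ x := by
    intro i x hx
    have : ∑' i, f i x = f i x := vtsum_of_mem f Bh hBhd hf0 hx
    simp only [γ, this, f, indicator_of_mem hx]
    ring
  have hγm : Measurable γ := by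
    refine measurable_const.add (vtsum_measurable f Bh hBhd hf0 fun i => ?_)
    exact ((D i).γm.sub_const c).indicator measurableSet_ball
  have hγb : ∀ x, c ≤ γ x ∧ γ x ≤ C := by
    intro x
    by_cases h : ∃ i, x ∈ Bh i
    · obtain ⟨i, hi⟩ := h
      rw [eγ i x hi]
      exact (D i).γb x
    · push Not at h
      have : ∑' i, f i x = 0 := vtsum_of_notMem f Bh hf0 h
      simp only [γ, this, add_zero]
      exact ⟨le_rfl, hcC⟩
  -- gradients near points of the balls
  have ew : ∀ i, ∀ x ∈ B i, (fun y => w y + v1 y) =ᶠ[𝓝 x] fun y => w y + (D i).v1 y := by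
    intro i x hx
    filter_upwards [isOpen_ball.mem_nhds hx] with y hy
    rw [ev1 i y hy]
  have eJ : ∀ i, ∀ x ∈ B i, (fun y => J y + T1 y) =ᶠ[𝓝 x] fun y => J y + (D i).T1 y := by
    intro i x hx
    filter_upwards [isOpen_ball.mem_nhds hx] with y hy
    rw [eT1 i y hy]
  let Ω' : Set E3 := ⋃ i : t, (B i \ closedBall (i : E3) (r i / 2))
  let G : Set E3 := ⋃ i : t, Bh i
  have hΩ'B : ∀ x ∈ Ω', ∃ i, x ∈ B i := fun x hx => by
    obtain ⟨i, hi⟩ := mem_iUnion.1 hx
    exact ⟨i, hi.1⟩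
  have hΩ'op : IsOpen Ω' := isOpen_iUnion fun i => isOpen_ball.sdiff isClosed_closedBall
  have hGn : ∀ x, x ∉ G → ∀ i, x ∉ Bh i := fun x hx i hi => hx (mem_iUnion.2 ⟨i, hi⟩)
  have hsum : ∀ (g : t → E3 → E3) (U : t → Set E3), (∀ i, U i ⊆ B i) →
      (∀ i, MeasurableSet (U i)) → Pairwise (Function.onFun Disjoint U) →
      (∀ i x, x ∉ U i → g i x = 0) → ∀ K : ℝ, (∀ i x, ‖g i x‖ ≤ K) → (∀ i, WDF (g i)) →
      WDF fun x => ∑' i, g i x := by
    intro g U hUB hUm hUd h0 K hK hW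
    exact wdf_tsum g hW (vsummable_integral g U hUd hUm hvolΩ (fun i => (hUB i).trans (hBΩ i))
      h0 K hK)
  refine ⟨{ Ω' := Ω', G := G, γ := γ, u := u, v1 := v1, v2 := v2, R := R, T1 := T1, T2 := T2
            sub := ?_, Gop := isOpen_iUnion fun i => isOpen_ball, Gsub := ?_, disj := ?_
            null := ?_, vol := ?_, sys := ?_, ell := ?_, bd := ?_, γm := hγm, γb := hγb
            uL := ?_, v1L := ?_, v2L := ?_, zG := ?_, zΩ := ?_, small := ?_
            Rm := ?_, T1m := ?_, T2m := ?_, bds := ?_, RW := ?_, T1W := ?_, T2W := ?_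
            rel := ?_ }⟩
  · exact iUnion_subset fun i => diff_subset.trans (hBΩ i)
  · exact iUnion_subset fun i => (hBhB i).trans (hBΩ i)
  · rw [disjoint_iUnion_left]
    intro i
    rw [disjoint_iUnion_right]
    intro j
    by_cases hij : i = j
    · subst hij
      exact disjoint_left.2 fun x hx hx' => hx'.2 (ball_subset_closedBall hx)
    · exact (hBd hij).mono (hBhB i) diff_subset
  · -- null set
    have hsub : Ω \ (G ∪ Ω') ⊆ (Ω \ ⋃ x ∈ t, closedBall x (r x)) ∪
        ⋃ i : t, (sphere (i : E3) (r i) ∪ sphere (i : E3) (r i / 2)) := by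
      intro x hx
      by_cases h : x ∈ ⋃ x ∈ t, closedBall x (r x)
      · right
        rw [mem_iUnion₂] at h
        obtain ⟨a, ha, hxa⟩ := h
        refine mem_iUnion.2 ⟨⟨a, ha⟩, ?_⟩
        by_contra hns
        rw [mem_union, not_or] at hns
        apply hx.2
        have h1 : dist x a < r a := lt_of_le_of_ne (mem_closedBall.1 hxa) hns.1
        rcases lt_trichotomy (dist x a) (r a / 2) with h2 | h2 | h2
        · exact Or.inl (mem_iUnion.2 ⟨⟨a, ha⟩, h2⟩)
        · exact absurd h2 hns.2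
        · refine Or.inr (mem_iUnion.2 ⟨⟨a, ha⟩, h1, fun h3 => ?_⟩)
          exact absurd (mem_closedBall.1 h3) (not_le.2 h2)
      · exact Or.inl ⟨hx.1, h⟩
    refine measure_mono_null hsub (measure_union_null hnull (measure_iUnion_null fun i => ?_))
    exact measure_union_null (Measure.addHaar_sphere _ _ _) (Measure.addHaar_sphere _ _ _)
  · -- volume
    calc volume Ω' ≤ ∑' i : t, volume (B i \ closedBall (i : E3) (r i / 2)) :=
          measure_iUnion_le _
      _ = ∑' i : t, ENNReal.ofReal (7 / 8) * volume (B i) := by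
          congr 1
          ext i
          exact volume_annulus _ (hr0 i)
      _ = ENNReal.ofReal (7 / 8) * ∑' i : t, volume (B i) := ENNReal.tsum_mul_left
      _ = ENNReal.ofReal (7 / 8) * volume (⋃ i, B i) := by
          rw [measure_iUnion hBd fun i => measurableSet_ball]
      _ ≤ ENNReal.ofReal (7 / 8) * volume Ω := by
          gcongr
          exact iUnion_subset hBΩ
  · -- the system
    refine ⟨hΩ'op, ?_, ?_, ?_, ?_⟩
    · intro x hx
      obtain ⟨i, hi⟩ := hΩ'B x hx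
      have h1 : ContDiffAt ℝ ∞ (fun y => w y + (D i).v1 y) x :=
        (hS.hw.contDiffAt (hS.op.mem_nhds (hBΩ i hi))).add (D i).v1s.contDiffAt
      exact (h1.congr_of_eventuallyEq (ew i x hi)).contDiffWithinAt
    · intro x hx
      obtain ⟨i, hi⟩ := hΩ'B x hx
      have h1 : ContDiffAt ℝ ∞ (fun y => J y + (D i).T1 y) x :=
        (hS.hJ.contDiffAt (hS.op.mem_nhds (hBΩ i hi))).add (D i).T1s.contDiffAt
      exact (h1.congr_of_eventuallyEq (eJ i x hi)).contDiffWithinAt
    · intro x hx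
      obtain ⟨i, hi⟩ := hΩ'B x hx
      have hd1 : DifferentiableAt ℝ w x :=
        (hS.hw.contDiffAt (hS.op.mem_nhds (hBΩ i hi))).differentiableAt (by simp)
      have hd2 : DifferentiableAt ℝ (D i).v1 x :=
        ((D i).v1s.contDiffAt).differentiableAt (by simp)
      rw [(ew i x hi).fderiv_eq, fderiv_fun_add hd1 hd2]
      have h1 := hS.h2 x (hBΩ i hi)
      have h2 := (D i).pde x
      simp only [ContinuousLinearMap.add_apply, h1, h2, eT1 i x hi, PiLp.add_apply]
    · intro x hx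
      obtain ⟨i, hi⟩ := hΩ'B x hx
      have hd1 : DifferentiableAt ℝ J x :=
        (hS.hJ.contDiffAt (hS.op.mem_nhds (hBΩ i hi))).differentiableAt (by simp)
      have hd2 : DifferentiableAt ℝ (D i).T1 x :=
        ((D i).T1s.contDiffAt).differentiableAt (by simp)
      have h1 := hS.hd x (hBΩ i hi)
      have h2 := (D i).dv x
      unfold dvg at h1 h2 ⊢
      rw [(eJ i x hi).fderiv_eq, fderiv_fun_add hd1 hd2]
      simp only [ContinuousLinearMap.add_apply, PiLp.add_apply, Finset.sum_add_distrib]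
      rw [h1, h2, add_zero]
  · intro x hx
    obtain ⟨i, hi⟩ := hΩ'B x hx
    rw [grad_congr (ew i x hi), eT1 i x hi]
    exact (D i).ell x hi
  · intro x hx
    obtain ⟨i, hi⟩ := hΩ'B x hx
    rw [grad_congr (ew i x hi)]
    exact (D i).bd x hi
  · exact lip_tsum _ _ (fun i => (D i).uL) Bh hBhd z2u
  · exact lip_tsum _ _ (fun i => (D i).v1L) B hBd z1v
  · exact lip_tsum _ _ (fun i => (D i).v2L) Bh hBhd z2v
  · intro x hx
    have h := hGn x hx
    exact ⟨vtsum_of_notMem _ Bh z2u h, vtsum_of_notMem _ Bh z2v h, vtsum_of_notMem _ Bh z2R h,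
      vtsum_of_notMem _ Bh z2T h⟩
  · intro x hx
    have h : ∀ i, x ∉ B i := fun i hi => hx (hBΩ i hi)
    exact ⟨vtsum_of_notMem _ B z1v h, vtsum_of_notMem _ B z1T h⟩
  · intro x
    refine ⟨?_, ?_, ?_⟩
    · exact vtsum_prop (fun i => (D i).u) Bh hBhd z2u (fun s => |s| ≤ ε) (by simpa using hε) x
        fun i => ((D i).small x).1
    · exact vtsum_prop (fun i => (D i).v1) B hBd z1v (fun s => |s| ≤ ε) (by simpa using hε) x
        fun i => ((D i).small x).2.1
    · exact vtsum_prop (fun i => (D i).v2) Bh hBhd z2v (fun s => |s| ≤ ε) (by simpa using hε) x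
        fun i => ((D i).small x).2.2
  · exact vtsum_measurable _ Bh hBhd z2R fun i => (D i).Rm
  · exact vtsum_measurable _ B hBd z1T fun i => (D i).T1m
  · exact vtsum_measurable _ Bh hBhd z2T fun i => (D i).T2m
  · intro x
    refine ⟨?_, ?_, ?_⟩
    · exact vtsum_prop (fun i => (D i).R) Bh hBhd z2R (fun s => ‖s‖ ≤ L) (by simp) x
        fun i => ((D i).bds x).1
    · exact vtsum_prop (fun i => (D i).T1) B hBd z1T (fun s => ‖s‖ ≤ η) (by simp) x
        fun i => ((D i).bds x).2.1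
    · exact vtsum_prop (fun i => (D i).T2) Bh hBhd z2T (fun s => ‖s‖ ≤ L * Nb)
        (by simp only [norm_zero]; positivity) x fun i => ((D i).bds x).2.2
  · exact hsum _ Bh hBhB (fun i => measurableSet_ball) hBhd z2R _
      (fun i x => ((D i).bds x).1) fun i => (D i).RW
  · exact hsum _ B (fun i => Subset.rfl) (fun i => measurableSet_ball) hBd z1T _
      (fun i x => ((D i).bds x).2.1) fun i => (D i).T1W
  · exact hsum _ Bh hBhB (fun i => measurableSet_ball) hBhd z2T _
      (fun i x => ((D i).bds x).2.2) fun i => (D i).T2W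
  · refine (ae_restrict_iUnion_iff _ _).2 fun i => ?_
    filter_upwards [(D i).rel, ae_restrict_mem measurableSet_ball] with x hx hxi
    have hxB : x ∈ B i := hBhB i hxi
    have g1 : ∇ u x = ∇ (D i).u x := grad_congr (by
      filter_upwards [isOpen_ball.mem_nhds hxi] with y hy using eu i y hy)
    have g2 : ∇ v2 x = ∇ (D i).v2 x := grad_congr (by
      filter_upwards [isOpen_ball.mem_nhds hxi] with y hy using ev2 i y hy)
    rw [g1, g2, grad_congr (ew i x hxB), eγ i x hxi, eR i x hxi, eT1 i x hxB, eT2 i x hxi]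
    exact hx

end Crest.Agent.R083.Iso
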