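import Crest.Agent.R083.BoxFubini

/-!
Row 83 (S0111): `iso` for a square integrable, possibly unbounded gradient.
-/

set_option autoImplicit false

namespace Crest.Agent.R083

open MeasureTheory Set Filter
open scoped Gradient ENNReal NNReal Topology ContDiff

/-- Convergence in `L²` from convergence of the integrals of squares. -/
theorem tendsto_eLpNorm_two_of_integral {ν : Measure E3} (g : ℕ → E3 → E3)
    (hg : ∀ n, MemLp (g n) 2 ν)
    (h : Tendsto (fun n => ∫ x, ‖g n x‖ ^ 2 ∂ν) atTop (𝓝 0)) :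
    Tendsto (fun n => eLpNorm (g n) 2 ν) atTop (𝓝 0) := by
  have h1 : ∀ n, eLpNorm (g n) 2 ν = ENNReal.ofReal ((∫ x, ‖g n x‖ ^ 2 ∂ν) ^ (2⁻¹ : ℝ)) := by
    intro n
    have := (hg n).eLpNorm_eq_integral_rpow_norm two_ne_zero ENNReal.ofNat_ne_top
    simpa using this
  simp_rw [h1]
  have h2 : Tendsto (fun n => (∫ x, ‖g n x‖ ^ 2 ∂ν) ^ (2⁻¹ : ℝ)) atTop (𝓝 ((0:ℝ) ^ (2⁻¹ : ℝ))) :=
    h.rpow_const (Or.inr (by norm_num))
  rw [Real.zero_rpow (by norm_num)] at h2
  simpa using ENNReal.tendsto_ofReal h2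

section pick

variable {F : Type*} [NormedAddCommGroup F] (A : ℕ → Set E3)

theorem pick_tsum (hA : Pairwise (Function.onFun Disjoint A)) (g : ℕ → E3 → F)
    (hg : ∀ m x, x ∉ A m → g m x = 0) (m : ℕ) (x : E3) (hx : x ∈ A m) :
    ∑' k, g k x = g m x := by
  refine tsum_eq_single m fun k hk => hg k x fun hxk => ?_
  exact Set.disjoint_left.1 (hA hk) hxk hx

theorem pick_tsum_zero (g : ℕ → E3 → F)
    (hg : ∀ m x, x ∉ A m → g m x = 0) (x : E3) (hx : ∀ m, x ∉ A m) :
    ∑' k, g k x = 0 := by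
  have : ∀ k, g k x = 0 := fun k => hg k x (hx k)
  simp [this]

theorem pick_sum (hA : Pairwise (Function.onFun Disjoint A)) (g : ℕ → E3 → F)
    (hg : ∀ m x, x ∉ A m → g m x = 0) (n m : ℕ) (x : E3) (hx : x ∈ A m) :
    ∑ k ∈ Finset.range n, g k x = if m < n then g m x else 0 := by
  have h0 : ∀ k, k ≠ m → g k x = 0 := fun k hk => hg k x fun hxk =>
    Set.disjoint_left.1 (hA hk) hxk hx
  split_ifs with h
  · rw [Finset.sum_eq_single m (fun k _ hk => h0 k hk)]
    intro h'
    exact absurd (Finset.mem_range.2 h) h'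
  · refine Finset.sum_eq_zero fun k hk => h0 k ?_
    have := Finset.mem_range.1 hk
    omega

theorem pick_tendsto (hA : Pairwise (Function.onFun Disjoint A)) (g : ℕ → E3 → F)
    (hg : ∀ m x, x ∉ A m → g m x = 0) (x : E3) :
    Tendsto (fun n => ∑ k ∈ Finset.range n, g k x) atTop (𝓝 (∑' k, g k x)) := by
  by_cases hx : ∃ m, x ∈ A m
  · obtain ⟨m, hm⟩ := hx
    rw [pick_tsum A hA g hg m x hm]
    refine tendsto_const_nhds.congr' ?_
    filter_upwards [eventually_gt_atTop m] with n hn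
    rw [pick_sum A hA g hg n m x hm, if_pos hn]
  · push Not at hx
    rw [pick_tsum_zero A g hg x hx]
    refine tendsto_const_nhds.congr' ?_
    filter_upwards with n
    exact (Finset.sum_eq_zero fun k _ => hg k x (hx k)).symm

theorem pick_measurable [MeasurableSpace F] [BorelSpace F] [SecondCountableTopology F]
    (hA : Pairwise (Function.onFun Disjoint A)) (g : ℕ → E3 → F)
    (hg : ∀ m x, x ∉ A m → g m x = 0) (hm : ∀ m, Measurable (g m)) :
    Measurable (fun x => ∑' k, g k x) := by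
  refine measurable_of_tendsto_metrizable (f := fun n x => ∑ k ∈ Finset.range n, g k x)
    (fun n => ?_) ?_
  · exact Finset.measurable_fun_sum _ fun k _ => hm k
  · rw [tendsto_pi_nhds]
    exact fun x => pick_tendsto A hA g hg x

end pick

theorem lip_sum_range (g : ℕ → E3 → ℝ) (hg : ∀ m, ∃ K : ℝ≥0, LipschitzWith K (g m)) (n : ℕ) :
    ∃ K : ℝ≥0, LipschitzWith K (fun x => ∑ k ∈ Finset.range n, g k x) := by
  induction n with
  | zero => exact ⟨0, by simp [LipschitzWith.const (0:ℝ)]⟩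
  | succ n ih =>
    obtain ⟨K, hK⟩ := ih
    obtain ⟨K', hK'⟩ := hg n
    refine ⟨K + K', ?_⟩
    simp_rw [Finset.sum_range_succ]
    exact hK.add hK'

/-- A generic scale: no level set of `f` at a positive multiple of `t` has positive measure. -/
theorem generic_scale {ν : Measure E3} [SFinite ν] (f : E3 → ℝ) (hf : Measurable f) :
    ∃ t : ℝ, 1 < t ∧ t < 2 ∧ ∀ m : ℕ, ν {x | f x = t * ((m : ℝ) + 1)} = 0 := by
  have h0 := Measure.countable_meas_level_set_pos (μ := ν) hf
  have h1 : (⋃ m : ℕ, (fun t : ℝ => t * ((m : ℝ) + 1)) ⁻¹' {t | 0 < ν {x | f x = t}}).Countable := by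
    refine countable_iUnion fun m => h0.preimage_of_injOn ?_
    intro a _ b _ hab
    have : ((m : ℝ) + 1) ≠ 0 := by positivity
    exact mul_right_cancel₀ this hab
  obtain ⟨t, ht, ht'⟩ := (h1.dense_compl ℝ).exists_mem_open isOpen_Ioo
    (nonempty_Ioo.2 (by norm_num : (1:ℝ) < 2))
  refine ⟨t, ht'.1, ht'.2, fun m => ?_⟩
  simp only [mem_compl_iff, mem_iUnion, not_exists, mem_preimage] at ht
  have := ht m
  simpa using this

/-- The conclusion of `iso` with all constants fixed. -/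
def IsoStmt (δ μ c C : ℝ) (L : ℝ≥0) : Prop :=
  ∀ (V : Set E3), IsOpen V → Bornology.IsBounded V →
      ∀ (M : E3 → (E3 →L[ℝ] E3)), (∀ x ∈ V, ∀ᶠ y in 𝓝 x, M y = M x) →
        (∀ x ∈ V, Ell μ (M x)) →
      ∀ (w : E3 → ℝ) (J : E3 → E3) (N : ℝ≥0), ContDiffOn ℝ ∞ w V → ContDiffOn ℝ ∞ J V →
        (∀ x ∈ V, fderiv ℝ w x (ee 2) = J x 2) → (∀ x ∈ V, dvg J x = 0) →
        (∀ x ∈ V, HEll δ (∇ w x) (J x)) → (∀ x ∈ V, ‖∇ w x‖ ≤ N) →
      ∀ ε : ℝ, 0 < ε →
      ∃ (γ : E3 → ℝ) (u v : E3 → ℝ) (R T : E3 → E3),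
        Measurable γ ∧ (∀ x, c ≤ γ x ∧ γ x ≤ C) ∧
        LipschitzWith L u ∧ LipschitzWith (L * N) v ∧
        (∀ x, x ∉ V → u x = 0 ∧ v x = 0 ∧ R x = 0 ∧ T x = 0) ∧
        (∀ x, |u x| ≤ ε ∧ |v x| ≤ ε) ∧ Measurable R ∧ Measurable T ∧
        (∀ x, ‖R x‖ ≤ L ∧ ‖T x‖ ≤ L * N) ∧ WDF R ∧ WDF T ∧
        ∀ᵐ x ∂(volume.restrict V),
          ee 2 + R x = γ x • M x (ee 2 + ∇ u x) ∧
          J x + T x = γ x • M x (∇ w x + ∇ v x)

/-- The statement of `lip_tsum` for sequences. -/
def LipStmt : Prop := ∀ (f : ℕ → E3 → ℝ) (K : ℝ≥0), (∀ i, LipschitzWith K (f i)) →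
  ∀ U : ℕ → Set E3, Pairwise (Function.onFun Disjoint U) → (∀ i x, x ∉ U i → f i x = 0) →
    LipschitzWith (2 * K) (fun x => ∑' i, f i x)

/-- The statement of `wdf_tsum` for sequences. -/
def WdfStmt : Prop := ∀ (R : ℕ → E3 → E3), (∀ i, WDF (R i)) →
  Summable (fun i => ∫ x, ‖R i x‖) → WDF (fun x => ∑' i, R i x)

theorem gradient_congr_nhds (f g : E3 → ℝ) (x : E3) (h : f =ᶠ[𝓝 x] g) : ∇ f x = ∇ g x := by
  unfold gradient
  rw [h.fderiv_eq]

set_option maxHeartbeats 1000000 in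
theorem iso_unb (hlip : LipStmt) (hwdf : WdfStmt) (δ μ c C : ℝ) (L : ℝ≥0)
    (hiso : IsoStmt δ μ c C L) (V : Set E3) (hV : IsOpen V) (hVb : Bornology.IsBounded V)
    (M : E3 → (E3 →L[ℝ] E3)) (hM1 : ∀ x ∈ V, ∀ᶠ y in 𝓝 x, M y = M x)
    (hM2 : ∀ x ∈ V, Ell μ (M x)) (w : E3 → ℝ) (J : E3 → E3)
    (hw : ContDiffOn ℝ ∞ w V) (hJ : ContDiffOn ℝ ∞ J V)
    (h1 : ∀ x ∈ V, fderiv ℝ w x (ee 2) = J x 2) (h2 : ∀ x ∈ V, dvg J x = 0)
    (h3 : ∀ x ∈ V, HEll δ (∇ w x) (J x)) (hint : IntegrableOn (fun x => ‖∇ w x‖ ^ 2) V volume) :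
    ∃ (γ u : E3 → ℝ) (v : ℕ → E3 → ℝ) (v' : E3 → ℝ) (R T H : E3 → E3),
      Measurable γ ∧ (∀ x, c ≤ γ x ∧ γ x ≤ C) ∧ LipschitzWith (2 * L) u ∧
      (∀ x, x ∉ V → u x = 0) ∧ (∀ m, ∃ K : ℝ≥0, LipschitzWith K (v m)) ∧
      (∀ m x, x ∉ V → v m x = 0) ∧
      (∀ m x, |v m x - v' x| ≤ (1/2) ^ m) ∧
      Measurable H ∧ MemLp H 2 (volume.restrict V) ∧
      Tendsto (fun m => eLpNorm (fun x => ∇ (v m) x - H x) 2 (volume.restrict V)) atTop (𝓝 0) ∧
      WDF R ∧ WDF T ∧ (∀ x, x ∉ V → R x = 0 ∧ T x = 0) ∧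
      ∀ᵐ x ∂(volume.restrict V), ee 2 + R x = γ x • M x (ee 2 + ∇ u x) ∧
        J x + T x = γ x • M x (∇ w x + H x) := by
  classical
  have hVfin : volume V < ⊤ := hVb.measure_lt_top
  have : IsFiniteMeasure (volume.restrict V) := ⟨by simpa using hVfin⟩
  set f : E3 → ℝ := fun x => ‖∇ w x‖ with hf
  have hfm : Measurable f := (measurable_gradient w).norm
  have hf0 : ∀ x ∈ V, 0 < f x := by
    intro x hx
    have h4 := (h3 x hx).1
    refine norm_pos_iff.2 fun h => ?_
    rw [h] at h4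
    simp at h4
  have hfc : ContinuousOn f V := by
    have h5 : ContinuousOn (fderiv ℝ w) V := hw.continuousOn_fderiv_of_isOpen hV (by simp)
    have h6 : ContinuousOn (fun x => ‖fderiv ℝ w x‖) V := h5.norm
    refine h6.congr fun x _ => ?_
    simp only [hf, norm_gradient]
  obtain ⟨t, ht1, ht2, htm⟩ := generic_scale (ν := volume.restrict V) f hfm
  have ht0 : 0 < t := by linarith
  set A : ℕ → Set E3 := fun m => V ∩ {x | t * m < f x ∧ f x < t * (m + 1)} with hA
  have hAV : ∀ m, A m ⊆ V := fun m => inter_subset_left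
  have hAo : ∀ m, IsOpen (A m) := by
    intro m
    exact hfc.isOpen_inter_preimage hV (isOpen_Ioo (a := t * m) (b := t * (m + 1)))
  have hAm : ∀ m, MeasurableSet (A m) := fun m => (hAo m).measurableSet
  have hAd : Pairwise (Function.onFun Disjoint A) := by
    have key : ∀ m k : ℕ, m < k → Disjoint (A m) (A k) := by
      intro m k hmk
      rw [Set.disjoint_left]
      intro x hx hx'
      have h4 : f x < t * (m + 1) := hx.2.2
      have h5 : t * k < f x := hx'.2.1
      have h6 : ((m : ℝ) + 1) ≤ k := by exact_mod_cast hmk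
      have h7 : t * (m + 1) ≤ t * k := mul_le_mul_of_nonneg_left h6 ht0.le
      linarith
    intro m k hmk
    rcases lt_or_gt_of_ne hmk with h | h
    · exact key m k h
    · exact (key k m h).symm
  have hcov : ∀ᵐ x ∂(volume.restrict V), ∃ m, x ∈ A m := by
    have h4 : ∀ᵐ x ∂(volume.restrict V), ∀ m : ℕ, f x ≠ t * ((m : ℝ) + 1) :=
      ae_all_iff.2 fun m => by
        rw [ae_iff]; simpa using htm m
    filter_upwards [h4, ae_restrict_mem hV.measurableSet] with x hx hxV
    refine ⟨⌊f x / t⌋₊, hxV, ?_, ?_⟩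
    · have h5 : ((⌊f x / t⌋₊ : ℕ) : ℝ) ≤ f x / t := Nat.floor_le (div_nonneg (norm_nonneg _) ht0.le)
      have h6 : t * (⌊f x / t⌋₊ : ℕ) ≤ f x := by
        have := mul_le_mul_of_nonneg_left h5 ht0.le
        rwa [mul_div_cancel₀ _ ht0.ne'] at this
      refine lt_of_le_of_ne h6 fun h7 => ?_
      rcases Nat.eq_zero_or_pos ⌊f x / t⌋₊ with h8 | h8
      · rw [h8] at h7
        have := hf0 x hxV
        simp at h7
        linarith
      · obtain ⟨n, hn⟩ := Nat.exists_eq_succ_of_ne_zero h8.ne'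
        apply hx n
        rw [← h7, hn]
        push_cast
        ring
    · have h5 : f x / t < ⌊f x / t⌋₊ + 1 := Nat.lt_floor_add_one _
      have := mul_lt_mul_of_pos_left h5 ht0
      rwa [mul_div_cancel₀ _ ht0.ne'] at this
  set N : ℕ → ℝ≥0 := fun m => ⟨t * (m + 1), by positivity⟩ with hN
  have hNle : ∀ m, ∀ x ∈ A m, ((N m : ℝ≥0) : ℝ) ≤ f x + 2 := by
    intro m x hx
    have h4 : t * m < f x := hx.2.1
    show t * ((m:ℝ) + 1) ≤ f x + 2
    nlinarith
  choose γ u v R T hγm hγb hu hv h0 hsm hRm hTm hRT hWR hWT hrel using fun m : ℕ =>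
    hiso (A m) (hAo m) (hVb.subset (hAV m)) M (fun x hx => hM1 x (hAV m hx))
      (fun x hx => hM2 x (hAV m hx)) w J (N m) (hw.mono (hAV m)) (hJ.mono (hAV m))
      (fun x hx => h1 x (hAV m hx)) (fun x hx => h2 x (hAV m hx)) (fun x hx => h3 x (hAV m hx))
      (fun x hx => hx.2.2.le) ((1/2) ^ m) (by positivity)
  have hcC : c ≤ C := (hγb 0 0).1.trans (hγb 0 0).2
  have hu0 : ∀ m x, x ∉ A m → u m x = 0 := fun m x hx => (h0 m x hx).1
  have hv0 : ∀ m x, x ∉ A m → v m x = 0 := fun m x hx => (h0 m x hx).2.1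
  have hR0 : ∀ m x, x ∉ A m → R m x = 0 := fun m x hx => (h0 m x hx).2.2.1
  have hT0 : ∀ m x, x ∉ A m → T m x = 0 := fun m x hx => (h0 m x hx).2.2.2
  have hg0 : ∀ m x, x ∉ A m → (A m).indicator (fun x => γ m x - c) x = 0 := fun m x hx =>
    indicator_of_notMem hx _
  have hH0 : ∀ m x, x ∉ A m → (A m).indicator (∇ (v m)) x = 0 := fun m x hx =>
    indicator_of_notMem hx _
  set H : E3 → E3 := fun x => ∑' m, (A m).indicator (∇ (v m)) x with hH
  have hHpick : ∀ m, ∀ x ∈ A m, H x = ∇ (v m) x := by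
    intro m x hx
    have := pick_tsum A hAd (fun m => (A m).indicator (∇ (v m))) hH0 m x hx
    simp only [hH]
    rw [this, indicator_of_mem hx]
  have hHm : Measurable H :=
    pick_measurable A hAd (fun m => (A m).indicator (∇ (v m))) hH0
      (fun m => (measurable_gradient (v m)).indicator (hAm m))
  have hHb : ∀ m, ∀ x ∈ A m, ‖H x‖ ≤ L * (f x + 2) := by
    intro m x hx
    rw [hHpick m x hx]
    refine (norm_gradient_le (v m) _ (hv m) x).trans ?_
    rw [NNReal.coe_mul]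
    exact mul_le_mul_of_nonneg_left (hNle m x hx) L.coe_nonneg
  have hHbae : ∀ᵐ x ∂(volume.restrict V), ‖H x‖ ≤ L * (f x + 2) := by
    filter_upwards [hcov] with x ⟨m, hm⟩
    exact hHb m x hm
  have hf2 : MemLp f 2 (volume.restrict V) := by
    rw [memLp_two_iff_integrable_sq hfm.aestronglyMeasurable]
    exact hint
  have hbd2 : MemLp (fun x => (L:ℝ) * (f x + 2)) 2 (volume.restrict V) :=
    (hf2.add (memLp_const (2:ℝ))).const_mul (L:ℝ)
  have hH2 : MemLp H 2 (volume.restrict V) := by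
    refine hbd2.mono hHm.aestronglyMeasurable ?_
    filter_upwards [hHbae] with x hx
    exact hx.trans (le_abs_self _)
  have hbd1 : Integrable (fun x => (L:ℝ) * (f x + 2)) (volume.restrict V) :=
    hbd2.integrable one_le_two
  have hUV : (⋃ m, A m) ⊆ V := iUnion_subset hAV
  have hbdU : IntegrableOn (fun x => (L:ℝ) * (f x + 2)) (⋃ m, A m) volume :=
    IntegrableOn.mono_set hbd1 hUV
  have hsumb : Summable fun m => ∫ x in A m, (L:ℝ) * (f x + 2) :=
    (hasSum_integral_iUnion hAm hAd hbdU).summable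
  have hsummable : ∀ Q : ℕ → E3 → E3, (∀ m, Measurable (Q m)) → (∀ m x, x ∉ A m → Q m x = 0) →
      (∀ m, ∀ x ∈ A m, ‖Q m x‖ ≤ L * (f x + 2)) → Summable fun m => ∫ x, ‖Q m x‖ := by
    intro Q hQm hQ0 hQb
    refine Summable.of_nonneg_of_le (fun m => integral_nonneg fun x => norm_nonneg _)
      (fun m => ?_) hsumb
    rw [← setIntegral_eq_integral_of_forall_compl_eq_zero (s := A m)
      (fun x hx => by rw [hQ0 m x hx, norm_zero])]
    have hi2 : IntegrableOn (fun x => (L:ℝ) * (f x + 2)) (A m) volume :=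
      IntegrableOn.mono_set hbd1 (hAV m)
    refine setIntegral_mono_on ?_ hi2 (hAm m) (hQb m)
    refine Integrable.mono' hi2 (hQm m).norm.aestronglyMeasurable ?_
    filter_upwards [ae_restrict_mem (hAm m)] with x hx
    rw [norm_norm]
    exact hQb m x hx
  have hgradS : ∀ n m, ∀ x ∈ A m, ∇ (fun x => ∑ k ∈ Finset.range n, v k x) x =
      if m < n then ∇ (v m) x else 0 := by
    intro n m x hx
    split_ifs with h
    · refine gradient_congr_nhds _ _ x ?_
      filter_upwards [(hAo m).mem_nhds hx] with y hy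
      rw [pick_sum A hAd v hv0 n m y hy, if_pos h]
    · have h4 : ∇ (fun x => ∑ k ∈ Finset.range n, v k x) x = ∇ (fun _ : E3 => (0:ℝ)) x := by
        refine gradient_congr_nhds _ _ x ?_
        filter_upwards [(hAo m).mem_nhds hx] with y hy
        rw [pick_sum A hAd v hv0 n m y hy, if_neg h]
      rw [h4]
      simp [gradient]
  have hgH : ∀ n m, ∀ x ∈ A m, ∇ (fun x => ∑ k ∈ Finset.range n, v k x) x - H x =
      if m < n then 0 else - H x := by
    intro n m x hx
    rw [hgradS n m x hx]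
    split_ifs with h
    · rw [hHpick m x hx, sub_self]
    · rw [zero_sub]
  have hgHle : ∀ n, ∀ᵐ x ∂(volume.restrict V),
      ‖∇ (fun x => ∑ k ∈ Finset.range n, v k x) x - H x‖ ≤ ‖H x‖ := by
    intro n
    filter_upwards [hcov] with x ⟨m, hm⟩
    rw [hgH n m x hm]
    split_ifs
    · simp
    · rw [norm_neg]
  have hgHm : ∀ n, Measurable fun x => ∇ (fun x => ∑ k ∈ Finset.range n, v k x) x - H x :=
    fun n => (measurable_gradient _).sub hHm
  refine ⟨fun x => c + ∑' m, (A m).indicator (fun x => γ m x - c) x, fun x => ∑' m, u m x,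
    fun n x => ∑ k ∈ Finset.range n, v k x, fun x => ∑' m, v m x, fun x => ∑' m, R m x,
    fun x => ∑' m, T m x, H, ?_, ?_, ?_, ?_, ?_, ?_, ?_, hHm, hH2, ?_, ?_, ?_, ?_, ?_⟩
  · exact measurable_const.add (pick_measurable A hAd (fun m => (A m).indicator (fun x => γ m x - c))
      hg0 (fun m => ((hγm m).sub measurable_const).indicator (hAm m)))
  · intro x
    by_cases hx : ∃ m, x ∈ A m
    · obtain ⟨m, hm⟩ := hx
      have := pick_tsum A hAd (fun m => (A m).indicator (fun x => γ m x - c)) hg0 m x hm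
      simp only [this, indicator_of_mem hm]
      have h4 := hγb m x
      constructor <;> linarith [h4.1, h4.2]
    · push Not at hx
      have := pick_tsum_zero A (fun m => (A m).indicator (fun x => γ m x - c)) hg0 x hx
      simp only [this]
      constructor <;> linarith
  · exact hlip u L hu A hAd hu0
  · intro x hx
    exact pick_tsum_zero A u hu0 x fun m hm => hx (hAV m hm)
  · exact fun n => lip_sum_range v (fun m => ⟨_, hv m⟩) n
  · intro n x hx
    exact Finset.sum_eq_zero fun k _ => hv0 k x fun hm => hx (hAV k hm)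
  · intro n x
    by_cases hx : ∃ m, x ∈ A m
    · obtain ⟨m, hm⟩ := hx
      simp only
      rw [pick_tsum A hAd v hv0 m x hm, pick_sum A hAd v hv0 n m x hm]
      split_ifs with h
      · simp
      · rw [zero_sub, abs_neg]
        refine (hsm m x).2.trans ?_
        exact pow_le_pow_of_le_one (by norm_num) (by norm_num) (not_lt.1 h)
    · push Not at hx
      simp only
      rw [pick_tsum_zero A v hv0 x hx, Finset.sum_eq_zero fun k _ => hv0 k x (hx k)]
      simp
  · refine tendsto_eLpNorm_two_of_integral _ (fun n => ?_) ?_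
    · exact hH2.mono (hgHm n).aestronglyMeasurable (hgHle n)
    · have hH2i : Integrable (fun x => ‖H x‖ ^ 2) (volume.restrict V) :=
        hH2.integrable_norm_pow two_ne_zero
      have h4 : Tendsto (fun n => ∫ x, ‖∇ (fun x => ∑ k ∈ Finset.range n, v k x) x - H x‖ ^ 2
          ∂(volume.restrict V)) atTop (𝓝 (∫ x, (0:ℝ) ∂(volume.restrict V))) := by
        refine tendsto_integral_of_dominated_convergence (fun x => ‖H x‖ ^ 2)
          (fun n => ((hgHm n).norm.pow_const 2).aestronglyMeasurable) hH2i (fun n => ?_) ?_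
        · filter_upwards [hgHle n] with x hx
          rw [Real.norm_of_nonneg (by positivity)]
          exact pow_le_pow_left₀ (norm_nonneg _) hx 2
        · filter_upwards [hcov] with x ⟨m, hm⟩
          refine tendsto_const_nhds.congr' ?_
          filter_upwards [eventually_gt_atTop m] with n hn
          rw [hgH n m x hm, if_pos hn]
          simp
      simpa using h4
  · refine hwdf R hWR (hsummable R hRm hR0 fun m x hx => ?_)
    refine (hRT m x).1.trans ?_
    have h4 := (norm_nonneg (∇ w x))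
    have h5 : (1:ℝ) ≤ f x + 2 := by simp only [hf]; linarith
    exact le_mul_of_one_le_right L.coe_nonneg h5
  · refine hwdf T hWT (hsummable T hTm hT0 fun m x hx => ?_)
    refine (hRT m x).2.trans ?_
    exact mul_le_mul_of_nonneg_left (hNle m x hx) L.coe_nonneg
  · intro x hx
    exact ⟨pick_tsum_zero A R hR0 x fun m hm => hx (hAV m hm),
      pick_tsum_zero A T hT0 x fun m hm => hx (hAV m hm)⟩
  · have h4 : ∀ᵐ x ∂(volume.restrict V), ∀ m, x ∈ A m →
        (ee 2 + R m x = γ m x • M x (ee 2 + ∇ (u m) x) ∧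
          J x + T m x = γ m x • M x (∇ w x + ∇ (v m) x)) := by
      refine ae_restrict_of_ae (ae_all_iff.2 fun m => ?_)
      exact (ae_restrict_iff' (hAm m)).1 (hrel m)
    filter_upwards [h4, hcov] with x hx ⟨m, hm⟩
    obtain ⟨h5, h6⟩ := hx m hm
    have hgu : ∇ (fun x => ∑' m, u m x) x = ∇ (u m) x := by
      refine gradient_congr_nhds _ _ x ?_
      filter_upwards [(hAo m).mem_nhds hm] with y hy
      exact pick_tsum A hAd u hu0 m y hy
    have hgg := pick_tsum A hAd (fun m => (A m).indicator (fun x => γ m x - c)) hg0 m x hm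
    rw [indicator_of_mem hm] at hgg
    rw [hgu, hgg, hHpick m x hm, pick_tsum A hAd R hR0 m x hm, pick_tsum A hAd T hT0 m x hm,
      add_sub_cancel]
    exact ⟨h5, h6⟩

end Crest.Agent.R083
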