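import Crest.Agent.R083.Defs

/-!
Row 83 (S0111), MOD-d: abstract `L²` limits.
-/

set_option autoImplicit false

namespace Crest.Agent.R083

open MeasureTheory Set Filter
open scoped Gradient ENNReal NNReal Topology

/-- Bounded linear integrands are continuous in `L²` over a finite measure. -/
theorem tendsto_integral_L2 {μ : Measure E3} [IsFiniteMeasure μ] (T : E3 → (E3 →L[ℝ] ℝ))
    (hT : AEStronglyMeasurable T μ) (C : ℝ) (hC : ∀ᵐ x ∂μ, ‖T x‖ ≤ C)
    (V : ℕ → E3 → E3) (V' : E3 → E3) (hV : ∀ j, MemLp (V j) 2 μ) (hV' : MemLp V' 2 μ)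
    (h : Tendsto (fun j => eLpNorm (fun x => V j x - V' x) 2 μ) atTop (𝓝 0)) :
    Tendsto (fun j => ∫ x, T x (V j x) ∂μ) atTop (𝓝 (∫ x, T x (V' x) ∂μ)) := by
  have hm : ∀ W : E3 → E3, MemLp W 2 μ → Integrable (fun x => T x (W x)) μ := by
    intro W hW
    have hW1 : Integrable W μ := hW.integrable (by norm_num)
    refine Integrable.mono' (hW1.norm.const_mul C) ?_ ?_
    · exact (isBoundedBilinearMap_apply (𝕜 := ℝ) (E := E3) (F := ℝ)).continuous.comp_aestronglyMeasurable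
        (hT.prodMk hW.1)
    · filter_upwards [hC] with x hx
      exact (ContinuousLinearMap.le_opNorm _ _).trans (by gcongr)
  refine tendsto_integral_of_L1 _ (hm V' hV').1 (Eventually.of_forall fun j => hm _ (hV j)) ?_
  have hb : ∀ j, ∫⁻ x, ‖T x (V j x) - T x (V' x)‖ₑ ∂μ ≤
      ENNReal.ofReal C * (eLpNorm (fun x => V j x - V' x) 2 μ *
        μ Set.univ ^ (1 / (1 : ℝ≥0∞).toReal - 1 / (2 : ℝ≥0∞).toReal)) := by
    intro j
    have h1 : eLpNorm (fun x => V j x - V' x) 1 μ ≤ eLpNorm (fun x => V j x - V' x) 2 μ *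
        μ Set.univ ^ (1 / (1 : ℝ≥0∞).toReal - 1 / (2 : ℝ≥0∞).toReal) :=
      eLpNorm_le_eLpNorm_mul_rpow_measure_univ (by norm_num) ((hV j).1.sub hV'.1)
    refine le_trans ?_ (mul_le_mul_right h1 _)
    rw [eLpNorm_one_eq_lintegral_enorm, ← lintegral_const_mul' _ _ ENNReal.ofReal_ne_top]
    refine lintegral_mono_ae ?_
    filter_upwards [hC] with x hx
    rw [← map_sub, ← ofReal_norm, ← ofReal_norm,
      ← ENNReal.ofReal_mul (le_trans (norm_nonneg _) hx)]
    apply ENNReal.ofReal_le_ofReal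
    exact (ContinuousLinearMap.le_opNorm _ _).trans (by gcongr)
  refine tendsto_of_tendsto_of_tendsto_of_le_of_le tendsto_const_nhds ?_ (fun j => bot_le) hb
  have hfin : μ Set.univ ^ (1 / (1 : ℝ≥0∞).toReal - 1 / (2 : ℝ≥0∞).toReal) ≠ ∞ := by
    apply ENNReal.rpow_ne_top_of_nonneg
    · norm_num
    · exact measure_ne_top μ _
  have h2 := ENNReal.Tendsto.mul_const (b := μ Set.univ ^ (1 / (1 : ℝ≥0∞).toReal -
    1 / (2 : ℝ≥0∞).toReal)) h (Or.inr hfin)
  have h3 := ENNReal.Tendsto.const_mul (a := ENNReal.ofReal C) h2 (Or.inr ENNReal.ofReal_ne_top)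
  simpa using h3

/-- Completeness of `L²` in terms of `eLpNorm`. -/
theorem exists_L2_limit {μ : Measure E3} (V : ℕ → E3 → E3) (hV : ∀ j, MemLp (V j) 2 μ)
    (η : ℕ → ℝ≥0∞) (hη : Tendsto η atTop (𝓝 0))
    (h : ∀ j k, eLpNorm (fun x => V j x - V k x) 2 μ ≤ η j + η k) :
    ∃ G : E3 → E3, MemLp G 2 μ ∧
      Tendsto (fun j => eLpNorm (fun x => V j x - G x) 2 μ) atTop (𝓝 0) := by
  let a : ℕ → Lp E3 2 μ := fun j => (hV j).toLp (V j)
  have hc : CauchySeq a := by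
    rw [EMetric.cauchySeq_iff]
    intro ε hε
    have h1 : ∀ᶠ j in atTop, η j < ε / 2 := hη.eventually (gt_mem_nhds (ENNReal.half_pos hε.ne'))
    obtain ⟨N, hN⟩ := eventually_atTop.1 h1
    refine ⟨N, fun m hm n hn => ?_⟩
    rw [Lp.edist_toLp_toLp]
    calc eLpNorm (V m - V n) 2 μ ≤ η m + η n := h m n
      _ < ε / 2 + ε / 2 := ENNReal.add_lt_add (hN m hm) (hN n hn)
      _ = ε := ENNReal.add_halves ε
  obtain ⟨G, hG⟩ := cauchySeq_tendsto_of_complete hc
  refine ⟨G, Lp.memLp G, ?_⟩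
  have h2 := (Lp.tendsto_Lp_iff_tendsto_eLpNorm' a G).1 hG
  refine h2.congr (fun j => ?_)
  refine eLpNorm_congr_ae ?_
  filter_upwards [(hV j).coeFn_toLp] with x hx
  simp only [Pi.sub_apply]
  rw [show (a j : E3 → E3) x = V j x from hx]

end Crest.Agent.R083
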