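import Crest.Agent.R083.Defs

/-!
Row 83 (S0111): functions that are locally affine off a null set, closed under
`+`, `-`, scalar multiples, `max`, `min`, `|·|`.
-/

set_option autoImplicit false

namespace Crest.Agent.R083

open MeasureTheory Set Filter
open scoped Gradient ENNReal NNReal Topology

/-- The (open) set of points near which `f` coincides with an affine function. -/
def RegA (f : E3 → ℝ) : Set E3 := {x | ∃ A : E3 →ᵃ[ℝ] ℝ, f =ᶠ[𝓝 x] A}

theorem isOpen_RegA (f : E3 → ℝ) : IsOpen (RegA f) := by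
  rw [isOpen_iff_mem_nhds]
  rintro x ⟨A, hA⟩
  filter_upwards [eventually_eventually_nhds.2 hA] with y hy
  exact ⟨A, hy⟩

/-- `f` is locally affine almost everywhere. -/
def LA (f : E3 → ℝ) : Prop := volume (RegA f)ᶜ = 0

theorem LA_affine (A : E3 →ᵃ[ℝ] ℝ) : LA (fun x => A x) := by
  have h : RegA (fun x => A x) = univ := by
    ext x
    simp only [mem_univ, iff_true]
    exact ⟨A, Eventually.of_forall fun _ => rfl⟩
  simp [LA, h]

theorem LA_const (c : ℝ) : LA (fun _ => c) := by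
  simpa using LA_affine (AffineMap.const ℝ E3 c)

theorem LA_coord (i : Fin 3) : LA (fun x => x i) := by
  let f : E3 →ₗ[ℝ] ℝ := ((EuclideanSpace.proj i : E3 →L[ℝ] ℝ) : E3 →ₗ[ℝ] ℝ)
  exact LA_affine f.toAffineMap

theorem LA_of_inter {f g h : E3 → ℝ} (hf : LA f) (hg : LA g) (B : Set E3) (hB : volume B = 0)
    (H : RegA f ∩ RegA g ∩ Bᶜ ⊆ RegA h) : LA h := by
  have h1 : (RegA h)ᶜ ⊆ (RegA f)ᶜ ∪ (RegA g)ᶜ ∪ B := by
    intro x hx
    by_contra hc
    simp only [mem_union, not_or, mem_compl_iff, not_not] at hc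
    exact hx (H ⟨⟨hc.1.1, hc.1.2⟩, hc.2⟩)
  exact measure_mono_null h1 (measure_union_null (measure_union_null hf hg) hB)

theorem LA.add {f g : E3 → ℝ} (hf : LA f) (hg : LA g) : LA (fun x => f x + g x) := by
  refine LA_of_inter hf hg ∅ (by simp) ?_
  rintro x ⟨⟨⟨A, hA⟩, ⟨B, hB⟩⟩, -⟩
  refine ⟨A + B, ?_⟩
  filter_upwards [hA, hB] with y h1 h2
  simp [h1, h2]

theorem LA.const_mul {f : E3 → ℝ} (c : ℝ) (hf : LA f) : LA (fun x => c * f x) := by
  refine LA_of_inter hf hf ∅ (by simp) ?_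
  rintro x ⟨⟨⟨A, hA⟩, -⟩, -⟩
  refine ⟨c • A, ?_⟩
  filter_upwards [hA] with y h1
  simp [h1]

theorem LA.neg {f : E3 → ℝ} (hf : LA f) : LA (fun x => - f x) := by
  simpa using hf.const_mul (-1)

theorem LA.sub {f g : E3 → ℝ} (hf : LA f) (hg : LA g) : LA (fun x => f x - g x) := by
  simpa [sub_eq_add_neg] using hf.add hg.neg

/-- The set where two locally affine functions touch without coinciding nearby is null. -/
theorem touch_null (f g : E3 → ℝ) :
    volume {x | x ∈ RegA f ∧ x ∈ RegA g ∧ f x = g x ∧ ¬ f =ᶠ[𝓝 x] g} = 0 := by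
  apply measure_null_of_locally_null
  rintro x ⟨⟨A, hA⟩, ⟨B, hB⟩, hx, hne⟩
  have hAB : A ≠ B := by
    rintro rfl
    exact hne (hA.trans hB.symm)
  obtain ⟨W, hW, hWs⟩ := (hA.and hB).exists_mem
  refine ⟨W ∩ {x | x ∈ RegA f ∧ x ∈ RegA g ∧ f x = g x ∧ ¬ f =ᶠ[𝓝 x] g}, ?_, ?_⟩
  · exact inter_mem (mem_nhdsWithin_of_mem_nhds hW) self_mem_nhdsWithin
  · -- the affine subspace where `A - B` vanishes
    let T : AffineSubspace ℝ E3 := (AffineSubspace.mk' (0 : ℝ) ⊥).comap (A - B)
    have hT : (T : Set E3) = {y | A y = B y} := by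
      ext y
      simp [T, AffineSubspace.mem_mk', sub_eq_zero]
    have hTne : T ≠ ⊤ := by
      intro h
      apply hAB
      ext y
      have : y ∈ (T : Set E3) := by rw [h]; trivial
      rw [hT] at this
      exact this
    have h0 : volume (T : Set E3) = 0 := Measure.addHaar_affineSubspace _ T hTne
    refine measure_mono_null ?_ h0
    rintro y ⟨hyW, -, -, hy, -⟩
    rw [hT]
    have := hWs y hyW
    change A y = B y
    rw [← this.1, ← this.2, hy]

theorem LA.continuousAt {f : E3 → ℝ} {x : E3} (hx : x ∈ RegA f) : ContinuousAt f x := by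
  obtain ⟨A, hA⟩ := hx
  have : ContinuousAt (fun y => A y) x :=
    (AffineMap.continuous_of_finiteDimensional A).continuousAt
  exact this.congr hA.symm

theorem LA.max {f g : E3 → ℝ} (hf : LA f) (hg : LA g) : LA (fun x => max (f x) (g x)) := by
  refine LA_of_inter hf hg _ (touch_null f g) ?_
  rintro x ⟨⟨hfx, hgx⟩, hB⟩
  have cf := LA.continuousAt hfx
  have cg := LA.continuousAt hgx
  rcases lt_trichotomy (f x) (g x) with h | h | h
  · have : ∀ᶠ y in 𝓝 x, f y < g y := cf.eventually_lt cg h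
    obtain ⟨B, hB'⟩ := hgx
    refine ⟨B, ?_⟩
    filter_upwards [this, hB'] with y h1 h2
    exact (max_eq_right h1.le).trans h2
  · have hfg : f =ᶠ[𝓝 x] g := by
      by_contra hne
      exact hB ⟨hfx, hgx, h, hne⟩
    obtain ⟨B, hB'⟩ := hgx
    refine ⟨B, ?_⟩
    filter_upwards [hfg, hB'] with y h1 h2
    simp [h1, h2]
  · have : ∀ᶠ y in 𝓝 x, g y < f y := cg.eventually_lt cf h
    obtain ⟨A, hA'⟩ := hfx
    refine ⟨A, ?_⟩
    filter_upwards [this, hA'] with y h1 h2
    exact (max_eq_left h1.le).trans h2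

theorem LA.min {f g : E3 → ℝ} (hf : LA f) (hg : LA g) : LA (fun x => min (f x) (g x)) := by
  have := ((hf.neg).max (hg.neg)).neg
  refine (congrArg LA ?_).mp this
  funext x
  rw [max_neg_neg, neg_neg]

theorem LA.abs {f : E3 → ℝ} (hf : LA f) : LA (fun x => |f x|) := by
  simpa [abs_eq_max_neg] using hf.max hf.neg

end Crest.Agent.R083
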