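import Crest.Agent.R083.LocAff

/-!
Row 83 (S0111): the metric field of a locally affine bi-Lipschitz map.
-/

set_option autoImplicit false

namespace Crest.Agent.R083

open MeasureTheory Set Filter
open scoped Gradient ENNReal NNReal Topology

/-- The (open) set of points near which `Ψ` coincides with an affine map. -/
def RegM (Ψ : E3 → E3) : Set E3 :=
  {x | ∃ (A : E3 →L[ℝ] E3) (b : E3), ∀ᶠ y in 𝓝 x, Ψ y = A y + b}

theorem isOpen_RegM (Ψ : E3 → E3) : IsOpen (RegM Ψ) := by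
  rw [isOpen_iff_mem_nhds]
  rintro x ⟨A, b, hA⟩
  filter_upwards [eventually_eventually_nhds.2 hA] with y hy
  exact ⟨A, b, hy⟩

theorem RegM_of_RegA {Ψ : E3 → E3} {x : E3} (h : ∀ i, x ∈ RegA (fun p => Ψ p i)) :
    x ∈ RegM Ψ := by
  choose A hA using h
  refine ⟨(EuclideanSpace.equiv (Fin 3) ℝ).symm.toContinuousLinearMap.comp
    (ContinuousLinearMap.pi fun i => LinearMap.toContinuousLinearMap (A i).linear),
    WithLp.toLp 2 (fun i => A i 0), ?_⟩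
  have h3 : ∀ᶠ y in 𝓝 x, ∀ i, Ψ y i = A i y := eventually_all.2 hA
  filter_upwards [h3] with y hy
  ext i
  have h1 : A i y = (A i).linear y + A i 0 := by
    have := (A i).map_vadd 0 y
    simpa using this
  rw [hy i, h1]
  simp

theorem RegM_conull {Ψ : E3 → E3} (h : ∀ i, LA (fun p => Ψ p i)) : volume (RegM Ψ)ᶜ = 0 := by
  have h1 : (RegM Ψ)ᶜ ⊆ ⋃ i : Fin 3, (RegA (fun p => Ψ p i))ᶜ := by
    intro x hx
    by_contra hc
    simp only [mem_iUnion, mem_compl_iff, not_exists, not_not] at hc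
    exact hx (RegM_of_RegA hc)
  exact measure_mono_null h1 (measure_iUnion_null h)

/-- Pull-back of the Euclidean metric tensor under a linear chart `A` (from the model to
physical space): a scalar conductivity `γ` in physical space becomes `γ • pullM A`. -/
noncomputable def pullM (A : E3 →L[ℝ] E3) : E3 →L[ℝ] E3 :=
  |A.det| • (A.inverse.comp (ContinuousLinearMap.adjoint A.inverse))

theorem finrank_E3 : Module.finrank ℝ E3 = 3 := by simp

theorem abs_det_le (A : E3 →L[ℝ] E3) (K : ℝ) (hK : 0 ≤ K) (hA : ∀ x, ‖A x‖ ≤ K * ‖x‖) :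
    |A.det| ≤ K ^ 3 := by
  have h1 : A '' Metric.ball 0 1 ⊆ Metric.closedBall 0 K := by
    rintro _ ⟨x, hx, rfl⟩
    rw [mem_closedBall_zero_iff]
    rw [mem_ball_zero_iff] at hx
    calc ‖A x‖ ≤ K * ‖x‖ := hA x
      _ ≤ K * 1 := by gcongr
      _ = K := mul_one K
  have h2 := measure_mono (μ := (volume : Measure E3)) h1
  rw [Measure.addHaar_image_continuousLinearMap, Measure.addHaar_closedBall _ _ hK,
    finrank_E3] at h2
  have h3 : (volume (Metric.ball (0 : E3) 1)) ≠ 0 := (Metric.measure_ball_pos _ _ one_pos).ne'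
  have h4 : (volume (Metric.ball (0 : E3) 1)) ≠ ∞ := measure_ball_lt_top.ne
  rw [ENNReal.mul_le_mul_iff_left h3 h4, ENNReal.ofReal_le_ofReal_iff (by positivity)] at h2
  exact h2

theorem adjoint_bound (B : E3 →L[ℝ] E3) (K : ℝ) (hK : 0 ≤ K) (hB : ∀ x, ‖B x‖ ≤ K * ‖x‖) (x : E3) :
    ‖ContinuousLinearMap.adjoint B x‖ ≤ K * ‖x‖ := by
  have h1 : ‖B‖ ≤ K := ContinuousLinearMap.opNorm_le_bound _ hK hB
  have h2 : ‖ContinuousLinearMap.adjoint B‖ ≤ K := by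
    rw [LinearIsometryEquiv.norm_map]; exact h1
  exact (ContinuousLinearMap.le_opNorm _ _).trans (by gcongr)

theorem ell_pullM (A : E3 ≃L[ℝ] E3) (K K' : ℝ) (hK : 1 ≤ K) (hK' : 1 ≤ K')
    (hA : ∀ x, ‖A x‖ ≤ K * ‖x‖) (hA' : ∀ x, ‖A.symm x‖ ≤ K' * ‖x‖) :
    Ell (((K * K') ^ 3)⁻¹) (pullM (A : E3 →L[ℝ] E3)) := by
  have hd1 : |(A : E3 →L[ℝ] E3).det| ≤ K ^ 3 := abs_det_le _ K (by linarith) hA
  have hd2 : |(A.symm : E3 →L[ℝ] E3).det| ≤ K' ^ 3 := abs_det_le _ K' (by linarith) hA'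
  have hdd : (A : E3 →L[ℝ] E3).det * (A.symm : E3 →L[ℝ] E3).det = 1 := by
    have h0 : (A : E3 →L[ℝ] E3).det ≠ 0 := (LinearEquiv.isUnit_det' A.toLinearEquiv).ne_zero
    rw [ContinuousLinearEquiv.det_coe_symm A]
    field_simp
  have hinv : (A : E3 →L[ℝ] E3).inverse = (A.symm : E3 →L[ℝ] E3) :=
    ContinuousLinearMap.inverse_equiv A
  have hK0 : 0 < K := by linarith
  have hK0' : 0 < K' := by linarith
  set d := |(A : E3 →L[ℝ] E3).det| with hd
  set B : E3 →L[ℝ] E3 := (A.symm : E3 →L[ℝ] E3) with hB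
  have hdpos : 0 < d := by
    rw [hd, abs_pos]
    exact (LinearEquiv.isUnit_det' A.toLinearEquiv).ne_zero
  have hdd' : d * |B.det| = 1 := by
    rw [hd, hB, ← abs_mul, hdd, abs_one]
  have hdlow : (K' ^ 3)⁻¹ ≤ d := by
    have h1 : 1 ≤ d * K' ^ 3 := by
      rw [← hdd']
      gcongr
    rw [inv_le_iff_one_le_mul₀ (by positivity)]
    linarith
  have hq : ∀ x, inner ℝ (pullM (A : E3 →L[ℝ] E3) x) x =
      d * ‖ContinuousLinearMap.adjoint B x‖ ^ 2 := by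
    intro x
    simp only [pullM, hinv, smul_apply, ContinuousLinearMap.comp_apply,
      inner_smul_left]
    rw [← ContinuousLinearMap.adjoint_inner_right, real_inner_self_eq_norm_sq]
    simp [hd]
  have hup : ∀ x, ‖ContinuousLinearMap.adjoint B x‖ ≤ K' * ‖x‖ :=
    adjoint_bound B K' hK0'.le hA'
  have hlow : ∀ x, ‖x‖ ≤ K * ‖ContinuousLinearMap.adjoint B x‖ := by
    intro x
    have h1 := adjoint_bound (A : E3 →L[ℝ] E3) K hK0.le hA (ContinuousLinearMap.adjoint B x)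
    have h2 : ContinuousLinearMap.adjoint (A : E3 →L[ℝ] E3) (ContinuousLinearMap.adjoint B x) = x := by
      have h3 : (ContinuousLinearMap.adjoint (A : E3 →L[ℝ] E3)).comp
          (ContinuousLinearMap.adjoint B) = ContinuousLinearMap.id ℝ E3 := by
        rw [← ContinuousLinearMap.adjoint_comp]
        have h4 : B.comp (A : E3 →L[ℝ] E3) = ContinuousLinearMap.id ℝ E3 := by
          ext1 y
          simp [hB]
        rw [h4]
        exact ContinuousLinearMap.adjoint_id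
      exact congrArg (fun T : E3 →L[ℝ] E3 => T x) h3
    rwa [h2] at h1
  refine ⟨?_, fun x => ⟨?_, ?_⟩⟩
  · intro x y
    simp only [pullM, hinv, smul_apply, ContinuousLinearMap.comp_apply,
      inner_smul_left, inner_smul_right]
    have h1 : inner ℝ (B (ContinuousLinearMap.adjoint B x)) y =
        inner ℝ x (B (ContinuousLinearMap.adjoint B y)) := by
      rw [← ContinuousLinearMap.adjoint_inner_right, ContinuousLinearMap.adjoint_inner_left]
    rw [h1]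
    simp
  · rw [hq]
    have h1 : ‖x‖ ^ 2 ≤ K ^ 2 * ‖ContinuousLinearMap.adjoint B x‖ ^ 2 := by
      rw [← mul_pow]
      exact pow_le_pow_left₀ (norm_nonneg _) (hlow x) 2
    have h2 : ((K * K') ^ 3)⁻¹ * ‖x‖ ^ 2 ≤ ((K * K') ^ 3)⁻¹ * (K ^ 3 *
        ‖ContinuousLinearMap.adjoint B x‖ ^ 2) := by
      gcongr
      refine h1.trans ?_
      gcongr
      norm_num
    refine h2.trans ?_
    have h3 : ((K * K') ^ 3)⁻¹ * (K ^ 3 * ‖ContinuousLinearMap.adjoint B x‖ ^ 2) =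
        (K' ^ 3)⁻¹ * ‖ContinuousLinearMap.adjoint B x‖ ^ 2 := by
      field_simp
    rw [h3]
    gcongr
  · rw [hq, inv_inv]
    have h1 : ‖ContinuousLinearMap.adjoint B x‖ ^ 2 ≤ K' ^ 2 * ‖x‖ ^ 2 := by
      rw [← mul_pow]
      exact pow_le_pow_left₀ (norm_nonneg _) (hup x) 2
    calc d * ‖ContinuousLinearMap.adjoint B x‖ ^ 2 ≤ K ^ 3 * (K' ^ 2 * ‖x‖ ^ 2) := by
          gcongr
      _ ≤ K ^ 3 * (K' ^ 3 * ‖x‖ ^ 2) := by
          gcongr
          norm_num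
      _ = (K * K') ^ 3 * ‖x‖ ^ 2 := by ring

/-- Difference quotients of a locally affine map. -/
theorem affine_bounds {Ψ : E3 → E3} {S : Set E3} {x : E3} (hS : S ∈ 𝓝 x) {K K' : ℝ}
    (h1 : ∀ y ∈ S, ‖Ψ y - Ψ x‖ ≤ K * ‖y - x‖)
    (h2 : ∀ y ∈ S, ‖y - x‖ ≤ K' * ‖Ψ y - Ψ x‖)
    (A : E3 →L[ℝ] E3) (b : E3) (hA : ∀ᶠ y in 𝓝 x, Ψ y = A y + b) (v : E3) :
    ‖A v‖ ≤ K * ‖v‖ ∧ ‖v‖ ≤ K' * ‖A v‖ := by
  have hx : Ψ x = A x + b := hA.self_of_nhds
  have hlim : Tendsto (fun t : ℝ => x + t • v) (𝓝 0) (𝓝 x) := by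
    have : Continuous (fun t : ℝ => x + t • v) := by fun_prop
    simpa using this.tendsto 0
  have hev : ∀ᶠ t : ℝ in 𝓝[>] 0, x + t • v ∈ S ∧ Ψ (x + t • v) = A (x + t • v) + b := by
    have := (hlim.eventually hS).and (hlim.eventually hA)
    exact this.filter_mono nhdsWithin_le_nhds
  obtain ⟨t, ⟨htS, htA⟩, ht⟩ := (hev.and self_mem_nhdsWithin).exists
  have ht0 : (0 : ℝ) < t := ht
  have e1 : Ψ (x + t • v) - Ψ x = t • A v := by
    rw [htA, hx, map_add, map_smul]; abel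
  have e2 : x + t • v - x = t • v := by abel
  have g1 := h1 _ htS
  have g2 := h2 _ htS
  rw [e1, e2, norm_smul, norm_smul, Real.norm_of_nonneg ht0.le] at g1 g2
  constructor
  · refine le_of_mul_le_mul_left ?_ ht0
    calc t * ‖A v‖ ≤ K * (t * ‖v‖) := g1
      _ = t * (K * ‖v‖) := by ring
  · refine le_of_mul_le_mul_left ?_ ht0
    calc t * ‖v‖ ≤ K' * (t * ‖A v‖) := g2
      _ = t * (K' * ‖A v‖) := by ring

/-- Local structure of a locally affine bi-Lipschitz map. -/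
theorem metric_field (Ψ : E3 → E3) (hL : ∀ i, LA (fun p => Ψ p i)) (S : Set E3) (hS : IsOpen S)
    (K K' : ℝ) (hK : 1 ≤ K) (hK' : 1 ≤ K')
    (h1 : ∀ x ∈ S, ∀ y ∈ S, ‖Ψ x - Ψ y‖ ≤ K * ‖x - y‖)
    (h2 : ∀ x ∈ S, ∀ y ∈ S, ‖x - y‖ ≤ K' * ‖Ψ x - Ψ y‖) :
    ∃ U : Set E3, IsOpen U ∧ U ⊆ S ∧ volume (S \ U) = 0 ∧
      ∀ x ∈ U, ∃ A : E3 ≃L[ℝ] E3, (∃ b, ∀ᶠ y in 𝓝 x, Ψ y = A y + b) ∧
        HasFDerivAt Ψ (A : E3 →L[ℝ] E3) x ∧
        (∀ v, ‖A v‖ ≤ K * ‖v‖) ∧ (∀ v, ‖A.symm v‖ ≤ K' * ‖v‖) ∧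
        (∀ᶠ y in 𝓝 x, fderiv ℝ Ψ y = (A : E3 →L[ℝ] E3)) ∧
        (∀ᶠ y in 𝓝 x, pullM (fderiv ℝ Ψ y) = pullM (fderiv ℝ Ψ x)) ∧
        Ell (((K * K') ^ 3)⁻¹) (pullM (fderiv ℝ Ψ x)) := by
  refine ⟨S ∩ RegM Ψ, hS.inter (isOpen_RegM Ψ), inter_subset_left, ?_, ?_⟩
  · refine measure_mono_null ?_ (RegM_conull hL)
    rintro x ⟨hxS, hx⟩ hxR
    exact hx ⟨hxS, hxR⟩
  · rintro x ⟨hxS, A0, b, hA⟩
    have hb := affine_bounds (hS.mem_nhds hxS) (fun y hy => h1 y hy x hxS)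
      (fun y hy => h2 y hy x hxS) A0 b hA
    have hinj : Function.Injective (A0 : E3 →ₗ[ℝ] E3) := by
      rw [← LinearMap.ker_eq_bot, LinearMap.ker_eq_bot']
      intro v hv
      have := (hb v).2
      have hv' : A0 v = 0 := hv
      rw [hv', norm_zero, mul_zero] at this
      exact norm_le_zero_iff.1 this
    let A : E3 ≃L[ℝ] E3 := (LinearEquiv.ofInjectiveEndo (A0 : E3 →ₗ[ℝ] E3) hinj).toContinuousLinearEquiv
    have hAA : (A : E3 →L[ℝ] E3) = A0 := by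
      ext1 v
      simp [A]
    have hAv : ∀ v, A v = A0 v := fun v => by rw [← hAA]; rfl
    have hfd : ∀ᶠ y in 𝓝 x, HasFDerivAt Ψ (A : E3 →L[ℝ] E3) y := by
      filter_upwards [eventually_eventually_nhds.2 hA] with y hy
      rw [hAA]
      refine ((A0.hasFDerivAt (x := y)).add_const b).congr_of_eventuallyEq ?_
      filter_upwards [hy] with z hz using hz
    have hfd2 : ∀ᶠ y in 𝓝 x, fderiv ℝ Ψ y = (A : E3 →L[ℝ] E3) := hfd.mono fun y hy => hy.fderiv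
    have hup : ∀ v, ‖A v‖ ≤ K * ‖v‖ := fun v => by rw [hAv]; exact (hb v).1
    have hlo : ∀ v, ‖A.symm v‖ ≤ K' * ‖v‖ := fun v => by
      have := (hb (A.symm v)).2
      rwa [← hAv, ContinuousLinearEquiv.apply_symm_apply] at this
    refine ⟨A, ⟨b, ?_⟩, hfd.self_of_nhds, hup, hlo, hfd2, ?_, ?_⟩
    · filter_upwards [hA] with y hy
      rw [hy, hAv]
    · filter_upwards [hfd2] with y hy
      rw [hy, hfd2.self_of_nhds]
    · rw [hfd2.self_of_nhds]
      exact ell_pullM A K K' hK hK' hup hlo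

end Crest.Agent.R083
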