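import Crest.Agent.R083.ModCore

/-!
Row 83 (S0111), MOD-d: the physical module from the isotropised model: the structure `ModData`.
-/

set_option autoImplicit false

namespace Crest.Agent.R083

open MeasureTheory Set Filter
open scoped Gradient ENNReal NNReal Topology

theorem eLpNorm_sq {μ : Measure E3} (f : E3 → E3) :
    eLpNorm f 2 μ ^ 2 = ∫⁻ x, ‖f x‖ₑ ^ 2 ∂μ := by
  rw [eLpNorm_eq_lintegral_rpow_enorm_toReal two_ne_zero ENNReal.ofNat_ne_top,
    ← ENNReal.rpow_natCast, ← ENNReal.rpow_mul]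
  simp

theorem le_of_sq_le_const_mul {a s A : ℝ≥0∞} (h : a ^ 2 ≤ A * s ^ 2) (hA : 1 ≤ A) :
    a ≤ A * s := by
  rw [← ENNReal.pow_le_pow_left_iff two_ne_zero, mul_pow]
  refine h.trans ?_
  gcongr
  calc A = A * 1 := (mul_one A).symm
    _ ≤ A * A := by gcongr
    _ = A ^ 2 := by ring

/-! ### the metric field -/

theorem Mf_aesm (b : Box) : AEStronglyMeasurable (Mf b) (volume.restrict (bx b)) := by
  obtain ⟨μ, -, h⟩ := chart_metric
  obtain ⟨U, h1, h2, h3, h4, -⟩ := h b
  rw [← Measure.restrict_congr_set (piece_ae h2 h3)]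
  refine ContinuousOn.aestronglyMeasurable (fun x hx => ?_) h1.measurableSet
  refine ContinuousAt.continuousWithinAt ?_
  exact (continuousAt_const (y := Mf b x)).congr ((h4 x hx).mono fun y hy => hy.symm)

theorem Mf_bound : ∃ C : ℝ, 0 ≤ C ∧ ∀ b : Box, ∀ᵐ X ∂(volume.restrict (bx b)), ‖Mf b X‖ ≤ C := by
  obtain ⟨L, hL⟩ := exists_pieces
  refine ⟨(L : ℝ) ^ 3 * (L * L), by positivity, fun b => ?_⟩
  obtain ⟨U, hU, h0, hp⟩ := hL b
  rw [← Measure.restrict_congr_set (piece_ae hU h0)]
  refine (ae_restrict_iff' hp.op.measurableSet).2 (Eventually.of_forall fun X hX => ?_)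
  obtain ⟨A, hA, hA1, hA2⟩ := hp.aff X hX
  have h1 : (A : E3 →L[ℝ] E3).inverse = (A.symm : E3 →L[ℝ] E3) := by simp
  rw [Mf_eq, (hasFDerivAt_of_affine hA).fderiv, pullM, h1, norm_smul, Real.norm_eq_abs, abs_abs]
  have hdet : |(A : E3 →L[ℝ] E3).det| ≤ (L : ℝ) ^ 3 := by
    refine abs_det_le _ _ L.2 (fun x => ?_)
    exact (ContinuousLinearMap.le_opNorm _ x).trans (by gcongr)
  have h2 : ‖(A.symm : E3 →L[ℝ] E3).comp (ContinuousLinearMap.adjoint (A.symm : E3 →L[ℝ] E3))‖ ≤
      L * L := by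
    refine (ContinuousLinearMap.opNorm_comp_le _ _).trans ?_
    rw [LinearIsometryEquiv.norm_map]
    gcongr
  gcongr

theorem bx_meas (b : Box) : MeasurableSet (bx b) := (isClosed_bx b).measurableSet

theorem bx_vol (b : Box) : volume (bx b) < ∞ := by
  have h : bx b ⊆ Metric.closedBall 0 3 := by
    intro p hp
    rw [mem_closedBall_zero_iff]
    have h1 : ‖p‖ ^ 2 ≤ 3 ^ 2 := by
      rw [tg_norm_sq]
      cases b <;> simp only [bx, mem_setOf_eq] at hp
      · obtain ⟨h0, h1, h2, h3⟩ := hp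
        rw [abs_le] at h0 h1
        nlinarith
      · obtain ⟨h0, h0', h1, h2, h3⟩ := hp
        rw [abs_le] at h1
        nlinarith
      · obtain ⟨h0, h0', h1, h2, h3⟩ := hp
        rw [abs_le] at h1
        nlinarith
    exact le_of_sq_le_sq h1 (by norm_num)
  exact lt_of_le_of_lt (measure_mono h) (isCompact_closedBall _ _).measure_lt_top

theorem memLp_grad {f : E3 → ℝ} {K : ℝ≥0} (hf : LipschitzWith K f) {s : Set E3}
    (hs : volume s < ∞) : MemLp (fun x => ∇ f x) 2 (volume.restrict s) := by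
  have : IsFiniteMeasure (volume.restrict s) := ⟨by simpa using hs⟩
  exact MemLp.of_bound (tr_measurable_grad f).aestronglyMeasurable K
    (Eventually.of_forall fun x => tr_norm_grad_le hf x)

/-- Continuity of the box energy in the field. -/
theorem EB_tendsto (γ : Box → E3 → ℝ) (hγ : ∀ b, Measurable (γ b)) (C : ℝ)
    (hC : ∀ b x, |γ b x| ≤ C) (V : ℕ → Box → E3 → E3) (V' : Box → E3 → E3)
    (hV : ∀ j b, MemLp (V j b) 2 (volume.restrict (bx b)))
    (hV' : ∀ b, MemLp (V' b) 2 (volume.restrict (bx b)))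
    (h : ∀ b, Tendsto (fun j => eLpNorm (fun x => V j b x - V' b x) 2 (volume.restrict (bx b)))
      atTop (𝓝 0)) (ψ : E3 → ℝ) (K : ℝ≥0) (hψ : LipschitzWith K ψ) (b : Box) :
    Tendsto (fun j => EB γ (V j) ψ b) atTop (𝓝 (EB γ V' ψ b)) := by
  have : IsFiniteMeasure (volume.restrict (bx b)) := ⟨by simpa using bx_vol b⟩
  obtain ⟨C', hC'0, hC'⟩ := Mf_bound
  obtain ⟨K', hK'⟩ := theta_lip b
  have hχ : LipschitzWith (K * K') (fun Q => ψ (theta b Q)) := hψ.comp hK'
  have := tendsto_integral_L2 (μ := volume.restrict (bx b))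
    (fun X => γ b X • (innerSL ℝ (∇ (fun Q => ψ (theta b Q)) X)).comp (Mf b X)) ?_
    (C * ((K * K' : ℝ≥0) * C')) ?_ (fun j => V j b) (V' b) (fun j => hV j b) (hV' b) (h b)
  · refine (this.congr fun j => ?_).trans (le_of_eq ?_)
    · rw [EB]
      refine integral_congr_ae (Eventually.of_forall fun X => ?_)
      simp only [smul_apply, ContinuousLinearMap.comp_apply, innerSL_apply_apply, smul_eq_mul]
      rw [real_inner_comm]
    · rw [EB]
      congr 1
      refine integral_congr_ae (Eventually.of_forall fun X => ?_)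
      simp only [smul_apply, ContinuousLinearMap.comp_apply, innerSL_apply_apply, smul_eq_mul]
      rw [real_inner_comm]
  · refine AEStronglyMeasurable.smul (hγ b).aestronglyMeasurable ?_
    have h1 : AEStronglyMeasurable (fun X => innerSL ℝ (∇ (fun Q => ψ (theta b Q)) X))
        (volume.restrict (bx b)) :=
      (innerSL ℝ (E := E3)).continuous.comp_aestronglyMeasurable
        (tr_measurable_grad _).aestronglyMeasurable
    exact (isBoundedBilinearMap_comp (𝕜 := ℝ) (E := E3) (F := E3)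
      (G := ℝ)).continuous.comp_aestronglyMeasurable (h1.prodMk (Mf_aesm b))
  · filter_upwards [hC' b] with X hX
    rw [norm_smul, Real.norm_eq_abs]
    have h1 : ‖(innerSL ℝ (∇ (fun Q => ψ (theta b Q)) X)).comp (Mf b X)‖ ≤
        (K * K' : ℝ≥0) * C' := by
      refine (ContinuousLinearMap.opNorm_comp_le _ _).trans ?_
      rw [innerSL_apply_norm]
      exact mul_le_mul (tr_norm_grad_le hχ X) hX (norm_nonneg _) (NNReal.coe_nonneg _)
    exact mul_le_mul (hC b X) h1 (norm_nonneg _) ((abs_nonneg _).trans (hC b X))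

/-! ### pulled back families -/

theorem pull_out (g : Box → E3 → ℝ) (x : E3) (h : 1 ≤ lev x) :
    pull g x = g Box.O (phi Box.O x) := by
  unfold pull
  rw [if_pos (by linarith)]

theorem pull_in (g : Box → E3 → ℝ) (x : E3) (h : lev x ≤ 3/5) :
    pull g x = if 0 ≤ x 0 then g Box.P (phi Box.P x) else g Box.N (phi Box.N x) := by
  unfold pull
  rw [if_neg (by linarith)]

theorem pull_sub (g k : Box → E3 → ℝ) (x : E3) :
    pull (fun b X => g b X - k b X) x = pull g x - pull k x := by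
  unfold pull
  split_ifs <;> rfl

variable (O : ModelOut Mf)

theorem h_matching : Matching O.h := by
  constructor
  · intro p hp h
    rw [O.h0 Box.O p, O.h0 Box.P p]
    · simp only [bxo, mem_setOf_eq]; rintro ⟨-, -, -, -, h'⟩; linarith
    · simp only [bxo, mem_setOf_eq]; rintro ⟨-, -, h', -⟩; linarith
  · intro p hp h
    rw [O.h0 Box.O p, O.h0 Box.N p]
    · simp only [bxo, mem_setOf_eq]; rintro ⟨-, -, -, -, h'⟩; linarith
    · simp only [bxo, mem_setOf_eq]; rintro ⟨-, -, h', -⟩; linarith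

theorem h_out (x : E3) (h : 1 ≤ lev x) : pull O.h x = 1 := by
  rw [pull_out _ _ h, O.h0, phi_out x h]
  simp only [bxo, mem_setOf_eq]
  rintro ⟨-, -, -, h'⟩
  rw [phi_out x h] at h'
  exact lt_irrefl _ h'

theorem h_in (x : E3) (h : lev x ≤ 3/5) : pull O.h x = 3/5 := by
  rw [pull_in _ _ h]
  split_ifs
  · rw [O.h0, phi_inP x h]
    simp only [bxo, mem_setOf_eq]
    rintro ⟨-, -, -, h', -⟩
    rw [phi_inP x h] at h'
    exact lt_irrefl _ h'
  · rw [O.h0, phi_inN x h]
    simp only [bxo, mem_setOf_eq]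
    rintro ⟨-, -, -, h', -⟩
    rw [phi_inN x h] at h'
    exact lt_irrefl _ h'

theorem wj_out (j : ℕ) (x : E3) (h : 1 ≤ lev x) : pull (O.wj j) x = 0 := by
  rw [pull_out _ _ h]
  exact O.wjO j _ (phi_mem _ _) (phi_out x h)

theorem wj_in (j : ℕ) (x : E3) (h : lev x ≤ 3/5) :
    pull (O.wj j) x = if 0 ≤ x 0 then O.e else -O.e := by
  rw [pull_in _ _ h]
  split_ifs
  · exact O.wjP j _ (phi_mem _ _) (phi_inP x h)
  · exact O.wjN j _ (phi_mem _ _) (phi_inN x h)

theorem lev_of_not_cellB {x : E3} (hx : x ∉ cellB) : 1 ≤ lev x := by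
  rw [cellB_eq] at hx
  simpa using hx

theorem lev_of_child {b : Bool} {x : E3} (hx : x ∈ sim b '' cellBc) : lev x ≤ 3/5 := by
  cases b
  · rw [child_false_eq] at hx; exact hx.1
  · rw [child_true_eq] at hx; exact hx.1

theorem wj_child (j : ℕ) (b : Bool) (x : E3) (hx : x ∈ sim b '' cellBc) :
    pull (O.wj j) x = sg b * O.e := by
  rw [wj_in O j x (lev_of_child hx)]
  cases b
  · rw [child_false_eq] at hx
    have h0 : ¬ (0 ≤ x 0) := by
      intro h
      have h1 : x 0 = 0 := le_antisymm hx.2 h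
      have h2 := lev_of_zero x h1
      have h3 := hx.1
      linarith
    rw [if_neg h0]; simp [sg]
  · rw [child_true_eq] at hx
    rw [if_pos hx.2]; simp [sg]

/-- The approximants of the neutral potential are Cauchy in the Dirichlet norm. -/
theorem exists_G : ∃ G : E3 → E3, MemLp G 2 volume ∧
    Tendsto (fun j => eLpNorm (fun x => ∇ (pull (O.wj j)) x - G x) 2 volume) atTop (𝓝 0) := by
  obtain ⟨L, hL⟩ := exists_pieces
  have hlip : ∀ j, ∃ K : ℝ≥0, LipschitzWith K (pull (O.wj j)) := fun j =>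
    pull_lip _ (O.wjM j) (O.wjL j)
  let ε : ℕ → Box → ℝ≥0∞ := fun j b =>
    eLpNorm (fun x => ∇ (O.wj j b) x - O.G b x) 2 (volume.restrict (bx b))
  let s : ℕ → ℝ≥0∞ := fun j => ε j Box.O + ε j Box.P + ε j Box.N
  have hs : Tendsto s atTop (𝓝 0) := by
    have := ((O.wjG Box.O).add (O.wjG Box.P)).add (O.wjG Box.N)
    simpa using this
  let A : ℝ≥0∞ := 6 * ENNReal.ofReal (L ^ 5) + 1
  have hA : A ≠ ∞ := by finiteness
  refine exists_L2_limit (fun j => ∇ (pull (O.wj j))) ?_ (fun j => A * s j) ?_ ?_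
  · intro j
    obtain ⟨K, hK⟩ := hlip j
    have h1 : (fun x => ∇ (pull (O.wj j)) x) = cellBc.indicator (fun x => ∇ (pull (O.wj j)) x) := by
      funext x
      by_cases hx : x ∈ cellBc
      · rw [indicator_of_mem hx]
      · rw [indicator_of_notMem hx]
        have h2 : (pull (O.wj j)) =ᶠ[𝓝 x] fun _ => 0 := by
          filter_upwards [cellBc_closed.isOpen_compl.mem_nhds hx] with y hy
          exact wj_out O j y (lev_of_not_cellB fun h => hy (cellB_subset h))
        rw [grad_congr h2, grad_const]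
    show MemLp (fun x => ∇ (pull (O.wj j)) x) 2 volume
    rw [h1, memLp_indicator_iff_restrict cellBc_closed.measurableSet]
    exact memLp_grad hK cellBc_compact.measure_lt_top
  · have := ENNReal.Tendsto.const_mul (a := A) hs (Or.inr hA)
    simpa using this
  · intro j k
    obtain ⟨K, hK⟩ := hlip j
    obtain ⟨K', hK'⟩ := hlip k
    rw [← mul_add]
    refine le_of_sq_le_const_mul ?_ (by simp [A])
    let g : Box → E3 → ℝ := fun b X => O.wj j b X - O.wj k b X
    have hg : pull g = fun x => pull (O.wj j) x - pull (O.wj k) x := funext (pull_sub _ _)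
    rw [eLpNorm_sq]
    have h1 : ∫⁻ x, ‖∇ (pull (O.wj j)) x - ∇ (pull (O.wj k)) x‖ₑ ^ 2 =
        ∫⁻ x, ‖∇ (pull g) x‖ₑ ^ 2 := by
      refine lintegral_congr_ae ?_
      filter_upwards [grad_sub_ae hK hK'] with x hx
      rw [hg, hx]
    have h2 : ∀ b, ∫⁻ X in bx b, ‖∇ (g b) X‖ₑ ^ 2 ≤ (s j + s k) ^ 2 := by
      intro b
      obtain ⟨K1, hK1⟩ := O.wjL j b
      obtain ⟨K2, hK2⟩ := O.wjL k b
      have h3 : ∫⁻ X in bx b, ‖∇ (g b) X‖ₑ ^ 2 =
          (eLpNorm (fun x => (∇ (O.wj j b) x - O.G b x) - (∇ (O.wj k b) x - O.G b x)) 2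
            (volume.restrict (bx b))) ^ 2 := by
        rw [eLpNorm_sq]
        refine lintegral_congr_ae (ae_restrict_of_ae ?_)
        filter_upwards [grad_sub_ae hK1 hK2] with x hx
        rw [hx]
        congr 2
        abel
      rw [h3]
      gcongr
      refine (eLpNorm_sub_le ?_ ?_ (by norm_num)).trans ?_
      · exact (tr_measurable_grad _).aestronglyMeasurable.sub (O.Gi b).1
      · exact (tr_measurable_grad _).aestronglyMeasurable.sub (O.Gi b).1
      · have e1 : ∀ i, ε i b ≤ s i := by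
          intro i
          cases b
          · exact le_self_add.trans le_self_add
          · exact le_add_self.trans le_self_add
          · exact le_add_self
        exact add_le_add (e1 j) (e1 k)
    rw [h1]
    refine (dirichlet_pull L hL g ?_ ?_).trans ?_
    · intro x hx
      rw [hg]; simp only; rw [wj_out O j x hx, wj_out O k x hx, sub_zero]
    · intro x hx
      rw [hg]; simp only; rw [wj_in O j x hx, wj_in O k x hx, sub_self]
    · calc 2 * (ENNReal.ofReal (L ^ 5) * ((∫⁻ X in bx Box.O, ‖∇ (g Box.O) X‖ₑ ^ 2) +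
            (∫⁻ X in bx Box.P, ‖∇ (g Box.P) X‖ₑ ^ 2) + (∫⁻ X in bx Box.N, ‖∇ (g Box.N) X‖ₑ ^ 2)))
          ≤ 2 * (ENNReal.ofReal (L ^ 5) * ((s j + s k) ^ 2 + (s j + s k) ^ 2 + (s j + s k) ^ 2)) := by
            gcongr <;> exact h2 _
        _ = 6 * ENNReal.ofReal (L ^ 5) * (s j + s k) ^ 2 := by ring
        _ ≤ A * (s j + s k) ^ 2 := by
            gcongr
            exact le_self_add

end Crest.Agent.R083
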