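import Crest.Agent.R083.ChartDefs

/-!
Row 83 (S0111), MOD group: assembling functions on the boxes to functions on space.
-/

set_option autoImplicit false

namespace Crest.Agent.R083

open MeasureTheory Set Filter
open scoped Gradient ENNReal NNReal Topology

/-- Assemble a family of functions on the boxes to a function on space. -/
noncomputable def pull (f : Box → E3 → ℝ) (p : E3) : ℝ :=
  if 7/10 ≤ lev p then f Box.O (phi Box.O p)
  else if 0 ≤ p 0 then f Box.P (phi Box.P p) else f Box.N (phi Box.N p)

/-- The normalisation factor. -/
noncomputable def Nf : ℝ := 32 * 22 / 875 * (56 / 5)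

end Crest.Agent.R083
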