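import Crest.Agent.R083.ChartCov
import Crest.Agent.R083.Transport
import Crest.Agent.R083.Chart

/-!
Row 83 (S0111), MOD: partition of the module region into the six physical pieces.
-/

set_option autoImplicit false

namespace Crest.Agent.R083

open MeasureTheory Set Filter
open scoped Gradient ENNReal NNReal Topology

theorem om_ae (b : Box) (U : Set E3) (hU : U ⊆ bxo b) (h0 : volume (bx b \ U) = 0) :
    (om b : Set E3) =ᵐ[volume] (theta b '' U : Set E3) := by
  obtain ⟨K, hK⟩ := theta_lip b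
  have h1 : theta b '' U ⊆ om b := by
    rintro _ ⟨P, hP, rfl⟩
    exact theta_maps b P (hU hP)
  have h2 : om b \ theta b '' U ⊆ theta b '' (bx b \ U) := by
    rintro p ⟨hp, hpU⟩
    refine ⟨phi b p, ⟨bxo_subset_bx b (phi_maps b p hp), fun hc => hpU ⟨_, hc, theta_phi b p hp⟩⟩,
      theta_phi b p hp⟩
  have h3 : volume (om b \ theta b '' U) = 0 := measure_mono_null h2 (null_image hK h0)
  refine (Filter.EventuallyLE.antisymm ?_ ?_)
  · exact ae_le_set.2 h3
  · exact (LE.le.eventuallyLE h1)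

/-- Upper part of the module region. -/
theorem upper_ae : ((om Box.O ∪ om Box.P) ∪ om Box.N : Set E3) =ᵐ[volume]
    ({p | p ∈ modQ ∧ 0 < p 2} : Set E3) := by
  refine (Filter.EventuallyLE.antisymm ?_ ?_)
  · refine LE.le.eventuallyLE ?_
    rw [modQ_eq]
    rintro p ((⟨h1, h2, h3⟩ | ⟨h1, h2, h3, h4⟩) | ⟨h1, h2, h3, h4⟩)
    · exact ⟨⟨by linarith, h3⟩, h1⟩
    · exact ⟨⟨h3, by linarith⟩, h1⟩
    · exact ⟨⟨h3, by linarith⟩, h1⟩
  · refine ae_le_set.2 (measure_mono_null ?_ (volume_level (7/10) (by norm_num) (by norm_num)))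
    rw [modQ_eq]
    rintro p ⟨⟨⟨h1, h2⟩, h3⟩, h4⟩
    by_contra hc
    have hc' : lev p ≠ 7/10 := hc
    apply h4
    rcases lt_or_gt_of_ne hc' with h | h
    · rcases lt_trichotomy (p 0) 0 with h5 | h5 | h5
      · exact Or.inr ⟨h3, h5, h1, h⟩
      · exact absurd (lev_of_zero p h5) (by linarith)
      · exact Or.inl (Or.inr ⟨h3, h5, h1, h⟩)
    · exact Or.inl (Or.inl ⟨h3, h, h2⟩)

theorem om_measurable (b : Box) : MeasurableSet (om b) := (om_open b).measurableSet

theorem rfl2_emb : MeasurableEmbedding rfl2 :=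
  rflL.toHomeomorph.measurableEmbedding

/-- The restricted measure on the upper half. -/
noncomputable def muUp : Measure E3 :=
  (volume.restrict (om Box.O) + volume.restrict (om Box.P)) + volume.restrict (om Box.N)

theorem restrict_upper : volume.restrict ({p | p ∈ modQ ∧ 0 < p 2} : Set E3) = muUp := by
  rw [← Measure.restrict_congr_set upper_ae, Measure.restrict_union _ (om_measurable _),
    Measure.restrict_union _ (om_measurable _), muUp]
  · rw [Set.disjoint_left]
    rintro p ⟨-, h1, -⟩ ⟨-, -, -, h2⟩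
    linarith
  · rw [Set.disjoint_left]
    rintro p (⟨-, h1, -⟩ | ⟨-, h1, -⟩) ⟨-, h2, -, h3⟩ <;> linarith

theorem modQ_measurable : MeasurableSet modQ := by
  obtain ⟨K, hK⟩ := lev_lip
  rw [modQ_eq]
  exact (measurableSet_lt measurable_const hK.continuous.measurable).inter
    (measurableSet_lt hK.continuous.measurable measurable_const)

theorem restrict_modQ : volume.restrict modQ = muUp + muUp.map rfl2 := by
  have hm : Measurable fun p : E3 => p 2 := by fun_prop
  have hA : MeasurableSet ({p | p ∈ modQ ∧ 0 < p 2} : Set E3) :=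
    modQ_measurable.inter (measurableSet_lt measurable_const hm)
  have hB : MeasurableSet ({p | p ∈ modQ ∧ p 2 < 0} : Set E3) :=
    modQ_measurable.inter (measurableSet_lt hm measurable_const)
  have h1 : (modQ : Set E3) =ᵐ[volume] (({p | p ∈ modQ ∧ 0 < p 2} : Set E3) ∪
      ({p | p ∈ modQ ∧ p 2 < 0} : Set E3) : Set E3) := by
    refine (Filter.EventuallyLE.antisymm ?_ ?_)
    · refine ae_le_set.2 (measure_mono_null ?_ volume_plane)
      rintro p ⟨h1, h2⟩
      by_contra hc
      have hc' : p 2 ≠ 0 := hc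
      rcases lt_or_gt_of_ne hc' with h | h
      · exact h2 (Or.inr ⟨h1, h⟩)
      · exact h2 (Or.inl ⟨h1, h⟩)
    · refine LE.le.eventuallyLE ?_
      rintro p (⟨h1, -⟩ | ⟨h1, -⟩) <;> exact h1
  have h2 : volume.restrict ({p | p ∈ modQ ∧ p 2 < 0} : Set E3) = muUp.map rfl2 := by
    rw [← restrict_upper]
    have h3 : ({p | p ∈ modQ ∧ 0 < p 2} : Set E3) = rfl2 ⁻¹' {p | p ∈ modQ ∧ p 2 < 0} := by
      ext p
      simp only [mem_ofPred_eq, mem_preimage, rfl2_two, modQ_eq, lev_rfl2]
      constructor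
      · rintro ⟨h, h'⟩; exact ⟨h, by linarith⟩
      · rintro ⟨h, h'⟩; exact ⟨h, by linarith⟩
    rw [h3]
    exact (rfl2_mp.restrict_preimage hB).map_eq.symm
  rw [Measure.restrict_congr_set h1, Measure.restrict_union _ hB, restrict_upper, h2]
  rw [Set.disjoint_left]
  rintro p ⟨-, h1⟩ ⟨-, h2⟩
  have h1' : 0 < p 2 := h1
  have h2' : p 2 < 0 := h2
  linarith

theorem integral_muUp (f : E3 → ℝ) (hf : Integrable f muUp) :
    ∫ x, f x ∂muUp = (∫ x in om Box.O, f x) + (∫ x in om Box.P, f x) + (∫ x in om Box.N, f x) := by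
  have h1 : Integrable f (volume.restrict (om Box.O) + volume.restrict (om Box.P)) :=
    hf.left_of_add_measure
  have h2 : Integrable f (volume.restrict (om Box.N)) := hf.right_of_add_measure
  rw [muUp, integral_add_measure h1 h2,
    integral_add_measure h1.left_of_add_measure h1.right_of_add_measure]

theorem integral_modQ (f : E3 → ℝ) (hf : IntegrableOn f modQ volume) :
    ∫ x in modQ, f x = (∫ x in om Box.O, f x) + (∫ x in om Box.P, f x) + (∫ x in om Box.N, f x) +
      ((∫ x in om Box.O, f (rfl2 x)) + (∫ x in om Box.P, f (rfl2 x)) +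
        (∫ x in om Box.N, f (rfl2 x))) := by
  rw [IntegrableOn, restrict_modQ] at hf
  have h1 : Integrable f muUp := hf.left_of_add_measure
  have h2 : Integrable f (muUp.map rfl2) := hf.right_of_add_measure
  have h3 : Integrable (fun x => f (rfl2 x)) muUp := (rfl2_emb.integrable_map_iff).1 h2
  rw [restrict_modQ, integral_add_measure h1 h2, rfl2_emb.integral_map, integral_muUp f h1,
    integral_muUp _ h3]

theorem lintegral_muUp (f : E3 → ℝ≥0∞) :
    ∫⁻ x, f x ∂muUp = (∫⁻ x in om Box.O, f x) + (∫⁻ x in om Box.P, f x) +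
      (∫⁻ x in om Box.N, f x) := by
  rw [muUp, lintegral_add_measure, lintegral_add_measure]

theorem lintegral_modQ_eq (f : E3 → ℝ≥0∞) (he : ∀ x, f (rfl2 x) = f x) :
    ∫⁻ x in modQ, f x = 2 * ((∫⁻ x in om Box.O, f x) + (∫⁻ x in om Box.P, f x) +
      (∫⁻ x in om Box.N, f x)) := by
  rw [restrict_modQ, lintegral_add_measure, rfl2_emb.lintegral_map]
  simp only [he]
  rw [lintegral_muUp, two_mul]

theorem lintegral_modQ (f : E3 → ℝ≥0∞) (he : ∀ x, f (rfl2 x) = f x) :
    ∫⁻ x in modQ, f x ≤ 2 * ((∫⁻ x in om Box.O, f x) + (∫⁻ x in om Box.P, f x) +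
      (∫⁻ x in om Box.N, f x)) := (lintegral_modQ_eq f he).le

end Crest.Agent.R083
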