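import Crest.Agent.R083.ModDefs
import Crest.Agent.R083.Glue
import Crest.Agent.R083.Chart

/-!
Row 83 (S0111), MOD group: pulling functions on the boxes back to functions on space.
-/

set_option autoImplicit false

namespace Crest.Agent.R083

open MeasureTheory Set Filter
open scoped Gradient ENNReal NNReal Topology

theorem pull_eq (f : Box → E3 → ℝ) (hm : Matching f) (b : Box) (p : E3) (hp : p ∈ reg b) :
    pull f p = f b (phi b p) := by
  unfold pull
  by_cases h : 7/10 ≤ lev p
  · rw [if_pos h]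
    have hO : p ∈ reg Box.O := h
    cases b with
    | O => rfl
    | P =>
      obtain ⟨h1, h2⟩ := phi_OP p hO hp
      rw [h1]
      exact hm.1 _ (phi_mem Box.P p) h2
    | N =>
      obtain ⟨h1, h2⟩ := phi_ON p hO hp
      rw [h1]
      exact hm.2 _ (phi_mem Box.N p) h2
  · rw [if_neg h]
    cases b with
    | O => exact absurd hp h
    | P => rw [if_pos hp.2]
    | N =>
      have h0 : ¬ 0 ≤ p 0 := fun h0 => h (lev_of_zero p (le_antisymm hp.2 h0))
      rw [if_neg h0]

/-- without matching, in the open pieces -/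
theorem pull_theta (f : Box → E3 → ℝ) (b : Box) (P : E3) (hP : P ∈ bxo b) :
    pull f (theta b P) = f b P := by
  have hm := theta_maps b P hP
  cases b with
  | O =>
    have hb : P ∈ bx Box.O :=
      ⟨hP.1.le, hP.2.1.le, hP.2.2.1.le, hP.2.2.2.le⟩
    unfold pull
    rw [if_pos hm.2.1.le, phi_theta Box.O P hb]
  | P =>
    have hb : P ∈ bx Box.P :=
      ⟨hP.1.le, hP.2.1.le, hP.2.2.1.le, hP.2.2.2.1.le, hP.2.2.2.2.le⟩
    unfold pull
    rw [if_neg (not_le.2 hm.2.2.2), if_pos hm.2.1.le, phi_theta Box.P P hb]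
  | N =>
    have hb : P ∈ bx Box.N :=
      ⟨hP.1.le, hP.2.1.le, hP.2.2.1.le, hP.2.2.2.1.le, hP.2.2.2.2.le⟩
    unfold pull
    rw [if_neg (not_le.2 hm.2.2.2), if_neg (not_le.2 hm.2.1), phi_theta Box.N P hb]

theorem pull_exists (f : Box → E3 → ℝ) (p : E3) : ∃ b, p ∈ reg b ∧ pull f p = f b (phi b p) := by
  unfold pull
  by_cases h : 7/10 ≤ lev p
  · exact ⟨Box.O, h, by rw [if_pos h]⟩
  · by_cases h0 : 0 ≤ p 0
    · exact ⟨Box.P, ⟨(not_le.1 h).le, h0⟩, by rw [if_neg h, if_pos h0]⟩
    · exact ⟨Box.N, ⟨(not_le.1 h).le, (not_le.1 h0).le⟩, by rw [if_neg h, if_neg h0]⟩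

theorem pull_rfl2 (f : Box → E3 → ℝ) (p : E3) : pull f (rfl2 p) = pull f p := by
  unfold pull
  have h0 : (rfl2 p) 0 = p 0 := by simp [rfl2, pt]
  simp only [lev_rfl2, phi_rfl2, h0]

theorem pull_measurable (f : Box → E3 → ℝ) (hf : ∀ b, Measurable (f b)) :
    Measurable (pull f) := by
  have hlev : Continuous lev := by
    obtain ⟨K, hK⟩ := lev_lip
    exact hK.continuous
  have hphi : ∀ b, Continuous (phi b) := fun b => by
    obtain ⟨K, hK⟩ := phi_lip b
    exact hK.continuous
  have h0 : Continuous fun p : E3 => p 0 := by fun_prop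
  unfold pull
  refine Measurable.ite ?_ ((hf Box.O).comp (hphi Box.O).measurable) (Measurable.ite ?_ ?_ ?_)
  · exact (isClosed_le continuous_const hlev).measurableSet
  · exact (isClosed_le continuous_const h0).measurableSet
  · exact (hf Box.P).comp (hphi Box.P).measurable
  · exact (hf Box.N).comp (hphi Box.N).measurable

theorem finite_box_pull : Finite Box := by
  have : Function.Surjective (fun i : Fin 3 => (![Box.O, Box.P, Box.N] : Fin 3 → Box) i) := by
    intro b
    cases b
    · exact ⟨0, rfl⟩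
    · exact ⟨1, rfl⟩
    · exact ⟨2, rfl⟩
  exact Finite.of_surjective _ this

theorem pull_lip (f : Box → E3 → ℝ) (hm : Matching f)
    (hL : ∀ b, ∃ K : ℝ≥0, LipschitzWith K (f b)) : ∃ K : ℝ≥0, LipschitzWith K (pull f) := by
  haveI := finite_box_pull
  choose K hK using hL
  choose L hL using phi_lip
  -- a common constant
  obtain ⟨M, hM⟩ : ∃ M : ℝ≥0, ∀ b, K b * L b ≤ M :=
    ⟨K Box.O * L Box.O + K Box.P * L Box.P + K Box.N * L Box.N, fun b => by
      cases b
      · rw [add_assoc]; exact le_self_add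
      · rw [add_right_comm]; exact le_add_self
      · exact le_add_self⟩
  have hOn : ∀ b, LipschitzOnWith M (pull f) (reg b) := by
    intro b
    have h1 : LipschitzWith M (fun p => f b (phi b p)) := ((hK b).comp (hL b)).weaken (hM b)
    intro p hp q hq
    rw [pull_eq f hm b p hp, pull_eq f hm b q hq]
    exact h1 p q
  have hcont : Continuous (pull f) := by
    refine LocallyFinite.continuous (f := reg) (locallyFinite_of_finite _) reg_cover reg_closed ?_
    exact fun b => (hOn b).continuousOn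
  exact ⟨M, lip_cover (pull f) hcont M reg reg_closed reg_cover hOn⟩

end Crest.Agent.R083
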