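import Crest.Agent.R083.Defs

/-!
Row 83 (S0111): the structure `ModelOut` (byte-identical fields to the interface stub). The final
files import this one; never together with `Interface.lean`.
-/

set_option autoImplicit false

namespace Crest.Agent.R083

open MeasureTheory Set Filter
open scoped Gradient ENNReal NNReal Topology ContDiff

/-- Everything that the isotropised model provides (for a given metric field `M`). -/
structure ModelOut (M : Box → E3 → (E3 →L[ℝ] E3)) where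
  c : ℝ
  C : ℝ
  e : ℝ
  θ : ℝ
  γ : Box → E3 → ℝ
  h : Box → E3 → ℝ
  G : Box → E3 → E3
  wj : ℕ → Box → E3 → ℝ
  w : Box → E3 → ℝ
  hc : 0 < c
  he : 0 < e
  hθ : 0 < θ
  γm : ∀ b, Measurable (γ b)
  γb : ∀ b x, c ≤ γ b x ∧ γ b x ≤ C
  hL : ∀ b, ∃ K : ℝ≥0, LipschitzWith K (h b)
  h0 : ∀ b x, x ∉ bxo b → h b x = x 2
  wjL : ∀ j b, ∃ K : ℝ≥0, LipschitzWith K (wj j b)
  wju : ∀ ε : ℝ, 0 < ε → ∃ j0, ∀ j ≥ j0, ∀ b, ∀ x ∈ bx b, |wj j b x - w b x| ≤ ε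
  Gi : ∀ b, MemLp (G b) 2 (volume.restrict (bx b))
  wjG : ∀ b, Tendsto (fun j => eLpNorm (fun x => ∇ (wj j b) x - G b x) 2
    (volume.restrict (bx b))) atTop (𝓝 0)
  wjM : ∀ j, Matching (wj j)
  wjO : ∀ j, ∀ x ∈ bx Box.O, x 2 = 1 → wj j Box.O x = 0
  wjP : ∀ j, ∀ x ∈ bx Box.P, x 2 = 3/5 → wj j Box.P x = e
  wjN : ∀ j, ∀ x ∈ bx Box.N, x 2 = 3/5 → wj j Box.N x = -e
  hE : ∀ χ : Box → E3 → ℝ, (∀ b, ∃ K : ℝ≥0, LipschitzWith K (χ b)) → Matching χ →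
    (∫ x in bx Box.O, γ Box.O x * inner ℝ (M Box.O x (∇ (h Box.O) x)) (∇ (χ Box.O) x)) +
    (∫ x in bx Box.P, γ Box.P x * inner ℝ (M Box.P x (∇ (h Box.P) x)) (∇ (χ Box.P) x)) +
    (∫ x in bx Box.N, γ Box.N x * inner ℝ (M Box.N x (∇ (h Box.N) x)) (∇ (χ Box.N) x)) =
      faceO (χ Box.O) - faceP (χ Box.P) - faceN (χ Box.N)
  wE : ∀ χ : Box → E3 → ℝ, (∀ b, ∃ K : ℝ≥0, LipschitzWith K (χ b)) → Matching χ →
    (∫ x in bx Box.O, γ Box.O x * inner ℝ (M Box.O x (G Box.O x)) (∇ (χ Box.O) x)) +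
    (∫ x in bx Box.P, γ Box.P x * inner ℝ (M Box.P x (G Box.P x)) (∇ (χ Box.P) x)) +
    (∫ x in bx Box.N, γ Box.N x * inner ℝ (M Box.N x (G Box.N x)) (∇ (χ Box.N) x)) =
      θ * (faceP (χ Box.P) - faceN (χ Box.N))

end Crest.Agent.R083
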