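import Crest.Agent.R083.Transport
import Crest.Agent.R083.ChartCov
import Crest.Agent.R083.ModDefs
import Crest.Agent.R083.ModelOutDef
import Crest.Agent.R083.L2Lim
import Crest.Agent.R083.Chart
import Crest.Agent.R083.Chart2
import Crest.Agent.R083.ModPart
import Crest.Agent.R083.ModPull

/-!
Row 83 (S0111), MOD-d: the physical module from the isotropised model.
-/

set_option autoImplicit false

namespace Crest.Agent.R083

open MeasureTheory Set Filter
open scoped Gradient ENNReal NNReal Topology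

/-! ### the affine pieces -/

theorem Mf_eq (b : Box) (P : E3) : Mf b P = pullM (fderiv ℝ (theta b) P) := rfl

theorem theta_inj (b : Box) : InjOn (theta b) (bx b) := by
  intro P hP Q hQ h
  rw [← phi_theta b P hP, ← phi_theta b Q hQ, h]

theorem exists_pieces : ∃ L : ℝ≥0, ∀ b : Box, ∃ U : Set E3, U ⊆ bxo b ∧ volume (bx b \ U) = 0 ∧
    Piece (theta b) U L := by
  obtain ⟨L, hL⟩ := chart_affine
  refine ⟨L, fun b => ?_⟩
  obtain ⟨U, h1, h2, h3, h4⟩ := hL b
  exact ⟨U, h2, h3, h1, (theta_inj b).mono (h2.trans (bxo_subset_bx b)), h4⟩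

theorem piece_ae {b : Box} {U : Set E3} (hU : U ⊆ bxo b) (h0 : volume (bx b \ U) = 0) :
    (U : Set E3) =ᵐ[volume] (bx b : Set E3) := by
  refine ((hU.trans (bxo_subset_bx b)).eventuallyLE).antisymm ?_
  exact ae_le_set.2 h0

/-! ### volume of the module -/

theorem modQ_open_meas : MeasurableSet modQ := by
  unfold modQ
  refine cellB_open.measurableSet.diff ?_
  exact (measurableSet_sim_image true cellBc_closed.measurableSet).union
    (measurableSet_sim_image false cellBc_closed.measurableSet)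

theorem modQ_vol : volume modQ < ∞ :=
  lt_of_le_of_lt (measure_mono (sdiff_subset.trans cellB_subset)) cellBc_compact.measure_lt_top

theorem om_meas (b : Box) : MeasurableSet (om b) := (om_open b).measurableSet

/-! ### energies -/

/-- The energy pairing on the boxes for a family of fields. -/
noncomputable def EB (γ : Box → E3 → ℝ) (V : Box → E3 → E3) (ψ : E3 → ℝ) (b : Box) : ℝ :=
  ∫ X in bx b, γ b X * inner ℝ (Mf b X (V b X)) (∇ (fun Q => ψ (theta b Q)) X)

theorem om_energy (γ g : Box → E3 → ℝ) (ψ : E3 → ℝ) (b : Box) :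
    ∫ x in om b, pull γ x * inner ℝ (∇ (pull g) x) (∇ ψ x) =
      EB γ (fun b => ∇ (g b)) ψ b := by
  obtain ⟨L, hL⟩ := exists_pieces
  obtain ⟨U, hU, h0, hp⟩ := hL b
  rw [setIntegral_congr_set (om_ae b U hU h0), hp.energy, EB,
    ← setIntegral_congr_set (piece_ae hU h0)]
  refine setIntegral_congr_fun hp.op.measurableSet (fun X hX => ?_)
  have h1 : pull γ (theta b X) = γ b X := pull_theta γ b X (hU hX)
  have h2 : ∇ (fun Q => pull g (theta b Q)) X = ∇ (g b) X := by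
    refine grad_congr ?_
    filter_upwards [hp.op.mem_nhds hX] with Q hQ
    exact pull_theta g b Q (hU hQ)
  simp only [Mf_eq]
  rw [h1, h2]

theorem grad_even {u : E3 → ℝ} (hu : ∀ x, u (rfl2 x) = u x) (x : E3) :
    ∇ u (rfl2 x) = rfl2 (∇ u x) := by
  have h1 := grad_comp_rfl2 u x
  have h2 : (fun y => u (rfl2 y)) = u := funext hu
  rw [h2] at h1
  rw [h1, rfl2_rfl2]

theorem comp_rfl2_lip {ψ : E3 → ℝ} {K : ℝ≥0} (hψ : LipschitzWith K ψ) :
    LipschitzWith K (fun x => ψ (rfl2 x)) := by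
  have := hψ.comp rfl2_lip
  rw [mul_one] at this
  exact this

theorem modQ_energy (γ : Box → E3 → ℝ) (hγ : ∀ b, Measurable (γ b)) (C : ℝ)
    (hC : ∀ b x, |γ b x| ≤ C) (g : Box → E3 → ℝ)
    (hm : Matching g) (hg : ∀ b, ∃ K : ℝ≥0, LipschitzWith K (g b)) (ψ : E3 → ℝ) (K : ℝ≥0)
    (hψ : LipschitzWith K ψ) :
    ∫ x in modQ, pull γ x * inner ℝ (∇ (pull g) x) (∇ ψ x) =
      (EB γ (fun b => ∇ (g b)) ψ Box.O + EB γ (fun b => ∇ (g b)) ψ Box.P +
        EB γ (fun b => ∇ (g b)) ψ Box.N) +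
      (EB γ (fun b => ∇ (g b)) (fun x => ψ (rfl2 x)) Box.O +
        EB γ (fun b => ∇ (g b)) (fun x => ψ (rfl2 x)) Box.P +
        EB γ (fun b => ∇ (g b)) (fun x => ψ (rfl2 x)) Box.N) := by
  obtain ⟨K', hK'⟩ := pull_lip g hm hg
  have hint : IntegrableOn (fun x => pull γ x * inner ℝ (∇ (pull g) x) (∇ ψ x)) modQ volume := by
    refine Measure.integrableOn_of_bounded (M := C * (K' * K)) modQ_vol.ne ?_ ?_
    · exact ((pull_measurable γ hγ).mul
        ((tr_measurable_grad _).inner (tr_measurable_grad _))).aestronglyMeasurable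
    · refine Eventually.of_forall fun x => ?_
      obtain ⟨b, -, hb⟩ := pull_exists γ x
      have h1 : |pull γ x| ≤ C := by rw [hb]; exact hC b _
      rw [norm_mul, Real.norm_eq_abs]
      have h2 : ‖inner ℝ (∇ (pull g) x) (∇ ψ x)‖ ≤ K' * K :=
        (norm_inner_le_norm _ _).trans (mul_le_mul (tr_norm_grad_le hK' x) (tr_norm_grad_le hψ x)
          (norm_nonneg _) K'.2)
      exact mul_le_mul h1 h2 (norm_nonneg _) ((abs_nonneg _).trans h1)
  rw [integral_modQ _ hint]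
  have hr : ∀ b, ∫ x in om b, pull γ (rfl2 x) * inner ℝ (∇ (pull g) (rfl2 x)) (∇ ψ (rfl2 x)) =
      EB γ (fun b => ∇ (g b)) (fun x => ψ (rfl2 x)) b := by
    intro b
    rw [← om_energy]
    refine setIntegral_congr_fun (om_meas b) (fun x _ => ?_)
    have e1 : ∇ (pull g) (rfl2 x) = rfl2 (∇ (pull g) x) := grad_even (pull_rfl2 g) x
    have e2 : ∇ ψ (rfl2 x) = rfl2 (∇ (fun y => ψ (rfl2 y)) x) := by
      rw [grad_comp_rfl2, rfl2_rfl2]
    simp only [pull_rfl2]
    rw [e1, e2, inner_rfl2]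
  rw [om_energy, om_energy, om_energy, hr, hr, hr]

/-! ### the Dirichlet energy -/

theorem om_dirichlet (L : ℝ≥0) (hL : ∀ b : Box, ∃ U : Set E3, U ⊆ bxo b ∧
    volume (bx b \ U) = 0 ∧ Piece (theta b) U L) (g : Box → E3 → ℝ) (b : Box) :
    ∫⁻ x in om b, ‖∇ (pull g) x‖ₑ ^ 2 ≤
      ENNReal.ofReal (L ^ 5) * ∫⁻ X in bx b, ‖∇ (g b) X‖ₑ ^ 2 := by
  obtain ⟨U, hU, h0, hp⟩ := hL b
  rw [setLIntegral_congr (om_ae b U hU h0), ← setLIntegral_congr (piece_ae hU h0)]
  refine (hp.dirichlet _).trans (le_of_eq ?_)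
  congr 1
  refine setLIntegral_congr_fun hp.op.measurableSet (fun X hX => ?_)
  have h2 : ∇ (fun Q => pull g (theta b Q)) X = ∇ (g b) X := by
    refine grad_congr ?_
    filter_upwards [hp.op.mem_nhds hX] with Q hQ
    exact pull_theta g b Q (hU hQ)
  rw [h2]

/-- Vanishing outside the module gives vanishing gradient almost everywhere. -/
theorem grad_outside {u : E3 → ℝ} (hO : ∀ x, 1 ≤ lev x → u x = 0)
    (hI : ∀ x, lev x ≤ 3/5 → u x = 0) : ∀ᵐ x, x ∉ modQ → ∇ u x = 0 := by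
  obtain ⟨K, hK⟩ := lev_lip
  have h1 : ∀ᵐ x : E3, lev x ≠ 1 := by
    rw [ae_iff]; simpa using volume_level 1 (by norm_num) le_rfl
  have h2 : ∀ᵐ x : E3, lev x ≠ 3/5 := by
    rw [ae_iff]; simpa using volume_level (3/5) le_rfl (by norm_num)
  filter_upwards [h1, h2] with x hx1 hx2 hxQ
  rw [modQ_eq] at hxQ
  have hz : ∀ᶠ y in 𝓝 x, u y = 0 := by
    by_cases h : 3/5 < lev x
    · have h3 : 1 < lev x := by
        rcases lt_trichotomy (lev x) 1 with h4 | h4 | h4
        · exact absurd ⟨h, h4⟩ hxQ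
        · exact absurd h4 hx1
        · exact h4
      filter_upwards [hK.continuous.continuousAt.eventually (lt_mem_nhds h3)] with y hy
      exact hO y hy.le
    · have h3 : lev x < 3/5 := lt_of_le_of_ne (not_lt.1 h) hx2
      filter_upwards [hK.continuous.continuousAt.eventually (gt_mem_nhds h3)] with y hy
      exact hI y hy.le
  have := grad_congr (f := u) (g := fun _ => (0 : ℝ)) hz
  rw [this, grad_const]

theorem dirichlet_pull (L : ℝ≥0) (hL : ∀ b : Box, ∃ U : Set E3, U ⊆ bxo b ∧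
    volume (bx b \ U) = 0 ∧ Piece (theta b) U L) (g : Box → E3 → ℝ)
    (hO : ∀ x, 1 ≤ lev x → pull g x = 0) (hI : ∀ x, lev x ≤ 3/5 → pull g x = 0) :
    ∫⁻ x, ‖∇ (pull g) x‖ₑ ^ 2 ≤ 2 * (ENNReal.ofReal (L ^ 5) *
      ((∫⁻ X in bx Box.O, ‖∇ (g Box.O) X‖ₑ ^ 2) + (∫⁻ X in bx Box.P, ‖∇ (g Box.P) X‖ₑ ^ 2) +
        (∫⁻ X in bx Box.N, ‖∇ (g Box.N) X‖ₑ ^ 2))) := by
  have h1 : ∫⁻ x, ‖∇ (pull g) x‖ₑ ^ 2 = ∫⁻ x in modQ, ‖∇ (pull g) x‖ₑ ^ 2 := by
    rw [← lintegral_indicator modQ_open_meas]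
    refine lintegral_congr_ae ?_
    filter_upwards [grad_outside hO hI] with x hx
    by_cases h : x ∈ modQ
    · rw [indicator_of_mem h]
    · rw [indicator_of_notMem h, hx h]; simp
  rw [h1]
  refine (lintegral_modQ _ (fun x => ?_)).trans ?_
  · rw [grad_even (pull_rfl2 g) x]
    have : ‖rfl2 (∇ (pull g) x)‖ₑ = ‖∇ (pull g) x‖ₑ := by
      rw [← ofReal_norm, ← ofReal_norm]
      congr 1
      exact rflL.norm_map _
    rw [this]
  · gcongr
    rw [mul_add, mul_add]
    exact add_le_add (add_le_add (om_dirichlet L hL g _) (om_dirichlet L hL g _))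
      (om_dirichlet L hL g _)

end Crest.Agent.R083
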