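import Crest.Agent.R083.IsoUnb
import Crest.Agent.R083.ModelOutDef

/-!
Row 83 (S0111): `model_out` from the statements of `iso` and `tensor_model`.
-/

set_option autoImplicit false

namespace Crest.Agent.R083

open MeasureTheory Set Filter
open scoped Gradient ENNReal NNReal Topology ContDiff

theorem bx_O : bx Box.O = cbox (-(32/25)) (32/25) (-(22/25)) (22/25) (7/10) 1 := by
  ext p; simp only [bx, cbox, mem_ofPred_eq, mem_Icc, abs_le]

theorem bx_P : bx Box.P = cbox 0 (32/25) (-(22/25)) (22/25) (3/5) (7/10) := by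
  ext p; simp only [bx, cbox, mem_ofPred_eq, mem_Icc, abs_le]; tauto

theorem bx_N : bx Box.N = cbox (-(32/25)) 0 (-(22/25)) (22/25) (3/5) (7/10) := by
  ext p; simp only [bx, cbox, mem_ofPred_eq, mem_Icc, abs_le]; tauto

theorem measurableSet_bx (b : Box) : MeasurableSet (bx b) := by
  cases b
  · rw [bx_O]; exact measurableSet_cbox _ _ _ _ _ _
  · rw [bx_P]; exact measurableSet_cbox _ _ _ _ _ _
  · rw [bx_N]; exact measurableSet_cbox _ _ _ _ _ _

theorem volume_bx_lt_top (b : Box) : volume (bx b) < ⊤ := by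
  cases b
  · rw [bx_O]; exact volume_cbox_lt_top _ _ _ _ _ _
  · rw [bx_P]; exact volume_cbox_lt_top _ _ _ _ _ _
  · rw [bx_N]; exact volume_cbox_lt_top _ _ _ _ _ _

theorem mo_bxo_subset_bx (b : Box) : bxo b ⊆ bx b := by
  cases b <;> intro p hp
  · exact ⟨hp.1.le, hp.2.1.le, hp.2.2.1.le, hp.2.2.2.le⟩
  · exact ⟨hp.1.le, hp.2.1.le, hp.2.2.1.le, hp.2.2.2.1.le, hp.2.2.2.2.le⟩
  · exact ⟨hp.1.le, hp.2.1.le, hp.2.2.1.le, hp.2.2.2.1.le, hp.2.2.2.2.le⟩

theorem bx_bounded (b : Box) : Bornology.IsBounded (bx b) := by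
  refine (Metric.isBounded_closedBall (x := (0 : E3)) (r := 4)).subset fun p hp => ?_
  have h0 : |p 0| ≤ 2 ∧ |p 1| ≤ 2 ∧ |p 2| ≤ 1 := by
    cases b
    · obtain ⟨h1, h2, h3, h4⟩ := hp
      refine ⟨by linarith, by linarith, ?_⟩
      rw [abs_le]; constructor <;> linarith
    · obtain ⟨h1, h2, h3, h4, h5⟩ := hp
      refine ⟨?_, by linarith, ?_⟩
      · rw [abs_le]; constructor <;> linarith
      · rw [abs_le]; constructor <;> linarith
    · obtain ⟨h1, h2, h3, h4, h5⟩ := hp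
      refine ⟨?_, by linarith, ?_⟩
      · rw [abs_le]; constructor <;> linarith
      · rw [abs_le]; constructor <;> linarith
  obtain ⟨h1, h2, h3⟩ := h0
  rw [mem_closedBall_zero_iff, EuclideanSpace.norm_eq, Real.sqrt_le_left (by norm_num)]
  rw [Fin.sum_univ_three]
  have h4 : ‖p 0‖ ^ 2 ≤ 2 ^ 2 := pow_le_pow_left₀ (norm_nonneg _) (by rwa [Real.norm_eq_abs]) 2
  have h5 : ‖p 1‖ ^ 2 ≤ 2 ^ 2 := pow_le_pow_left₀ (norm_nonneg _) (by rwa [Real.norm_eq_abs]) 2
  have h6 : ‖p 2‖ ^ 2 ≤ 1 ^ 2 := pow_le_pow_left₀ (norm_nonneg _) (by rwa [Real.norm_eq_abs]) 2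
  linarith

theorem continuous_face (f : E3 → ℝ) (hf : Continuous f) (c a b : ℝ) :
    Continuous fun X : ℝ => ∫ Y in a..b, f (pt X Y c) := by
  refine intervalIntegral.continuous_parametric_intervalIntegral_of_continuous' ?_ a b
  refine hf.comp ?_
  refine (PiLp.continuous_toLp 2 _).comp ?_
  refine continuous_pi fun i => ?_
  fin_cases i
  · exact continuous_fst
  · exact continuous_snd
  · exact continuous_const

theorem continuous_face1 (f : E3 → ℝ) (hf : Continuous f) (X c : ℝ) :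
    Continuous fun Y : ℝ => f (pt X Y c) := by
  refine hf.comp ?_
  refine (PiLp.continuous_toLp 2 _).comp ?_
  refine continuous_pi fun i => ?_
  fin_cases i
  · exact continuous_const
  · exact continuous_id
  · exact continuous_const

theorem face_sub (f : E3 → ℝ) (hf : Continuous f) (a₀ b₀ a₁ b₁ c d : ℝ) :
    ∫ X in a₀..b₀, ∫ Y in a₁..b₁, (f (pt X Y c) - f (pt X Y d)) =
      (∫ X in a₀..b₀, ∫ Y in a₁..b₁, f (pt X Y c)) -
        ∫ X in a₀..b₀, ∫ Y in a₁..b₁, f (pt X Y d) := by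
  rw [← intervalIntegral.integral_sub ((continuous_face f hf c a₁ b₁).intervalIntegrable _ _)
    ((continuous_face f hf d a₁ b₁).intervalIntegrable _ _)]
  refine intervalIntegral.integral_congr fun X _ => ?_
  exact intervalIntegral.integral_sub ((continuous_face1 f hf X c).intervalIntegrable _ _)
    ((continuous_face1 f hf X d).intervalIntegrable _ _)

/-- Integrating the level derivative over the three boxes. -/
theorem level_identity (χ : Box → E3 → ℝ) (hχ : ∀ b, ∃ K : ℝ≥0, LipschitzWith K (χ b))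
    (hm : Matching χ) :
    (∫ x in bx Box.O, inner ℝ (ee 2) (∇ (χ Box.O) x)) +
    (∫ x in bx Box.P, inner ℝ (ee 2) (∇ (χ Box.P) x)) +
    (∫ x in bx Box.N, inner ℝ (ee 2) (∇ (χ Box.N) x)) =
      faceO (χ Box.O) - faceP (χ Box.P) - faceN (χ Box.N) := by
  obtain ⟨KO, hO⟩ := hχ Box.O
  obtain ⟨KP, hP⟩ := hχ Box.P
  obtain ⟨KN, hN⟩ := hχ Box.N
  rw [bx_O, bx_P, bx_N,
    ftc_cbox _ _ _ _ _ _ (by norm_num) (by norm_num) (by norm_num) _ KO hO,
    ftc_cbox _ _ _ _ _ _ (by norm_num) (by norm_num) (by norm_num) _ KP hP,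
    ftc_cbox _ _ _ _ _ _ (by norm_num) (by norm_num) (by norm_num) _ KN hN,
    face_sub _ hO.continuous, face_sub _ hP.continuous, face_sub _ hN.continuous]
  have h1 : (∫ X in (-(32/25:ℝ))..(32/25), ∫ Y in (-(22/25:ℝ))..(22/25), χ Box.O (pt X Y (7/10))) =
      (∫ X in (-(32/25:ℝ))..0, ∫ Y in (-(22/25:ℝ))..(22/25), χ Box.O (pt X Y (7/10))) +
      (∫ X in (0:ℝ)..(32/25), ∫ Y in (-(22/25:ℝ))..(22/25), χ Box.O (pt X Y (7/10))) :=
    (intervalIntegral.integral_add_adjacent_intervals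
      ((continuous_face _ hO.continuous _ _ _).intervalIntegrable _ _)
      ((continuous_face _ hO.continuous _ _ _).intervalIntegrable _ _)).symm
  have h2 : (∫ X in (-(32/25:ℝ))..0, ∫ Y in (-(22/25:ℝ))..(22/25), χ Box.O (pt X Y (7/10))) =
      ∫ X in (-(32/25:ℝ))..0, ∫ Y in (-(22/25:ℝ))..(22/25), χ Box.N (pt X Y (7/10)) := by
    refine intervalIntegral.integral_congr fun X hX => ?_
    refine intervalIntegral.integral_congr fun Y hY => ?_
    rw [uIcc_of_le (by norm_num)] at hX hY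
    refine hm.2 _ ⟨hX.1, hX.2, ?_, ?_, ?_⟩ rfl
    · rw [abs_le]; exact hY
    · simp only [pt_two]; norm_num
    · simp only [pt_two]; norm_num
  have h3 : (∫ X in (0:ℝ)..(32/25), ∫ Y in (-(22/25:ℝ))..(22/25), χ Box.O (pt X Y (7/10))) =
      ∫ X in (0:ℝ)..(32/25), ∫ Y in (-(22/25:ℝ))..(22/25), χ Box.P (pt X Y (7/10)) := by
    refine intervalIntegral.integral_congr fun X hX => ?_
    refine intervalIntegral.integral_congr fun Y hY => ?_
    rw [uIcc_of_le (by norm_num)] at hX hY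
    refine hm.1 _ ⟨hX.1, hX.2, ?_, ?_, ?_⟩ rfl
    · rw [abs_le]; exact hY
    · simp only [pt_two]; norm_num
    · simp only [pt_two]; norm_num
  rw [h1, h2, h3]
  unfold faceO faceP faceN
  ring

/-- The statement of `tensor_model`. -/
def TensorStmt : Prop :=
    ∃ (δ e θ N0 : ℝ) (w : Box → E3 → ℝ) (J : Box → E3 → E3) (V : Box → Set E3)
      (wj : ℕ → Box → E3 → ℝ), 0 < δ ∧ 0 < e ∧ 0 < θ ∧
      (∀ b, IsOpen (V b) ∧ V b ⊆ bxo b ∧ volume (bx b \ V b) = 0) ∧
      (∀ b, ContDiffOn ℝ ∞ (w b) (V b) ∧ ContDiffOn ℝ ∞ (J b) (V b)) ∧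
      (∀ b, ∀ x ∈ V b, fderiv ℝ (w b) x (ee 2) = J b x 2 ∧ dvg (J b) x = 0 ∧
        HEll δ (∇ (w b) x) (J b x) ∧ ‖∇ (w b) x‖ ^ 2 * √(tip2 x) ≤ N0) ∧
      -- Lipschitz approximants
      (∀ j b, ∃ K : ℝ≥0, LipschitzWith K (wj j b)) ∧
      (∀ ε : ℝ, 0 < ε → ∃ j0, ∀ j ≥ j0, ∀ b, ∀ x ∈ bx b, |wj j b x - w b x| ≤ ε) ∧
      (∀ b, IntegrableOn (fun x => ‖∇ (w b) x‖ ^ 2) (bx b) volume) ∧
      (∀ b, Tendsto (fun j => ∫ x in bx b, ‖∇ (wj j b) x - ∇ (w b) x‖ ^ 2) atTop (𝓝 0)) ∧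
      (∀ j, Matching (wj j)) ∧
      (∀ j, ∀ x ∈ bx Box.O, x 2 = 1 → wj j Box.O x = 0) ∧
      (∀ j, ∀ x ∈ bx Box.P, x 2 = 3/5 → wj j Box.P x = e) ∧
      (∀ j, ∀ x ∈ bx Box.N, x 2 = 3/5 → wj j Box.N x = -e) ∧
      -- weak equation with the boundary fluxes
      (∀ χ : Box → E3 → ℝ, (∀ b, ∃ K : ℝ≥0, LipschitzWith K (χ b)) → Matching χ →
        (∫ x in bx Box.O, inner ℝ (J Box.O x) (∇ (χ Box.O) x)) +
        (∫ x in bx Box.P, inner ℝ (J Box.P x) (∇ (χ Box.P) x)) +
        (∫ x in bx Box.N, inner ℝ (J Box.N x) (∇ (χ Box.N) x)) =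
          θ * (faceP (χ Box.P) - faceN (χ Box.N)))

theorem gradient_eq_ee (f : E3 → ℝ) (x : E3) (i : Fin 3) : (∇ f x) i = fderiv ℝ f x (ee i) := by
  rw [← inner_gradient, ee, EuclideanSpace.inner_single_left]
  simp

theorem norm_sq_E3 (x : E3) : ‖x‖ ^ 2 = x 0 ^ 2 + x 1 ^ 2 + x 2 ^ 2 := by
  rw [EuclideanSpace.norm_sq_eq, Fin.sum_univ_three]
  simp

theorem flux_bound (δ : ℝ) (hδ : 0 < δ) (p j : E3) (h : HEll δ p j) (h2 : p 2 = j 2) :
    ‖j‖ ^ 2 ≤ (1 + 1 / δ ^ 2) * ‖p‖ ^ 2 := by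
  rw [norm_sq_E3, norm_sq_E3, ← h2]
  have h3 := h.2
  have h4 : j 0 ^ 2 + j 1 ^ 2 ≤ (1 / δ ^ 2) * (p 0 ^ 2 + p 1 ^ 2) := by
    rw [div_mul_eq_mul_div, one_mul, le_div_iff₀ (by positivity)]
    nlinarith [sq_nonneg (δ * j 0 - p 0), sq_nonneg (δ * j 1 - p 1), sq_nonneg (p 0),
      sq_nonneg (p 1), mul_nonneg hδ.le (sq_nonneg (p 0)), mul_nonneg hδ.le (sq_nonneg (p 1))]
  have h5 : 0 ≤ (1 / δ ^ 2) * p 2 ^ 2 := by positivity
  nlinarith

theorem restrict_bx (b : Box) (V : Set E3) (hVs : V ⊆ bx b) (hV0 : volume (bx b \ V) = 0) :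
    (volume.restrict (bx b) : Measure E3) = volume.restrict V := by
  refine Measure.restrict_congr_set ?_
  have h1 : bx b \ V =ᵐ[volume] (∅ : Set E3) := ae_eq_empty.2 hV0
  have h2 : V ∪ (bx b \ V) = (bx b : Set E3) := union_sdiff_cancel hVs
  have h3 : (V ∪ (bx b \ V) : Set E3) =ᵐ[volume] (V ∪ ∅ : Set E3) := (ae_eq_refl V).union h1
  rwa [h2, union_empty] at h3

/-- Integration of the flux relation over one box. -/
theorem box_flux (b : Box) (V : Set E3) (hVs : V ⊆ bx b)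
    (hV0 : volume (bx b \ V) = 0) (Φ J R : E3 → E3) (χ : E3 → ℝ) (K : ℝ≥0)
    (hχ : LipschitzWith K χ) (hR : WDF R) (hR0 : ∀ x, x ∉ V → R x = 0)
    (hJ : Integrable J (volume.restrict V))
    (hrel : ∀ᵐ x ∂(volume.restrict V), J x + R x = Φ x) :
    ∫ x in bx b, inner ℝ (Φ x) (∇ χ x) = ∫ x in bx b, inner ℝ (J x) (∇ χ x) := by
  rw [restrict_bx b V hVs hV0]
  have hin : ∀ Q : E3 → E3, Integrable Q (volume.restrict V) →
      Integrable (fun x => inner ℝ (Q x) (∇ χ x)) (volume.restrict V) := by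
    intro Q hQ
    refine (hQ.norm.mul_const (K : ℝ)).mono'
      (hQ.aestronglyMeasurable.inner (measurable_gradient χ).aestronglyMeasurable) ?_
    filter_upwards with x
    exact (norm_inner_le_norm _ _).trans
      (mul_le_mul_of_nonneg_left (norm_gradient_le χ K hχ x) (norm_nonneg _))
  have h3 : ∫ x in V, inner ℝ (Φ x) (∇ χ x) =
      ∫ x in V, (inner ℝ (J x) (∇ χ x) + inner ℝ (R x) (∇ χ x)) := by
    refine integral_congr_ae ?_
    filter_upwards [hrel] with x hx
    rw [← hx, inner_add_left]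
  rw [h3, integral_add (hin J hJ) (hin R hR.1.integrableOn)]
  have h4 : ∫ x in V, inner ℝ (R x) (∇ χ x) = 0 := by
    rw [setIntegral_eq_integral_of_forall_compl_eq_zero, hR.2 χ K hχ]
    intro x hx
    rw [hR0 x hx, inner_zero_left]
  rw [h4, add_zero]

theorem lipschitz_coord (i : Fin 3) : LipschitzWith 1 (fun x : E3 => x i) :=
  LipschitzWith.of_dist_le_mul fun x y => by
    rw [NNReal.coe_one, one_mul, Real.dist_eq, dist_eq_norm, ← Real.norm_eq_abs]
    exact PiLp.norm_apply_le (x - y) i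

theorem gradient_add_of (f g : E3 → ℝ) (x : E3) (hf : DifferentiableAt ℝ f x)
    (hg : DifferentiableAt ℝ g x) : ∇ (fun y => f y + g y) x = ∇ f x + ∇ g x := by
  unfold gradient
  rw [fderiv_fun_add hf hg, map_add]

theorem gradient_coord (x : E3) : ∇ (fun y : E3 => y 2) x = ee 2 := by
  have h : HasFDerivAt (fun y : E3 => y 2) (EuclideanSpace.proj (𝕜 := ℝ) (2 : Fin 3)) x :=
    (EuclideanSpace.proj (𝕜 := ℝ) (2 : Fin 3)).hasFDerivAt
  unfold gradient
  rw [h.fderiv, LinearIsometryEquiv.symm_apply_eq]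
  ext y
  simp [ee, EuclideanSpace.inner_single_left]

set_option maxHeartbeats 1000000 in
theorem model_out_of (hlip : LipStmt) (hwdf : WdfStmt) (htensor : TensorStmt)
    (hiso : ∀ δ μ : ℝ, 0 < δ → 0 < μ → ∃ (c C : ℝ) (L : ℝ≥0), 0 < c ∧ IsoStmt δ μ c C L)
    (μ : ℝ) (hμ : 0 < μ) (M : Box → E3 → (E3 →L[ℝ] E3))
    (hM : ∀ b, ∃ U : Set E3, IsOpen U ∧ U ⊆ bxo b ∧ volume (bx b \ U) = 0 ∧
      (∀ x ∈ U, ∀ᶠ y in 𝓝 x, M b y = M b x) ∧ (∀ x ∈ U, Ell μ (M b x))) :
    Nonempty (ModelOut M) := by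
  obtain ⟨δ, e, θ, N0, w, J, V, wj, hδ, he, hθ, hV, hsm, hpt, hwjL, hwju, hwint, hwjt, hwjM, hwjO,
    hwjP, hwjN, hweak⟩ := htensor
  obtain ⟨c, C, L, hc, hiso⟩ := hiso δ μ hδ hμ
  choose U hUo hUs hU0 hUM hUE using hM
  set W : Box → Set E3 := fun b => V b ∩ U b with hW
  have hWo : ∀ b, IsOpen (W b) := fun b => (hV b).1.inter (hUo b)
  have hWs : ∀ b, W b ⊆ bxo b := fun b => inter_subset_left.trans (hV b).2.1
  have hWs' : ∀ b, W b ⊆ bx b := fun b => (hWs b).trans (mo_bxo_subset_bx b)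
  have hW0 : ∀ b, volume (bx b \ W b) = 0 := by
    intro b
    have h1 : bx b \ W b ⊆ (bx b \ V b) ∪ (bx b \ U b) := by
      intro x hx
      by_cases h : x ∈ V b
      · exact Or.inr ⟨hx.1, fun h' => hx.2 ⟨h, h'⟩⟩
      · exact Or.inl ⟨hx.1, h⟩
    exact measure_mono_null h1 (measure_union_null (hV b).2.2 (hU0 b))
  have hrestr : ∀ b, (volume.restrict (bx b) : Measure E3) = volume.restrict (W b) :=
    fun b => restrict_bx b (W b) (hWs' b) (hW0 b)
  have hWint : ∀ b, IntegrableOn (fun x => ‖∇ (w b) x‖ ^ 2) (W b) volume :=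
    fun b => (hwint b).mono_set (hWs' b)
  choose γ u v v' R T H hγm hγb hu hu0 hv hv0 hvv hHm hH2 hvH hWR hWT hRT0 hrel using fun b : Box =>
    iso_unb hlip hwdf δ μ c C L hiso (W b) (hWo b) ((bx_bounded b).subset (hWs' b)) (M b)
      (fun x hx => hUM b x hx.2) (fun x hx => hUE b x hx.2) (w b) (J b)
      ((hsm b).1.mono inter_subset_left) ((hsm b).2.mono inter_subset_left)
      (fun x hx => (hpt b x hx.1).1) (fun x hx => (hpt b x hx.1).2.1)
      (fun x hx => (hpt b x hx.1).2.2.1) (hWint b)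
  have hwm : ∀ b, Measurable (∇ (w b)) := fun b => measurable_gradient _
  have hw2 : ∀ b, MemLp (∇ (w b)) 2 (volume.restrict (bx b)) := by
    intro b
    rw [memLp_two_iff_integrable_sq_norm (hwm b).aestronglyMeasurable]
    exact hwint b
  have hH2' : ∀ b, MemLp (H b) 2 (volume.restrict (bx b)) := by
    intro b; rw [hrestr b]; exact hH2 b
  have hfin : ∀ b, IsFiniteMeasure (volume.restrict (bx b) : Measure E3) := fun b =>
    ⟨by simpa using volume_bx_lt_top b⟩
  have hwj2 : ∀ j b, MemLp (∇ (wj j b)) 2 (volume.restrict (bx b)) := by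
    intro j b
    have := hfin b
    obtain ⟨K, hK⟩ := hwjL j b
    exact MemLp.of_bound (measurable_gradient _).aestronglyMeasurable (K : ℝ)
      (Eventually.of_forall fun x => norm_gradient_le _ K hK x)
  have hnotO : ∀ x : E3, x 2 ≤ 7/10 → x ∉ W Box.O := fun x hx h => by
    have := (hWs _ h).2.2.1; linarith
  have hnotP : ∀ x : E3, 7/10 ≤ x 2 → x ∉ W Box.P := fun x hx h => by
    have := (hWs _ h).2.2.2.2; linarith
  have hnotN : ∀ x : E3, 7/10 ≤ x 2 → x ∉ W Box.N := fun x hx h => by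
    have := (hWs _ h).2.2.2.2; linarith
  have hJi : ∀ b, Integrable (J b) (volume.restrict (W b)) := by
    intro b
    have hfinW : IsFiniteMeasure (volume.restrict (W b) : Measure E3) := by
      rw [← hrestr b]; exact hfin b
    have h1 : AEStronglyMeasurable (J b) (volume.restrict (W b)) :=
      (((hsm b).2.continuousOn).mono inter_subset_left).aestronglyMeasurable (hWo b).measurableSet
    have h2 : MemLp (fun x => √(1 + 1 / δ ^ 2) * ‖∇ (w b) x‖) 2 (volume.restrict (W b)) := by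
      have h3 := hw2 b
      rw [hrestr b] at h3
      exact h3.norm.const_mul _
    have h3 : MemLp (J b) 2 (volume.restrict (W b)) := by
      refine h2.mono h1 ?_
      filter_upwards [ae_restrict_mem (hWo b).measurableSet] with x hx
      have h4 := flux_bound δ hδ (∇ (w b) x) (J b x) (hpt b x hx.1).2.2.1
        (by rw [gradient_eq_ee]; exact (hpt b x hx.1).1)
      rw [Real.norm_of_nonneg (by positivity)]
      refine (sq_le_sq₀ (norm_nonneg _) (by positivity)).1 ?_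
      rw [mul_pow, Real.sq_sqrt (by positivity)]
      exact h4
    exact h3.integrable one_le_two
  have hconst : ∀ b, Integrable (fun _ : E3 => ee 2) (volume.restrict (W b)) := by
    intro b
    have hfinW : IsFiniteMeasure (volume.restrict (W b) : Measure E3) := by
      rw [← hrestr b]; exact hfin b
    exact integrable_const _
  refine ⟨{
    c := c, C := C, e := e, θ := θ, γ := γ
    h := fun b x => x 2 + u b x
    G := fun b x => ∇ (w b) x + H b x
    wj := fun j b x => wj j b x + v b j x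
    w := fun b x => w b x + v' b x
    hc := hc, he := he, hθ := hθ, γm := hγm, γb := hγb
    hL := ?_, h0 := ?_, wjL := ?_, wju := ?_, Gi := ?_, wjG := ?_, wjM := ?_
    wjO := ?_, wjP := ?_, wjN := ?_, hE := ?_, wE := ?_ }⟩
  · intro b
    exact ⟨1 + 2 * L, (lipschitz_coord 2).add (hu b)⟩
  · intro b x hx
    rw [hu0 b x fun h => hx (hWs b h), add_zero]
  · intro j b
    obtain ⟨K, hK⟩ := hwjL j b
    obtain ⟨K', hK'⟩ := hv b j
    exact ⟨K + K', hK.add hK'⟩
  · intro ε hε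
    obtain ⟨j0, hj0⟩ := hwju (ε / 2) (by positivity)
    obtain ⟨j1, hj1⟩ := exists_pow_lt_of_lt_one (show (0:ℝ) < ε / 2 by positivity)
      (show (1/2 : ℝ) < 1 by norm_num)
    refine ⟨max j0 j1, fun j hj b x hx => ?_⟩
    have h1 := hj0 j ((le_max_left _ _).trans hj) b x hx
    have h2 := hvv b j x
    have h3 : (1/2 : ℝ) ^ j ≤ (1/2) ^ j1 :=
      pow_le_pow_of_le_one (by norm_num) (by norm_num) ((le_max_right _ _).trans hj)
    calc |wj j b x + v b j x - (w b x + v' b x)|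
        = |(wj j b x - w b x) + (v b j x - v' b x)| := by congr 1; ring
      _ ≤ |wj j b x - w b x| + |v b j x - v' b x| := abs_add_le _ _
      _ ≤ ε := by linarith
  · intro b
    exact (hw2 b).add (hH2' b)
  · intro b
    have h1 : Tendsto (fun j => eLpNorm (fun x => ∇ (wj j b) x - ∇ (w b) x) 2
        (volume.restrict (bx b))) atTop (𝓝 0) :=
      tendsto_eLpNorm_two_of_integral _ (fun j => (hwj2 j b).sub (hw2 b)) (hwjt b)
    have h2 : Tendsto (fun j => eLpNorm (fun x => ∇ (v b j) x - H b x) 2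
        (volume.restrict (bx b))) atTop (𝓝 0) := by
      rw [hrestr b]; exact hvH b
    have h3 := h1.add h2
    rw [add_zero] at h3
    refine tendsto_of_tendsto_of_tendsto_of_le_of_le tendsto_const_nhds h3
      (fun j => zero_le) (fun j => ?_)
    obtain ⟨K, hK⟩ := hwjL j b
    obtain ⟨K', hK'⟩ := hv b j
    have h4 : eLpNorm (fun x => ∇ (fun y => wj j b y + v b j y) x - (∇ (w b) x + H b x)) 2
        (volume.restrict (bx b)) =
        eLpNorm ((fun x => ∇ (wj j b) x - ∇ (w b) x) + fun x => ∇ (v b j) x - H b x) 2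
        (volume.restrict (bx b)) := by
      refine eLpNorm_congr_ae ?_
      refine ae_restrict_of_ae ?_
      filter_upwards [hK.ae_differentiableAt, hK'.ae_differentiableAt] with x hx hx'
      rw [gradient_add_of _ _ _ hx hx', Pi.add_apply]
      abel
    rw [h4]
    refine eLpNorm_add_le ?_ ?_ one_le_two
    · exact ((measurable_gradient _).sub (hwm b)).aestronglyMeasurable
    · exact ((measurable_gradient _).sub (hHm b)).aestronglyMeasurable
  · intro j
    constructor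
    · intro p hp hp2
      simp only
      rw [(hwjM j).1 p hp hp2, hv0 Box.O j p (hnotO p hp2.le), hv0 Box.P j p (hnotP p hp2.ge)]
    · intro p hp hp2
      simp only
      rw [(hwjM j).2 p hp hp2, hv0 Box.O j p (hnotO p hp2.le), hv0 Box.N j p (hnotN p hp2.ge)]
  · intro j x hx hx2
    rw [hwjO j x hx hx2, hv0 Box.O j x, add_zero]
    intro h
    have := (hWs _ h).2.2.2
    linarith
  · intro j x hx hx2
    rw [hwjP j x hx hx2, hv0 Box.P j x, add_zero]
    intro h
    have := (hWs _ h).2.2.2.1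
    linarith
  · intro j x hx hx2
    rw [hwjN j x hx hx2, hv0 Box.N j x, add_zero]
    intro h
    have := (hWs _ h).2.2.2.1
    linarith
  · intro χ hχ hm
    rw [← level_identity χ hχ hm]
    have key : ∀ b, ∫ x in bx b, γ b x * inner ℝ (M b x (∇ (fun y => y 2 + u b y) x)) (∇ (χ b) x) =
        ∫ x in bx b, inner ℝ (ee 2) (∇ (χ b) x) := by
      intro b
      obtain ⟨K, hK⟩ := hχ b
      rw [← box_flux b (W b) (hWs' b) (hW0 b)
        (fun x => γ b x • M b x (∇ (fun y => y 2 + u b y) x)) (fun _ => ee 2) (R b) (χ b) K hK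
        (hWR b) (fun x hx => (hRT0 b x hx).1) (hconst b) ?_]
      · refine integral_congr_ae (Eventually.of_forall fun x => ?_)
        simp only [real_inner_smul_left]
      · have h1 : ∀ᵐ x ∂(volume.restrict (W b)), DifferentiableAt ℝ (u b) x :=
          ae_restrict_of_ae (hu b).ae_differentiableAt
        filter_upwards [hrel b, h1] with x hx hx1
        have h2 : DifferentiableAt ℝ (fun y : E3 => y 2) x :=
          (EuclideanSpace.proj (𝕜 := ℝ) (2 : Fin 3)).differentiableAt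
        rw [hx.1, gradient_add_of (fun y : E3 => y 2) (u b) x h2 hx1, gradient_coord]
    rw [key, key, key]
  · intro χ hχ hm
    rw [← hweak χ hχ hm]
    have key : ∀ b, ∫ x in bx b, γ b x * inner ℝ (M b x (∇ (w b) x + H b x)) (∇ (χ b) x) =
        ∫ x in bx b, inner ℝ (J b x) (∇ (χ b) x) := by
      intro b
      obtain ⟨K, hK⟩ := hχ b
      rw [← box_flux b (W b) (hWs' b) (hW0 b)
        (fun x => γ b x • M b x (∇ (w b) x + H b x)) (J b) (T b) (χ b) K hK
        (hWT b) (fun x hx => (hRT0 b x hx).2) (hJi b) ?_]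
      · refine integral_congr_ae (Eventually.of_forall fun x => ?_)
        simp only [real_inner_smul_left]
      · filter_upwards [hrel b] with x hx
        exact hx.2
    rw [key, key, key]

end Crest.Agent.R083
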