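import Crest.Agent.R083.ModFinal
import Crest.Agent.R083.ModelIsoAux

/-!
Row 83 (S0111), MOD: `module_exists`, with the results of the ISO and TM groups as hypotheses.
-/

set_option autoImplicit false

namespace Crest.Agent.R083

open MeasureTheory Set Filter
open scoped Gradient ENNReal NNReal Topology

theorem module_exists_of (hlip : LipStmt) (hwdf : WdfStmt) (htensor : TensorStmt)
    (hiso : ∀ δ μ : ℝ, 0 < δ → 0 < μ → ∃ (c C : ℝ) (L : ℝ≥0), 0 < c ∧ IsoStmt δ μ c C L) :
    Nonempty ModData := by
  obtain ⟨μ, hμ, h⟩ := chart_metric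
  obtain ⟨O⟩ := model_out_of hlip hwdf htensor hiso μ hμ Mf h
  exact module_of_model O

end Crest.Agent.R083
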