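import Crest.Agent.R083.ChartFace
import Crest.Agent.R083.ModDefs
import Crest.Agent.R083.Chart
import Crest.Agent.R083.Transport

/-!
Row 83 (S0111), MOD: sums of the face integrals over the upper and the lower half.
-/

set_option autoImplicit false

namespace Crest.Agent.R083

open MeasureTheory Set Filter
open scoped Gradient ENNReal NNReal Topology

theorem rfl2_sim (b : Bool) (p : E3) : rfl2 (sim b p) = sim b (rfl2 p) := by
  apply tg_ext <;> simp [sim]

theorem facesum_O (ψ : E3 → ℝ) (hψ : Continuous ψ) :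
    faceO (fun X => ψ (theta Box.O X)) + faceO (fun X => ψ (rfl2 (theta Box.O X))) =
      Nf * pavg ψ := by
  rw [faceO_eq ψ (theta Box.O) theta_faceO,
    faceO_eq (fun p => ψ (rfl2 p)) (theta Box.O) theta_faceO, pavg_eq_roofInt ψ hψ, Nf]
  ring

theorem facesum_P (ψ : E3 → ℝ) (hψ : Continuous ψ) :
    faceP (fun X => ψ (theta Box.P X)) + faceP (fun X => ψ (rfl2 (theta Box.P X))) =
      Nf / 2 * pavg (ψ ∘ sim true) := by
  have hc : Continuous (ψ ∘ sim true) := hψ.comp (sim_continuous true)
  have hr : Continuous fun p => ψ (rfl2 p) := hψ.comp rfl2_lip.continuous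
  have e : (fun p => ψ (rfl2 p)) ∘ sim true = fun p => (ψ ∘ sim true) (rfl2 p) := by
    funext p; simp only [Function.comp_apply, rfl2_sim]
  rw [faceP_eq ψ hψ (theta Box.P) theta_faceP,
    faceP_eq (fun p => ψ (rfl2 p)) hr (theta Box.P) theta_faceP, pavg_eq_roofInt _ hc, e, Nf]
  ring

theorem facesum_N (ψ : E3 → ℝ) (hψ : Continuous ψ) :
    faceN (fun X => ψ (theta Box.N X)) + faceN (fun X => ψ (rfl2 (theta Box.N X))) =
      Nf / 2 * pavg (ψ ∘ sim false) := by
  have hc : Continuous (ψ ∘ sim false) := hψ.comp (sim_continuous false)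
  have hr : Continuous fun p => ψ (rfl2 p) := hψ.comp rfl2_lip.continuous
  have e : (fun p => ψ (rfl2 p)) ∘ sim false = fun p => (ψ ∘ sim false) (rfl2 p) := by
    funext p; simp only [Function.comp_apply, rfl2_sim]
  rw [faceN_eq ψ hψ (theta Box.N) theta_faceN,
    faceN_eq (fun p => ψ (rfl2 p)) hr (theta Box.N) theta_faceN, pavg_eq_roofInt _ hc, e, Nf]
  ring

end Crest.Agent.R083
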