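import Crest.Agent.R083.ModBuild
import Crest.Agent.R083.ModFace

/-!
Row 83 (S0111), MOD-d: the structure `ModData` from the isotropised model.
-/

set_option autoImplicit false

namespace Crest.Agent.R083

open MeasureTheory Set Filter
open scoped Gradient ENNReal NNReal Topology

theorem Nf_pos : 0 < Nf := by unfold Nf; norm_num

/-- test families -/
theorem chi_lip {ψ : E3 → ℝ} {K : ℝ≥0} (hψ : LipschitzWith K ψ) (b : Box) :
    ∃ K' : ℝ≥0, LipschitzWith K' (fun Q => ψ (theta b Q)) := by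
  obtain ⟨K', hK'⟩ := theta_lip b
  exact ⟨K * K', hψ.comp hK'⟩

theorem chi_matching (ψ : E3 → ℝ) : Matching (fun b Q => ψ (theta b Q)) := by
  constructor
  · intro p hp h; simp only; rw [theta_OP p hp h]
  · intro p hp h; simp only; rw [theta_ON p hp h]

variable (O : ModelOut Mf)

theorem EB_h {ψ : E3 → ℝ} {K : ℝ≥0} (hψ : LipschitzWith K ψ) :
    EB O.γ (fun b => ∇ (O.h b)) ψ Box.O + EB O.γ (fun b => ∇ (O.h b)) ψ Box.P +
      EB O.γ (fun b => ∇ (O.h b)) ψ Box.N =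
    faceO (fun Q => ψ (theta Box.O Q)) - faceP (fun Q => ψ (theta Box.P Q)) -
      faceN (fun Q => ψ (theta Box.N Q)) :=
  O.hE (fun b Q => ψ (theta b Q)) (chi_lip hψ) (chi_matching ψ)

theorem EB_w {ψ : E3 → ℝ} {K : ℝ≥0} (hψ : LipschitzWith K ψ) :
    EB O.γ O.G ψ Box.O + EB O.γ O.G ψ Box.P + EB O.γ O.G ψ Box.N =
    O.θ * (faceP (fun Q => ψ (theta Box.P Q)) - faceN (fun Q => ψ (theta Box.N Q))) :=
  O.wE (fun b Q => ψ (theta b Q)) (chi_lip hψ) (chi_matching ψ)

theorem γ_abs (b : Box) (x : E3) : |O.γ b x| ≤ O.C := by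
  have h := O.γb b x
  rw [abs_of_pos (lt_of_lt_of_le O.hc h.1)]
  exact h.2

/-- the charge identity -/
theorem h_energy {ψ : E3 → ℝ} {K : ℝ≥0} (hψ : LipschitzWith K ψ) :
    ∫ x in modQ, pull O.γ x * inner ℝ (∇ (pull O.h) x) (∇ ψ x) =
      Nf * pavg ψ - Nf / 2 * pavg (ψ ∘ sim true) - Nf / 2 * pavg (ψ ∘ sim false) := by
  rw [modQ_energy O.γ O.γm O.C (γ_abs O) O.h (h_matching O) O.hL ψ K hψ, EB_h O hψ,
    EB_h O (comp_rfl2_lip hψ)]
  have h1 := facesum_O ψ hψ.continuous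
  have h2 := facesum_P ψ hψ.continuous
  have h3 := facesum_N ψ hψ.continuous
  linarith

/-- the neutral identity -/
theorem w_energy {G : E3 → E3} (hG : MemLp G 2 volume)
    (hGt : Tendsto (fun j => eLpNorm (fun x => ∇ (pull (O.wj j)) x - G x) 2 volume) atTop (𝓝 0))
    {ψ : E3 → ℝ} {K : ℝ≥0} (hψ : LipschitzWith K ψ) :
    ∫ x in modQ, pull O.γ x * inner ℝ (G x) (∇ ψ x) =
      O.θ * (Nf / 2 * pavg (ψ ∘ sim true) - Nf / 2 * pavg (ψ ∘ sim false)) := by
  have hfin : IsFiniteMeasure (volume.restrict modQ) := ⟨by simpa using modQ_vol⟩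
  have hγb : ∀ x, |pull O.γ x| ≤ O.C := by
    intro x
    obtain ⟨b, -, hb⟩ := pull_exists O.γ x
    rw [hb]; exact γ_abs O b _
  -- physical side
  have h1 : Tendsto (fun j => ∫ x in modQ, pull O.γ x * inner ℝ (∇ (pull (O.wj j)) x) (∇ ψ x))
      atTop (𝓝 (∫ x in modQ, pull O.γ x * inner ℝ (G x) (∇ ψ x))) := by
    have := tendsto_integral_L2 (μ := volume.restrict modQ)
      (fun x => pull O.γ x • innerSL ℝ (∇ ψ x)) ?_ (O.C * K) ?_
      (fun j => ∇ (pull (O.wj j))) G ?_ (hG.restrict _) ?_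
    · refine (this.congr fun j => ?_).trans (le_of_eq ?_)
      · refine integral_congr_ae (Eventually.of_forall fun X => ?_)
        simp only [smul_apply, innerSL_apply_apply, smul_eq_mul]
        rw [real_inner_comm]
      · congr 1
        refine integral_congr_ae (Eventually.of_forall fun X => ?_)
        simp only [smul_apply, innerSL_apply_apply, smul_eq_mul]
        rw [real_inner_comm]
    · refine AEStronglyMeasurable.smul (pull_measurable O.γ O.γm).aestronglyMeasurable ?_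
      exact (innerSL ℝ (E := E3)).continuous.comp_aestronglyMeasurable
        (tr_measurable_grad _).aestronglyMeasurable
    · refine Eventually.of_forall fun x => ?_
      rw [norm_smul, Real.norm_eq_abs, innerSL_apply_norm]
      exact mul_le_mul (hγb x) (tr_norm_grad_le hψ x) (norm_nonneg _)
        ((abs_nonneg _).trans (hγb x))
    · intro j
      obtain ⟨K', hK'⟩ := pull_lip _ (O.wjM j) (O.wjL j)
      exact memLp_grad hK' modQ_vol
    · refine tendsto_of_tendsto_of_tendsto_of_le_of_le tendsto_const_nhds hGt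
        (fun j => bot_le) (fun j => ?_)
      exact eLpNorm_mono_measure _ Measure.restrict_le_self
  -- model side
  have h2 : ∀ (χ : E3 → ℝ), LipschitzWith K χ → Tendsto (fun j =>
      EB O.γ (fun b => ∇ (O.wj j b)) χ Box.O + EB O.γ (fun b => ∇ (O.wj j b)) χ Box.P +
        EB O.γ (fun b => ∇ (O.wj j b)) χ Box.N) atTop
      (𝓝 (EB O.γ O.G χ Box.O + EB O.γ O.G χ Box.P + EB O.γ O.G χ Box.N)) := by
    intro χ hχ
    have hV : ∀ (j : ℕ) (b : Box), MemLp (∇ (O.wj j b)) 2 (volume.restrict (bx b)) := by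
      intro j b
      obtain ⟨K', hK'⟩ := O.wjL j b
      exact memLp_grad hK' (bx_vol b)
    have := fun b => EB_tendsto O.γ O.γm O.C (γ_abs O) (fun j b => ∇ (O.wj j b)) O.G hV O.Gi
      O.wjG χ K hχ b
    exact ((this _).add (this _)).add (this _)
  have h3 := (h2 ψ hψ).add (h2 _ (comp_rfl2_lip hψ))
  have h4 : (fun j => ∫ x in modQ, pull O.γ x * inner ℝ (∇ (pull (O.wj j)) x) (∇ ψ x)) =
      fun j => (EB O.γ (fun b => ∇ (O.wj j b)) ψ Box.O + EB O.γ (fun b => ∇ (O.wj j b)) ψ Box.P +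
        EB O.γ (fun b => ∇ (O.wj j b)) ψ Box.N) +
      (EB O.γ (fun b => ∇ (O.wj j b)) (fun x => ψ (rfl2 x)) Box.O +
        EB O.γ (fun b => ∇ (O.wj j b)) (fun x => ψ (rfl2 x)) Box.P +
        EB O.γ (fun b => ∇ (O.wj j b)) (fun x => ψ (rfl2 x)) Box.N) := by
    funext j
    exact modQ_energy O.γ O.γm O.C (γ_abs O) (O.wj j) (O.wjM j) (O.wjL j) ψ K hψ
  rw [h4] at h1
  rw [tendsto_nhds_unique h1 h3, EB_w O hψ, EB_w O (comp_rfl2_lip hψ)]
  have e2 := facesum_P ψ hψ.continuous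
  have e3 := facesum_N ψ hψ.continuous
  rw [← e2, ← e3]
  ring

/-- uniform convergence of the approximants -/
theorem wj_unif : ∀ ε : ℝ, 0 < ε → ∀ᶠ j in atTop, ∀ x, |pull (O.wj j) x - pull O.w x| ≤ ε := by
  intro ε hε
  obtain ⟨j0, hj⟩ := O.wju ε hε
  filter_upwards [eventually_ge_atTop j0] with j hj' x
  unfold pull
  split_ifs
  · exact hj j hj' _ _ (phi_mem _ _)
  · exact hj j hj' _ _ (phi_mem _ _)
  · exact hj j hj' _ _ (phi_mem _ _)

/-- The physical module. -/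
theorem module_of_model (O : ModelOut Mf) : Nonempty ModData := by
  obtain ⟨G, hG, hGt⟩ := exists_G O
  have hN := Nf_pos
  have hθ := O.hθ
  obtain ⟨Kh, hKh⟩ := pull_lip O.h (h_matching O) O.hL
  have hκ : 0 < (O.θ * Nf)⁻¹ := by positivity
  refine ⟨{
    c := O.c
    C := O.C
    d := Nf⁻¹ * (1 - 3/5)
    e := (O.θ * Nf)⁻¹ * O.e
    γ := pull O.γ
    F := fun x => Nf⁻¹ * (1 - pull O.h x)
    W := fun x => (O.θ * Nf)⁻¹ * pull O.w x
    G := fun x => (O.θ * Nf)⁻¹ • G x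
    Wj := fun j x => (O.θ * Nf)⁻¹ * pull (O.wj j) x
    hc := O.hc
    he := by have := O.he; positivity
    γm := pull_measurable O.γ O.γm
    γb := ?_
    FL := ?_
    F0 := ?_
    Fd := ?_
    FE := ?_
    WjL := ?_
    Wj0 := ?_
    Wje := ?_
    Wju := ?_
    Gmem := hG.const_smul ((O.θ * Nf)⁻¹ : ℝ)
    WjG := ?_
    WE := ?_ }⟩
  · intro x
    obtain ⟨b, -, hb⟩ := pull_exists O.γ x
    rw [hb]; exact O.γb b _
  · have h1 : LipschitzWith (0 + Kh) (fun x => 1 - pull O.h x) :=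
      (LipschitzWith.const (1 : ℝ)).sub hKh
    exact ⟨_, (lipschitzWith_smul (Nf⁻¹ : ℝ)).comp h1⟩
  · intro x hx
    rw [h_out O x (lev_of_not_cellB hx), sub_self, mul_zero]
  · intro b x hx
    rw [h_in O x (lev_of_child hx)]
  · intro ψ K hψ
    have h1 : ∀ x, ∇ (fun x => Nf⁻¹ * (1 - pull O.h x)) x = - (Nf⁻¹ • ∇ (pull O.h) x) := by
      intro x
      rw [grad_mul_const, grad_sub_const, smul_neg]
    have h2 : ∀ x, pull O.γ x * inner ℝ (∇ (fun x => Nf⁻¹ * (1 - pull O.h x)) x) (∇ ψ x) =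
        - Nf⁻¹ * (pull O.γ x * inner ℝ (∇ (pull O.h) x) (∇ ψ x)) := by
      intro x
      rw [h1, inner_neg_left, real_inner_smul_left]
      ring
    simp only [h2]
    rw [integral_const_mul, h_energy O hψ]
    field_simp
    ring
  · intro j
    obtain ⟨K, hK⟩ := pull_lip _ (O.wjM j) (O.wjL j)
    exact ⟨_, (lipschitzWith_smul ((O.θ * Nf)⁻¹ : ℝ)).comp hK⟩
  · intro j x hx
    rw [wj_out O j x (lev_of_not_cellB hx), mul_zero]
  · intro j b x hx
    rw [wj_child O j b x hx]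
    ring
  · rw [Metric.tendstoUniformly_iff]
    intro ε hε
    have h1 : 0 < ε * (O.θ * Nf) / 2 := by positivity
    filter_upwards [wj_unif O _ h1] with j hj x
    rw [dist_comm, Real.dist_eq, ← mul_sub, abs_mul, abs_of_pos hκ]
    calc (O.θ * Nf)⁻¹ * |pull (O.wj j) x - pull O.w x|
        ≤ (O.θ * Nf)⁻¹ * (ε * (O.θ * Nf) / 2) := by gcongr; exact hj x
      _ = ε / 2 := by field_simp
      _ < ε := by linarith
  · have h1 : ∀ j, eLpNorm (fun x => ∇ (fun x => (O.θ * Nf)⁻¹ * pull (O.wj j) x) x -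
        (O.θ * Nf)⁻¹ • G x) 2 volume =
        ‖(O.θ * Nf)⁻¹‖ₑ * eLpNorm (fun x => ∇ (pull (O.wj j)) x - G x) 2 volume := by
      intro j
      rw [← eLpNorm_const_smul]
      congr 1
      funext x
      rw [grad_mul_const, Pi.smul_apply, smul_sub]
    simp only [h1]
    have := ENNReal.Tendsto.const_mul (a := ‖(O.θ * Nf)⁻¹‖ₑ) hGt (Or.inr enorm_ne_top)
    simpa using this
  · intro ψ K hψ
    have h2 : ∀ x, pull O.γ x * inner ℝ ((O.θ * Nf)⁻¹ • G x) (∇ ψ x) =
        (O.θ * Nf)⁻¹ * (pull O.γ x * inner ℝ (G x) (∇ ψ x)) := by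
      intro x
      rw [real_inner_smul_left]
      ring
    simp only [h2]
    rw [integral_const_mul, w_energy O hG hGt hψ]
    field_simp

end Crest.Agent.R083
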