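import Crest.Agent.R083.ChartDefs

/-!
Row 83 (S0111): INTERNAL INTERFACE of the MOD group (stubs with `sorry`, never imported by the final
file).  Each theorem is to be proved with exactly this name and statement in the file named above it.
All statements of `Chart.lean` were tested with exact rational arithmetic at 200000 points.
-/

set_option autoImplicit false

namespace Crest.Agent.R083

open MeasureTheory Set Filter
open scoped Gradient ENNReal NNReal Topology

/-! ### File `Chart.lean` (MOD-b, task 910) -/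

theorem lev_lip : ∃ K : ℝ≥0, LipschitzWith K lev := by sorry
theorem phi_lip (b : Box) : ∃ K : ℝ≥0, LipschitzWith K (phi b) := by sorry
theorem theta_lip (b : Box) : ∃ K : ℝ≥0, LipschitzWith K (theta b) := by sorry

theorem lev_rfl2 (p : E3) : lev (rfl2 p) = lev p := by sorry
theorem phi_rfl2 (b : Box) (p : E3) : phi b (rfl2 p) = phi b p := by sorry
theorem phi_mem (b : Box) (p : E3) : phi b p ∈ bx b := by sorry

/-- description of the cells by the level -/
theorem cellB_eq : cellB = {p | lev p < 1} := by sorry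
theorem child_true_eq : sim true '' cellBc = {p | lev p ≤ 3/5 ∧ 0 ≤ p 0} := by sorry
theorem child_false_eq : sim false '' cellBc = {p | lev p ≤ 3/5 ∧ p 0 ≤ 0} := by sorry
theorem modQ_eq : modQ = {p | 3/5 < lev p ∧ lev p < 1} := by sorry
theorem lev_of_zero (p : E3) (h : p 0 = 0) : 7/10 ≤ lev p := by sorry

theorem reg_closed (b : Box) : IsClosed (reg b) := by sorry
theorem reg_cover : (⋃ b, reg b) = univ := by sorry
theorem om_open (b : Box) : IsOpen (om b) := by sorry

/-- the charts agree on the overlaps of the closed regions -/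
theorem phi_OP (p : E3) (hO : p ∈ reg Box.O) (hP : p ∈ reg Box.P) :
    phi Box.O p = phi Box.P p ∧ (phi Box.P p) 2 = 7/10 := by sorry
theorem phi_ON (p : E3) (hO : p ∈ reg Box.O) (hN : p ∈ reg Box.N) :
    phi Box.O p = phi Box.N p ∧ (phi Box.N p) 2 = 7/10 := by sorry
theorem reg_PN (p : E3) (hP : p ∈ reg Box.P) (hN : p ∈ reg Box.N) : p ∈ reg Box.O := by sorry

/-- levels of the chart -/
theorem phi_out (p : E3) (h : 1 ≤ lev p) : (phi Box.O p) 2 = 1 := by sorry
theorem phi_inP (p : E3) (h : lev p ≤ 3/5) : (phi Box.P p) 2 = 3/5 := by sorry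
theorem phi_inN (p : E3) (h : lev p ≤ 3/5) : (phi Box.N p) 2 = 3/5 := by sorry

/-- the two charts are inverse to each other -/
theorem phi_theta (b : Box) (P : E3) (h : P ∈ bx b) : phi b (theta b P) = P := by sorry
theorem theta_phi (b : Box) (p : E3) (h : p ∈ om b) : theta b (phi b p) = p := by sorry
theorem theta_maps (b : Box) (P : E3) (h : P ∈ bxo b) : theta b P ∈ om b := by sorry
theorem phi_maps (b : Box) (p : E3) (h : p ∈ om b) : phi b p ∈ bxo b := by sorry
theorem lev_theta (b : Box) (P : E3) (h : P ∈ bx b) : lev (theta b P) = P 2 := by sorry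
/-- on the closed physical pieces -/
theorem theta_phi_closed (b : Box) (p : E3) (h : p ∈ reg b) (h0 : 0 ≤ p 2) (h1 : 3/5 ≤ lev p)
    (h2 : lev p ≤ 1) : theta b (phi b p) = p := by sorry

/-- matching of the inverse charts across the level `7/10` -/
theorem theta_OP (P : E3) (h : P ∈ bx Box.P) (h2 : P 2 = 7/10) :
    theta Box.O P = theta Box.P P := by sorry
theorem theta_ON (P : E3) (h : P ∈ bx Box.N) (h2 : P 2 = 7/10) :
    theta Box.O P = theta Box.N P := by sorry

/-- faces -/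
theorem theta_faceO (X Y : ℝ) (hX : |X| ≤ 32/25) (hY : |Y| ≤ 22/25) :
    theta Box.O (pt X Y 1) = pt (35/32 * X) (25/22 * Y) (roof (35/32 * X) (25/22 * Y)) := by sorry
theorem theta_faceP (X Y : ℝ) (hX0 : 0 ≤ X) (hX : X ≤ 32/25) (hY : |Y| ≤ 22/25) :
    theta Box.P (pt X Y (3/5)) =
      sim true (pt (35/22 * Y) (25/16 * (X - 16/25)) (roof (35/22 * Y) (25/16 * (X - 16/25)))) := by
  sorry
theorem theta_faceN (X Y : ℝ) (hX0 : X ≤ 0) (hX : -(32/25) ≤ X) (hY : |Y| ≤ 22/25) :
    theta Box.N (pt X Y (3/5)) =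
      sim false (pt (35/22 * Y) (25/16 * (X + 16/25)) (roof (35/22 * Y) (25/16 * (X + 16/25)))) := by
  sorry

/-- null sets (level sets are graphs over the horizontal coordinates) -/
theorem volume_plane : volume {p : E3 | p 2 = 0} = 0 := by sorry
theorem volume_level (l : ℝ) (h : 3/5 ≤ l) (h' : l ≤ 1) : volume {p : E3 | lev p = l} = 0 := by
  sorry

/-! ### File `Chart2.lean` (MOD-c, task 911): may assume the statements of `Chart.lean` -/

/-- locally affine almost everywhere, with uniform bounds -/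
theorem chart_affine : ∃ L : ℝ≥0, ∀ b : Box, ∃ U : Set E3, IsOpen U ∧ U ⊆ bxo b ∧
    volume (bx b \ U) = 0 ∧ ∀ P ∈ U, ∃ A : E3 ≃L[ℝ] E3,
      (∀ᶠ Q in 𝓝 P, theta b Q = theta b P + A (Q - P)) ∧
      ‖(A : E3 →L[ℝ] E3)‖ ≤ L ∧ ‖(A.symm : E3 →L[ℝ] E3)‖ ≤ L := by sorry

/-- the metric field satisfies the hypothesis of `model_out` -/
theorem chart_metric : ∃ μ : ℝ, 0 < μ ∧ ∀ b : Box, ∃ U : Set E3, IsOpen U ∧ U ⊆ bxo b ∧
    volume (bx b \ U) = 0 ∧ (∀ x ∈ U, ∀ᶠ y in 𝓝 x, Mf b y = Mf b x) ∧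
    (∀ x ∈ U, Ell μ (Mf b x)) := by sorry

/-- bounds for the Jacobian (in the notation of `chart_affine`) -/
theorem det_bounds (A : E3 ≃L[ℝ] E3) (L : ℝ) (h1 : ‖(A : E3 →L[ℝ] E3)‖ ≤ L)
    (h2 : ‖(A.symm : E3 →L[ℝ] E3)‖ ≤ L) :
    |(A : E3 →L[ℝ] E3).det| ≤ L ^ 3 ∧ 1 ≤ L ^ 3 * |(A : E3 →L[ℝ] E3).det| := by sorry

end Crest.Agent.R083
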