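import Crest.Agent.R083.ModDefs

/-!
Row 83 (S0111): INTERNAL INTERFACE 2 of the MOD group (stubs with `sorry`, never imported by the final
file): pieces of `Module.lean`.
-/

set_option autoImplicit false

namespace Crest.Agent.R083

open MeasureTheory Set Filter
open scoped Gradient ENNReal NNReal Topology

/-! ### File `ModPull.lean` (helper480) -/

theorem pull_eq (f : Box → E3 → ℝ) (hm : Matching f) (b : Box) (p : E3) (hp : p ∈ reg b) :
    pull f p = f b (phi b p) := by sorry
/-- without matching, in the open pieces -/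
theorem pull_theta (f : Box → E3 → ℝ) (b : Box) (P : E3) (hP : P ∈ bxo b) :
    pull f (theta b P) = f b P := by sorry
theorem pull_exists (f : Box → E3 → ℝ) (p : E3) : ∃ b, p ∈ reg b ∧ pull f p = f b (phi b p) := by
  sorry
theorem pull_rfl2 (f : Box → E3 → ℝ) (p : E3) : pull f (rfl2 p) = pull f p := by sorry
theorem pull_measurable (f : Box → E3 → ℝ) (hf : ∀ b, Measurable (f b)) :
    Measurable (pull f) := by sorry
theorem pull_lip (f : Box → E3 → ℝ) (hm : Matching f)
    (hL : ∀ b, ∃ K : ℝ≥0, LipschitzWith K (f b)) : ∃ K : ℝ≥0, LipschitzWith K (pull f) := by sorry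

/-! ### File `ModPart.lean` (helper421) -/

theorem om_ae (b : Box) (U : Set E3) (hU : U ⊆ bxo b) (h0 : volume (bx b \ U) = 0) :
    (om b : Set E3) =ᵐ[volume] (theta b '' U : Set E3) := by sorry
theorem integral_modQ (f : E3 → ℝ) (hf : IntegrableOn f modQ volume) :
    ∫ x in modQ, f x = (∫ x in om Box.O, f x) + (∫ x in om Box.P, f x) + (∫ x in om Box.N, f x) +
      ((∫ x in om Box.O, f (rfl2 x)) + (∫ x in om Box.P, f (rfl2 x)) +
        (∫ x in om Box.N, f (rfl2 x))) := by sorry
theorem lintegral_modQ (f : E3 → ℝ≥0∞) (he : ∀ x, f (rfl2 x) = f x) :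
    ∫⁻ x in modQ, f x ≤ 2 * ((∫⁻ x in om Box.O, f x) + (∫⁻ x in om Box.P, f x) +
      (∫⁻ x in om Box.N, f x)) := by sorry

/-! ### File `ModFace.lean` (helper919) -/

theorem facesum_O (ψ : E3 → ℝ) (hψ : Continuous ψ) :
    faceO (fun X => ψ (theta Box.O X)) + faceO (fun X => ψ (rfl2 (theta Box.O X))) =
      Nf * pavg ψ := by sorry
theorem facesum_P (ψ : E3 → ℝ) (hψ : Continuous ψ) :
    faceP (fun X => ψ (theta Box.P X)) + faceP (fun X => ψ (rfl2 (theta Box.P X))) =
      Nf / 2 * pavg (ψ ∘ sim true) := by sorry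
theorem facesum_N (ψ : E3 → ℝ) (hψ : Continuous ψ) :
    faceN (fun X => ψ (theta Box.N X)) + faceN (fun X => ψ (rfl2 (theta Box.N X))) =
      Nf / 2 * pavg (ψ ∘ sim false) := by sorry

end Crest.Agent.R083
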