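import Crest.Agent.R083.TMPoint

/-!
Row 83 (S0111), TM group: Lipschitz approximants of the potential on a box, with their values on
the horizontal faces.
-/

set_option autoImplicit false

namespace Crest.Agent.R083

open MeasureTheory Set Filter
open scoped Gradient ENNReal NNReal Topology ContDiff

theorem fa_cont_cut (n : ℕ) (x y : ℝ) : Continuous fun t => cut n (pt x y t) := by
  unfold cut tip2
  simp only [pt_zero, pt_two]
  exact Real.smoothTransition.continuous.comp (by fun_prop)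

theorem fa_cont_tip (x y : ℝ) : Continuous fun t => √(tip2 (pt x y t)) := by
  unfold tip2
  simp only [pt_zero, pt_two]
  fun_prop

/-- Uniqueness of limits at a horizontal face. -/
theorem fa_face (F : Filter ℝ) [F.NeBot] (n : ℕ) (f w : E3 → ℝ) (x y t0 v : ℝ)
    (hF : F ≤ 𝓝 t0) (hf : Continuous fun t => f (pt x y t))
    (hev : ∀ᶠ t in F, f (pt x y t) = cut n (pt x y t) * w (pt x y t))
    (htip : (x = 0 ∧ t0 = 7 / 10) → v = 0)
    (hlim : (x ≠ 0 ∨ t0 ≠ 7 / 10) → Tendsto (fun t => w (pt x y t)) F (𝓝 v)) :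
    f (pt x y t0) = cut n (pt x y t0) * v := by
  have h1 : Tendsto (fun t => f (pt x y t)) F (𝓝 (f (pt x y t0))) := (hf.tendsto t0).mono_left hF
  by_cases hc : x = 0 ∧ t0 = 7 / 10
  · rw [htip hc, mul_zero]
    have h2 : Tendsto (fun t => f (pt x y t)) F (𝓝 0) := by
      refine tendsto_const_nhds.congr' ?_
      have h3 : ∀ᶠ t in 𝓝 t0, (n : ℝ) * tip2 (pt x y t) < 1 := by
        have hc2 : Continuous fun t => (n : ℝ) * tip2 (pt x y t) := by
          unfold tip2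
          simp only [pt_zero, pt_two]
          fun_prop
        have h4 : (n : ℝ) * tip2 (pt x y t0) < 1 := by
          unfold tip2
          simp only [pt_zero, pt_two, hc.1, hc.2]
          norm_num
        exact (hc2.tendsto t0).eventually (eventually_lt_nhds h4)
      filter_upwards [hev, hF h3] with t ht1 ht2
      rw [ht1, cut_eq_zero (le_of_lt ht2), zero_mul]
    exact tendsto_nhds_unique h1 h2
  · have hor : x ≠ 0 ∨ t0 ≠ 7 / 10 := by
      by_cases hx : x = 0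
      · right; intro ht; exact hc ⟨hx, ht⟩
      · left; exact hx
    have h2 := (((fa_cont_cut n x y).tendsto t0).mono_left hF).mul (hlim hor)
    exact tendsto_nhds_unique (h1.congr' hev) h2

theorem fa_bound (F : Filter ℝ) [F.NeBot] (N0 : ℝ) (w : E3 → ℝ) (x y t0 v : ℝ)
    (hF : F ≤ 𝓝 t0)
    (hev : ∀ᶠ t in F, (w (pt x y t)) ^ 2 ≤ N0 * √(tip2 (pt x y t)))
    (htip : (x = 0 ∧ t0 = 7 / 10) → v = 0)
    (hlim : (x ≠ 0 ∨ t0 ≠ 7 / 10) → Tendsto (fun t => w (pt x y t)) F (𝓝 v)) :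
    v ^ 2 ≤ N0 * √(tip2 (pt x y t0)) := by
  by_cases hc : x = 0 ∧ t0 = 7 / 10
  · rw [htip hc, hc.1, hc.2]
    simp [tip2]
  · have hor : x ≠ 0 ∨ t0 ≠ 7 / 10 := by
      by_cases hx : x = 0
      · right; intro ht; exact hc ⟨hx, ht⟩
      · left; exact hx
    exact le_of_tendsto_of_tendsto ((hlim hor).pow 2)
      ((((fa_cont_tip x y).tendsto t0).mono_left hF).const_mul N0) hev

theorem fa_close (N0 ε : ℝ) (hN : 0 ≤ N0) (hε : 0 < ε) : ∃ j0 : ℕ, ∀ j ≥ j0, ∀ (p : E3) (v : ℝ),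
    v ^ 2 ≤ N0 * √(tip2 p) → |cut (j + 200) p * v - v| ≤ ε := by
  set η : ℝ := ε ^ 2 / (N0 + 1) with hη
  have hη0 : 0 < η := by positivity
  obtain ⟨j0, hj0⟩ := exists_nat_gt (2 / η ^ 2)
  refine ⟨j0, fun j hj p v hv => ?_⟩
  by_cases h2 : 2 ≤ ((j + 200 : ℕ) : ℝ) * tip2 p
  · rw [cut_eq_one h2, one_mul, sub_self, abs_zero]
    exact hε.le
  · push Not at h2
    have ht := tip2_nonneg p
    have hj1 : 2 / η ^ 2 < ((j + 200 : ℕ) : ℝ) := by
      have : (j0 : ℝ) ≤ ((j + 200 : ℕ) : ℝ) := by exact_mod_cast hj.trans (Nat.le_add_right j 200)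
      linarith
    have h3 : tip2 p ≤ η ^ 2 := by
      by_contra hcon
      push Not at hcon
      rw [div_lt_iff₀ (by positivity)] at hj1
      have h5 : (0:ℝ) < ((j + 200 : ℕ) : ℝ) := by positivity
      have h6 := mul_lt_mul_of_pos_left hcon h5
      linarith
    have h4 : √(tip2 p) ≤ η := Real.sqrt_le_left hη0.le |>.2 h3
    have h5 : v ^ 2 ≤ ε ^ 2 := by
      refine hv.trans ((mul_le_mul_of_nonneg_left h4 hN).trans ?_)
      rw [hη, ← mul_div_assoc, div_le_iff₀ (by linarith)]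
      nlinarith [sq_nonneg ε]
    have h6 : |v| ≤ ε := abs_le_of_sq_le_sq h5 hε.le
    have h7 : cut (j + 200) p * v - v = -((1 - cut (j + 200) p) * v) := by ring
    rw [h7, abs_neg, abs_mul]
    have h8 : |1 - cut (j + 200) p| ≤ 1 := by
      rw [abs_le]
      constructor <;> linarith [cut_nonneg (j + 200) p, cut_le_one (j + 200) p]
    calc |1 - cut (j + 200) p| * |v| ≤ 1 * ε := mul_le_mul h8 h6 (abs_nonneg _) zero_le_one
      _ = ε := one_mul _

theorem fs_approx (a₀ b₀ a₁ b₁ a₂ b₂ δ N0 : ℝ) (w : E3 → ℝ) (J : E3 → E3)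
    (vb vt jb jt : ℝ → ℝ) (h : FaceSol a₀ b₀ a₁ b₁ a₂ b₂ δ N0 w J vb vt jb jt)
    (h0 : a₀ < b₀) (h1 : a₁ < b₁) (h2 : a₂ < b₂) (htip : 7 / 10 ∉ Ioo a₂ b₂) :
    IntegrableOn (fun x => ‖∇ (fw a₂ b₂ w vb vt) x‖ ^ 2) (cbox a₀ b₀ a₁ b₁ a₂ b₂) volume ∧
    ∃ wj : ℕ → E3 → ℝ, (∀ j, ∃ K : ℝ≥0, LipschitzWith K (wj j)) ∧
      (∀ j, ∀ p ∈ cbox a₀ b₀ a₁ b₁ a₂ b₂, wj j p = cut (j + 200) p * fw a₂ b₂ w vb vt p) ∧
      (∀ ε : ℝ, 0 < ε → ∃ j0, ∀ j ≥ j0, ∀ p ∈ cbox a₀ b₀ a₁ b₁ a₂ b₂,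
        |wj j p - fw a₂ b₂ w vb vt p| ≤ ε) ∧
      Tendsto (fun j => ∫ x in cbox a₀ b₀ a₁ b₁ a₂ b₂,
        ‖∇ (wj j) x - ∇ (fw a₂ b₂ w vb vt) x‖ ^ 2) atTop (𝓝 0) := by
  obtain ⟨hint, wj, hL, hval, hT⟩ := approx_box a₀ b₀ a₁ b₁ a₂ b₂ h0 h1 h2 htip w N0 h.sol.smw
    (fun p a b c d => (h.sol.est p a b c d).1) (fun p a b c d => (h.sol.est p a b c d).2.1)
  have hgr : ∀ᵐ p ∂(volume.restrict (cbox a₀ b₀ a₁ b₁ a₂ b₂)),
      ∇ (fw a₂ b₂ w vb vt) p = ∇ w p := by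
    filter_upwards [ae_obox a₀ b₀ a₁ b₁ a₂ b₂] with p hp
    exact fw_grad w vb vt hp.2.2.1 hp.2.2.2
  have hN : 0 ≤ N0 := by
    have := (h.sol.est (pt ((a₀ + b₀) / 2) ((a₁ + b₁) / 2) ((a₂ + b₂) / 2))
      ⟨by rw [pt_zero]; linarith, by rw [pt_zero]; linarith⟩
      ⟨by rw [pt_one]; linarith, by rw [pt_one]; linarith⟩
      (by rw [pt_two]; linarith) (by rw [pt_two]; linarith)).1
    exact le_trans (by positivity) this
  -- eventually inside the slab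
  have evb : ∀ᶠ t in 𝓝[>] a₂, a₂ < t ∧ t < b₂ := by
    filter_upwards [Ioo_mem_nhdsGT h2] with t ht using ht
  have evt : ∀ᶠ t in 𝓝[<] b₂, a₂ < t ∧ t < b₂ := by
    filter_upwards [Ioo_mem_nhdsLT h2] with t ht using ht
  have hvals : ∀ n, ∀ p ∈ cbox a₀ b₀ a₁ b₁ a₂ b₂, wj n p = cut n p * fw a₂ b₂ w vb vt p := by
    intro n p hp
    obtain ⟨K, hK⟩ := hL n
    have hcont : Continuous fun t => wj n (pt (p 0) (p 1) t) :=
      (lipschitz_pt_two (wj n) K hK (p 0) (p 1)).continuous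
    by_cases c1 : p 2 = a₂
    · have h3 := fa_face (𝓝[>] a₂) n (wj n) w (p 0) (p 1) a₂ (vb (p 0)) nhdsWithin_le_nhds hcont
        (evb.mono fun t ht => hval n _ (by rw [pt_zero]; exact hp.1) (by rw [pt_one]; exact hp.2.1)
          (by rw [pt_two]; exact ht.1) (by rw [pt_two]; exact ht.2))
        (fun hc => by rw [hc.1]; exact h.vb0 hc.2)
        (fun hor => h.wb _ hp.1 _ hp.2.1 hor)
      rw [← c1, pt_eta] at h3
      rw [h3]
      simp only [fw, if_pos c1]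
    · by_cases c2 : p 2 = b₂
      · have h3 := fa_face (𝓝[<] b₂) n (wj n) w (p 0) (p 1) b₂ (vt (p 0)) nhdsWithin_le_nhds hcont
          (evt.mono fun t ht => hval n _ (by rw [pt_zero]; exact hp.1)
            (by rw [pt_one]; exact hp.2.1)
            (by rw [pt_two]; exact ht.1) (by rw [pt_two]; exact ht.2))
          (fun hc => by rw [hc.1]; exact h.vt0 hc.2)
          (fun hor => h.wt _ hp.1 _ hp.2.1 hor)
        rw [← c2, pt_eta] at h3
        rw [h3]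
        simp only [fw, if_neg c1, if_pos c2]
      · have s1 : a₂ < p 2 := lt_of_le_of_ne hp.2.2.1 (Ne.symm c1)
        have s2 : p 2 < b₂ := lt_of_le_of_ne hp.2.2.2 c2
        rw [hval n p hp.1 hp.2.1 s1 s2, fw_eq w vb vt s1 s2]
  have hbd : ∀ p ∈ cbox a₀ b₀ a₁ b₁ a₂ b₂, (fw a₂ b₂ w vb vt p) ^ 2 ≤ N0 * √(tip2 p) := by
    intro p hp
    by_cases c1 : p 2 = a₂
    · have h3 := fa_bound (𝓝[>] a₂) N0 w (p 0) (p 1) a₂ (vb (p 0)) nhdsWithin_le_nhds
        (evb.mono fun t ht => (h.sol.est _ (by rw [pt_zero]; exact hp.1)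
          (by rw [pt_one]; exact hp.2.1)
          (by rw [pt_two]; exact ht.1) (by rw [pt_two]; exact ht.2)).2.1)
        (fun hc => by rw [hc.1]; exact h.vb0 hc.2)
        (fun hor => h.wb _ hp.1 _ hp.2.1 hor)
      rw [← c1, pt_eta] at h3
      simp only [fw, if_pos c1]
      exact h3
    · by_cases c2 : p 2 = b₂
      · have h3 := fa_bound (𝓝[<] b₂) N0 w (p 0) (p 1) b₂ (vt (p 0)) nhdsWithin_le_nhds
          (evt.mono fun t ht => (h.sol.est _ (by rw [pt_zero]; exact hp.1)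
            (by rw [pt_one]; exact hp.2.1)
            (by rw [pt_two]; exact ht.1) (by rw [pt_two]; exact ht.2)).2.1)
          (fun hc => by rw [hc.1]; exact h.vt0 hc.2)
          (fun hor => h.wt _ hp.1 _ hp.2.1 hor)
        rw [← c2, pt_eta] at h3
        simp only [fw, if_neg c1, if_pos c2]
        exact h3
      · have s1 : a₂ < p 2 := lt_of_le_of_ne hp.2.2.1 (Ne.symm c1)
        have s2 : p 2 < b₂ := lt_of_le_of_ne hp.2.2.2 c2
        rw [fw_eq w vb vt s1 s2]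
        exact (h.sol.est p hp.1 hp.2.1 s1 s2).2.1
  refine ⟨?_, fun j => wj (j + 200), fun j => hL _, fun j p hp => hvals _ p hp, ?_, ?_⟩
  · refine (integrable_congr (hgr.mono fun p hp => ?_)).2 hint
    simp only [hp]
  · intro ε hε
    obtain ⟨j0, hj0⟩ := fa_close N0 ε hN hε
    refine ⟨j0, fun j hj p hp => ?_⟩
    show |wj (j + 200) p - fw a₂ b₂ w vb vt p| ≤ ε
    rw [hvals _ p hp]
    exact hj0 j hj p _ (hbd p hp)
  · have h3 : ∀ j, ∫ x in cbox a₀ b₀ a₁ b₁ a₂ b₂,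
        ‖∇ (wj (j + 200)) x - ∇ (fw a₂ b₂ w vb vt) x‖ ^ 2 =
        ∫ x in cbox a₀ b₀ a₁ b₁ a₂ b₂, ‖∇ (wj (j + 200)) x - ∇ w x‖ ^ 2 := by
      intro j
      refine integral_congr_ae (hgr.mono fun p hp => ?_)
      simp only [hp]
    simp only [h3]
    exact hT.comp (tendsto_add_atTop_nat 200)

end Crest.Agent.R083
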