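import Crest.Agent.R083.TMFace
import Crest.Agent.R083.Green
import Crest.Agent.R083.TipInt

/-!
Row 83 (S0111), TM group: Green identity for a solution on a model box.
-/

set_option autoImplicit false

namespace Crest.Agent.R083

open MeasureTheory Set Filter
open scoped Gradient ENNReal NNReal Topology ContDiff

theorem fg_abs_le (x y t : ℝ) : |x| ≤ √(tip2 (pt x y t)) := by
  rw [← Real.sqrt_sq_eq_abs]
  apply Real.sqrt_le_sqrt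
  unfold tip2
  rw [pt_zero]
  have := sq_nonneg ((pt x y t) 2 - 7 / 10)
  linarith

theorem fg_bound (N0 x y t n j : ℝ) (_hn : 0 ≤ n) (hj : |j| ≤ n)
    (h : n ^ 2 * √(tip2 (pt x y t)) ≤ N0) (hx : x ≠ 0) : |j| ≤ √N0 * (√|x|)⁻¹ := by
  have h1 : n ^ 2 * |x| ≤ N0 := (mul_le_mul_of_nonneg_left (fg_abs_le x y t) (sq_nonneg n)).trans h
  have hx0 : 0 < |x| := abs_pos.2 hx
  have hs : 0 < √|x| := Real.sqrt_pos.2 hx0
  have h2 : n * √|x| ≤ √N0 := by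
    apply Real.le_sqrt_of_sq_le
    rw [mul_pow, Real.sq_sqrt hx0.le]
    exact h1
  rw [← div_eq_mul_inv, le_div_iff₀ hs]
  exact (mul_le_mul_of_nonneg_right hj hs.le).trans h2

theorem fg_coord_le (v : E3) (i : Fin 3) : |v i| ≤ ‖v‖ := by
  have := PiLp.norm_apply_le v i
  simpa [Real.norm_eq_abs] using this

theorem fg_ae_ne : ∀ᵐ x : ℝ, x ≠ 0 := by
  have : volume ({0} : Set ℝ) = 0 := by simp
  exact measure_eq_zero_iff_ae_notMem.1 this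

theorem fg_seq {F : Filter ℝ} [F.NeBot] [F.IsCountablyGenerated] {a b : ℝ} (hF : Ioo a b ∈ F) :
    ∃ s : ℕ → ℝ, (∀ n, a < s n ∧ s n < b) ∧ Tendsto s atTop F := by
  obtain ⟨s, hs⟩ := exists_seq_tendsto F
  obtain ⟨N, hN⟩ := eventually_atTop.1 (hs.eventually hF)
  exact ⟨fun n => s (n + N), fun n => hN _ (Nat.le_add_left N n),
    hs.comp (tendsto_add_atTop_nat N)⟩

theorem fg_int {a₀ b₀ a₁ b₁ a₂ b₂ δ N0 : ℝ} {w : E3 → ℝ} {J : E3 → E3}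
    (h : BoxSol a₀ b₀ a₁ b₁ a₂ b₂ δ N0 w J) (h0 : a₀ < b₀) (h1 : a₁ < b₁)
    (F : Filter ℝ) [F.NeBot] [F.IsCountablyGenerated] (hF : Ioo a₂ b₂ ∈ F) (jf : ℝ → ℝ)
    (hlim : ∀ x ∈ Icc a₀ b₀, ∀ y ∈ Icc a₁ b₁, x ≠ 0 →
      Tendsto (fun t => J (pt x y t) 2) F (𝓝 (jf x))) :
    IntervalIntegrable jf volume a₀ b₀ := by
  obtain ⟨s, hs, hsF⟩ := fg_seq hF
  have hcont : ∀ n, Continuous fun x : ℝ => J (pt x a₁ (s n)) 2 := by
    intro n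
    have c1 : Continuous fun x : ℝ => pt x a₁ (s n) :=
      GreenBox.continuous_pt.comp (by fun_prop : Continuous fun x : ℝ => (x, a₁, s n))
    have c2 : Continuous fun x : ℝ => J (pt x a₁ (s n)) := by
      refine h.smJ.continuousOn.comp_continuous c1 fun x => ?_
      exact ⟨by rw [pt_two]; exact (hs n).1, by rw [pt_two]; exact (hs n).2⟩
    exact (EuclideanSpace.proj (2 : Fin 3) : E3 →L[ℝ] ℝ).continuous.comp c2
  have hsub : uIoc a₀ b₀ ⊆ Icc a₀ b₀ := by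
    rw [uIoc_of_le h0.le]; exact Ioc_subset_Icc_self
  have hae : ∀ᵐ x ∂(volume.restrict (uIoc a₀ b₀)), x ∈ Icc a₀ b₀ ∧ x ≠ 0 := by
    filter_upwards [ae_restrict_mem measurableSet_uIoc, ae_restrict_of_ae fg_ae_ne] with x hx hx0
    exact ⟨hsub hx, hx0⟩
  have hy : a₁ ∈ Icc a₁ b₁ := ⟨le_rfl, h1.le⟩
  refine ((integrable_rsqrt a₀ b₀).const_mul (√N0)).mono_fun' ?_ ?_
  · refine aestronglyMeasurable_of_tendsto_ae atTop
      (f := fun n x => J (pt x a₁ (s n)) 2) (fun n => (hcont n).aestronglyMeasurable) ?_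
    filter_upwards [hae] with x hx
    exact (hlim x hx.1 a₁ hy hx.2).comp hsF
  · filter_upwards [hae] with x hx
    have h3 : Tendsto (fun n => |J (pt x a₁ (s n)) 2|) atTop (𝓝 |jf x|) :=
      ((hlim x hx.1 a₁ hy hx.2).comp hsF).abs
    rw [Real.norm_eq_abs]
    refine le_of_tendsto h3 (Eventually.of_forall fun n => ?_)
    refine fg_bound N0 x a₁ (s n) ‖J (pt x a₁ (s n))‖ _ (norm_nonneg _) (fg_coord_le _ 2) ?_ hx.2
    exact (h.est _ (by rw [pt_zero]; exact hx.1) (by rw [pt_one]; exact hy)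
      (by rw [pt_two]; exact (hs n).1) (by rw [pt_two]; exact (hs n).2)).2.2

theorem fg_cbox_ae (a₀ b₀ a₁ b₁ a₂ b₂ : ℝ) :
    cbox a₀ b₀ a₁ b₁ a₂ b₂ =ᵐ[volume] obox a₀ b₀ a₁ b₁ a₂ b₂ := by
  have h1 := (ae_restrict_iff' (measurableSet_cbox a₀ b₀ a₁ b₁ a₂ b₂)).1
    (ae_obox a₀ b₀ a₁ b₁ a₂ b₂)
  filter_upwards [h1] with p hp
  apply propext
  constructor
  · exact fun h => hp h
  · rintro ⟨q0, q1, q2⟩
    exact ⟨Ioo_subset_Icc_self q0, Ioo_subset_Icc_self q1, Ioo_subset_Icc_self q2⟩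

theorem fg_integrable {a₀ b₀ a₁ b₁ a₂ b₂ δ N0 : ℝ} {w : E3 → ℝ} {J : E3 → E3}
    (h : BoxSol a₀ b₀ a₁ b₁ a₂ b₂ δ N0 w J) :
    IntegrableOn J (cbox a₀ b₀ a₁ b₁ a₂ b₂) volume := by
  have hbd : IntegrableOn (fun p : E3 => 1 + N0 * (√(tip2 p))⁻¹)
      (cbox a₀ b₀ a₁ b₁ a₂ b₂) volume := by
    refine Integrable.add ?_ ((integrable_tip a₀ b₀ a₁ b₁ a₂ b₂).const_mul N0)
    exact integrableOn_const (volume_cbox_lt_top a₀ b₀ a₁ b₁ a₂ b₂).ne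
  have hm : AEStronglyMeasurable J (volume.restrict (cbox a₀ b₀ a₁ b₁ a₂ b₂)) := by
    rw [Measure.restrict_congr_set (fg_cbox_ae a₀ b₀ a₁ b₁ a₂ b₂)]
    refine ContinuousOn.aestronglyMeasurable ?_ (isOpen_obox a₀ b₀ a₁ b₁ a₂ b₂).measurableSet
    exact h.smJ.continuousOn.mono fun p hp => hp.2.2
  refine Integrable.mono' hbd hm ?_
  have hne : ∀ᵐ p : E3, p 0 ≠ 0 := by
    exact measure_eq_zero_iff_ae_notMem.1 (apx_hyperplane 0 0)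
  filter_upwards [ae_obox a₀ b₀ a₁ b₁ a₂ b₂, ae_restrict_of_ae hne] with p hp hp0
  have ht : 0 < tip2 p := by
    unfold tip2
    have h1 : 0 < p 0 ^ 2 := by positivity
    have h2 := sq_nonneg (p 2 - 7 / 10)
    linarith
  have hs : 0 < √(tip2 p) := Real.sqrt_pos.2 ht
  have h3 := (h.est p (Ioo_subset_Icc_self hp.1) (Ioo_subset_Icc_self hp.2.1) hp.2.2.1
    hp.2.2.2).2.2
  have h4 : ‖J p‖ ^ 2 ≤ N0 * (√(tip2 p))⁻¹ := by
    rw [← div_eq_mul_inv, le_div_iff₀ hs]; exact h3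
  have h5 : ‖J p‖ ≤ 1 + ‖J p‖ ^ 2 := by nlinarith [sq_nonneg (‖J p‖ - 1), norm_nonneg (J p)]
  linarith

theorem fs_green (a₀ b₀ a₁ b₁ a₂ b₂ δ N0 : ℝ) (w : E3 → ℝ) (J : E3 → E3)
    (vb vt jb jt : ℝ → ℝ) (h : FaceSol a₀ b₀ a₁ b₁ a₂ b₂ δ N0 w J vb vt jb jt)
    (h0 : a₀ < b₀) (h1 : a₁ < b₁) (h2 : a₂ < b₂) :
    IntervalIntegrable jb volume a₀ b₀ ∧ IntervalIntegrable jt volume a₀ b₀ ∧
    ∀ (χ : E3 → ℝ) (K : ℝ≥0), LipschitzWith K χ →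
      ∫ p in cbox a₀ b₀ a₁ b₁ a₂ b₂, inner ℝ (J p) (∇ χ p) =
        (∫ x in a₀..b₀, ∫ y in a₁..b₁, jt x * χ (pt x y b₂)) -
        (∫ x in a₀..b₀, ∫ y in a₁..b₁, jb x * χ (pt x y a₂)) := by
  refine ⟨fg_int h.sol h0 h1 (𝓝[>] a₂) (Ioo_mem_nhdsGT h2) jb
      fun x hx y hy hx0 => h.Jb x hx y hy (Or.inl hx0),
    fg_int h.sol h0 h1 (𝓝[<] b₂) (Ioo_mem_nhdsLT h2) jt
      fun x hx y hy hx0 => h.Jt x hx y hy (Or.inl hx0), fun χ K hχ => ?_⟩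
  refine green_box a₀ b₀ a₁ b₁ a₂ b₂ h0 h1 h2 J h.sol.smJ (fun p a b => (h.sol.eqs p a b).2)
    h.sol.wall0 h.sol.wall1 (fg_integrable h.sol) (fun x => √N0 * (√|x|)⁻¹)
    ((integrable_rsqrt a₀ b₀).const_mul (√N0)) ?_ jb jt ?_ ?_ χ K hχ
  · filter_upwards [fg_ae_ne] with x hx0 hx y hy t ht1 ht2
    refine fg_bound N0 x y t ‖J (pt x y t)‖ _ (norm_nonneg _) (fg_coord_le _ 2) ?_ hx0
    exact (h.sol.est _ (by rw [pt_zero]; exact hx) (by rw [pt_one]; exact hy)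
      (by rw [pt_two]; exact ht1) (by rw [pt_two]; exact ht2)).2.2
  · filter_upwards [fg_ae_ne] with x hx0 hx y hy
    exact h.Jb x hx y hy (Or.inl hx0)
  · filter_upwards [fg_ae_ne] with x hx0 hx y hy
    exact h.Jt x hx y hy (Or.inl hx0)

end Crest.Agent.R083
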