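import Crest.Agent.R083.TMFace
import Crest.Agent.R083.TipInt

/-!
Row 83 (S0111), TM group: the part of the open box where the horizontal gradient does not vanish
is open and of full measure.
-/

set_option autoImplicit false

namespace Crest.Agent.R083

open MeasureTheory Set Filter
open scoped Gradient ENNReal NNReal Topology ContDiff

/-- File `TMOpen.lean`. -/
theorem fs_V (a₀ b₀ a₁ b₁ a₂ b₂ δ N0 : ℝ) (w : E3 → ℝ) (J : E3 → E3)
    (h : BoxSol a₀ b₀ a₁ b₁ a₂ b₂ δ N0 w J) :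
    IsOpen (fV a₀ b₀ a₁ b₁ a₂ b₂ w) ∧
    volume (cbox a₀ b₀ a₁ b₁ a₂ b₂ \ fV a₀ b₀ a₁ b₁ a₂ b₂ w) = 0 := by
  have hc : Continuous fun p : E3 => p 2 := (EuclideanSpace.proj (2 : Fin 3)).continuous
  have hS : IsOpen {p : E3 | a₂ < p 2 ∧ p 2 < b₂} :=
    (isOpen_lt continuous_const hc).inter (isOpen_lt hc continuous_const)
  have hsub : obox a₀ b₀ a₁ b₁ a₂ b₂ ⊆ {p : E3 | a₂ < p 2 ∧ p 2 < b₂} := fun p hp =>
    ⟨hp.2.2.1, hp.2.2.2⟩
  have hfd : ContinuousOn (fderiv ℝ w) {p : E3 | a₂ < p 2 ∧ p 2 < b₂} :=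
    h.smw.continuousOn_fderiv_of_isOpen hS (by simp)
  have hco : ∀ i : Fin 3, ContinuousOn (fun p => (∇ w p) i) (obox a₀ b₀ a₁ b₁ a₂ b₂) := by
    intro i
    have h1 : (fun p => (∇ w p) i) = fun p => fderiv ℝ w p (ee i) := by
      funext p; exact tm_grad_coord w p i
    rw [h1]
    exact (hfd.mono hsub).clm_apply continuousOn_const
  constructor
  · have h2 : ContinuousOn (fun p => (∇ w p) 0 ^ 2 + (∇ w p) 1 ^ 2)
        (obox a₀ b₀ a₁ b₁ a₂ b₂) := ((hco 0).pow 2).add ((hco 1).pow 2)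
    have h3 := h2.isOpen_inter_preimage (isOpen_obox a₀ b₀ a₁ b₁ a₂ b₂) (isOpen_Ioi (a := (0 : ℝ)))
    exact h3
  · obtain ⟨l, c, l', c', hl, hl', hz⟩ := h.zer
    have hsub2 : cbox a₀ b₀ a₁ b₁ a₂ b₂ \ fV a₀ b₀ a₁ b₁ a₂ b₂ w ⊆
        (({p : E3 | p 0 = a₀} ∪ {p : E3 | p 0 = b₀}) ∪ ({p : E3 | p 1 = a₁} ∪ {p : E3 | p 1 = b₁}) ∪
          ({p : E3 | p 2 = a₂} ∪ {p : E3 | p 2 = b₂})) ∪
        ((⋃ k : ℕ, {p : E3 | Real.sin (Real.pi * 8 ^ k * (l * p 0 + c)) = 0}) ∪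
          (⋃ k : ℕ, {p : E3 | Real.sin (Real.pi * 8 ^ k * (l' * p 1 + c')) = 0})) := by
      intro p hp
      obtain ⟨⟨hp0, hp1, hp2⟩, hpV⟩ := hp
      by_contra hne
      simp only [mem_union, mem_iUnion, mem_ofPred_eq, not_or, not_exists] at hne
      obtain ⟨⟨⟨⟨n1, n2⟩, n3, n4⟩, n5, n6⟩, n7, n8⟩ := hne
      have hpo : p ∈ obox a₀ b₀ a₁ b₁ a₂ b₂ :=
        ⟨⟨lt_of_le_of_ne hp0.1 (Ne.symm n1), lt_of_le_of_ne hp0.2 n2⟩,
          ⟨lt_of_le_of_ne hp1.1 (Ne.symm n3), lt_of_le_of_ne hp1.2 n4⟩,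
          ⟨lt_of_le_of_ne hp2.1 (Ne.symm n5), lt_of_le_of_ne hp2.2 n6⟩⟩
      have hns : ¬ 0 < (∇ w p) 0 ^ 2 + (∇ w p) 1 ^ 2 := fun h0 => hpV ⟨hpo, h0⟩
      have s0 := sq_nonneg ((∇ w p) 0)
      have s1 := sq_nonneg ((∇ w p) 1)
      have g0 : (∇ w p) 0 = 0 := pow_eq_zero_iff (two_ne_zero) |>.1 (by linarith)
      have g1 : (∇ w p) 1 = 0 := pow_eq_zero_iff (two_ne_zero) |>.1 (by linarith)
      obtain ⟨k, hk⟩ := hz p hp0 hp1 hpo.2.2.1 hpo.2.2.2 g0 g1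
      rcases hk with hk | hk
      · exact n7 k hk
      · exact n8 k hk
    refine measure_mono_null hsub2 ?_
    refine measure_union_null (measure_union_null (measure_union_null
      (measure_union_null (tip_hyper_null 0 a₀) (tip_hyper_null 0 b₀))
      (measure_union_null (tip_hyper_null 1 a₁) (tip_hyper_null 1 b₁)))
      (measure_union_null (tip_hyper_null 2 a₂) (tip_hyper_null 2 b₂)))
      (measure_union_null (measure_iUnion_null fun k => volume_sin_zero 0 k l c hl)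
        (measure_iUnion_null fun k => volume_sin_zero 1 k l' c' hl'))

end Crest.Agent.R083
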