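import Crest.Agent.R083.TMFace

/-!
Row 83 (S0111), TM group: pointwise properties of the completed potential on the good open set.
-/

set_option autoImplicit false

namespace Crest.Agent.R083

open MeasureTheory Set Filter
open scoped Gradient ENNReal NNReal Topology ContDiff

theorem fw_eq {a₂ b₂ : ℝ} (w : E3 → ℝ) (vb vt : ℝ → ℝ) {p : E3} (h1 : a₂ < p 2) (h2 : p 2 < b₂) :
    fw a₂ b₂ w vb vt p = w p := by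
  unfold fw
  rw [if_neg h1.ne', if_neg h2.ne]

theorem fw_ev {a₂ b₂ : ℝ} (w : E3 → ℝ) (vb vt : ℝ → ℝ) {p : E3} (h1 : a₂ < p 2) (h2 : p 2 < b₂) :
    fw a₂ b₂ w vb vt =ᶠ[𝓝 p] w := by
  filter_upwards [(tm_isOpen_slab a₂ b₂).mem_nhds ⟨h1, h2⟩] with q hq
  exact fw_eq w vb vt hq.1 hq.2

theorem fw_grad {a₂ b₂ : ℝ} (w : E3 → ℝ) (vb vt : ℝ → ℝ) {p : E3} (h1 : a₂ < p 2)
    (h2 : p 2 < b₂) : ∇ (fw a₂ b₂ w vb vt) p = ∇ w p := by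
  unfold gradient
  rw [(fw_ev w vb vt h1 h2).fderiv_eq]

theorem HEll_mono {δ δ' : ℝ} (h : δ' ≤ δ) {p j : E3} (hh : HEll δ p j) : HEll δ' p j := by
  refine ⟨hh.1, le_trans ?_ hh.2⟩
  exact mul_le_mul_of_nonneg_right h (by positivity)

theorem fs_pt {a₀ b₀ a₁ b₁ a₂ b₂ δ N0 : ℝ} {w : E3 → ℝ} {J : E3 → E3}
    (h : BoxSol a₀ b₀ a₁ b₁ a₂ b₂ δ N0 w J) (vb vt : ℝ → ℝ) :
    ContDiffOn ℝ ∞ (fw a₂ b₂ w vb vt) (fV a₀ b₀ a₁ b₁ a₂ b₂ w) ∧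
    ContDiffOn ℝ ∞ J (fV a₀ b₀ a₁ b₁ a₂ b₂ w) ∧
    ∀ x ∈ fV a₀ b₀ a₁ b₁ a₂ b₂ w, fderiv ℝ (fw a₂ b₂ w vb vt) x (ee 2) = J x 2 ∧ dvg J x = 0 ∧
      HEll δ (∇ (fw a₂ b₂ w vb vt) x) (J x) ∧ ‖∇ (fw a₂ b₂ w vb vt) x‖ ^ 2 * √(tip2 x) ≤ N0 := by
  have hsub : fV a₀ b₀ a₁ b₁ a₂ b₂ w ⊆ {p | a₂ < p 2 ∧ p 2 < b₂} := by
    intro p hp
    exact hp.1.2.2
  refine ⟨?_, h.smJ.mono hsub, ?_⟩
  · exact (h.smw.mono hsub).congr fun p hp => fw_eq w vb vt (hsub hp).1 (hsub hp).2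
  · intro x hx
    obtain ⟨s1, s2⟩ := hsub hx
    have hb := hx.1
    have b0 : x 0 ∈ Icc a₀ b₀ := ⟨hb.1.1.le, hb.1.2.le⟩
    have b1 : x 1 ∈ Icc a₁ b₁ := ⟨hb.2.1.1.le, hb.2.1.2.le⟩
    rw [fw_grad w vb vt s1 s2, (fw_ev w vb vt s1 s2).fderiv_eq]
    refine ⟨(h.eqs x s1 s2).1, (h.eqs x s1 s2).2, ⟨hx.2, ?_⟩, (h.est x b0 b1 s1 s2).1⟩
    exact h.ell x b0 b1 s1 s2

end Crest.Agent.R083
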