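import Crest.Agent.R083.BoxFubini

/-!
Row 83 (S0111), TM group: the fluxes through the horizontal faces of the three model boxes add up
to the two outer fluxes.
-/

set_option autoImplicit false

namespace Crest.Agent.R083

open MeasureTheory Set Filter
open scoped Gradient ENNReal NNReal Topology ContDiff

theorem ts_cont (f : E3 → ℝ) (K : ℝ≥0) (hf : LipschitzWith K f) (c : ℝ) :
    Continuous fun x : ℝ => ∫ y in (-(22 / 25 : ℝ))..(22 / 25), f (pt x y c) := by
  have h1 : Continuous (fun q : ℝ × ℝ => pt q.1 q.2 c) := by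
    have h2 : (fun q : ℝ × ℝ => pt q.1 q.2 c) = fun q : ℝ × ℝ =>
        (WithLp.toLp 2 ![q.1, q.2, c] : E3) := rfl
    rw [h2]
    refine (PiLp.continuous_toLp 2 _).comp (continuous_pi fun i => ?_)
    fin_cases i
    · exact continuous_fst
    · exact continuous_snd
    · exact continuous_const
  exact intervalIntegral.continuous_parametric_intervalIntegral_of_continuous'
    (f := fun x y => f (pt x y c)) (hf.continuous.comp h1) _ _

/-- File `TMSum.lean`. -/
theorem fs_sum (θ : ℝ) (jm : ℝ → ℝ)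
    (hjm : IntervalIntegrable jm volume (-(32 / 25)) (32 / 25))
    (χ : Box → E3 → ℝ) (hχ : ∀ b, ∃ K : ℝ≥0, LipschitzWith K (χ b)) (hM : Matching χ) :
    ((∫ x in (-(32 / 25 : ℝ))..(32 / 25), ∫ y in (-(22 / 25 : ℝ))..(22 / 25),
        0 * χ Box.O (pt x y 1)) -
      (∫ x in (-(32 / 25 : ℝ))..(32 / 25), ∫ y in (-(22 / 25 : ℝ))..(22 / 25),
        jm x * χ Box.O (pt x y (7 / 10)))) +
    ((∫ x in (0 : ℝ)..(32 / 25), ∫ y in (-(22 / 25 : ℝ))..(22 / 25),
        jm x * χ Box.P (pt x y (7 / 10))) -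
      (∫ x in (0 : ℝ)..(32 / 25), ∫ y in (-(22 / 25 : ℝ))..(22 / 25),
        (-θ) * χ Box.P (pt x y (3 / 5)))) +
    ((∫ x in (-(32 / 25 : ℝ))..0, ∫ y in (-(22 / 25 : ℝ))..(22 / 25),
        jm x * χ Box.N (pt x y (7 / 10))) -
      (∫ x in (-(32 / 25 : ℝ))..0, ∫ y in (-(22 / 25 : ℝ))..(22 / 25),
        θ * χ Box.N (pt x y (3 / 5)))) =
      θ * (faceP (χ Box.P) - faceN (χ Box.N)) := by
  set F : ℝ → ℝ := fun x => ∫ y in (-(22 / 25 : ℝ))..(22 / 25), χ Box.O (pt x y (7 / 10)) with hF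
  have hFc : Continuous F := by
    obtain ⟨K, hK⟩ := hχ Box.O
    exact ts_cont (χ Box.O) K hK (7 / 10)
  have hg : IntervalIntegrable (fun x => jm x * F x) volume (-(32 / 25)) (32 / 25) :=
    hjm.mul_continuousOn hFc.continuousOn
  have hu1 : uIcc (-(32 / 25 : ℝ)) 0 ⊆ uIcc (-(32 / 25 : ℝ)) (32 / 25) := by
    rw [uIcc_of_le (by norm_num), uIcc_of_le (by norm_num)]
    exact Icc_subset_Icc le_rfl (by norm_num)
  have hu2 : uIcc (0 : ℝ) (32 / 25) ⊆ uIcc (-(32 / 25 : ℝ)) (32 / 25) := by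
    rw [uIcc_of_le (by norm_num), uIcc_of_le (by norm_num)]
    exact Icc_subset_Icc (by norm_num) le_rfl
  have hg1 : IntervalIntegrable (fun x => jm x * F x) volume (-(32 / 25)) 0 := hg.mono_set hu1
  have hg2 : IntervalIntegrable (fun x => jm x * F x) volume 0 (32 / 25) := hg.mono_set hu2
  have hadd := intervalIntegral.integral_add_adjacent_intervals hg1 hg2
  have e0 : (∫ x in (-(32 / 25 : ℝ))..(32 / 25), ∫ y in (-(22 / 25 : ℝ))..(22 / 25),
        0 * χ Box.O (pt x y 1)) = 0 := by simp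
  have e1 : (∫ x in (-(32 / 25 : ℝ))..(32 / 25), ∫ y in (-(22 / 25 : ℝ))..(22 / 25),
        jm x * χ Box.O (pt x y (7 / 10))) = ∫ x in (-(32 / 25 : ℝ))..(32 / 25), jm x * F x := by
    refine intervalIntegral.integral_congr fun x _ => ?_
    exact intervalIntegral.integral_const_mul _ _
  have e2 : (∫ x in (0 : ℝ)..(32 / 25), ∫ y in (-(22 / 25 : ℝ))..(22 / 25),
        jm x * χ Box.P (pt x y (7 / 10))) = ∫ x in (0 : ℝ)..(32 / 25), jm x * F x := by
    refine intervalIntegral.integral_congr fun x hx => ?_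
    rw [uIcc_of_le (by norm_num)] at hx
    have h1 : (∫ y in (-(22 / 25 : ℝ))..(22 / 25), jm x * χ Box.P (pt x y (7 / 10))) =
        ∫ y in (-(22 / 25 : ℝ))..(22 / 25), jm x * χ Box.O (pt x y (7 / 10)) := by
      refine intervalIntegral.integral_congr fun y hy => ?_
      rw [uIcc_of_le (by norm_num)] at hy
      have h2 : pt x y (7 / 10) ∈ bx Box.P := by
        refine ⟨?_, ?_, ?_, ?_, ?_⟩
        · simpa using hx.1
        · simpa using hx.2
        · simpa [abs_le] using hy
        · simp; norm_num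
        · simp
      have h3 := hM.1 _ h2 (by simp)
      simp only [h3]
    exact h1.trans (intervalIntegral.integral_const_mul _ _)
  have e3 : (∫ x in (-(32 / 25 : ℝ))..0, ∫ y in (-(22 / 25 : ℝ))..(22 / 25),
        jm x * χ Box.N (pt x y (7 / 10))) = ∫ x in (-(32 / 25 : ℝ))..0, jm x * F x := by
    refine intervalIntegral.integral_congr fun x hx => ?_
    rw [uIcc_of_le (by norm_num)] at hx
    have h1 : (∫ y in (-(22 / 25 : ℝ))..(22 / 25), jm x * χ Box.N (pt x y (7 / 10))) =
        ∫ y in (-(22 / 25 : ℝ))..(22 / 25), jm x * χ Box.O (pt x y (7 / 10)) := by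
      refine intervalIntegral.integral_congr fun y hy => ?_
      rw [uIcc_of_le (by norm_num)] at hy
      have h2 : pt x y (7 / 10) ∈ bx Box.N := by
        refine ⟨?_, ?_, ?_, ?_, ?_⟩
        · simpa using hx.1
        · simpa using hx.2
        · simpa [abs_le] using hy
        · simp; norm_num
        · simp
      have h3 := hM.2 _ h2 (by simp)
      simp only [h3]
    exact h1.trans (intervalIntegral.integral_const_mul _ _)
  have e4 : (∫ x in (0 : ℝ)..(32 / 25), ∫ y in (-(22 / 25 : ℝ))..(22 / 25),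
        (-θ) * χ Box.P (pt x y (3 / 5))) = -θ * faceP (χ Box.P) := by
    simp only [intervalIntegral.integral_const_mul]
    rfl
  have e5 : (∫ x in (-(32 / 25 : ℝ))..0, ∫ y in (-(22 / 25 : ℝ))..(22 / 25),
        θ * χ Box.N (pt x y (3 / 5))) = θ * faceN (χ Box.N) := by
    simp only [intervalIntegral.integral_const_mul]
    rfl
  rw [e0, e1, e2, e3, e4, e5]
  linear_combination hadd

end Crest.Agent.R083
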