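import Crest.Agent.R083.TMThree
import Crest.Agent.R083.TMPoint
import Crest.Agent.R083.TMApprox
import Crest.Agent.R083.TMOpen
import Crest.Agent.R083.TMGreen
import Crest.Agent.R083.TMSum
import Crest.Agent.R083.Core
import Crest.Agent.R083.ModelIsoAux

/-!
Row 83 (S0111), TM group: the explicit anisotropic solution on the model boxes.
-/

set_option autoImplicit false

namespace Crest.Agent.R083

open MeasureTheory Set Filter
open scoped Gradient ENNReal NNReal Topology ContDiff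

/-- The three solutions for one value of the large parameter. -/
theorem tm_three (K : CoreData) : ∃ Mc : ℝ, 10 ≤ Mc ∧
    (∃ (δ' N0 : ℝ) (w : E3 → ℝ) (J : E3 → E3),
      FaceSol (-(32 / 25)) (32 / 25) (-(22 / 25)) (22 / 25) (7 / 10) 1 δ' N0 w J
        (tmv K) (fun _ => 0) (tmj K Mc) (fun _ => 0)) ∧
    (∃ (δ' N0 : ℝ) (w : E3 → ℝ) (J : E3 → E3),
      FaceSol 0 (32 / 25) (-(22 / 25)) (22 / 25) (3 / 5) (7 / 10) δ' N0 w J
        (fun _ => Real.log 2 + Real.pi / 2 * (1 / 10 * Mc)) (tmv K)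
        (fun _ => -(Real.pi / 2 * Mc)) (tmj K Mc)) ∧
    (∃ (δ' N0 : ℝ) (w : E3 → ℝ) (J : E3 → E3),
      FaceSol (-(32 / 25)) 0 (-(22 / 25)) (22 / 25) (3 / 5) (7 / 10) δ' N0 w J
        (fun _ => -(Real.log 2 + Real.pi / 2 * (1 / 10 * Mc))) (tmv K)
        (fun _ => Real.pi / 2 * Mc) (tmj K Mc)) := by
  obtain ⟨ρ0, hf⟩ := nsol_of_front K.C0 K.c0 K.c0pos
  have hMc : 10 ≤ max 10 (10 * |ρ0|) := le_max_left _ _
  have hMr : 10 * |ρ0| ≤ max 10 (10 * |ρ0|) := le_max_right _ _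
  generalize max 10 (10 * |ρ0|) = Mc at hMc hMr
  have hpi := Real.pi_gt_three
  have hρ := le_abs_self ρ0
  have hρ' := abs_nonneg ρ0
  have e1 : ρ0 ≤ Real.pi / 2 * (3 / 10 * Mc) := by nlinarith
  have e2 : ρ0 ≤ Real.pi * (1 / 10 * Mc) := by nlinarith
  have f1 : 1 ≤ (3 / 10 * Mc) ^ 2 / 4 := by nlinarith
  have f2 : 1 ≤ (1 / 10 * Mc) ^ 2 := by nlinarith
  have hO := K.frontO (3 / 10 * Mc) (by linarith)
  have hP := K.frontP (1 / 10 * Mc) (by linarith)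
  obtain ⟨δ1, N1, w1, J1, n1⟩ := hf _ _ e1 f1 _ hO
  obtain ⟨δ2, N2, w2, J2, n2⟩ := hf _ _ e2 f2 _ hP
  exact ⟨Mc, hMc, faceSol_O K Mc hMc n1 hO.sm, faceSol_P K Mc hMc n2 hP.sm,
    faceSol_N K Mc hMc n2 hP.sm⟩

/-- Choice by box. -/
def pk {α : Type*} (o p n : α) : Box → α
  | Box.O => o
  | Box.P => p
  | Box.N => n

theorem tm_cut_end (j : ℕ) (p : E3) (h : p 2 = 1 ∨ p 2 = 3 / 5) : cut (j + 200) p = 1 := by
  apply cut_eq_one
  have h1 : (1 / 100 : ℝ) ≤ tip2 p := by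
    unfold tip2
    rcases h with h | h <;> rw [h] <;> nlinarith [sq_nonneg (p 0)]
  have h2 : (200 : ℝ) ≤ ((j + 200 : ℕ) : ℝ) := by push_cast; linarith [Nat.cast_nonneg (α := ℝ) j]
  nlinarith

theorem tensor_model :
    ∃ (δ e θ N0 : ℝ) (w : Box → E3 → ℝ) (J : Box → E3 → E3) (V : Box → Set E3)
      (wj : ℕ → Box → E3 → ℝ), 0 < δ ∧ 0 < e ∧ 0 < θ ∧
      (∀ b, IsOpen (V b) ∧ V b ⊆ bxo b ∧ volume (bx b \ V b) = 0) ∧
      (∀ b, ContDiffOn ℝ ∞ (w b) (V b) ∧ ContDiffOn ℝ ∞ (J b) (V b)) ∧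
      (∀ b, ∀ x ∈ V b, fderiv ℝ (w b) x (ee 2) = J b x 2 ∧ dvg (J b) x = 0 ∧
        HEll δ (∇ (w b) x) (J b x) ∧ ‖∇ (w b) x‖ ^ 2 * √(tip2 x) ≤ N0) ∧
      -- Lipschitz approximants
      (∀ j b, ∃ K : ℝ≥0, LipschitzWith K (wj j b)) ∧
      (∀ ε : ℝ, 0 < ε → ∃ j0, ∀ j ≥ j0, ∀ b, ∀ x ∈ bx b, |wj j b x - w b x| ≤ ε) ∧
      (∀ b, IntegrableOn (fun x => ‖∇ (w b) x‖ ^ 2) (bx b) volume) ∧
      (∀ b, Tendsto (fun j => ∫ x in bx b, ‖∇ (wj j b) x - ∇ (w b) x‖ ^ 2) atTop (𝓝 0)) ∧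
      (∀ j, Matching (wj j)) ∧
      (∀ j, ∀ x ∈ bx Box.O, x 2 = 1 → wj j Box.O x = 0) ∧
      (∀ j, ∀ x ∈ bx Box.P, x 2 = 3/5 → wj j Box.P x = e) ∧
      (∀ j, ∀ x ∈ bx Box.N, x 2 = 3/5 → wj j Box.N x = -e) ∧
      -- weak equation with the boundary fluxes
      (∀ χ : Box → E3 → ℝ, (∀ b, ∃ K : ℝ≥0, LipschitzWith K (χ b)) → Matching χ →
        (∫ x in bx Box.O, inner ℝ (J Box.O x) (∇ (χ Box.O) x)) +
        (∫ x in bx Box.P, inner ℝ (J Box.P x) (∇ (χ Box.P) x)) +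
        (∫ x in bx Box.N, inner ℝ (J Box.N x) (∇ (χ Box.N) x)) =
          θ * (faceP (χ Box.P) - faceN (χ Box.N))) := by
  obtain ⟨K⟩ := core_exists
  obtain ⟨Mc, hMc, ⟨δO, NO, wO, JO, hO⟩, ⟨δP, NP, wP, JP, hP⟩, ⟨δN, NN, wN, JN, hN⟩⟩ := tm_three K
  obtain ⟨iO, aO, lO, vO, cO, tO⟩ := fs_approx _ _ _ _ _ _ _ _ _ _ _ _ _ _ hO (by norm_num)
    (by norm_num) (by norm_num) (by norm_num)
  obtain ⟨iP, aP, lP, vP, cP, tP⟩ := fs_approx _ _ _ _ _ _ _ _ _ _ _ _ _ _ hP (by norm_num)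
    (by norm_num) (by norm_num) (by norm_num)
  obtain ⟨iN, aN, lN, vN, cN, tN⟩ := fs_approx _ _ _ _ _ _ _ _ _ _ _ _ _ _ hN (by norm_num)
    (by norm_num) (by norm_num) (by norm_num)
  obtain ⟨oO, zO⟩ := fs_V _ _ _ _ _ _ _ _ _ _ hO.sol
  obtain ⟨oP, zP⟩ := fs_V _ _ _ _ _ _ _ _ _ _ hP.sol
  obtain ⟨oN, zN⟩ := fs_V _ _ _ _ _ _ _ _ _ _ hN.sol
  obtain ⟨sO, uO, pO⟩ := fs_pt hO.sol (tmv K) (fun _ => 0)
  obtain ⟨sP, uP, pP⟩ := fs_pt hP.sol (fun _ => Real.log 2 + Real.pi / 2 * (1 / 10 * Mc)) (tmv K)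
  obtain ⟨sN, uN, pN⟩ := fs_pt hN.sol (fun _ => -(Real.log 2 + Real.pi / 2 * (1 / 10 * Mc))) (tmv K)
  obtain ⟨jbO, -, gO⟩ := fs_green _ _ _ _ _ _ _ _ _ _ _ _ _ _ hO (by norm_num) (by norm_num)
    (by norm_num)
  obtain ⟨-, -, gP⟩ := fs_green _ _ _ _ _ _ _ _ _ _ _ _ _ _ hP (by norm_num) (by norm_num)
    (by norm_num)
  obtain ⟨-, -, gN⟩ := fs_green _ _ _ _ _ _ _ _ _ _ _ _ _ _ hN (by norm_num) (by norm_num)
    (by norm_num)
  have hpi := Real.pi_gt_three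
  have hMc0 : 0 < Mc := by linarith
  have hlog : 0 < Real.log 2 := Real.log_pos (by norm_num)
  set e : ℝ := Real.log 2 + Real.pi / 2 * (1 / 10 * Mc) with he
  have he0 : 0 < e := by positivity
  refine ⟨min δO (min δP δN), e, Real.pi / 2 * Mc, max NO (max NP NN),
    pk (fw (7 / 10) 1 wO (tmv K) (fun _ => 0)) (fw (3 / 5) (7 / 10) wP (fun _ => e) (tmv K))
      (fw (3 / 5) (7 / 10) wN (fun _ => -e) (tmv K)),
    pk JO JP JN,
    pk (fV (-(32 / 25)) (32 / 25) (-(22 / 25)) (22 / 25) (7 / 10) 1 wO)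
      (fV 0 (32 / 25) (-(22 / 25)) (22 / 25) (3 / 5) (7 / 10) wP)
      (fV (-(32 / 25)) 0 (-(22 / 25)) (22 / 25) (3 / 5) (7 / 10) wN),
    fun j => pk (aO j) (aP j) (aN j),
    lt_min hO.sol.δpos (lt_min hP.sol.δpos hN.sol.δpos), he0, by positivity,
    ?_, ?_, ?_, ?_, ?_, ?_, ?_, ?_, ?_, ?_, ?_, ?_⟩
  · rintro (_ | _ | _)
    · refine ⟨oO, ?_, ?_⟩
      · intro p hp
        obtain ⟨h0, h1, h2⟩ := hp.1
        exact ⟨abs_lt.2 h0, abs_lt.2 h1, h2.1, h2.2⟩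
      · rw [bx_O]; exact zO
    · refine ⟨oP, ?_, ?_⟩
      · intro p hp
        obtain ⟨h0, h1, h2⟩ := hp.1
        exact ⟨h0.1, h0.2, abs_lt.2 h1, h2.1, h2.2⟩
      · rw [bx_P]; exact zP
    · refine ⟨oN, ?_, ?_⟩
      · intro p hp
        obtain ⟨h0, h1, h2⟩ := hp.1
        exact ⟨h0.1, h0.2, abs_lt.2 h1, h2.1, h2.2⟩
      · rw [bx_N]; exact zN
  · rintro (_ | _ | _)
    exacts [⟨sO, uO⟩, ⟨sP, uP⟩, ⟨sN, uN⟩]
  · rintro (_ | _ | _) x hx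
    · obtain ⟨q1, q2, q3, q4⟩ := pO x hx
      exact ⟨q1, q2, HEll_mono (min_le_left _ _) q3, q4.trans (le_max_left _ _)⟩
    · obtain ⟨q1, q2, q3, q4⟩ := pP x hx
      exact ⟨q1, q2, HEll_mono ((min_le_right _ _).trans (min_le_left _ _)) q3,
        q4.trans ((le_max_left _ _).trans (le_max_right _ _))⟩
    · obtain ⟨q1, q2, q3, q4⟩ := pN x hx
      exact ⟨q1, q2, HEll_mono ((min_le_right _ _).trans (min_le_right _ _)) q3,
        q4.trans ((le_max_right _ _).trans (le_max_right _ _))⟩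
  · rintro j (_ | _ | _)
    exacts [lO j, lP j, lN j]
  · intro ε hε
    obtain ⟨j1, h1⟩ := cO ε hε
    obtain ⟨j2, h2⟩ := cP ε hε
    obtain ⟨j3, h3⟩ := cN ε hε
    refine ⟨max j1 (max j2 j3), fun j hj => ?_⟩
    rintro (_ | _ | _) x hx
    · rw [bx_O] at hx
      exact h1 j ((le_max_left _ _).trans hj) x hx
    · rw [bx_P] at hx
      exact h2 j (((le_max_left _ _).trans (le_max_right _ _)).trans hj) x hx
    · rw [bx_N] at hx
      exact h3 j (((le_max_right _ _).trans (le_max_right _ _)).trans hj) x hx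
  · rintro (_ | _ | _)
    · rw [bx_O]; exact iO
    · rw [bx_P]; exact iP
    · rw [bx_N]; exact iN
  · rintro (_ | _ | _)
    · rw [bx_O]; exact tO
    · rw [bx_P]; exact tP
    · rw [bx_N]; exact tN
  · intro j
    constructor
    · intro p hp h7
      have hpO : p ∈ bx Box.O := by
        obtain ⟨h0, h1, h2, h3, h4⟩ := hp
        exact ⟨abs_le.2 ⟨by linarith, h1⟩, h2, h7.ge, by linarith⟩
      rw [bx_P] at hp
      rw [bx_O] at hpO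
      show aO j p = aP j p
      rw [vO j p hpO, vP j p hp]
      congr 1
      have n1 : ¬ ((7 : ℝ) / 10 = 3 / 5) := by norm_num
      simp only [fw, h7, if_true, if_neg n1]
    · intro p hp h7
      have hpO : p ∈ bx Box.O := by
        obtain ⟨h0, h1, h2, h3, h4⟩ := hp
        exact ⟨abs_le.2 ⟨h0, by linarith⟩, h2, h7.ge, by linarith⟩
      rw [bx_N] at hp
      rw [bx_O] at hpO
      show aO j p = aN j p
      rw [vO j p hpO, vN j p hp]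
      congr 1
      have n1 : ¬ ((7 : ℝ) / 10 = 3 / 5) := by norm_num
      simp only [fw, h7, if_true, if_neg n1]
  · intro j x hx h1
    rw [bx_O] at hx
    show aO j x = 0
    rw [vO j x hx, tm_cut_end j x (Or.inl h1), one_mul]
    have n1 : ¬ ((1 : ℝ) = 7 / 10) := by norm_num
    simp only [fw, h1, if_true, if_neg n1]
  · intro j x hx h1
    rw [bx_P] at hx
    show aP j x = e
    rw [vP j x hx, tm_cut_end j x (Or.inr h1), one_mul]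
    simp only [fw, h1, if_true]
  · intro j x hx h1
    rw [bx_N] at hx
    show aN j x = -e
    rw [vN j x hx, tm_cut_end j x (Or.inr h1), one_mul]
    simp only [fw, h1, if_true]
  · intro χ hχ hM
    obtain ⟨k1, hk1⟩ := hχ Box.O
    obtain ⟨k2, hk2⟩ := hχ Box.P
    obtain ⟨k3, hk3⟩ := hχ Box.N
    rw [bx_O, bx_P, bx_N]
    have g1 := gO (χ Box.O) k1 hk1
    have g2 := gP (χ Box.P) k2 hk2
    have g3 := gN (χ Box.N) k3 hk3
    have hs := fs_sum (Real.pi / 2 * Mc) (tmj K Mc) jbO χ hχ hM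
    rw [← g1, ← g2, ← g3] at hs
    exact hs

end Crest.Agent.R083
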