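import Crest.Agent.R083.ModelIsoAux
import Crest.Agent.R083.Glue
import Crest.Agent.R083.Wdf
import Crest.Agent.R083.Iso
import Crest.Agent.R083.TensorModel
set_option autoImplicit false
namespace Crest.Agent.R083
open MeasureTheory Set Filter
open scoped Gradient ENNReal NNReal Topology ContDiff
theorem model_out (μ : ℝ) (hμ : 0 < μ) (M : Box → E3 → (E3 →L[ℝ] E3))
    (hM : ∀ b, ∃ U : Set E3, IsOpen U ∧ U ⊆ bxo b ∧ volume (bx b \ U) = 0 ∧
      (∀ x ∈ U, ∀ᶠ y in 𝓝 x, M b y = M b x) ∧ (∀ x ∈ U, Ell μ (M b x))) :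
    Nonempty (ModelOut M) :=
  model_out_of (fun f K hf U hU h0 => lip_tsum f K hf U hU h0) (fun R hR hs => wdf_tsum R hR hs)
    tensor_model (fun δ μ hδ hμ => iso δ μ hδ hμ) μ hμ M hM
end Crest.Agent.R083
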