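import Crest.Agent.R083.ModExists
import Crest.Agent.R083.Glue
import Crest.Agent.R083.Wdf
import Crest.Agent.R083.Iso
import Crest.Agent.R083.TensorModel
set_option autoImplicit false
namespace Crest.Agent.R083
open MeasureTheory Set Filter
open scoped Gradient ENNReal NNReal Topology ContDiff
theorem module_exists : Nonempty ModData :=
  module_exists_of (fun f K hf U hU h0 => lip_tsum f K hf U hU h0)
    (fun R hR hs => wdf_tsum R hR hs) tensor_model (fun δ μ hδ hμ => iso δ μ hδ hμ)
end Crest.Agent.R083
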