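import Crest.Agent.R083.Defs

/-!
Row 83: smooth parametric interval integrals and smooth coordinate primitives.
-/

set_option autoImplicit false

namespace Crest.Agent.R083

open MeasureTheory Set Filter
open scoped Gradient ENNReal NNReal Topology ContDiff Interval

section Param

variable {E : Type} [NormedAddCommGroup E] [NormedSpace ℝ E] [FiniteDimensional ℝ E]

theorem contDiff_param_nat (n : ℕ) : ∀ {F : Type} [NormedAddCommGroup F] [NormedSpace ℝ F]
    [CompleteSpace F] (g : E → ℝ → F) (_ : ContDiff ℝ n (Function.uncurry g)) (a b : ℝ),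
    ContDiff ℝ n (fun x => ∫ s in a..b, g x s) := by
  have : ProperSpace E := FiniteDimensional.proper ℝ E
  induction n with
  | zero =>
    intro F _ _ _ g hg a b
    rw [Nat.cast_zero, contDiff_zero] at *
    exact intervalIntegral.continuous_parametric_intervalIntegral_of_continuous' hg a b
  | succ n ih =>
    intro F _ _ _ g hg a b
    have hgc : Continuous (Function.uncurry g) := hg.continuous
    -- the partial derivative
    set g' : E → ℝ → (E →L[ℝ] F) := fun x s =>
      (fderiv ℝ (Function.uncurry g) (x, s)).comp (ContinuousLinearMap.inl ℝ E ℝ) with hg'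
    have hdiff : ∀ x s, HasFDerivAt (fun y => g y s) (g' x s) x := by
      intro x s
      have h1 : HasFDerivAt (Function.uncurry g) (fderiv ℝ (Function.uncurry g) (x, s)) (x, s) :=
        (hg.differentiable (by norm_cast)).differentiableAt.hasFDerivAt
      have h2 : HasFDerivAt (fun y : E => (y, s)) (ContinuousLinearMap.inl ℝ E ℝ) x := by
        exact hasFDerivAt_prodMk_left x s
      exact h1.comp x h2
    have hg'c : ContDiff ℝ n (Function.uncurry g') := by
      have h1 : ContDiff ℝ n (fderiv ℝ (Function.uncurry g)) :=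
        hg.fderiv_right (by norm_cast)
      have h2 : ContDiff ℝ n (fun p : E × ℝ => (fderiv ℝ (Function.uncurry g) p).comp
          (ContinuousLinearMap.inl ℝ E ℝ)) := h1.clm_comp contDiff_const
      exact h2
    have hg'cont : Continuous (Function.uncurry g') := hg'c.continuous
    rw [show ((n + 1 : ℕ) : WithTop ℕ∞) = (n : WithTop ℕ∞) + 1 by norm_cast]
    rw [contDiff_succ_iff_hasFDerivAt]
    refine ⟨fun x => ∫ s in a..b, g' x s, ih g' hg'c a b, fun x => ?_⟩
    -- bound on a ball
    obtain ⟨B, hB⟩ := ((isCompact_closedBall x 1).prod (isCompact_uIcc (a := a) (b := b))).exists_bound_of_continuousOn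
      (f := Function.uncurry g') hg'cont.continuousOn
    refine intervalIntegral.hasFDerivAt_integral_of_dominated_of_fderiv_le (bound := fun _ => B)
      (Metric.closedBall_mem_nhds x one_pos) ?_ ?_ ?_ ?_ ?_ ?_
    · exact Eventually.of_forall fun y => (hgc.comp (by fun_prop : Continuous fun s : ℝ => (y, s))).aestronglyMeasurable
    · exact (hgc.comp (by fun_prop : Continuous fun s : ℝ => (x, s))).intervalIntegrable _ _
    · exact (hg'cont.comp (by fun_prop : Continuous fun s : ℝ => (x, s))).aestronglyMeasurable
    · refine Eventually.of_forall fun t ht y hy => ?_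
      exact hB (y, t) ⟨hy, uIoc_subset_uIcc ht⟩
    · exact intervalIntegrable_const
    · exact Eventually.of_forall fun t _ y _ => hdiff y t

theorem contDiff_param {F : Type} [NormedAddCommGroup F] [NormedSpace ℝ F]
    [CompleteSpace F] (g : E → ℝ → F) (hg : ContDiff ℝ ∞ (Function.uncurry g)) (a b : ℝ) :
    ContDiff ℝ ∞ (fun x => ∫ s in a..b, g x s) := by
  rw [contDiff_infty] at *
  intro n
  exact contDiff_param_nat n g (hg n) a b

end Param

/-- Smooth primitive in the coordinate direction `i` vanishing on `{x i = t0}`. -/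
theorem exists_prim (f : E3 → ℝ) (hf : ContDiff ℝ ∞ f) (i : Fin 3) (t0 : ℝ) :
    ∃ F : E3 → ℝ, ContDiff ℝ ∞ F ∧ (∀ x, fderiv ℝ F x (ee i) = f x) ∧
      (∀ x, x i = t0 → F x = 0) ∧
      ∀ x, F x = ∫ τ in t0..(x i), f (x + (τ - x i) • ee i) := by
  set F : E3 → ℝ := fun x => (x i - t0) * ∫ s in (0:ℝ)..1, f (x + ((s - 1) * (x i - t0)) • ee i)
    with hF
  have hFc : ContDiff ℝ ∞ F := by
    refine ContDiff.mul (by fun_prop) (contDiff_param _ ?_ 0 1)
    refine hf.comp ?_
    fun_prop
  -- integral form
  have hform : ∀ x, F x = ∫ τ in t0..(x i), f (x + (τ - x i) • ee i) := by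
    intro x
    simp only [hF]
    have h := intervalIntegral.smul_integral_comp_add_mul (a := (0:ℝ)) (b := 1)
      (fun τ => f (x + (τ - x i) • ee i)) (x i - t0) t0
    simp only [mul_zero, add_zero, mul_one, add_sub_cancel, smul_eq_mul] at h
    rw [← h]
    congr 1
    refine intervalIntegral.integral_congr fun s _ => ?_
    congr 3
    ring
  refine ⟨F, hFc, fun x => ?_, fun x hx => by simp [hF, hx], hform⟩
  -- derivative along the line
  have hd : HasDerivAt (fun t : ℝ => F (x + t • ee i)) (fderiv ℝ F x (ee i)) 0 := by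
    have h1 : HasFDerivAt F (fderiv ℝ F x) (x + (0:ℝ) • ee i) := by
      simpa using (hFc.differentiable (by simp)).differentiableAt.hasFDerivAt (x := x)
    have h2 : HasDerivAt (fun t : ℝ => x + t • ee i) (ee i) 0 := by
      simpa using ((hasDerivAt_id (0:ℝ)).smul_const (ee i)).const_add x
    exact h1.comp_hasDerivAt (0:ℝ) h2
  have hii : (ee i) i = 1 := by simp [ee]
  have heq : ∀ t : ℝ, F (x + t • ee i) = ∫ τ in t0..(x i + t), f (x + (τ - x i) • ee i) := by
    intro t
    rw [hform]
    have : (x + t • ee i) i = x i + t := by simp [hii]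
    rw [this]
    refine intervalIntegral.integral_congr fun s _ => ?_
    simp only
    congr 1
    rw [add_assoc, ← add_smul]
    congr 2
    ring
  have hcont : Continuous fun τ : ℝ => f (x + (τ - x i) • ee i) := by
    have := hf.continuous
    fun_prop
  have hd2 : HasDerivAt (fun t : ℝ => F (x + t • ee i)) (f x) 0 := by
    have h3 : HasDerivAt (fun u : ℝ => ∫ τ in t0..u, f (x + (τ - x i) • ee i))
        (f (x + ((x i + 0) - x i) • ee i)) (x i + 0) :=
      intervalIntegral.integral_hasDerivAt_right (hcont.intervalIntegrable _ _)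
        (hcont.stronglyMeasurableAtFilter _ _) hcont.continuousAt
    have h4 : HasDerivAt (fun t : ℝ => x i + t) 1 0 := by
      simpa using (hasDerivAt_id (0:ℝ)).const_add (x i)
    have h5 := h3.scomp (0:ℝ) h4
    simp only [add_zero, sub_self, zero_smul, one_smul] at h5
    refine h5.congr_of_eventuallyEq (Eventually.of_forall fun t => ?_)
    simpa using heq t
  exact hd.unique hd2

end Crest.Agent.R083
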