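import Crest.Agent.R083.Pairing
import Crest.Agent.R083.Avg
import Crest.Agent.R083.FinDefs

/-!
Row 83 (S0111): bounds and the limit of the neutral potentials.
-/

set_option autoImplicit false

namespace Crest.Agent.R083

open MeasureTheory Set Filter
open scoped Gradient ENNReal NNReal Topology ContDiff

theorem psiJ_bdd (D : ModData) (n j : ℕ) : ∃ B : ℝ, 0 ≤ B ∧ ∀ x, |D.PsiJ n j x| ≤ B := by
  obtain ⟨K, hK⟩ := PsiJ_lipschitz D n j
  obtain ⟨B, hB⟩ := (isCompact_closedBall (0 : E3) 2).exists_bound_of_continuousOn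
    hK.continuous.continuousOn
  refine ⟨|B|, abs_nonneg _, fun x => ?_⟩
  by_cases hx : x ∈ cellB
  · have h2 : x ∈ Metric.closedBall (0 : E3) 2 := by
      rw [mem_closedBall_zero_iff]; exact cellBc_norm x (cellB_subset hx)
    exact (hB x h2).trans (le_abs_self B)
  · rw [PsiJ_off D n j x hx, abs_zero]; exact abs_nonneg _

theorem psi_bound (D : ModData) : ∃ B : ℝ, 0 < B ∧ (∀ n x, |D.Psi n x| ≤ B) ∧
    ∀ n, ∀ᶠ j in atTop, ∀ x, |D.PsiJ n j x| ≤ B := by
  obtain ⟨B1, hB1⟩ := Psi_cauchy D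
  have h0 := Metric.tendstoUniformly_iff.1 (PsiJ_unif D 0) 1 one_pos
  obtain ⟨j, hj⟩ := h0.exists
  obtain ⟨B2, hB2, hB2'⟩ := psiJ_bdd D 0 j
  have hP0 : ∀ x, |D.Psi 0 x| ≤ B2 + 1 := fun x => by
    have h1 := hj x
    rw [Real.dist_eq] at h1
    have h2 := hB2' x
    have h3 : |D.Psi 0 x| ≤ |D.Psi 0 x - D.PsiJ 0 j x| + |D.PsiJ 0 j x| := by
      have := abs_add_le (D.Psi 0 x - D.PsiJ 0 j x) (D.PsiJ 0 j x)
      simpa using this
    linarith
  have hPn : ∀ n x, |D.Psi n x| ≤ |B1| + (B2 + 1) := fun n x => by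
    have h1 := hB1 0 n x (Nat.zero_le n)
    rw [pow_zero, mul_one] at h1
    have h3 : |D.Psi n x| ≤ |D.Psi n x - D.Psi 0 x| + |D.Psi 0 x| := by
      have := abs_add_le (D.Psi n x - D.Psi 0 x) (D.Psi 0 x)
      simpa using this
    linarith [hP0 x, le_abs_self B1]
  refine ⟨|B1| + (B2 + 1) + 1, by positivity, fun n x => by linarith [hPn n x], fun n => ?_⟩
  have hn := Metric.tendstoUniformly_iff.1 (PsiJ_unif D n) 1 one_pos
  filter_upwards [hn] with j hj x
  have h1 := hj x
  rw [Real.dist_eq] at h1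
  have h3 : |D.PsiJ n j x| ≤ |D.Psi n x - D.PsiJ n j x| + |D.Psi n x| := by
    have := abs_sub (D.Psi n x) (D.Psi n x - D.PsiJ n j x)
    simp only [sub_sub_cancel] at this
    linarith
  linarith [hPn n x]

theorem psi_continuous (D : ModData) (n : ℕ) : Continuous (D.Psi n) := by
  refine (PsiJ_unif D n).continuous ?_
  refine Eventually.frequently (Eventually.of_forall fun j => ?_)
  obtain ⟨K, hK⟩ := PsiJ_lipschitz D n j
  exact hK.continuous

theorem psi_point (D : ModData) (n : ℕ) : D.Psi n (sim true (pt 0 0 1)) = D.e := by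
  have hc : pt 0 0 1 ∈ cellBc := by
    have := av_mem_top (x := 0) (y := 0) (by norm_num) (by norm_num)
    have h1 : roof 0 0 = 1 := by unfold roof; norm_num
    rwa [h1] at this
  have hn : pt 0 0 1 ∉ cellB := by
    change ¬ (|(pt 0 0 1) 2| < roof ((pt 0 0 1) 0) ((pt 0 0 1) 1))
    simp only [tg_pt_zero, tg_pt_one, tg_pt_two]
    unfold roof; norm_num
  have hx : sim true (pt 0 0 1) ∈ sim true '' cellBc := mem_image_of_mem _ hc
  have h2 := pr_child_other true _ hx
  simp only [Bool.not_true] at h2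
  have hW : D.W (sim true (pt 0 0 1)) = D.e := by
    have h3 := D.Wju.tendsto_at (sim true (pt 0 0 1))
    have h4 : (fun j => D.Wj j (sim true (pt 0 0 1))) = fun _ => D.e := by
      funext j; rw [D.Wje j true _ hx]; simp [sg]
    rw [h4] at h3
    exact (tendsto_nhds_unique h3 tendsto_const_nhds)
  unfold ModData.Psi
  rw [hW, simInv_sim, P_off D n _ hn, pr_P_off_c D n _ h2]
  ring

theorem psi_limit (D : ModData) : ∃ (B : ℝ) (Φ : E3 → ℝ), 0 < B ∧ Continuous Φ ∧
    (∀ n x, |Φ x - D.Psi n x| ≤ B * (5/6 : ℝ) ^ n) ∧ (∀ x, x ∉ cellB → Φ x = 0) ∧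
    (∃ x, 0 < Φ x) := by
  obtain ⟨B1, hB1⟩ := Psi_cauchy D
  have hc : ∀ x, CauchySeq (fun n => D.Psi n x) := fun x => by
    refine cauchySeq_of_le_tendsto_0 (fun n => 2 * (|B1| * (5/6 : ℝ) ^ n)) ?_ ?_
    · intro n m N hn hm
      have h1 := hB1 N n x hn
      have h2 := hB1 N m x hm
      rw [Real.dist_eq]
      have h3 : |D.Psi n x - D.Psi m x| ≤
          |D.Psi n x - D.Psi N x| + |D.Psi m x - D.Psi N x| := by
        have := abs_sub (D.Psi n x - D.Psi N x) (D.Psi m x - D.Psi N x)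
        simpa using this
      have h4 : B1 * (5/6 : ℝ) ^ N ≤ |B1| * (5/6 : ℝ) ^ N :=
        mul_le_mul_of_nonneg_right (le_abs_self _) (by positivity)
      linarith
    · have := tendsto_pow_atTop_nhds_zero_of_lt_one (r := (5/6 : ℝ)) (by norm_num) (by norm_num)
      have h := (this.const_mul |B1|).const_mul 2
      simpa using h
  choose Φ hΦ using fun x => cauchySeq_tendsto_of_complete (hc x)
  have hb : ∀ n x, |Φ x - D.Psi n x| ≤ (|B1| + 1) * (5/6 : ℝ) ^ n := fun n x => by
    have h1 : Tendsto (fun m => |D.Psi m x - D.Psi n x|) atTop (𝓝 |Φ x - D.Psi n x|) :=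
      ((hΦ x).sub_const _).abs
    refine le_of_tendsto h1 ?_
    filter_upwards [eventually_ge_atTop n] with m hm
    refine (hB1 n m x hm).trans ?_
    exact mul_le_mul_of_nonneg_right (by linarith [le_abs_self B1]) (by positivity)
  refine ⟨|B1| + 1, Φ, by positivity, ?_, hb, fun x hx => ?_, sim true (pt 0 0 1), ?_⟩
  · have hu : TendstoUniformly (fun n => D.Psi n) Φ atTop := by
      rw [Metric.tendstoUniformly_iff]
      intro ε hε
      have := (tendsto_pow_atTop_nhds_zero_of_lt_one (r := (5/6 : ℝ)) (by norm_num)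
        (by norm_num)).const_mul (|B1| + 1)
      rw [mul_zero] at this
      filter_upwards [this.eventually_lt_const hε] with n hn x
      rw [Real.dist_eq]
      exact (hb n x).trans_lt hn
    exact hu.continuous (Eventually.frequently (Eventually.of_forall fun n => psi_continuous D n))
  · refine tendsto_nhds_unique (hΦ x) ?_
    simp only [Psi_off D _ x hx]
    exact tendsto_const_nhds
  · have h1 : Φ (sim true (pt 0 0 1)) = D.e := by
      refine tendsto_nhds_unique (hΦ _) ?_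
      simp only [psi_point]
      exact tendsto_const_nhds
    rw [h1]; exact D.he

/-! ### The Doob functions -/

theorem bn_Kc (D : ModData) (τ : ℝ) (n j : ℕ) (x : E3) (hx : x ∈ Kc (n + 1)) :
    D.bj τ n j x = D.bn τ n x := by
  unfold ModData.bj ModData.bn
  rcases hx with hx | hx
  · rw [PsiJ_Kc D n j true x hx, Psi_Kc D n true x hx]
  · rw [PsiJ_Kc D n j false x hx, Psi_Kc D n false x hx]

theorem bj_lip (D : ModData) (τ : ℝ) (n j : ℕ) : ∃ K : ℝ≥0, LipschitzWith K (D.bj τ n j) := by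
  obtain ⟨K, hK⟩ := PsiJ_lipschitz D n j
  refine ⟨‖τ‖₊ * K, ?_⟩
  rw [lipschitzWith_iff_dist_le_mul]
  intro x y
  have := hK.dist_le_mul x y
  rw [Real.dist_eq] at this ⊢
  unfold ModData.bj
  have h1 : 1 + τ * D.PsiJ n j x - (1 + τ * D.PsiJ n j y) =
      τ * (D.PsiJ n j x - D.PsiJ n j y) := by ring
  rw [h1, abs_mul, NNReal.coe_mul, coe_nnnorm, Real.norm_eq_abs, mul_assoc]
  exact mul_le_mul_of_nonneg_left this (abs_nonneg _)

theorem bj_off (D : ModData) (τ : ℝ) (n j : ℕ) (x : E3) (hx : x ∉ cellB) : D.bj τ n j x = 1 := by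
  unfold ModData.bj; rw [PsiJ_off D n j x hx]; ring

theorem bn_off (D : ModData) (τ : ℝ) (n : ℕ) (x : E3) (hx : x ∉ cellB) : D.bn τ n x = 1 := by
  unfold ModData.bn; rw [Psi_off D n x hx]; ring

theorem bn_continuous (D : ModData) (τ : ℝ) (n : ℕ) : Continuous (D.bn τ n) := by
  unfold ModData.bn
  exact continuous_const.add (continuous_const.mul (psi_continuous D n))

end Crest.Agent.R083
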