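import Crest.Agent.R083.Defs

/-!
Row 83 (S0111), RES group: definitions for `resolves_all`.
-/

set_option autoImplicit false

namespace Crest.Agent.R083

open MeasureTheory Set Filter
open scoped Gradient ENNReal NNReal Topology

/-- Diagonal tensor. -/
noncomputable def diagL (a : Fin 3 → ℝ) : E3 →L[ℝ] E3 :=
  ∑ i : Fin 3, a i • (EuclideanSpace.proj i : E3 →L[ℝ] ℝ).smulRight (ee i)

/-- Exact scalar realisation data of the tensor `A` in one cell `D` (no smallness). -/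
def CellData (c C : ℝ) (L : ℝ≥0) (A : E3 →L[ℝ] E3) (D : Set E3) : Prop :=
  ∃ (γ : E3 → ℝ) (v : Fin 3 → E3 → ℝ) (R : Fin 3 → E3 → E3),
    Measurable γ ∧ (∀ x, c ≤ γ x ∧ γ x ≤ C) ∧
    ∀ i, LipschitzWith L (v i) ∧ (∀ x, x ∉ D → v i x = 0) ∧
      Measurable (R i) ∧ (∀ x, ‖R i x‖ ≤ L) ∧ (∀ x, x ∉ D → R i x = 0) ∧ WDF (R i) ∧
      ∀ᵐ x ∂(volume.restrict D), A (ee i) + R i x = γ x • (ee i + ∇ (v i) x)

/-- Conjugation of a tensor by a rotation. -/
noncomputable def rotT (O : E3 ≃ₗᵢ[ℝ] E3) (A : E3 →L[ℝ] E3) : E3 →L[ℝ] E3 :=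
  (O.toContinuousLinearEquiv : E3 →L[ℝ] E3).comp
    (A.comp (O.symm.toContinuousLinearEquiv : E3 →L[ℝ] E3))

/-- Confocal oblate spheroidal coordinate: `x₀²/s + (x₁²+x₂²)/(s+1) = 1`, `s = sph x`. -/
noncomputable def sph (x : E3) : ℝ :=
  ((‖x‖ ^ 2 - 1) + √((‖x‖ ^ 2 - 1) ^ 2 + 4 * (x 0) ^ 2)) / 2

/-- The volume function `√s (s+1)`. -/
noncomputable def Vv (s : ℝ) : ℝ := √s * (s + 1)

/-- Primitive of `1/(2 s^{3/2} (s+1))`. -/
noncomputable def Phi0 (s : ℝ) : ℝ := -(√s)⁻¹ - Real.arctan (√s)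

/-- Primitive of `1/(2 s^{1/2} (s+1)^2)`. -/
noncomputable def Phi1 (s : ℝ) : ℝ := (√s / (s + 1) + Real.arctan (√s)) / 2

/-- Radial factor of the axial potential in the coat; `Ff al s1 s1 = 1`. -/
noncomputable def Ff (al s1 s : ℝ) : ℝ := 1 - al * (Phi0 s1 - Phi0 s)

/-- Radial factor of the transverse potentials in the coat; `Gf be s1 s1 = 1`. -/
noncomputable def Gf (be s1 s : ℝ) : ℝ := 1 - be * (Phi1 s1 - Phi1 s)

/-- Radial factor of the axial flux potential `(Hf/2) (e₀ × x)`. -/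
noncomputable def Hf (c0 al s1 s : ℝ) : ℝ := c0 * (Ff al s1 s + al / Vv s)

/-- First radial factor of the transverse flux potential. -/
noncomputable def Pf (c0 lam be s1 s : ℝ) : ℝ := lam / 2 + c0 * (1 - Gf be s1 s)

/-- Second radial factor of the transverse flux potential. -/
noncomputable def Sf (c0 lam be s1 s : ℝ) : ℝ :=
  c0 * (Gf be s1 s + be / Vv s) - Pf c0 lam be s1 s

/-- Flux potential of type `0`: `(h/2) e₀ × x` with `h = h(x)`. -/
noncomputable def fp0 (h : E3 → ℝ) (x : E3) : E3 := pt 0 (-(h x / 2 * x 2)) (h x / 2 * x 1)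

/-- Flux potential of type `1`. -/
noncomputable def fp1 (p s : E3 → ℝ) (x : E3) : E3 := pt (p x * x 2) 0 (-(s x * x 0))

/-- Flux potential of type `2`. -/
noncomputable def fp2 (p s : E3 → ℝ) (x : E3) : E3 := pt (-(p x * x 1)) (s x * x 0) 0

/-- The clamped spheroidal coordinate. -/
noncomputable def sgc (s0 s1 : ℝ) (x : E3) : ℝ := max s0 (min s1 (sph x))

/-- The closed spheroid. -/
def Dsph (s1 : ℝ) : Set E3 := {x | sph x ≤ s1}

/-- Strength of the coat response for the tensor entry `lam` and the coat conductivity `c0`. -/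
noncomputable def str (c0 s1 lam : ℝ) : ℝ := Vv s1 * (lam - c0) / c0

/-- Relations between the outer tensor `lam`, the coat conductivity `c0`, the core tensor `kap`
(diagonal entries; `0` is the axis of the spheroid). -/
structure Coat (s0 s1 c0 : ℝ) (lam kap : Fin 3 → ℝ) : Prop where
  hc : 0 < c0
  hl : ∀ i, c0 < lam i
  F0 : 0 < Ff (str c0 s1 (lam 0)) s1 s0
  G1 : 0 < Gf (str c0 s1 (lam 1)) s1 s0
  G2 : 0 < Gf (str c0 s1 (lam 2)) s1 s0
  k0 : kap 0 * Ff (str c0 s1 (lam 0)) s1 s0 = Hf c0 (str c0 s1 (lam 0)) s1 s0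
  k1 : kap 1 * Gf (str c0 s1 (lam 1)) s1 s0 =
    c0 * (Gf (str c0 s1 (lam 1)) s1 s0 + str c0 s1 (lam 1) / Vv s0)
  k2 : kap 2 * Gf (str c0 s1 (lam 2)) s1 s0 =
    c0 * (Gf (str c0 s1 (lam 2)) s1 s0 + str c0 s1 (lam 2) / Vv s0)

end Crest.Agent.R083
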