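import Crest.Agent.R083.ResDefs

/-!
Row 83 (S0111), RES group: INTERFACE STATEMENTS (stubs, never imported by proof files).
-/

set_option autoImplicit false

namespace Crest.Agent.R083

open MeasureTheory Set Filter
open scoped Gradient ENNReal NNReal Topology

/-! ### File `Spheroid.lean` (RES-a) -/

theorem sph_nonneg (x : E3) : 0 ≤ sph x := by sorry
theorem sph_quad (x : E3) : (sph x) ^ 2 - (‖x‖ ^ 2 - 1) * sph x - (x 0) ^ 2 = 0 := by sorry
theorem norm_sq_three (x : E3) : ‖x‖ ^ 2 = (x 0) ^ 2 + (x 1) ^ 2 + (x 2) ^ 2 := by sorry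
theorem sph_le_iff (s : ℝ) (hs : 0 < s) (x : E3) :
    sph x ≤ s ↔ (x 0) ^ 2 / s + ((x 1) ^ 2 + (x 2) ^ 2) / (s + 1) ≤ 1 := by sorry
theorem sph_lt_iff (s : ℝ) (hs : 0 < s) (x : E3) :
    sph x < s ↔ (x 0) ^ 2 / s + ((x 1) ^ 2 + (x 2) ^ 2) / (s + 1) < 1 := by sorry
theorem continuous_sph : Continuous sph := by sorry
theorem hasGradientAt_sph (x : E3) (hx : 0 < sph x) :
    HasGradientAt sph ((sph x + (x 0) ^ 2 / sph x)⁻¹ •
      ((2 * sph x) • x + (2 * x 0) • ee 0)) x := by sorry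
theorem sgc_lipschitz (s0 s1 : ℝ) (h0 : 0 < s0) (h1 : s0 < s1) :
    ∃ K : ℝ≥0, LipschitzWith K (sgc s0 s1) := by sorry
theorem Dsph_compact (s1 : ℝ) (h1 : 0 < s1) : IsCompact (Dsph s1) := by sorry
theorem Dsph_interior (s1 : ℝ) (h1 : 0 < s1) : (0 : E3) ∈ interior (Dsph s1) := by sorry
theorem Dsph_frontier (s1 : ℝ) (h1 : 0 < s1) : volume (frontier (Dsph s1)) = 0 := by sorry
theorem sph_level_null (s : ℝ) (hs : 0 < s) : volume {x : E3 | sph x = s} = 0 := by sorry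

/-- In the coat the curl of the flux potential is `c0` times the gradient of the potential. -/
theorem coat0 (c0 al s1 : ℝ) (x : E3) (hx : 0 < sph x) :
    curlv (fp0 (fun y => Hf c0 al s1 (sph y))) x =
      c0 • ∇ (fun y : E3 => y 0 * Ff al s1 (sph y)) x := by sorry
theorem coat1 (c0 lam be s1 : ℝ) (x : E3) (hx : 0 < sph x) :
    curlv (fp1 (fun y => Pf c0 lam be s1 (sph y)) (fun y => Sf c0 lam be s1 (sph y))) x =
      c0 • ∇ (fun y : E3 => y 1 * Gf be s1 (sph y)) x := by sorry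
theorem coat2 (c0 lam be s1 : ℝ) (x : E3) (hx : 0 < sph x) :
    curlv (fp2 (fun y => Pf c0 lam be s1 (sph y)) (fun y => Sf c0 lam be s1 (sph y))) x =
      c0 • ∇ (fun y : E3 => y 2 * Gf be s1 (sph y)) x := by sorry

/-! ### File `Fill.lean` (RES-b) -/

/-- Vitali filling by scaled translates of one cell. -/
theorem fill (c C : ℝ) (L : ℝ≥0) (A : E3 →L[ℝ] E3) (D : Set E3) (hD : IsCompact D)
    (h0 : (0 : E3) ∈ interior D) (hfr : volume (frontier D) = 0)
    (h : CellData c C L A D) : Resolves c C (2 * L) A := by sorry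

/-- Rotation invariance. -/
theorem resolves_rot (c C : ℝ) (L : ℝ≥0) (A : E3 →L[ℝ] E3) (O : E3 ≃ₗᵢ[ℝ] E3)
    (h : Resolves c C L A) : Resolves c C (2 * L) (rotT O A) := by sorry

/-! ### File `Incl.lean` (RES-c) -/

/-- Inclusion lemma: coated spheroid with core tensor `kap` looks like `lam` from outside. -/
theorem incl_cell (s0 s1 m Λ : ℝ) (h0 : 0 < s0) (h1 : s0 < s1) (hm : 0 < m) :
    ∃ K : ℝ≥0, ∀ (c0 : ℝ) (lam kap : Fin 3 → ℝ), m ≤ c0 → (∀ i, lam i ≤ Λ) →
      Coat s0 s1 c0 lam kap →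
      ∀ (c C : ℝ) (L : ℝ≥0), c ≤ c0 → c0 ≤ C → Resolves c C L (diagL kap) →
        CellData c C (K + L) (diagL lam) (Dsph s1) := by sorry

/-! ### File `Resolve.lean` (RES-d, helper937): parameters, diagonalisation, `resolves_all` -/

end Crest.Agent.R083
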