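import Crest.Agent.R083.ResDefs

/-!
Row 83 (S0111), RES group: parameters of the coated spheroids.
-/

set_option autoImplicit false

namespace Crest.Agent.R083

open MeasureTheory Set Filter
open scoped Gradient ENNReal NNReal Topology

theorem arctan_sub_le {x y : ℝ} (h : y ≤ x) : Real.arctan x - Real.arctan y ≤ x - y := by
  have hmono : Monotone fun t : ℝ => t - Real.arctan t := by
    apply monotone_of_deriv_nonneg
    · exact differentiable_id.sub Real.differentiable_arctan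
    · intro t
      have : deriv (fun t : ℝ => t - Real.arctan t) t = 1 - 1 / (1 + t ^ 2) := by
        have h1 : HasDerivAt (fun t : ℝ => t - Real.arctan t) (1 - 1 / (1 + t ^ 2)) t :=
          (hasDerivAt_id t).sub (Real.hasDerivAt_arctan t)
        exact h1.deriv
      rw [this]
      have : 1 / (1 + t ^ 2) ≤ 1 := by
        rw [div_le_one (by positivity)]
        nlinarith [sq_nonneg t]
      linarith
  have := hmono h
  simp only at this
  linarith

/-- The elementary bounds for the primitives. -/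
theorem prim_bounds {x : ℝ} (hx : 0 < x) (hx1 : x ^ 2 ≤ 1 / 2) :
    0 < Phi1 (x ^ 2) - Phi1 (x ^ 2 / 4) ∧ Phi1 (x ^ 2) - Phi1 (x ^ 2 / 4) ≤ x / 2 ∧
      1 / x - x / 2 ≤ Phi0 (x ^ 2) - Phi0 (x ^ 2 / 4) := by
  have hs1 : √(x ^ 2) = x := Real.sqrt_sq hx.le
  have hs0 : √(x ^ 2 / 4) = x / 2 := by
    rw [show x ^ 2 / 4 = (x / 2) ^ 2 by ring]
    exact Real.sqrt_sq (by positivity)
  have ha1 : Real.arctan x - Real.arctan (x / 2) ≤ x - x / 2 := arctan_sub_le (by linarith)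
  have ha0 : 0 < Real.arctan x - Real.arctan (x / 2) := by
    have := Real.arctan_strictMono (show x / 2 < x by linarith)
    linarith
  have hf : x / (x ^ 2 + 1) - x / 2 / (x ^ 2 / 4 + 1) =
      (x / 2) * (1 - x * (x / 2)) / ((x ^ 2 + 1) * (x ^ 2 / 4 + 1)) := by
    field_simp
    ring
  have hf0 : 0 ≤ x / (x ^ 2 + 1) - x / 2 / (x ^ 2 / 4 + 1) := by
    rw [hf]
    apply div_nonneg
    · apply mul_nonneg (by positivity)
      nlinarith
    · positivity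
  have hf1 : x / (x ^ 2 + 1) - x / 2 / (x ^ 2 / 4 + 1) ≤ x / 2 := by
    rw [hf, div_le_iff₀ (by positivity)]
    have h1 : 1 - x * (x / 2) ≤ 1 := by nlinarith
    have h2 : (1 : ℝ) ≤ (x ^ 2 + 1) * (x ^ 2 / 4 + 1) := by nlinarith [sq_nonneg x, sq_nonneg (x ^ 2)]
    nlinarith
  refine ⟨?_, ?_, ?_⟩
  · simp only [Phi1, hs1, hs0]
    linarith
  · simp only [Phi1, hs1, hs0]
    linarith
  · simp only [Phi0, hs1, hs0]
    have : (x / 2)⁻¹ = 2 / x := by field_simp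
    rw [this]
    have : x⁻¹ = 1 / x := by field_simp
    rw [this]
    have : 2 / x = 1 / x + 1 / x := by ring
    linarith

/-- Choice of the coat conductivity. -/
theorem solve_c {t0 l0 l1 : ℝ} (ht : 1 / 2 ≤ t0) (hl0 : 0 < l0) (h01 : l0 < l1) :
    ∃ c, 0 < c ∧ c < l0 ∧ c * (l1 - l0) = t0 * (l0 - c) * (l1 - c) ∧ l0 / 8 ≤ c := by
  have hl1 : 0 < l1 := hl0.trans h01
  have ht0 : 0 < t0 := by linarith
  have hcont : ContinuousOn (fun c : ℝ => t0 * (l0 - c) * (l1 - c) - c * (l1 - l0))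
      (Icc 0 l0) := by fun_prop
  have hiv := intermediate_value_Icc' hl0.le hcont
  have hA : 0 < l0 * (l1 - l0) := mul_pos hl0 (by linarith)
  have hB : 0 < t0 * l0 * l1 := by positivity
  have h0 : (0 : ℝ) ∈ Icc (t0 * (l0 - l0) * (l1 - l0) - l0 * (l1 - l0))
      (t0 * (l0 - 0) * (l1 - 0) - 0 * (l1 - l0)) := by
    constructor
    · have h2 : t0 * (l0 - l0) * (l1 - l0) = 0 := by ring
      linarith
    · have h2 : t0 * (l0 - 0) * (l1 - 0) - 0 * (l1 - l0) = t0 * l0 * l1 := by ring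
      rw [h2]; exact hB.le
  obtain ⟨c, hcm, hce⟩ := hiv h0
  simp only at hce
  have hc0 : 0 < c := by
    rcases hcm.1.eq_or_lt with h | h
    · exfalso
      rw [← h] at hce
      have : t0 * (l0 - 0) * (l1 - 0) - 0 * (l1 - l0) = t0 * l0 * l1 := by ring
      linarith
    · exact h
  refine ⟨c, hc0, ?_, by linarith, ?_⟩
  · rcases hcm.2.eq_or_lt with h | h
    · exfalso
      rw [h] at hce
      have : t0 * (l0 - l0) * (l1 - l0) = 0 := by ring
      linarith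
    · exact h
  · by_contra hcon
    rw [not_le] at hcon
    have ha : l0 / 2 ≤ l0 - c := by linarith
    have hb' : l1 / 2 ≤ l1 - c := by linarith
    have h2 : 1 / 2 * (l0 / 2) * (l1 / 2) ≤ t0 * (l0 - c) * (l1 - c) :=
      mul_le_mul (mul_le_mul ht ha (by positivity) ht0.le) hb' (by positivity)
        (mul_nonneg ht0.le (by linarith))
    have h3 : c * (l1 - l0) ≤ c * l1 := mul_le_mul_of_nonneg_left (by linarith) hc0.le
    have h4 : c * l1 < l0 / 8 * l1 := mul_lt_mul_of_pos_right hcon hl1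
    have h5 : 1 / 2 * (l0 / 2) * (l1 / 2) = l0 / 8 * l1 := by ring
    linarith

/-- The algebraic relation behind the response coefficients. -/
theorem resp_rel {V0 V1 c l I : ℝ} (hV0 : 0 < V0) (hV1 : 0 < V1) (hc : 0 < c) (hl : c < l) :
    1 - (V1 * (l - c) / c) * I =
      (V1 * (l - c) / c) * (V0 * (c / (l - c) / V1 - I)) / V0 := by
  have hne : l - c ≠ 0 := by linarith
  field_simp

theorem resp_kap {c S a V0 : ℝ} (hV0 : 0 < V0) (ha : 0 < a) :
    c * (1 + 1 / a) * (S * a / V0) = c * (S * a / V0 + S / V0) := by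
  field_simp

set_option maxHeartbeats 1000000 in
/-- Existence of the coat and core for a given ordered triple. -/
theorem level_param (δ : ℝ) (hδ : 0 < δ) (hδ1 : δ ≤ 1) :
    ∃ s0 s1 δ' : ℝ, 0 < s0 ∧ s0 < s1 ∧ 0 < δ' ∧ δ' ≤ 1 ∧ ∀ lam : Fin 3 → ℝ,
      (∀ i, δ ≤ lam i ∧ lam i ≤ δ⁻¹) → lam 0 < lam 1 → lam 0 ≤ lam 2 → lam 2 ≤ lam 1 →
      ∃ (c0 : ℝ) (kap : Fin 3 → ℝ), δ' ≤ c0 ∧ c0 ≤ δ'⁻¹ ∧ (∀ i, δ' ≤ kap i ∧ kap i ≤ δ'⁻¹) ∧
        Coat s0 s1 c0 lam kap ∧ kap 0 = kap 1 ∧ kap 2 ≤ kap 1 ∧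
        (lam 2 = lam 1 → kap 2 = kap 1) := by
  set x : ℝ := δ / 4 with hx
  have hx0 : 0 < x := by positivity
  have hxδ : x ^ 2 = δ ^ 2 / 16 := by rw [hx]; ring
  have hδ2 : δ ^ 2 ≤ 1 := pow_le_one₀ hδ.le hδ1
  have hx1 : x ^ 2 ≤ 1 / 2 := by rw [hxδ]; linarith
  obtain ⟨hq0, hq1, hp⟩ := prim_bounds hx0 hx1
  set Iq := Phi1 (x ^ 2) - Phi1 (x ^ 2 / 4) with hIq
  set Ip := Phi0 (x ^ 2) - Phi0 (x ^ 2 / 4) with hIp
  have hs1 : √(x ^ 2) = x := Real.sqrt_sq hx0.le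
  have hs0 : √(x ^ 2 / 4) = x / 2 := by
    rw [show x ^ 2 / 4 = (x / 2) ^ 2 by ring]
    exact Real.sqrt_sq (by positivity)
  have hV1 : Vv (x ^ 2) = x * (x ^ 2 + 1) := by simp only [Vv, hs1]
  have hV0 : Vv (x ^ 2 / 4) = x / 2 * (x ^ 2 / 4 + 1) := by simp only [Vv, hs0]
  have hV1p : 0 < Vv (x ^ 2) := by rw [hV1]; positivity
  have hV0p : 0 < Vv (x ^ 2 / 4) := by rw [hV0]; positivity
  have hVV : Vv (x ^ 2) ≤ 4 * Vv (x ^ 2 / 4) := by
    rw [hV1, hV0]
    have h3 : x * x ^ 2 ≤ x * (1 / 2) := mul_le_mul_of_nonneg_left hx1 hx0.le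
    linarith [h3, hx0]
  -- t0 and tau
  have ht : Vv (x ^ 2) * Iq ≤ x ^ 2 := by
    rw [hV1]
    have : x * (x ^ 2 + 1) * Iq ≤ x * (x ^ 2 + 1) * (x / 2) :=
      mul_le_mul_of_nonneg_left hq1 (by positivity)
    have h6 : x * (x ^ 2 + 1) * (x / 2) = x ^ 2 * ((x ^ 2 + 1) / 2) := by ring
    have h7 : x ^ 2 * ((x ^ 2 + 1) / 2) ≤ x ^ 2 * 1 :=
      mul_le_mul_of_nonneg_left (by linarith) (by positivity)
    linarith
  have hpI : 1 ≤ Vv (x ^ 2) * Ip := by
    rw [hV1]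
    have h1 : x * (x ^ 2 + 1) * (1 / x - x / 2) ≤ x * (x ^ 2 + 1) * Ip :=
      mul_le_mul_of_nonneg_left hp (by positivity)
    have h2 : x * (x ^ 2 + 1) * (1 / x - x / 2) = (x ^ 2 + 1) * (1 - x ^ 2 / 2) := by
      field_simp
    rw [h2] at h1
    have h6 : (x ^ 2 + 1) * (1 - x ^ 2 / 2) = 1 + x ^ 2 / 2 * (1 - x ^ 2) := by ring
    have h7 : 0 ≤ x ^ 2 / 2 * (1 - x ^ 2) := mul_nonneg (by positivity) (by linarith)
    linarith
  set t0 := Vv (x ^ 2) * (Ip - Iq) with ht0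
  have ht0' : 1 / 2 ≤ t0 := by
    rw [ht0, mul_sub]
    linarith
  have hx2 : 0 < x ^ 2 := by positivity
  refine ⟨x ^ 2 / 4, x ^ 2, δ ^ 3 / 65, by positivity, by linarith,
    by positivity, ?_, ?_⟩
  · have : δ ^ 3 ≤ 1 := pow_le_one₀ hδ.le hδ1
    linarith
  intro lam hb h01 h02 h21
  have hl0 : 0 < lam 0 := lt_of_lt_of_le hδ (hb 0).1
  have hl1 : 0 < lam 1 := lt_of_lt_of_le hδ (hb 1).1
  -- choose c
  obtain ⟨c, hc0, hcl, hceq, hcl8⟩ := solve_c ht0' hl0 h01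
  have hclow : δ / 8 ≤ c := by linarith [(hb 0).1]
  have hlc : ∀ i, c < lam i := by
    intro i
    fin_cases i
    · exact hcl
    · exact hcl.trans h01
    · exact lt_of_lt_of_le hcl h02
  -- strengths
  set V1 := Vv (x ^ 2) with hV1d
  set V0 := Vv (x ^ 2 / 4) with hV0d
  have hstr : ∀ i, str c (x ^ 2) (lam i) = V1 * (lam i - c) / c := fun i => rfl
  have hstrp : ∀ i, 0 < str c (x ^ 2) (lam i) := fun i => by
    rw [hstr]; exact div_pos (mul_pos hV1p (by linarith [hlc i])) hc0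
  -- a-values
  set a1 := V0 * (c / (lam 1 - c) / V1 - Iq) with ha1
  set a2 := V0 * (c / (lam 2 - c) / V1 - Iq) with ha2
  have hb1 : δ ^ 2 / 8 ≤ c / (lam 1 - c) := by
    rw [le_div_iff₀ (by linarith [hlc 1])]
    have h1 : lam 1 - c ≤ δ⁻¹ := by linarith [(hb 1).2]
    have h2 : δ ^ 2 / 8 * (lam 1 - c) ≤ δ ^ 2 / 8 * δ⁻¹ :=
      mul_le_mul_of_nonneg_left h1 (by positivity)
    have h3 : δ ^ 2 / 8 * δ⁻¹ = δ / 8 := by field_simp
    linarith
  have ha1low : V0 / V1 * (δ ^ 2 / 16) ≤ a1 := by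
    have h1 : a1 = V0 / V1 * (c / (lam 1 - c) - V1 * Iq) := by
      rw [ha1]; field_simp
    rw [h1]
    apply mul_le_mul_of_nonneg_left _ (by positivity)
    rw [hxδ] at ht
    linarith
  have hV01 : (1 : ℝ) / 4 ≤ V0 / V1 := by
    rw [div_le_div_iff₀ (by norm_num) hV1p]
    linarith
  have ha1low' : δ ^ 2 / 64 ≤ a1 := by
    have : 1 / 4 * (δ ^ 2 / 16) ≤ V0 / V1 * (δ ^ 2 / 16) :=
      mul_le_mul_of_nonneg_right hV01 (by positivity)
    linarith
  have ha1p : 0 < a1 := lt_of_lt_of_le (by positivity) ha1low'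
  have ha12 : a1 ≤ a2 := by
    rw [ha1, ha2]
    apply mul_le_mul_of_nonneg_left _ hV0p.le
    have : c / (lam 1 - c) ≤ c / (lam 2 - c) :=
      div_le_div_of_nonneg_left hc0.le (by linarith [hlc 2]) (by linarith)
    have := div_le_div_of_nonneg_right this hV1p.le
    linarith
  have ha2p : 0 < a2 := lt_of_lt_of_le ha1p ha12
  have ha0 : V0 * (c / (lam 0 - c) / V1 - Ip) = a1 := by
    have hne0 : lam 0 - c ≠ 0 := by linarith [hlc 0]
    have hne1 : lam 1 - c ≠ 0 := by linarith [hlc 1]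
    have h1 : c / (lam 0 - c) - c / (lam 1 - c) = t0 := by
      rw [div_sub_div _ _ hne0 hne1, div_eq_iff (mul_ne_zero hne0 hne1)]
      linarith
    rw [ha1, ht0] at *
    have h2 : c / (lam 0 - c) = c / (lam 1 - c) + V1 * (Ip - Iq) := by linarith
    rw [h2]
    field_simp
    ring
  -- general relation: `1 - al * I = al * a / V0`
  have hrel : ∀ (l I : ℝ), c < l → 1 - (V1 * (l - c) / c) * I =
      (V1 * (l - c) / c) * (V0 * (c / (l - c) / V1 - I)) / V0 :=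
    fun l I hl => resp_rel hV0p hV1p hc0 hl
  have hF0 : Ff (str c (x ^ 2) (lam 0)) (x ^ 2) (x ^ 2 / 4) =
      str c (x ^ 2) (lam 0) * a1 / V0 := by
    simp only [Ff]
    rw [← hIp, hstr, hrel _ _ (hlc 0), ha0]
  have hG1 : Gf (str c (x ^ 2) (lam 1)) (x ^ 2) (x ^ 2 / 4) =
      str c (x ^ 2) (lam 1) * a1 / V0 := by
    simp only [Gf]
    rw [← hIq, hstr, hrel _ _ (hlc 1)]
  have hG2 : Gf (str c (x ^ 2) (lam 2)) (x ^ 2) (x ^ 2 / 4) =
      str c (x ^ 2) (lam 2) * a2 / V0 := by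
    simp only [Gf]
    rw [← hIq, hstr, hrel _ _ (hlc 2)]
  have hkrel : ∀ (S a : ℝ), 0 < S → 0 < a →
      c * (1 + 1 / a) * (S * a / V0) = c * (S * a / V0 + S / V0) :=
    fun S a _ ha => resp_kap hV0p ha
  have hkb : ∀ a, δ ^ 2 / 64 ≤ a → δ ^ 3 / 65 ≤ c * (1 + 1 / a) ∧
      c * (1 + 1 / a) ≤ (δ ^ 3 / 65)⁻¹ := by
    intro a ha
    have hap : 0 < a := lt_of_lt_of_le (by positivity) ha
    constructor
    · have h1 : c ≤ c * (1 + 1 / a) := by
        have : 0 ≤ c * (1 / a) := by positivity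
        linarith
      have h2 : δ ^ 3 / 65 ≤ δ / 8 := by
        have : δ ^ 3 ≤ δ := by
          calc δ ^ 3 = δ * δ ^ 2 := by ring
            _ ≤ δ * 1 := mul_le_mul_of_nonneg_left (pow_le_one₀ hδ.le hδ1) hδ.le
            _ = δ := mul_one _
        linarith
      linarith
    · have h1 : 1 / a ≤ 64 / δ ^ 2 := by
        rw [div_le_div_iff₀ hap (by positivity)]
        linarith
      have h2 : c ≤ δ⁻¹ := by linarith [hlc 0, (hb 0).2]
      have h3 : c * (1 + 1 / a) ≤ δ⁻¹ * (1 + 64 / δ ^ 2) :=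
        mul_le_mul h2 (by linarith) (by positivity) (by positivity)
      have h4 : δ⁻¹ * (1 + 64 / δ ^ 2) ≤ (δ ^ 3 / 65)⁻¹ := by
        have : δ⁻¹ * (1 + 64 / δ ^ 2) = (δ ^ 2 + 64) / δ ^ 3 := by field_simp
        rw [this, inv_div]
        apply div_le_div_of_nonneg_right _ (by positivity)
        linarith
      linarith
  have hcb : δ ^ 3 / 65 ≤ c ∧ c ≤ (δ ^ 3 / 65)⁻¹ := by
    constructor
    · have : δ ^ 3 ≤ δ := by
        calc δ ^ 3 = δ * δ ^ 2 := by ring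
          _ ≤ δ * 1 := mul_le_mul_of_nonneg_left (pow_le_one₀ hδ.le hδ1) hδ.le
          _ = δ := mul_one _
      linarith
    · have h2 : c ≤ δ⁻¹ := by linarith [hlc 0, (hb 0).2]
      have h3 : δ⁻¹ ≤ (δ ^ 3 / 65)⁻¹ := by
        apply inv_anti₀ (by positivity)
        have : δ ^ 3 ≤ δ := by
          calc δ ^ 3 = δ * δ ^ 2 := by ring
            _ ≤ δ * 1 := mul_le_mul_of_nonneg_left (pow_le_one₀ hδ.le hδ1) hδ.le
            _ = δ := mul_one _
        linarith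
      linarith
  refine ⟨c, ![c * (1 + 1 / a1), c * (1 + 1 / a1), c * (1 + 1 / a2)], hcb.1, hcb.2, ?_, ?_,
    rfl, ?_, ?_⟩
  · intro i
    fin_cases i
    · exact hkb a1 ha1low'
    · exact hkb a1 ha1low'
    · exact hkb a2 (ha1low'.trans ha12)
  · refine ⟨hc0, hlc, ?_, ?_, ?_, ?_, ?_, ?_⟩
    · rw [hF0]; exact div_pos (mul_pos (hstrp 0) ha1p) hV0p
    · rw [hG1]; exact div_pos (mul_pos (hstrp 1) ha1p) hV0p
    · rw [hG2]; exact div_pos (mul_pos (hstrp 2) ha2p) hV0p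
    · simp only [Hf]
      rw [hF0]
      exact hkrel _ _ (hstrp 0) ha1p
    · rw [hG1]
      exact hkrel _ _ (hstrp 1) ha1p
    · rw [hG2]
      exact hkrel _ _ (hstrp 2) ha2p
  · show c * (1 + 1 / a2) ≤ c * (1 + 1 / a1)
    apply mul_le_mul_of_nonneg_left _ hc0.le
    have := one_div_le_one_div_of_le ha1p ha12
    linarith
  · intro h
    show c * (1 + 1 / a2) = c * (1 + 1 / a1)
    have : a2 = a1 := by rw [ha2, ha1, h]
    rw [this]

end Crest.Agent.R083
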