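import Crest.Agent.R083.Defs

/-!
Row 83 (S0111): definitions for the isotropisation part (spheroid inclusions, potentials).
-/

set_option autoImplicit false

namespace Crest.Agent.R083

open MeasureTheory Set Filter
open scoped Gradient ENNReal NNReal Topology

/-- Confocal oblate spheroidal coordinate (axis `ee 0`): the nonnegative root `s` of
`s² - (‖x‖² - 1) s - x₀² = 0`. -/
noncomputable def sph (x : E3) : ℝ :=
  ((‖x‖ ^ 2 - 1) + √((‖x‖ ^ 2 - 1) ^ 2 + (2 * x 0) ^ 2)) / 2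

noncomputable def Vs (s : ℝ) : ℝ := √s * (s + 1)

/-- `I_∥`. -/
noncomputable def Ip (a b : ℝ) : ℝ := ∫ t in a..b, 1 / (2 * (t * √t) * (t + 1))

/-- `I_⊥`. -/
noncomputable def Iq (a b : ℝ) : ℝ := ∫ t in a..b, 1 / (2 * √t * (t + 1) ^ 2)

/-- Diagonal tensor. -/
noncomputable def diagT (k : Fin 3 → ℝ) : E3 →L[ℝ] E3 :=
  LinearMap.toContinuousLinearMap
    { toFun := fun x => pt (k 0 * x 0) (k 1 * x 1) (k 2 * x 2)
      map_add' := by
        intro x y; ext i; fin_cases i <;> simp [pt] <;> ring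
      map_smul' := by
        intro c x; ext i; fin_cases i <;> simp [pt] <;> ring }

/-- A single neutral inclusion in a compact set `D` for the tensor `A`. -/
def Incl (c C : ℝ) (L : ℝ≥0) (A : E3 →L[ℝ] E3) : Prop :=
  ∃ D : Set E3, IsCompact D ∧ (interior D).Nonempty ∧ volume (frontier D) = 0 ∧
    ∃ (γ : E3 → ℝ) (v : Fin 3 → E3 → ℝ) (R : Fin 3 → E3 → E3),
      Measurable γ ∧ (∀ x, c ≤ γ x ∧ γ x ≤ C) ∧
      ∀ i, LipschitzWith L (v i) ∧ (∀ x, x ∉ D → v i x = 0) ∧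
        Measurable (R i) ∧ (∀ x, ‖R i x‖ ≤ L) ∧ (∀ x, x ∉ D → R i x = 0) ∧ WDF (R i) ∧
        ∀ᵐ x ∂(volume.restrict D), A (ee i) + R i x = γ x • (ee i + ∇ (v i) x)

/-- As `Resolves`, relative to a constant metric tensor `M`. -/
def MResolves (c C : ℝ) (L : ℝ≥0) (M A : E3 →L[ℝ] E3) : Prop :=
  ∀ U : Set E3, IsOpen U → Bornology.IsBounded U → ∀ ε : ℝ, 0 < ε →
    ∃ (γ : E3 → ℝ) (v : Fin 3 → E3 → ℝ) (R : Fin 3 → E3 → E3),
      Measurable γ ∧ (∀ x, c ≤ γ x ∧ γ x ≤ C) ∧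
      ∀ i, LipschitzWith L (v i) ∧ (∀ x, x ∉ U → v i x = 0) ∧ (∀ x, |v i x| ≤ ε) ∧
        Measurable (R i) ∧ (∀ x, ‖R i x‖ ≤ L) ∧ (∀ x, x ∉ U → R i x = 0) ∧ WDF (R i) ∧
        ∀ᵐ x ∂(volume.restrict U), A (ee i) + R i x = γ x • M (ee i + ∇ (v i) x)

end Crest.Agent.R083
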