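import Crest.Agent.R083.TMDefs
import Crest.Agent.R083.BoxFubini

/-!
Row 83 (S0111), TM group: transport of a solution on the normalised box to a model box by a
diagonal affine map.
-/

set_option autoImplicit false

namespace Crest.Agent.R083

open MeasureTheory Set Filter
open scoped Gradient ENNReal NNReal Topology ContDiff

theorem tm_grad_coord (f : E3 → ℝ) (x : E3) (i : Fin 3) : (∇ f x) i = fderiv ℝ f x (ee i) := by
  rw [← inner_gradient f x (ee i), ee, EuclideanSpace.inner_single_left]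
  simp

/-- Diagonal linear map. -/
noncomputable def tdg (l : Fin 3 → ℝ) : E3 →L[ℝ] E3 := LinearMap.toContinuousLinearMap
  { toFun := fun v => pt (l 0 * v 0) (l 1 * v 1) (l 2 * v 2)
    map_add' := fun u v => by
      ext i; fin_cases i <;> simp [pt] <;> ring
    map_smul' := fun t v => by
      ext i; fin_cases i <;> simp [pt] <;> ring }

theorem tdg_apply (l : Fin 3 → ℝ) (v : E3) : tdg l v = pt (l 0 * v 0) (l 1 * v 1) (l 2 * v 2) := rfl

theorem tdg_ee (l : Fin 3 → ℝ) (i : Fin 3) : tdg l (ee i) = l i • ee i := by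
  ext j
  fin_cases i <;> fin_cases j <;> simp [tdg_apply, pt, ee]

theorem tdg_coord (l : Fin 3 → ℝ) (v : E3) (i : Fin 3) : (tdg l v) i = l i * v i := by
  fin_cases i <;> simp [tdg_apply, pt]

/-- Diagonal affine map. -/
noncomputable def afm (l c : Fin 3 → ℝ) (p : E3) : E3 :=
  tdg l p + pt (c 0) (c 1) (c 2)

@[simp] theorem afm_zero (l c : Fin 3 → ℝ) (p : E3) : afm l c p 0 = l 0 * p 0 + c 0 := by
  simp [afm, tdg_apply, pt]
@[simp] theorem afm_one (l c : Fin 3 → ℝ) (p : E3) : afm l c p 1 = l 1 * p 1 + c 1 := by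
  simp [afm, tdg_apply, pt]
@[simp] theorem afm_two (l c : Fin 3 → ℝ) (p : E3) : afm l c p 2 = l 2 * p 2 + c 2 := by
  simp [afm, tdg_apply, pt]

theorem hasFDerivAt_afm (l c : Fin 3 → ℝ) (p : E3) : HasFDerivAt (afm l c) (tdg l) p :=
  (tdg l).hasFDerivAt.add_const _

theorem contDiff_afm (l c : Fin 3 → ℝ) : ContDiff ℝ ∞ (afm l c) :=
  (tdg l).contDiff.add contDiff_const

/-- Transported potential with an affine part. -/
noncomputable def bw (s α β : ℝ) (l c : Fin 3 → ℝ) (W : E3 → ℝ) (p : E3) : ℝ :=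
  s * (α + β * (afm l c p 2) + W (afm l c p))

/-- Transported flux. -/
noncomputable def bJ (s β : ℝ) (l c : Fin 3 → ℝ) (Jn : E3 → E3) (p : E3) : E3 :=
  pt (s * (l 2 ^ 2 / l 0 * Jn (afm l c p) 0)) (s * (l 2 ^ 2 / l 1 * Jn (afm l c p) 1))
    (s * (l 2 * (β + Jn (afm l c p) 2)))

/-- The scaled dual diagonal. -/
noncomputable def ddg (l : Fin 3 → ℝ) : Fin 3 → ℝ := ![l 2 ^ 2 / l 0, l 2 ^ 2 / l 1, l 2]

theorem bJ_eq (s β : ℝ) (l c : Fin 3 → ℝ) (Jn : E3 → E3) (p : E3) :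
    bJ s β l c Jn p = s • (tdg (ddg l) (Jn (afm l c p)) + pt 0 0 (l 2 * β)) := by
  ext i
  fin_cases i <;> simp [bJ, tdg_apply, pt, ddg] <;> ring

theorem hasFDerivAt_bw (s α β : ℝ) (l c : Fin 3 → ℝ) (W : E3 → ℝ) (p : E3)
    (hW : DifferentiableAt ℝ W (afm l c p)) :
    HasFDerivAt (bw s α β l c W)
      (s • (β • ((EuclideanSpace.proj (2 : Fin 3) : E3 →L[ℝ] ℝ).comp (tdg l)) +
        (fderiv ℝ W (afm l c p)).comp (tdg l))) p := by
  have h1 : HasFDerivAt (fun p => (afm l c p) 2)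
      ((EuclideanSpace.proj (2 : Fin 3) : E3 →L[ℝ] ℝ).comp (tdg l)) p :=
    ((EuclideanSpace.proj (2 : Fin 3) : E3 →L[ℝ] ℝ).hasFDerivAt).comp p (hasFDerivAt_afm l c p)
  have h2 : HasFDerivAt (fun p => W (afm l c p)) ((fderiv ℝ W (afm l c p)).comp (tdg l)) p :=
    hW.hasFDerivAt.comp p (hasFDerivAt_afm l c p)
  have h3 := (((h1.const_mul β).const_add α).add h2).const_mul s
  exact h3

theorem fderiv_bw (s α β : ℝ) (l c : Fin 3 → ℝ) (W : E3 → ℝ) (p : E3)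
    (hW : DifferentiableAt ℝ W (afm l c p)) (i : Fin 3) :
    fderiv ℝ (bw s α β l c W) p (ee i) =
      s * (l i * ((if i = 2 then β else 0) + fderiv ℝ W (afm l c p) (ee i))) := by
  rw [(hasFDerivAt_bw s α β l c W p hW).fderiv]
  have h2 : (l i • ee i : E3) 2 = if i = 2 then l i else 0 := by
    fin_cases i <;> simp [ee]
  simp only [smul_apply, add_apply,
    ContinuousLinearMap.comp_apply, tdg_ee, map_smul, smul_eq_mul]
  have h3 : (EuclideanSpace.proj (2 : Fin 3) : E3 →L[ℝ] ℝ) (ee i) = if i = 2 then 1 else 0 := by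
    fin_cases i <;> simp [ee]
  rw [h3]
  split_ifs <;> ring

theorem dvg_bJ (s β : ℝ) (l c : Fin 3 → ℝ) (Jn : E3 → E3) (p : E3) (hl0 : l 0 ≠ 0) (hl1 : l 1 ≠ 0)
    (hJ : DifferentiableAt ℝ Jn (afm l c p)) :
    dvg (bJ s β l c Jn) p = s * l 2 ^ 2 * dvg Jn (afm l c p) := by
  have h1 : HasFDerivAt (bJ s β l c Jn)
      (s • ((tdg (ddg l)).comp ((fderiv ℝ Jn (afm l c p)).comp (tdg l)))) p := by
    have h2 : bJ s β l c Jn = fun p => s • (tdg (ddg l) (Jn (afm l c p)) + pt 0 0 (l 2 * β)) := by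
      funext p; exact bJ_eq s β l c Jn p
    rw [h2]
    have h3 : HasFDerivAt (fun p => Jn (afm l c p)) ((fderiv ℝ Jn (afm l c p)).comp (tdg l)) p :=
      hJ.hasFDerivAt.comp p (hasFDerivAt_afm l c p)
    exact (((tdg (ddg l)).hasFDerivAt.comp p h3).add_const _).const_smul s
  unfold dvg
  rw [h1.fderiv]
  simp only [smul_apply, ContinuousLinearMap.comp_apply, tdg_ee, map_smul,
    PiLp.smul_apply, tdg_coord, smul_eq_mul, Fin.sum_univ_three]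
  have d0 : ddg l 0 = l 2 ^ 2 / l 0 := rfl
  have d1 : ddg l 1 = l 2 ^ 2 / l 1 := rfl
  have d2 : ddg l 2 = l 2 := rfl
  rw [d0, d1, d2]
  field_simp

theorem HEll_scale (δ lx ly lz s : ℝ) (hδ : 0 < δ) (hlx : lx ≠ 0) (hly : ly ≠ 0) (hlz : lz ≠ 0)
    (hs : s ^ 2 = 1) :
    ∃ δ' : ℝ, 0 < δ' ∧ ∀ a b u v : ℝ, δ * (a ^ 2 + b ^ 2 + u ^ 2 + v ^ 2) ≤ u * a + v * b →
      δ' * ((s * (lx * a)) ^ 2 + (s * (ly * b)) ^ 2 + (s * (lz ^ 2 / lx * u)) ^ 2 +
        (s * (lz ^ 2 / ly * v)) ^ 2) ≤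
      (s * (lz ^ 2 / lx * u)) * (s * (lx * a)) + (s * (lz ^ 2 / ly * v)) * (s * (ly * b)) := by
  have hx : 0 < lx ^ 2 := by positivity
  have hy : 0 < ly ^ 2 := by positivity
  have hz : 0 < lz ^ 2 := by positivity
  set Q : ℝ := lx ^ 2 + ly ^ 2 + (lz ^ 2 / lx) ^ 2 + (lz ^ 2 / ly) ^ 2 with hQ
  have hQx : 0 < (lz ^ 2 / lx) ^ 2 := by positivity
  have hQy : 0 < (lz ^ 2 / ly) ^ 2 := by positivity
  have hQ0 : 0 < Q := by positivity
  refine ⟨δ * lz ^ 2 / Q, by positivity, fun a b u v h => ?_⟩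
  have e1 : (s * (lz ^ 2 / lx * u)) * (s * (lx * a)) + (s * (lz ^ 2 / ly * v)) * (s * (ly * b)) =
      lz ^ 2 * (u * a + v * b) := by
    field_simp
    rw [hs]; ring
  rw [e1]
  have e2 : (s * (lx * a)) ^ 2 + (s * (ly * b)) ^ 2 + (s * (lz ^ 2 / lx * u)) ^ 2 +
        (s * (lz ^ 2 / ly * v)) ^ 2 ≤ Q * (a ^ 2 + b ^ 2 + u ^ 2 + v ^ 2) := by
    have : (s * (lx * a)) ^ 2 + (s * (ly * b)) ^ 2 + (s * (lz ^ 2 / lx * u)) ^ 2 +
        (s * (lz ^ 2 / ly * v)) ^ 2 = lx ^ 2 * a ^ 2 + ly ^ 2 * b ^ 2 +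
        (lz ^ 2 / lx) ^ 2 * u ^ 2 + (lz ^ 2 / ly) ^ 2 * v ^ 2 := by
      simp only [mul_pow, hs, one_mul]
    rw [this]
    have ha := sq_nonneg a
    have hb := sq_nonneg b
    have hu := sq_nonneg u
    have hv := sq_nonneg v
    have t1 : lx ^ 2 * a ^ 2 ≤ Q * a ^ 2 := mul_le_mul_of_nonneg_right (by rw [hQ]; linarith) ha
    have t2 : ly ^ 2 * b ^ 2 ≤ Q * b ^ 2 := mul_le_mul_of_nonneg_right (by rw [hQ]; linarith) hb
    have t3 : (lz ^ 2 / lx) ^ 2 * u ^ 2 ≤ Q * u ^ 2 :=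
      mul_le_mul_of_nonneg_right (by rw [hQ]; linarith) hu
    have t4 : (lz ^ 2 / ly) ^ 2 * v ^ 2 ≤ Q * v ^ 2 :=
      mul_le_mul_of_nonneg_right (by rw [hQ]; linarith) hv
    linarith
  calc δ * lz ^ 2 / Q * ((s * (lx * a)) ^ 2 + (s * (ly * b)) ^ 2 + (s * (lz ^ 2 / lx * u)) ^ 2 +
        (s * (lz ^ 2 / ly * v)) ^ 2)
      ≤ δ * lz ^ 2 / Q * (Q * (a ^ 2 + b ^ 2 + u ^ 2 + v ^ 2)) :=
        mul_le_mul_of_nonneg_left e2 (by positivity)
    _ = lz ^ 2 * (δ * (a ^ 2 + b ^ 2 + u ^ 2 + v ^ 2)) := by field_simp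
    _ ≤ lz ^ 2 * (u * a + v * b) := mul_le_mul_of_nonneg_left h hz.le

end Crest.Agent.R083
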