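import Mathlib

/-!
Row 83 (S0111), TM group: real inequalities.
-/

set_option autoImplicit false

namespace Crest.Agent.R083

theorem tm_est_start (Λ lam C m K tt D A0 A1 A2 B0 B1 ux us β wv : ℝ)
    (hΛ : 0 ≤ Λ) (h0 : A0 ≤ Λ) (h2 : A2 ≤ Λ) (h3 : B0 ≤ Λ) (hm : 0 < m) (hD1 : m * tt ≤ D)
    (hD2 : D ≤ K * tt) (ht : 0 ≤ tt) (hC : 0 ≤ C) (hC1 : wv ^ 2 ≤ C * D)
    (hC2 : (ux ^ 2 + (β + us) ^ 2) * D ≤ C) :
    (A0 * ux ^ 2 + A1 * 0 ^ 2 + A2 * (β + us) ^ 2) * tt ≤ Λ * (1 + lam ^ 2) * (C / m) ∧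
    wv ^ 2 ≤ (C * K) * tt ∧
    (B0 * (lam * ux) ^ 2 + B1 * 0 ^ 2 + A2 * (β + us) ^ 2) * tt ≤
      Λ * (1 + lam ^ 2) * (C / m) := by
  have hq : 0 ≤ ux ^ 2 + (β + us) ^ 2 := by positivity
  have hl : 0 ≤ lam ^ 2 := sq_nonneg _
  have ha : 0 ≤ ux ^ 2 := sq_nonneg _
  have hb : 0 ≤ (β + us) ^ 2 := sq_nonneg _
  rw [mul_pow lam ux 2]
  generalize ux ^ 2 = a at *
  generalize (β + us) ^ 2 = b at *
  generalize lam ^ 2 = L at *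
  have key : (a + b) * tt ≤ C / m := by
    rw [le_div_iff₀ hm]
    calc (a + b) * tt * m = (a + b) * (m * tt) := by ring
      _ ≤ (a + b) * D := mul_le_mul_of_nonneg_left hD1 hq
      _ ≤ C := hC2
  have key2 : Λ * (1 + L) * (a + b) * tt ≤ Λ * (1 + L) * (C / m) := by
    calc Λ * (1 + L) * (a + b) * tt = Λ * (1 + L) * ((a + b) * tt) := by ring
      _ ≤ _ := mul_le_mul_of_nonneg_left key (by positivity)
  have e2 : A2 * b ≤ Λ * b := mul_le_mul_of_nonneg_right h2 hb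
  refine ⟨le_trans ?_ key2, ?_, le_trans ?_ key2⟩
  · apply mul_le_mul_of_nonneg_right _ ht
    have e1 : A0 * a ≤ Λ * a := mul_le_mul_of_nonneg_right h0 ha
    have e3 : 0 ≤ Λ * L * (a + b) := by positivity
    calc A0 * a + A1 * 0 ^ 2 + A2 * b = A0 * a + A2 * b := by ring
      _ ≤ Λ * a + Λ * b := add_le_add e1 e2
      _ ≤ Λ * a + Λ * b + Λ * L * (a + b) := by linarith
      _ = Λ * (1 + L) * (a + b) := by ring
  · calc wv ^ 2 ≤ C * D := hC1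
      _ ≤ C * (K * tt) := mul_le_mul_of_nonneg_left hD2 hC
      _ = (C * K) * tt := by ring
  · apply mul_le_mul_of_nonneg_right _ ht
    have e1 : B0 * (L * a) ≤ Λ * (L * a) := mul_le_mul_of_nonneg_right h3 (by positivity)
    have e3 : 0 ≤ Λ * a := by positivity
    have e4 : 0 ≤ Λ * L * b := by positivity
    calc B0 * (L * a) + B1 * 0 ^ 2 + A2 * b = B0 * (L * a) + A2 * b := by ring
      _ ≤ Λ * (L * a) + Λ * b := add_le_add e1 e2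
      _ ≤ Λ * (L * a) + Λ * b + (Λ * a + Λ * L * b) := by linarith
      _ = Λ * (1 + L) * (a + b) := by ring

theorem tm_est_far (Λ β N A0 A1 A2 a b d : ℝ) (hΛ : 0 ≤ Λ) (h0 : A0 ≤ Λ) (h1 : A1 ≤ Λ)
    (h2 : A2 ≤ Λ) (hN : a ^ 2 + b ^ 2 + d ^ 2 ≤ N ^ 2) :
    A0 * a ^ 2 + A1 * b ^ 2 + A2 * (β + d) ^ 2 ≤ Λ * (2 * (β ^ 2 + N ^ 2)) := by
  have e0 := mul_le_mul_of_nonneg_right h0 (sq_nonneg a)
  have e1 := mul_le_mul_of_nonneg_right h1 (sq_nonneg b)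
  have e2 := mul_le_mul_of_nonneg_right h2 (sq_nonneg (β + d))
  have e3 : (β + d) ^ 2 ≤ 2 * β ^ 2 + 2 * d ^ 2 := by nlinarith [sq_nonneg (β - d)]
  have e4 := mul_le_mul_of_nonneg_left e3 hΛ
  have e5 : a ^ 2 + b ^ 2 + (2 * β ^ 2 + 2 * d ^ 2) ≤ 2 * (β ^ 2 + N ^ 2) := by
    nlinarith [sq_nonneg a, sq_nonneg b]
  have e6 := mul_le_mul_of_nonneg_left e5 hΛ
  linarith

/-- Sum of the squares of the scaling factors. -/
theorem tm_sum_le (a b c d e : ℝ) :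
    a ^ 2 ≤ a ^ 2 + b ^ 2 + c ^ 2 + d ^ 2 + e ^ 2 ∧ b ^ 2 ≤ a ^ 2 + b ^ 2 + c ^ 2 + d ^ 2 + e ^ 2 ∧
    c ^ 2 ≤ a ^ 2 + b ^ 2 + c ^ 2 + d ^ 2 + e ^ 2 ∧ d ^ 2 ≤ a ^ 2 + b ^ 2 + c ^ 2 + d ^ 2 + e ^ 2 ∧
    e ^ 2 ≤ a ^ 2 + b ^ 2 + c ^ 2 + d ^ 2 + e ^ 2 := by
  have ha := sq_nonneg a
  have hb := sq_nonneg b
  have hc := sq_nonneg c
  have hd := sq_nonneg d
  have he := sq_nonneg e
  refine ⟨by linarith, by linarith, by linarith, by linarith, by linarith⟩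

theorem tm_far_low (l2 p2 q2 tt : ℝ) (h : q2 = l2 * (p2 - 7 / 10)) (hq : 1 / 4 ≤ q2)
    (ht : |p2 - 7 / 10| ≤ tt) : 1 ≤ 4 * |l2| * tt := by
  have h3 : q2 ≤ |l2| * |p2 - 7 / 10| := by
    rw [h, ← abs_mul]; exact le_abs_self _
  have h4 := mul_le_mul_of_nonneg_left ht (abs_nonneg l2)
  linarith

theorem tm_far_val (α β N q2 Wq l2 tt : ℝ) (h0 : 0 ≤ q2) (h1 : q2 ≤ 1) (hW : |Wq| ≤ |N|)
    (ht : 1 ≤ 4 * |l2| * tt) :
    (α + β * q2 + Wq) ^ 2 ≤ ((|α| + |β| + |N|) ^ 2 * (4 * |l2|)) * tt := by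
  have e1 : |β * q2| ≤ |β| := by
    rw [abs_mul, abs_of_nonneg h0]
    exact mul_le_of_le_one_right (abs_nonneg _) h1
  have e2 : |α + β * q2 + Wq| ≤ |α| + |β| + |N| := by
    calc |α + β * q2 + Wq| ≤ |α + β * q2| + |Wq| := abs_add_le _ _
      _ ≤ |α| + |β * q2| + |Wq| := by linarith [abs_add_le α (β * q2)]
      _ ≤ _ := by linarith
  have h2 : (α + β * q2 + Wq) ^ 2 ≤ (|α| + |β| + |N|) ^ 2 := by
    rw [← sq_abs (α + β * q2 + Wq)]; exact pow_le_pow_left₀ (abs_nonneg _) e2 2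
  calc (α + β * q2 + Wq) ^ 2 ≤ (|α| + |β| + |N|) ^ 2 := h2
    _ ≤ (|α| + |β| + |N|) ^ 2 * (4 * |l2| * tt) := le_mul_of_one_le_right (by positivity) ht
    _ = ((|α| + |β| + |N|) ^ 2 * (4 * |l2|)) * tt := by ring

theorem tm_dist_le (x0 a b : ℝ) (ha : 0 ≤ a) (ha1 : a ≤ 1) (hb : 0 ≤ b) (hb1 : b ≤ 1) :
    √(a ^ 2 + (b - x0) ^ 2) ≤ 1 + (1 + |x0|) := by
  apply Real.sqrt_le_left (by positivity) |>.2
  have h3 : |b - x0| ≤ 1 + |x0| := by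
    have h4 : |b| ≤ 1 := abs_le.2 ⟨by linarith, hb1⟩
    calc |b - x0| ≤ |b| + |x0| := abs_sub _ _
      _ ≤ 1 + |x0| := by linarith
  have h4 : (b - x0) ^ 2 ≤ (1 + |x0|) ^ 2 := by
    rw [← sq_abs (b - x0)]; exact pow_le_pow_left₀ (abs_nonneg _) h3 2
  have h5 : a ^ 2 ≤ 1 := by nlinarith
  nlinarith [abs_nonneg x0]

end Crest.Agent.R083
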