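import Crest.Agent.R083.TMNorm
import Crest.Agent.R083.Approx

/-!
Row 83 (S0111), TM group: a solution on a model box together with its traces on the two
horizontal faces.
-/

set_option autoImplicit false

namespace Crest.Agent.R083

open MeasureTheory Set Filter
open scoped Gradient ENNReal NNReal Topology ContDiff

/-- A solution on a model box with its traces: `vb`, `vt` of the potential, `jb`, `jt` of the
vertical flux, on the bottom and the top face; no claim at the tip line (level `7/10`, `x = 0`). -/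
structure FaceSol (a₀ b₀ a₁ b₁ a₂ b₂ δ N0 : ℝ) (w : E3 → ℝ) (J : E3 → E3)
    (vb vt jb jt : ℝ → ℝ) : Prop where
  sol : BoxSol a₀ b₀ a₁ b₁ a₂ b₂ δ N0 w J
  wb : ∀ x ∈ Icc a₀ b₀, ∀ y ∈ Icc a₁ b₁, (x ≠ 0 ∨ a₂ ≠ 7 / 10) →
    Tendsto (fun t => w (pt x y t)) (𝓝[>] a₂) (𝓝 (vb x))
  wt : ∀ x ∈ Icc a₀ b₀, ∀ y ∈ Icc a₁ b₁, (x ≠ 0 ∨ b₂ ≠ 7 / 10) →
    Tendsto (fun t => w (pt x y t)) (𝓝[<] b₂) (𝓝 (vt x))
  Jb : ∀ x ∈ Icc a₀ b₀, ∀ y ∈ Icc a₁ b₁, (x ≠ 0 ∨ a₂ ≠ 7 / 10) →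
    Tendsto (fun t => J (pt x y t) 2) (𝓝[>] a₂) (𝓝 (jb x))
  Jt : ∀ x ∈ Icc a₀ b₀, ∀ y ∈ Icc a₁ b₁, (x ≠ 0 ∨ b₂ ≠ 7 / 10) →
    Tendsto (fun t => J (pt x y t) 2) (𝓝[<] b₂) (𝓝 (jt x))
  vb0 : a₂ = 7 / 10 → vb 0 = 0
  vt0 : b₂ = 7 / 10 → vt 0 = 0

/-- The potential completed by its traces on the two horizontal faces. -/
noncomputable def fw (a₂ b₂ : ℝ) (w : E3 → ℝ) (vb vt : ℝ → ℝ) (p : E3) : ℝ :=
  if p 2 = a₂ then vb (p 0) else if p 2 = b₂ then vt (p 0) else w p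

/-- The part of the open box where the horizontal gradient does not vanish. -/
def fV (a₀ b₀ a₁ b₁ a₂ b₂ : ℝ) (w : E3 → ℝ) : Set E3 :=
  {p | p ∈ obox a₀ b₀ a₁ b₁ a₂ b₂ ∧ 0 < (∇ w p) 0 ^ 2 + (∇ w p) 1 ^ 2}

end Crest.Agent.R083
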