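import Crest.Agent.R083.TMFace

/-!
Row 83 (S0111): INTERFACE STATEMENTS of the last pieces of the TM group (stubs, never imported by
the final files).
-/

set_option autoImplicit false

namespace Crest.Agent.R083

open MeasureTheory Set Filter
open scoped Gradient ENNReal NNReal Topology ContDiff

/-- File `TMApprox.lean`. -/
theorem fs_approx (a₀ b₀ a₁ b₁ a₂ b₂ δ N0 : ℝ) (w : E3 → ℝ) (J : E3 → E3)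
    (vb vt jb jt : ℝ → ℝ) (h : FaceSol a₀ b₀ a₁ b₁ a₂ b₂ δ N0 w J vb vt jb jt)
    (h0 : a₀ < b₀) (h1 : a₁ < b₁) (h2 : a₂ < b₂) (htip : 7 / 10 ∉ Ioo a₂ b₂) :
    IntegrableOn (fun x => ‖∇ (fw a₂ b₂ w vb vt) x‖ ^ 2) (cbox a₀ b₀ a₁ b₁ a₂ b₂) volume ∧
    ∃ wj : ℕ → E3 → ℝ, (∀ j, ∃ K : ℝ≥0, LipschitzWith K (wj j)) ∧
      (∀ j, ∀ p ∈ cbox a₀ b₀ a₁ b₁ a₂ b₂, wj j p = cut (j + 200) p * fw a₂ b₂ w vb vt p) ∧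
      (∀ ε : ℝ, 0 < ε → ∃ j0, ∀ j ≥ j0, ∀ p ∈ cbox a₀ b₀ a₁ b₁ a₂ b₂,
        |wj j p - fw a₂ b₂ w vb vt p| ≤ ε) ∧
      Tendsto (fun j => ∫ x in cbox a₀ b₀ a₁ b₁ a₂ b₂,
        ‖∇ (wj j) x - ∇ (fw a₂ b₂ w vb vt) x‖ ^ 2) atTop (𝓝 0) := by
  sorry

/-- File `TMOpen.lean`. -/
theorem fs_V (a₀ b₀ a₁ b₁ a₂ b₂ δ N0 : ℝ) (w : E3 → ℝ) (J : E3 → E3)
    (h : BoxSol a₀ b₀ a₁ b₁ a₂ b₂ δ N0 w J) :
    IsOpen (fV a₀ b₀ a₁ b₁ a₂ b₂ w) ∧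
    volume (cbox a₀ b₀ a₁ b₁ a₂ b₂ \ fV a₀ b₀ a₁ b₁ a₂ b₂ w) = 0 := by
  sorry

/-- File `TMGreen.lean`. -/
theorem fs_green (a₀ b₀ a₁ b₁ a₂ b₂ δ N0 : ℝ) (w : E3 → ℝ) (J : E3 → E3)
    (vb vt jb jt : ℝ → ℝ) (h : FaceSol a₀ b₀ a₁ b₁ a₂ b₂ δ N0 w J vb vt jb jt)
    (h0 : a₀ < b₀) (h1 : a₁ < b₁) (h2 : a₂ < b₂) :
    IntervalIntegrable jb volume a₀ b₀ ∧ IntervalIntegrable jt volume a₀ b₀ ∧
    ∀ (χ : E3 → ℝ) (K : ℝ≥0), LipschitzWith K χ →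
      ∫ p in cbox a₀ b₀ a₁ b₁ a₂ b₂, inner ℝ (J p) (∇ χ p) =
        (∫ x in a₀..b₀, ∫ y in a₁..b₁, jt x * χ (pt x y b₂)) -
        (∫ x in a₀..b₀, ∫ y in a₁..b₁, jb x * χ (pt x y a₂)) := by
  sorry

/-- File `TMGreen.lean`. -/
theorem fs_sum (θ : ℝ) (jm : ℝ → ℝ)
    (hjm : IntervalIntegrable jm volume (-(32 / 25)) (32 / 25))
    (χ : Box → E3 → ℝ) (hχ : ∀ b, ∃ K : ℝ≥0, LipschitzWith K (χ b)) (hM : Matching χ) :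
    ((∫ x in (-(32 / 25 : ℝ))..(32 / 25), ∫ y in (-(22 / 25 : ℝ))..(22 / 25),
        0 * χ Box.O (pt x y 1)) -
      (∫ x in (-(32 / 25 : ℝ))..(32 / 25), ∫ y in (-(22 / 25 : ℝ))..(22 / 25),
        jm x * χ Box.O (pt x y (7 / 10)))) +
    ((∫ x in (0 : ℝ)..(32 / 25), ∫ y in (-(22 / 25 : ℝ))..(22 / 25),
        jm x * χ Box.P (pt x y (7 / 10))) -
      (∫ x in (0 : ℝ)..(32 / 25), ∫ y in (-(22 / 25 : ℝ))..(22 / 25),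
        (-θ) * χ Box.P (pt x y (3 / 5)))) +
    ((∫ x in (-(32 / 25 : ℝ))..0, ∫ y in (-(22 / 25 : ℝ))..(22 / 25),
        jm x * χ Box.N (pt x y (7 / 10))) -
      (∫ x in (-(32 / 25 : ℝ))..0, ∫ y in (-(22 / 25 : ℝ))..(22 / 25),
        θ * χ Box.N (pt x y (3 / 5)))) =
      θ * (faceP (χ Box.P) - faceN (χ Box.N)) := by
  sorry

end Crest.Agent.R083
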