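import Crest.Agent.R083.TMDefs
import Crest.Agent.R083.BoxFubini

/-!
Row 83 (S0111): INTERFACE STATEMENTS of the TM group (stubs, never imported by the final files).
-/

set_option autoImplicit false

namespace Crest.Agent.R083

open MeasureTheory Set Filter
open scoped Gradient ENNReal NNReal Topology ContDiff

/-- File `Core.lean` (TM-b). -/
theorem core_exists : Nonempty CoreData := by
  sorry

/-- File `Green.lean`. Green identity on a box for a divergence free field which is smooth in the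
open slab, without flux through the lateral walls. -/
theorem green_box (a₀ b₀ a₁ b₁ a₂ b₂ : ℝ) (h0 : a₀ < b₀) (h1 : a₁ < b₁) (h2 : a₂ < b₂)
    (J : E3 → E3) (hJ : ContDiffOn ℝ ∞ J {p | a₂ < p 2 ∧ p 2 < b₂})
    (hdiv : ∀ p : E3, a₂ < p 2 → p 2 < b₂ → dvg J p = 0)
    (hw0 : ∀ p : E3, a₂ < p 2 → p 2 < b₂ → (p 0 = a₀ ∨ p 0 = b₀) → J p 0 = 0)
    (hw1 : ∀ p : E3, a₂ < p 2 → p 2 < b₂ → (p 1 = a₁ ∨ p 1 = b₁) → J p 1 = 0)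
    (hint : IntegrableOn J (cbox a₀ b₀ a₁ b₁ a₂ b₂) volume)
    (g : ℝ → ℝ) (hg : IntervalIntegrable g volume a₀ b₀)
    (hJg : ∀ᵐ x : ℝ, x ∈ Icc a₀ b₀ → ∀ y ∈ Icc a₁ b₁, ∀ t : ℝ, a₂ < t → t < b₂ →
      |J (pt x y t) 2| ≤ g x)
    (Jb Jt : ℝ → ℝ)
    (hb : ∀ᵐ x : ℝ, x ∈ Icc a₀ b₀ → ∀ y ∈ Icc a₁ b₁,
      Tendsto (fun t => J (pt x y t) 2) (𝓝[>] a₂) (𝓝 (Jb x)))
    (ht : ∀ᵐ x : ℝ, x ∈ Icc a₀ b₀ → ∀ y ∈ Icc a₁ b₁,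
      Tendsto (fun t => J (pt x y t) 2) (𝓝[<] b₂) (𝓝 (Jt x)))
    (χ : E3 → ℝ) (K : ℝ≥0) (hχ : LipschitzWith K χ) :
    ∫ p in cbox a₀ b₀ a₁ b₁ a₂ b₂, inner ℝ (J p) (∇ χ p) =
      (∫ x in a₀..b₀, ∫ y in a₁..b₁, Jt x * χ (pt x y b₂)) -
      (∫ x in a₀..b₀, ∫ y in a₁..b₁, Jb x * χ (pt x y a₂)) := by
  sorry

/-- File `TipInt.lean`. -/
theorem integrable_tip (a₀ b₀ a₁ b₁ a₂ b₂ : ℝ) :
    IntegrableOn (fun p : E3 => (√(tip2 p))⁻¹) (cbox a₀ b₀ a₁ b₁ a₂ b₂) volume := by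
  sorry

/-- File `TipInt.lean`. The integrand of the horizontal bound of `green_box`. -/
theorem integrable_rsqrt (a b : ℝ) :
    IntervalIntegrable (fun x : ℝ => (√|x|)⁻¹) volume a b := by
  sorry

/-- File `TipInt.lean`. -/
theorem volume_bx_diff (b : Box) : volume (bx b \ bxo b) = 0 := by
  sorry

/-- File `TipInt.lean`. -/
theorem volume_sin_zero (i : Fin 3) (k : ℕ) (l c : ℝ) (hl : l ≠ 0) :
    volume {p : E3 | Real.sin (Real.pi * 8 ^ k * (l * p i + c)) = 0} = 0 := by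
  sorry

/-- File `Approx.lean`. Lipschitz approximants on a box whose open slab does not meet the level
of the tip. -/
theorem approx_box (a₀ b₀ a₁ b₁ a₂ b₂ : ℝ) (h0 : a₀ < b₀) (h1 : a₁ < b₁) (h2 : a₂ < b₂)
    (htip : 7 / 10 ∉ Ioo a₂ b₂) (w : E3 → ℝ) (N0 : ℝ)
    (hw : ContDiffOn ℝ ∞ w {p | a₂ < p 2 ∧ p 2 < b₂})
    (hgr : ∀ p : E3, p 0 ∈ Icc a₀ b₀ → p 1 ∈ Icc a₁ b₁ → a₂ < p 2 → p 2 < b₂ →
      ‖∇ w p‖ ^ 2 * √(tip2 p) ≤ N0)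
    (hval : ∀ p : E3, p 0 ∈ Icc a₀ b₀ → p 1 ∈ Icc a₁ b₁ → a₂ < p 2 → p 2 < b₂ →
      (w p) ^ 2 ≤ N0 * √(tip2 p)) :
    IntegrableOn (fun x => ‖∇ w x‖ ^ 2) (cbox a₀ b₀ a₁ b₁ a₂ b₂) volume ∧
    ∃ wj : ℕ → E3 → ℝ, (∀ j, ∃ K : ℝ≥0, LipschitzWith K (wj j)) ∧
      (∀ (j : ℕ) (p : E3), p 0 ∈ Icc a₀ b₀ → p 1 ∈ Icc a₁ b₁ → a₂ < p 2 → p 2 < b₂ →
        wj j p = cut j p * w p) ∧
      Tendsto (fun j => ∫ x in cbox a₀ b₀ a₁ b₁ a₂ b₂, ‖∇ (wj j) x - ∇ w x‖ ^ 2) atTop (𝓝 0) := by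
  sorry

end Crest.Agent.R083
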