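import Crest.Agent.R083.TMBox
import Crest.Agent.R083.TMEst

/-!
Row 83 (S0111), TM group: from a normalised solution (output of the front lemma) to a solution on a
model box, with all pointwise estimates.
-/

set_option autoImplicit false

namespace Crest.Agent.R083

open MeasureTheory Set Filter
open scoped Gradient ENNReal NNReal Topology ContDiff

/-- Output of the front lemma. -/
structure NSol (lam : ℝ) (U : ℝ × ℝ → ℝ) (δ N : ℝ) (w : E3 → ℝ) (J : E3 → E3) : Prop where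
  δpos : 0 < δ
  smW : ContDiffOn ℝ ∞ w {p | 0 < p 2 ∧ p 2 < 1}
  smJ : ContDiffOn ℝ ∞ J {p | 0 < p 2 ∧ p 2 < 1}
  eqs : ∀ p : E3, 0 < p 2 → p 2 < 1 → fderiv ℝ w p (ee 2) = J p 2 ∧ dvg J p = 0
  start : ∀ p : E3, 0 < p 2 → p 2 ≤ 1 / 4 → w p = U (p 2, p 0) ∧
    J p = pt (lam * fderiv ℝ U (p 2, p 0) (0, 1)) 0 (fderiv ℝ U (p 2, p 0) (1, 0))
  ell : ∀ p : E3, 0 ≤ p 0 → p 0 ≤ 1 → 0 ≤ p 1 → p 1 ≤ 1 → 0 < p 2 → p 2 < 1 →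
    δ * ((∇ w p) 0 ^ 2 + (∇ w p) 1 ^ 2 + J p 0 ^ 2 + J p 1 ^ 2) ≤
      J p 0 * (∇ w p) 0 + J p 1 * (∇ w p) 1
  zer : ∀ p : E3, 0 ≤ p 0 → p 0 ≤ 1 → 0 ≤ p 1 → p 1 ≤ 1 → 0 < p 2 → p 2 < 1 →
    (∇ w p) 0 = 0 → (∇ w p) 1 = 0 →
      ∃ k : ℕ, Real.sin (Real.pi * 8 ^ k * p 0) = 0 ∨ Real.sin (Real.pi * 8 ^ k * p 1) = 0
  wall0 : ∀ p : E3, 0 < p 2 → p 2 < 1 → (p 0 = 0 ∨ p 0 = 1) → J p 0 = 0
  wall1 : ∀ p : E3, 0 < p 2 → p 2 < 1 → (p 1 = 0 ∨ p 1 = 1) → J p 1 = 0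
  bdd : ∀ p : E3, 0 ≤ p 0 → p 0 ≤ 1 → 0 ≤ p 1 → p 1 ≤ 1 → 1 / 4 ≤ p 2 → p 2 < 1 →
    ‖∇ w p‖ ≤ N ∧ ‖J p‖ ≤ N ∧ |w p| ≤ N * (1 - p 2)
  out : ∀ p : E3, 1 ≤ p 2 → w p = 0 ∧ J p = 0
  dies : ∀ ε : ℝ, 0 < ε → ∃ s : ℝ, s < 1 ∧ ∀ p : E3, s ≤ p 2 → |J p 2| ≤ ε

/-- A solution on a model box. -/
structure BoxSol (a₀ b₀ a₁ b₁ a₂ b₂ : ℝ) (δ N0 : ℝ) (w : E3 → ℝ) (J : E3 → E3) : Prop where
  δpos : 0 < δ
  smw : ContDiffOn ℝ ∞ w {p | a₂ < p 2 ∧ p 2 < b₂}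
  smJ : ContDiffOn ℝ ∞ J {p | a₂ < p 2 ∧ p 2 < b₂}
  eqs : ∀ p : E3, a₂ < p 2 → p 2 < b₂ → fderiv ℝ w p (ee 2) = J p 2 ∧ dvg J p = 0
  ell : ∀ p : E3, p 0 ∈ Icc a₀ b₀ → p 1 ∈ Icc a₁ b₁ → a₂ < p 2 → p 2 < b₂ →
    δ * ((∇ w p) 0 ^ 2 + (∇ w p) 1 ^ 2 + J p 0 ^ 2 + J p 1 ^ 2) ≤
      J p 0 * (∇ w p) 0 + J p 1 * (∇ w p) 1
  zer : ∃ l c l' c' : ℝ, l ≠ 0 ∧ l' ≠ 0 ∧
    ∀ p : E3, p 0 ∈ Icc a₀ b₀ → p 1 ∈ Icc a₁ b₁ → a₂ < p 2 → p 2 < b₂ →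
    (∇ w p) 0 = 0 → (∇ w p) 1 = 0 →
      ∃ k : ℕ, Real.sin (Real.pi * 8 ^ k * (l * p 0 + c)) = 0 ∨
        Real.sin (Real.pi * 8 ^ k * (l' * p 1 + c')) = 0
  wall0 : ∀ p : E3, a₂ < p 2 → p 2 < b₂ → (p 0 = a₀ ∨ p 0 = b₀) → J p 0 = 0
  wall1 : ∀ p : E3, a₂ < p 2 → p 2 < b₂ → (p 1 = a₁ ∨ p 1 = b₁) → J p 1 = 0
  est : ∀ p : E3, p 0 ∈ Icc a₀ b₀ → p 1 ∈ Icc a₁ b₁ → a₂ < p 2 → p 2 < b₂ →
    ‖∇ w p‖ ^ 2 * √(tip2 p) ≤ N0 ∧ (w p) ^ 2 ≤ N0 * √(tip2 p) ∧ ‖J p‖ ^ 2 * √(tip2 p) ≤ N0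

theorem tm_norm_sq (v : E3) : ‖v‖ ^ 2 = v 0 ^ 2 + v 1 ^ 2 + v 2 ^ 2 := by
  rw [EuclideanSpace.norm_sq_eq, Fin.sum_univ_three]
  simp

theorem tm_fderiv_start {W : E3 → ℝ} {U : ℝ × ℝ → ℝ} (hU : ContDiffOn ℝ ∞ U {q | 0 < q.1})
    (hst : ∀ p : E3, 0 < p 2 → p 2 ≤ 1 / 4 → W p = U (p 2, p 0)) (q : E3) (h0 : 0 < q 2)
    (h1 : q 2 < 1 / 4) (v : E3) :
    fderiv ℝ W q v = fderiv ℝ U (q 2, q 0) (v 2, v 0) := by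
  have hc : Continuous fun p : E3 => p 2 := (EuclideanSpace.proj (2 : Fin 3)).continuous
  have hopen : IsOpen {p : E3 | 0 < p 2 ∧ p 2 < 1 / 4} :=
    (isOpen_lt continuous_const hc).inter (isOpen_lt hc continuous_const)
  have hev : W =ᶠ[𝓝 q] fun p => U (p 2, p 0) := by
    filter_upwards [hopen.mem_nhds ⟨h0, h1⟩] with p hp
    exact hst p hp.1 hp.2.le
  rw [hev.fderiv_eq]
  set P : E3 →L[ℝ] ℝ × ℝ := (EuclideanSpace.proj (2 : Fin 3) : E3 →L[ℝ] ℝ).prod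
    (EuclideanSpace.proj (0 : Fin 3)) with hP
  have hopenU : IsOpen {q : ℝ × ℝ | 0 < q.1} := isOpen_lt continuous_const continuous_fst
  have hd : DifferentiableAt ℝ U (P q) :=
    (hU.contDiffAt (hopenU.mem_nhds h0)).differentiableAt (by simp)
  have := (hd.hasFDerivAt.comp q P.hasFDerivAt).fderiv
  have h2 : fderiv ℝ (fun p : E3 => U (p 2, p 0)) q = (fderiv ℝ U (P q)).comp P := this
  rw [h2]
  rfl

theorem tm_isOpen_slab (a b : ℝ) : IsOpen {p : E3 | a < p 2 ∧ p 2 < b} := by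
  have hc : Continuous fun p : E3 => p 2 := (EuclideanSpace.proj (2 : Fin 3)).continuous
  exact (isOpen_lt continuous_const hc).inter (isOpen_lt hc continuous_const)

theorem NSol.dW {lam : ℝ} {U : ℝ × ℝ → ℝ} {δ N : ℝ} {W : E3 → ℝ} {Jn : E3 → E3}
    (h : NSol lam U δ N W Jn) (q : E3) (h0 : 0 < q 2) (h1 : q 2 < 1) : DifferentiableAt ℝ W q :=
  ((h.smW.contDiffAt ((tm_isOpen_slab 0 1).mem_nhds ⟨h0, h1⟩)).differentiableAt (by simp))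

theorem NSol.dJ {lam : ℝ} {U : ℝ × ℝ → ℝ} {δ N : ℝ} {W : E3 → ℝ} {Jn : E3 → E3}
    (h : NSol lam U δ N W Jn) (q : E3) (h0 : 0 < q 2) (h1 : q 2 < 1) : DifferentiableAt ℝ Jn q :=
  ((h.smJ.contDiffAt ((tm_isOpen_slab 0 1).mem_nhds ⟨h0, h1⟩)).differentiableAt (by simp))

/-- Sum of the squares of the scaling factors. -/
noncomputable def lsum (l : Fin 3 → ℝ) : ℝ :=
  (l 0) ^ 2 + (l 1) ^ 2 + (l 2) ^ 2 + (l 2 ^ 2 / l 0) ^ 2 + (l 2 ^ 2 / l 1) ^ 2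

/-- The constant in the pointwise estimates. -/
noncomputable def bconst (l : Fin 3 → ℝ) (α β lam N C x0 : ℝ) : ℝ :=
  lsum l * (1 + lam ^ 2) * (C / min (|l 0|) (|l 2|)) + C * (|l 0| + |l 2|) +
    (|α| + |β| + |N|) ^ 2 * (4 * |l 2|) +
    lsum l * (2 * (β ^ 2 + N ^ 2)) * ((1 + (1 + |x0|)) / min (|l 0|) (|l 2|))

theorem NSol.grad {lam : ℝ} {U : ℝ × ℝ → ℝ} {δ N : ℝ} {W : E3 → ℝ} {Jn : E3 → E3}
    (h : NSol lam U δ N W Jn) (s α β : ℝ) (l c : Fin 3 → ℝ) (p : E3)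
    (h0 : 0 < afm l c p 2) (h1 : afm l c p 2 < 1) (i : Fin 3) :
    (∇ (bw s α β l c W) p) i = s * (l i * ((if i = 2 then β else 0) + (∇ W (afm l c p)) i)) := by
  rw [tm_grad_coord, fderiv_bw _ _ _ _ _ _ _ (h.dW _ h0 h1), tm_grad_coord]

theorem NSol.norms {lam : ℝ} {U : ℝ × ℝ → ℝ} {δ N : ℝ} {W : E3 → ℝ} {Jn : E3 → E3}
    (h : NSol lam U δ N W Jn) (s α β : ℝ) (l c : Fin 3 → ℝ) (hs : s ^ 2 = 1) (p q : E3)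
    (hq : afm l c p = q) (h0 : 0 < q 2) (h1 : q 2 < 1) :
    ‖∇ (bw s α β l c W) p‖ ^ 2 = (l 0) ^ 2 * (∇ W q) 0 ^ 2 + (l 1) ^ 2 * (∇ W q) 1 ^ 2 +
        (l 2) ^ 2 * (β + (∇ W q) 2) ^ 2 ∧
    ‖bJ s β l c Jn p‖ ^ 2 = (l 2 ^ 2 / l 0) ^ 2 * (Jn q 0) ^ 2 +
        (l 2 ^ 2 / l 1) ^ 2 * (Jn q 1) ^ 2 + (l 2) ^ 2 * (β + Jn q 2) ^ 2 ∧
    (bw s α β l c W p) ^ 2 = (α + β * q 2 + W q) ^ 2 := by
  subst hq
  refine ⟨?_, ?_, ?_⟩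
  · rw [tm_norm_sq, h.grad _ _ _ _ _ _ h0 h1, h.grad _ _ _ _ _ _ h0 h1, h.grad _ _ _ _ _ _ h0 h1]
    simp only [mul_pow, hs, one_mul]
    simp
  · rw [tm_norm_sq]
    simp only [bJ, pt_zero, pt_one, pt_two, mul_pow, hs, one_mul]
  · simp only [bw, mul_pow, hs, one_mul]

theorem tm_tip_compare (l : Fin 3 → ℝ) (hl : ∀ i, l i ≠ 0) (c : Fin 3 → ℝ)
    (hc2 : c 2 = -(7 / 10) * l 2) (p q : E3) (hq : afm l c p = q) :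
    min (|l 0|) (|l 2|) * √(tip2 p) ≤ √((q 2) ^ 2 + (q 0 - c 0) ^ 2) ∧
    √((q 2) ^ 2 + (q 0 - c 0) ^ 2) ≤ (|l 0| + |l 2|) * √(tip2 p) := by
  have htip : (q 2) ^ 2 + (q 0 - c 0) ^ 2 =
      (l 2) ^ 2 * (p 2 - 7 / 10) ^ 2 + (l 0) ^ 2 * (p 0) ^ 2 := by
    rw [← hq, afm_two, afm_zero, hc2]; ring
  have hm0 : 0 < min (|l 0|) (|l 2|) := lt_min (abs_pos.2 (hl 0)) (abs_pos.2 (hl 2))
  have hm_l0 : (min (|l 0|) (|l 2|)) ^ 2 ≤ (l 0) ^ 2 := by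
    rw [← sq_abs (l 0)]; exact pow_le_pow_left₀ hm0.le (min_le_left _ _) 2
  have hm_l2 : (min (|l 0|) (|l 2|)) ^ 2 ≤ (l 2) ^ 2 := by
    rw [← sq_abs (l 2)]; exact pow_le_pow_left₀ hm0.le (min_le_right _ _) 2
  have e0 : (l 0) ^ 2 ≤ (|l 0| + |l 2|) ^ 2 := by
    rw [← sq_abs (l 0)]; exact pow_le_pow_left₀ (abs_nonneg _) (by simp) 2
  have e2 : (l 2) ^ 2 ≤ (|l 0| + |l 2|) ^ 2 := by
    rw [← sq_abs (l 2)]; exact pow_le_pow_left₀ (abs_nonneg _) (by simp) 2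
  have hK : 0 ≤ |l 0| + |l 2| := by positivity
  rw [htip]
  have ht : 0 ≤ tip2 p := by unfold tip2; positivity
  constructor
  · apply Real.le_sqrt_of_sq_le
    rw [mul_pow, Real.sq_sqrt ht]
    unfold tip2
    have t1 := mul_le_mul_of_nonneg_right hm_l0 (sq_nonneg (p 0))
    have t2 := mul_le_mul_of_nonneg_right hm_l2 (sq_nonneg (p 2 - 7 / 10))
    rw [mul_add]; linarith
  · apply Real.sqrt_le_left (mul_nonneg hK (Real.sqrt_nonneg _)) |>.2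
    rw [mul_pow, Real.sq_sqrt ht]
    unfold tip2
    have t1 := mul_le_mul_of_nonneg_right e0 (sq_nonneg (p 0))
    have t2 := mul_le_mul_of_nonneg_right e2 (sq_nonneg (p 2 - 7 / 10))
    rw [mul_add]; linarith

theorem NSol.est {lam : ℝ} {U : ℝ × ℝ → ℝ} {δ N : ℝ} {W : E3 → ℝ} {Jn : E3 → E3}
    (h : NSol lam U δ N W Jn) (hU : ContDiffOn ℝ ∞ U {q | 0 < q.1})
    (s α β : ℝ) (l c : Fin 3 → ℝ) (hs : s ^ 2 = 1) (hl : ∀ i, l i ≠ 0)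
    (hc2 : c 2 = -(7 / 10) * l 2)
    (C : ℝ) (hC : ∀ σ x : ℝ, 0 < σ → σ ≤ 1 / 4 → 0 ≤ x → x ≤ 1 →
      (α + β * σ + U (σ, x)) ^ 2 ≤ C * √(σ ^ 2 + (x - c 0) ^ 2) ∧
      ((fderiv ℝ U (σ, x) (0, 1)) ^ 2 + (β + fderiv ℝ U (σ, x) (1, 0)) ^ 2) *
        √(σ ^ 2 + (x - c 0) ^ 2) ≤ C) (p q : E3) (hq : afm l c p = q)
    (q0 : 0 < q 2) (q1 : q 2 < 1) (hqx : q 0 ∈ Icc (0:ℝ) 1) (hqy : q 1 ∈ Icc (0:ℝ) 1) :
    ‖∇ (bw s α β l c W) p‖ ^ 2 * √(tip2 p) ≤ bconst l α β lam N C (c 0) ∧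
    (bw s α β l c W p) ^ 2 ≤ bconst l α β lam N C (c 0) * √(tip2 p) ∧
    ‖bJ s β l c Jn p‖ ^ 2 * √(tip2 p) ≤ bconst l α β lam N C (c 0) := by
  have hm0 : 0 < min (|l 0|) (|l 2|) := lt_min (abs_pos.2 (hl 0)) (abs_pos.2 (hl 2))
  have hC0 : 0 ≤ C :=
    le_trans (by positivity) (hC (1 / 4) 0 (by norm_num) le_rfl le_rfl zero_le_one).2
  have hΛ0 : 0 ≤ lsum l := by unfold lsum; positivity
  obtain ⟨L0, L1, L2, L3, L4⟩ := tm_sum_le (l 0) (l 1) (l 2) (l 2 ^ 2 / l 0) (l 2 ^ 2 / l 1)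
  change _ ≤ lsum l at L0 L1 L2 L3 L4
  obtain ⟨hD1, hD2⟩ := tm_tip_compare l hl c hc2 p q hq
  obtain ⟨n1, n2, n3⟩ := h.norms s α β l c hs p q hq q0 q1
  rw [n1, n2, n3]
  have hLs : 0 < |l 2| := abs_pos.2 (hl 2)
  have hB1 : 0 ≤ lsum l * (1 + lam ^ 2) * (C / min (|l 0|) (|l 2|)) := by positivity
  have hB2 : 0 ≤ C * (|l 0| + |l 2|) := by positivity
  have hB3 : 0 ≤ (|α| + |β| + |N|) ^ 2 * (4 * |l 2|) := by positivity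
  have hB4 : 0 ≤ lsum l * (2 * (β ^ 2 + N ^ 2)) * ((1 + (1 + |c 0|)) / min (|l 0|) (|l 2|)) := by
    positivity
  have hb : bconst l α β lam N C (c 0) = lsum l * (1 + lam ^ 2) * (C / min (|l 0|) (|l 2|)) +
    C * (|l 0| + |l 2|) + (|α| + |β| + |N|) ^ 2 * (4 * |l 2|) +
    lsum l * (2 * (β ^ 2 + N ^ 2)) * ((1 + (1 + |c 0|)) / min (|l 0|) (|l 2|)) := rfl
  have c1 : lsum l * (1 + lam ^ 2) * (C / min (|l 0|) (|l 2|)) ≤ bconst l α β lam N C (c 0) := by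
    rw [hb]; linarith
  have c2 : C * (|l 0| + |l 2|) ≤ bconst l α β lam N C (c 0) := by
    rw [hb]; linarith
  have c3 : (|α| + |β| + |N|) ^ 2 * (4 * |l 2|) ≤ bconst l α β lam N C (c 0) := by
    rw [hb]; linarith
  have c4 : lsum l * (2 * (β ^ 2 + N ^ 2)) * ((1 + (1 + |c 0|)) / min (|l 0|) (|l 2|)) ≤
      bconst l α β lam N C (c 0) := by
    rw [hb]; linarith
  clear hb hB1 hB2 hB3 hB4
  have ht0 : 0 ≤ √(tip2 p) := Real.sqrt_nonneg _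
  rcases lt_or_ge (q 2) (1 / 4) with hlt | hge
  · have hst := h.start q q0 hlt.le
    have hCq := hC (q 2) (q 0) q0 hlt.le hqx.1 hqx.2
    have g0 : (∇ W q) 0 = fderiv ℝ U (q 2, q 0) (0, 1) := by
      rw [tm_grad_coord, tm_fderiv_start hU (fun p a b => (h.start p a b).1) q q0 hlt]
      simp [ee]
    have g1 : (∇ W q) 1 = 0 := by
      rw [tm_grad_coord, tm_fderiv_start hU (fun p a b => (h.start p a b).1) q q0 hlt]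
      have : (((ee 1 : E3) 2, (ee 1 : E3) 0) : ℝ × ℝ) = 0 := by simp [ee]
      rw [this, map_zero]
    have g2 : (∇ W q) 2 = fderiv ℝ U (q 2, q 0) (1, 0) := by
      rw [tm_grad_coord, tm_fderiv_start hU (fun p a b => (h.start p a b).1) q q0 hlt]
      simp [ee]
    rw [g0, g1, g2, hst.1, hst.2]
    simp only [pt_zero, pt_one, pt_two]
    obtain ⟨e1, e2, e3⟩ := tm_est_start (lsum l) lam C (min (|l 0|) (|l 2|)) (|l 0| + |l 2|)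
      (√(tip2 p)) (√((q 2) ^ 2 + (q 0 - c 0) ^ 2)) ((l 0) ^ 2) ((l 1) ^ 2) ((l 2) ^ 2)
      ((l 2 ^ 2 / l 0) ^ 2) ((l 2 ^ 2 / l 1) ^ 2) (fderiv ℝ U (q 2, q 0) (0, 1))
      (fderiv ℝ U (q 2, q 0) (1, 0)) β (α + β * q 2 + U (q 2, q 0)) hΛ0 L0 L2 L3 hm0 hD1 hD2 ht0
      hC0 hCq.1 hCq.2
    exact ⟨e1.trans c1, e2.trans (mul_le_mul_of_nonneg_right c2 ht0), e3.trans c1⟩
  · obtain ⟨n1, n2, n3⟩ := h.bdd q hqx.1 hqx.2 hqy.1 hqy.2 hge q1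
    have hN0 : 0 ≤ N := le_trans (norm_nonneg _) n1
    have n1' : (∇ W q) 0 ^ 2 + (∇ W q) 1 ^ 2 + (∇ W q) 2 ^ 2 ≤ N ^ 2 := by
      rw [← tm_norm_sq]; exact pow_le_pow_left₀ (norm_nonneg _) n1 2
    have n2' : Jn q 0 ^ 2 + Jn q 1 ^ 2 + Jn q 2 ^ 2 ≤ N ^ 2 := by
      rw [← tm_norm_sq]; exact pow_le_pow_left₀ (norm_nonneg _) n2 2
    have n3' : |W q| ≤ |N| := by
      rw [abs_of_nonneg hN0]
      exact n3.trans (mul_le_of_le_one_right hN0 (by linarith))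
    have htT : √(tip2 p) ≤ (1 + (1 + |c 0|)) / min (|l 0|) (|l 2|) := by
      rw [le_div_iff₀ hm0, mul_comm]
      exact hD1.trans (tm_dist_le (c 0) (q 2) (q 0) q0.le q1.le hqx.1 hqx.2)
    have htl : 1 ≤ 4 * |l 2| * √(tip2 p) := by
      refine tm_far_low (l 2) (p 2) (q 2) _ ?_ hge ?_
      · rw [← hq, afm_two, hc2]; ring
      · apply Real.abs_le_sqrt
        unfold tip2
        have := sq_nonneg (p 0)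
        linarith
    have hX : 0 ≤ lsum l * (2 * (β ^ 2 + N ^ 2)) := by positivity
    refine ⟨?_, ?_, ?_⟩
    · have e1 := tm_est_far (lsum l) β N _ _ _ _ _ _ hΛ0 L0 L1 L2 n1'
      exact ((mul_le_mul_of_nonneg_right e1 ht0).trans (mul_le_mul_of_nonneg_left htT hX)).trans c4
    · exact (tm_far_val α β N (q 2) (W q) (l 2) _ q0.le q1.le n3' htl).trans
        (mul_le_mul_of_nonneg_right c3 ht0)
    · have e1 := tm_est_far (lsum l) β N _ _ _ _ _ _ hΛ0 L3 L4 L2 n2'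
      exact ((mul_le_mul_of_nonneg_right e1 ht0).trans (mul_le_mul_of_nonneg_left htT hX)).trans c4

theorem boxSol_of_nsol {lam : ℝ} {U : ℝ × ℝ → ℝ} {δ N : ℝ} {W : E3 → ℝ} {Jn : E3 → E3}
    (h : NSol lam U δ N W Jn) (hU : ContDiffOn ℝ ∞ U {q | 0 < q.1})
    (s α β : ℝ) (l c : Fin 3 → ℝ) (hs : s ^ 2 = 1) (hl : ∀ i, l i ≠ 0)
    (hc2 : c 2 = -(7 / 10) * l 2)
    (a₀ b₀ a₁ b₁ a₂ b₂ : ℝ)
    (hslab : ∀ t : ℝ, a₂ < t → t < b₂ → 0 < l 2 * t + c 2 ∧ l 2 * t + c 2 < 1)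
    (hx : ∀ t : ℝ, t ∈ Icc a₀ b₀ → l 0 * t + c 0 ∈ Icc (0:ℝ) 1)
    (hy : ∀ t : ℝ, t ∈ Icc a₁ b₁ → l 1 * t + c 1 ∈ Icc (0:ℝ) 1)
    (hxa : l 0 * a₀ + c 0 = 0 ∨ l 0 * a₀ + c 0 = 1) (hxb : l 0 * b₀ + c 0 = 0 ∨ l 0 * b₀ + c 0 = 1)
    (hya : l 1 * a₁ + c 1 = 0 ∨ l 1 * a₁ + c 1 = 1) (hyb : l 1 * b₁ + c 1 = 0 ∨ l 1 * b₁ + c 1 = 1)
    (C : ℝ) (hC : ∀ σ x : ℝ, 0 < σ → σ ≤ 1 / 4 → 0 ≤ x → x ≤ 1 →
      (α + β * σ + U (σ, x)) ^ 2 ≤ C * √(σ ^ 2 + (x - c 0) ^ 2) ∧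
      ((fderiv ℝ U (σ, x) (0, 1)) ^ 2 + (β + fderiv ℝ U (σ, x) (1, 0)) ^ 2) *
        √(σ ^ 2 + (x - c 0) ^ 2) ≤ C) :
    ∃ δ' N0 : ℝ, BoxSol a₀ b₀ a₁ b₁ a₂ b₂ δ' N0 (bw s α β l c W) (bJ s β l c Jn) := by
  obtain ⟨δ', hδ', hδ2⟩ := HEll_scale δ (l 0) (l 1) (l 2) s h.δpos (hl 0) (hl 1) (hl 2) hs
  have hsl : ∀ p : E3, a₂ < p 2 → p 2 < b₂ → 0 < (afm l c p) 2 ∧ (afm l c p) 2 < 1 := by
    intro p h0 h1
    have := hslab (p 2) h0 h1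
    simpa using this
  have hqx : ∀ p : E3, p 0 ∈ Icc a₀ b₀ → (afm l c p) 0 ∈ Icc (0:ℝ) 1 := by
    intro p hp; rw [afm_zero]; exact hx _ hp
  have hqy : ∀ p : E3, p 1 ∈ Icc a₁ b₁ → (afm l c p) 1 ∈ Icc (0:ℝ) 1 := by
    intro p hp; rw [afm_one]; exact hy _ hp
  have hmaps : MapsTo (afm l c) {p : E3 | a₂ < p 2 ∧ p 2 < b₂} {p | 0 < p 2 ∧ p 2 < 1} :=
    fun p hp => hsl p hp.1 hp.2
  have smW' : ContDiffOn ℝ ∞ (fun p => W (afm l c p)) {p | a₂ < p 2 ∧ p 2 < b₂} :=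
    h.smW.comp (contDiff_afm l c).contDiffOn hmaps
  have smJ' : ContDiffOn ℝ ∞ (fun p => Jn (afm l c p)) {p | a₂ < p 2 ∧ p 2 < b₂} :=
    h.smJ.comp (contDiff_afm l c).contDiffOn hmaps
  have smc : ContDiff ℝ ∞ (fun p : E3 => afm l c p 2) :=
    (EuclideanSpace.proj (2 : Fin 3) : E3 →L[ℝ] ℝ).contDiff.comp (contDiff_afm l c)
  have hs0 : s ≠ 0 := by rintro rfl; norm_num at hs
  refine ⟨δ', bconst l α β lam N C (c 0), ⟨hδ', ?_, ?_, ?_, ?_, ?_, ?_, ?_, ?_⟩⟩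
  · have : ContDiffOn ℝ ∞ (fun p => s * (α + β * (afm l c p 2) + W (afm l c p)))
        {p | a₂ < p 2 ∧ p 2 < b₂} :=
      contDiffOn_const.mul ((contDiffOn_const.add (contDiffOn_const.mul smc.contDiffOn)).add smW')
    exact this
  · have e1 : ContDiffOn ℝ ∞ (fun p => tdg (ddg l) (Jn (afm l c p)))
        {p | a₂ < p 2 ∧ p 2 < b₂} := (tdg (ddg l)).contDiff.comp_contDiffOn smJ'
    have e2 : ContDiffOn ℝ ∞ (fun p => s • (tdg (ddg l) (Jn (afm l c p)) + pt 0 0 (l 2 * β)))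
        {p | a₂ < p 2 ∧ p 2 < b₂} := (e1.add contDiffOn_const).const_smul s
    exact e2.congr fun p _ => bJ_eq s β l c Jn p
  · intro p hp2 hp3
    obtain ⟨q0, q1⟩ := hsl p hp2 hp3
    obtain ⟨e1, e2⟩ := h.eqs _ q0 q1
    refine ⟨?_, ?_⟩
    · rw [fderiv_bw _ _ _ _ _ _ _ (h.dW _ q0 q1), e1]
      simp [bJ]
    · rw [dvg_bJ _ _ _ _ _ _ (hl 0) (hl 1) (h.dJ _ q0 q1), e2, mul_zero]
  · intro p hp0 hp1 hp2 hp3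
    obtain ⟨q0, q1⟩ := hsl p hp2 hp3
    have hx1 := hqx p hp0
    have hy1 := hqy p hp1
    have := hδ2 _ _ _ _ (h.ell _ hx1.1 hx1.2 hy1.1 hy1.2 q0 q1)
    rw [h.grad _ _ _ _ _ _ q0 q1, h.grad _ _ _ _ _ _ q0 q1]
    simpa [bJ] using this
  · refine ⟨l 0, c 0, l 1, c 1, hl 0, hl 1, ?_⟩
    intro p hp0 hp1 hp2 hp3 z0 z1
    obtain ⟨q0, q1⟩ := hsl p hp2 hp3
    have hx1 := hqx p hp0
    have hy1 := hqy p hp1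
    rw [h.grad _ _ _ _ _ _ q0 q1] at z0 z1
    have z0' : (∇ W (afm l c p)) 0 = 0 := by
      have := (mul_eq_zero.1 z0).resolve_left hs0
      have := (mul_eq_zero.1 this).resolve_left (hl 0)
      simpa using this
    have z1' : (∇ W (afm l c p)) 1 = 0 := by
      have := (mul_eq_zero.1 z1).resolve_left hs0
      have := (mul_eq_zero.1 this).resolve_left (hl 1)
      simpa using this
    have := h.zer _ hx1.1 hx1.2 hy1.1 hy1.2 q0 q1 z0' z1'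
    simpa using this
  · intro p hp2 hp3 hp
    obtain ⟨q0, q1⟩ := hsl p hp2 hp3
    have : (afm l c p) 0 = 0 ∨ (afm l c p) 0 = 1 := by
      rw [afm_zero]
      rcases hp with hp | hp <;> rw [hp]
      · exact hxa
      · exact hxb
    have := h.wall0 _ q0 q1 this
    simp only [bJ, pt_zero, this, mul_zero]
  · intro p hp2 hp3 hp
    obtain ⟨q0, q1⟩ := hsl p hp2 hp3
    have : (afm l c p) 1 = 0 ∨ (afm l c p) 1 = 1 := by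
      rw [afm_one]
      rcases hp with hp | hp <;> rw [hp]
      · exact hya
      · exact hyb
    have := h.wall1 _ q0 q1 this
    simp only [bJ, pt_one, this, mul_zero]
  · intro p hp0 hp1 hp2 hp3
    obtain ⟨q0, q1⟩ := hsl p hp2 hp3
    exact h.est hU s α β l c hs hl hc2 C hC p _ rfl q0 q1 (hqx p hp0) (hqy p hp1)

end Crest.Agent.R083
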