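import Crest.Agent.R083.TMTrace

/-!
Row 83 (S0111), TM group: limits of the transported solutions at the two horizontal faces.
-/

set_option autoImplicit false

namespace Crest.Agent.R083

open MeasureTheory Set Filter
open scoped Gradient ENNReal NNReal Topology ContDiff

theorem start_traces {lam : ℝ} {U : ℝ × ℝ → ℝ} {δ N : ℝ} {W : E3 → ℝ} {Jn : E3 → E3}
    (h : NSol lam U δ N W Jn) (s α β : ℝ) (l c : Fin 3 → ℝ) (F : Filter ℝ)
    (hF : Tendsto (fun t => l 2 * t + c 2) F (𝓝[>] 0)) (x y v g : ℝ)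
    (hv : Tendsto (fun σ => α + β * σ + U (σ, l 0 * x + c 0)) (𝓝[>] 0) (𝓝 v))
    (hg : Tendsto (fun σ => β + fderiv ℝ U (σ, l 0 * x + c 0) (1, 0)) (𝓝[>] 0) (𝓝 g)) :
    Tendsto (fun t => bw s α β l c W (pt x y t)) F (𝓝 (s * v)) ∧
    Tendsto (fun t => bJ s β l c Jn (pt x y t) 2) F (𝓝 (s * (l 2 * g))) := by
  have hev : ∀ᶠ σ in 𝓝[>] (0:ℝ), 0 < σ ∧ σ ≤ 1 / 4 := by
    have h1 : Ioc (0:ℝ) (1 / 4) ∈ 𝓝[>] (0:ℝ) := Ioc_mem_nhdsGT (by norm_num)
    filter_upwards [h1] with σ hσ using hσ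
  have hev' := hF.eventually hev
  constructor
  · refine ((hv.comp hF).const_mul s).congr' ?_
    filter_upwards [hev'] with t ht
    have h1 := (h.start (afm l c (pt x y t)) (by simpa using ht.1) (by simpa using ht.2)).1
    simp only [bw, h1, afm_two, afm_zero, pt_two, pt_zero, Function.comp]
  · refine (((hg.comp hF).const_mul (l 2)).const_mul s).congr' ?_
    filter_upwards [hev'] with t ht
    have h1 := (h.start (afm l c (pt x y t)) (by simpa using ht.1) (by simpa using ht.2)).2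
    simp only [bJ, h1, afm_two, afm_zero, pt_two, pt_zero, Function.comp]

theorem end_traces {lam : ℝ} {U : ℝ × ℝ → ℝ} {δ N : ℝ} {W : E3 → ℝ} {Jn : E3 → E3}
    (h : NSol lam U δ N W Jn) (s α β : ℝ) (l c : Fin 3 → ℝ) (F : Filter ℝ)
    (hF : Tendsto (fun t => l 2 * t + c 2) F (𝓝[<] 1)) (x y : ℝ)
    (hx : l 0 * x + c 0 ∈ Icc (0:ℝ) 1) (hy : l 1 * y + c 1 ∈ Icc (0:ℝ) 1) :
    Tendsto (fun t => bw s α β l c W (pt x y t)) F (𝓝 (s * (α + β))) ∧
    Tendsto (fun t => bJ s β l c Jn (pt x y t) 2) F (𝓝 (s * (l 2 * β))) := by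
  have hF1 : Tendsto (fun t => l 2 * t + c 2) F (𝓝 1) := hF.mono_right nhdsWithin_le_nhds
  have hev : ∀ᶠ σ in 𝓝[<] (1:ℝ), 1 / 4 ≤ σ ∧ σ < 1 := by
    have h1 : Ico (1 / 4 : ℝ) 1 ∈ 𝓝[<] (1:ℝ) := Ico_mem_nhdsLT (by norm_num)
    filter_upwards [h1] with σ hσ using hσ
  have hev' := hF.eventually hev
  have hW : Tendsto (fun t => W (afm l c (pt x y t))) F (𝓝 0) := by
    have h0 : Tendsto (fun t => N * (1 - (l 2 * t + c 2))) F (𝓝 0) := by
      have := (hF1.const_sub 1).const_mul N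
      simpa using this
    refine squeeze_zero_norm' ?_ h0
    filter_upwards [hev'] with t ht
    have h1 := (h.bdd (afm l c (pt x y t)) (by simpa using hx.1) (by simpa using hx.2)
      (by simpa using hy.1) (by simpa using hy.2) (by simpa using ht.1) (by simpa using ht.2)).2.2
    simpa [Real.norm_eq_abs] using h1
  have hJ : Tendsto (fun t => Jn (afm l c (pt x y t)) 2) F (𝓝 0) := by
    rw [Metric.tendsto_nhds]
    intro ε hε
    obtain ⟨s0, hs0, hs1⟩ := h.dies (ε / 2) (by positivity)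
    have h2 : ∀ᶠ t in F, s0 ≤ l 2 * t + c 2 := hF1.eventually (eventually_ge_nhds hs0)
    filter_upwards [h2] with t ht
    have := hs1 (afm l c (pt x y t)) (by simpa using ht)
    rw [Real.dist_eq, sub_zero]
    linarith
  constructor
  · have h1 : Tendsto (fun t => s * (α + β * (l 2 * t + c 2) + W (afm l c (pt x y t)))) F
        (𝓝 (s * (α + β * 1 + 0))) :=
      (((hF1.const_mul β).const_add α).add hW).const_mul s
    have h2 : s * (α + β * 1 + 0) = s * (α + β) := by ring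
    rw [h2] at h1
    refine h1.congr fun t => ?_
    simp only [bw, afm_two, pt_two]
  · have h1 : Tendsto (fun t => s * (l 2 * (β + Jn (afm l c (pt x y t)) 2))) F
        (𝓝 (s * (l 2 * (β + 0)))) :=
      ((hJ.const_add β).const_mul (l 2)).const_mul s
    rw [add_zero] at h1
    refine h1.congr fun t => ?_
    simp only [bJ, pt_two]

theorem tendsto_lin_pos (a b t0 : ℝ) (ha : 0 < a) (v : ℝ) (hv : a * t0 + b = v) :
    Tendsto (fun t => a * t + b) (𝓝[>] t0) (𝓝[>] v) ∧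
    Tendsto (fun t => a * t + b) (𝓝[<] t0) (𝓝[<] v) := by
  subst hv
  have hc : Continuous fun t : ℝ => a * t + b := by fun_prop
  constructor
  · refine tendsto_nhdsWithin_of_tendsto_nhds_of_eventually_within _
      ((hc.tendsto t0).mono_left nhdsWithin_le_nhds) ?_
    filter_upwards [self_mem_nhdsWithin] with t ht
    have : t0 < t := ht
    show a * t0 + b < a * t + b
    nlinarith
  · refine tendsto_nhdsWithin_of_tendsto_nhds_of_eventually_within _
      ((hc.tendsto t0).mono_left nhdsWithin_le_nhds) ?_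
    filter_upwards [self_mem_nhdsWithin] with t ht
    have : t < t0 := ht
    show a * t + b < a * t0 + b
    nlinarith

theorem tendsto_lin_neg (a b t0 : ℝ) (ha : a < 0) (v : ℝ) (hv : a * t0 + b = v) :
    Tendsto (fun t => a * t + b) (𝓝[>] t0) (𝓝[<] v) ∧
    Tendsto (fun t => a * t + b) (𝓝[<] t0) (𝓝[>] v) := by
  subst hv
  have hc : Continuous fun t : ℝ => a * t + b := by fun_prop
  constructor
  · refine tendsto_nhdsWithin_of_tendsto_nhds_of_eventually_within _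
      ((hc.tendsto t0).mono_left nhdsWithin_le_nhds) ?_
    filter_upwards [self_mem_nhdsWithin] with t ht
    have : t0 < t := ht
    show a * t + b < a * t0 + b
    nlinarith
  · refine tendsto_nhdsWithin_of_tendsto_nhds_of_eventually_within _
      ((hc.tendsto t0).mono_left nhdsWithin_le_nhds) ?_
    filter_upwards [self_mem_nhdsWithin] with t ht
    have : t < t0 := ht
    show a * t0 + b < a * t + b
    nlinarith

/-- limits of the left core at `σ = 0` -/
theorem coreO_lim (K : CoreData) (M : ℝ) (hM : 1 ≤ M) (X : ℝ) (h0 : 0 < X) (h1 : X ≤ 1) :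
    (Tendsto (fun σ => 0 + 0 * σ + (fun q : ℝ × ℝ => K.uL (-(M * q.1)) (2 * q.2 - 1))
        (σ, (X + 1) / 2)) (𝓝[>] 0) (𝓝 (K.v0 X)) ∧
     Tendsto (fun σ => 0 + fderiv ℝ (fun q : ℝ × ℝ => K.uL (-(M * q.1)) (2 * q.2 - 1))
        (σ, (X + 1) / 2) (1, 0)) (𝓝[>] 0) (𝓝 (-M * K.g0 X))) ∧
    (Tendsto (fun σ => 0 + 0 * σ + (fun q : ℝ × ℝ => K.uL (-(M * q.1)) (2 * q.2 - 1))
        (σ, (-X + 1) / 2)) (𝓝[>] 0) (𝓝 (-K.v0 X)) ∧
     Tendsto (fun σ => 0 + fderiv ℝ (fun q : ℝ × ℝ => K.uL (-(M * q.1)) (2 * q.2 - 1))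
        (σ, (-X + 1) / 2) (1, 0)) (𝓝[>] 0) (𝓝 (M * K.g0 X))) := by
  have hM0 : 0 < M := by linarith
  have hlin : Tendsto (fun σ : ℝ => -(M * σ)) (𝓝[>] 0) (𝓝[<] 0) := by
    have := (tendsto_lin_neg (-M) 0 0 (by linarith) 0 (by ring)).1
    refine this.congr fun t => by ring
  obtain ⟨t1, t2⟩ := K.trL X h0 h1
  have e1 : 2 * ((X + 1) / 2) - 1 = X := by ring
  have e2 : 2 * ((-X + 1) / 2) - 1 = -X := by ring
  have hpos : ∀ᶠ σ in 𝓝[>] (0:ℝ), 0 < σ := self_mem_nhdsWithin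
  refine ⟨⟨?_, ?_⟩, ⟨?_, ?_⟩⟩
  · refine (t1.comp hlin).congr fun σ => ?_
    simp only [Function.comp, e1]; ring
  · refine ((t2.comp hlin).const_mul (-M)).congr' ?_
    filter_upwards [hpos] with σ hσ
    rw [(coreO_fderiv K M hM σ _ hσ).1, e1]
    simp [Function.comp]
  · refine ((t1.comp hlin).neg).congr' ?_
    filter_upwards [hpos] with σ hσ
    have hneg : -(M * σ) < 0 := by have := mul_pos hM0 hσ; linarith
    simp only [Function.comp, e2, (K.oddL _ X hneg).1]; ring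
  · refine ((t2.comp hlin).const_mul M).congr' ?_
    filter_upwards [hpos] with σ hσ
    have hneg : -(M * σ) < 0 := by have := mul_pos hM0 hσ; linarith
    rw [(coreO_fderiv K M hM σ _ hσ).1, e2, (K.oddL _ X hneg).2]
    simp [Function.comp]

/-- limits of the right core at `σ = 0` -/
theorem coreP_lim (K : CoreData) (M : ℝ) (hM : 1 ≤ M) (X : ℝ) (h0 : 0 < X) (h1 : X ≤ 1) :
    Tendsto (fun σ => Real.log 2 + (Real.pi / 2 * M) * σ +
        (fun q : ℝ × ℝ => K.uR (M * q.1) q.2) (σ, X)) (𝓝[>] 0) (𝓝 (K.v0 X)) ∧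
    Tendsto (fun σ => Real.pi / 2 * M + fderiv ℝ (fun q : ℝ × ℝ => K.uR (M * q.1) q.2)
        (σ, X) (1, 0)) (𝓝[>] 0) (𝓝 (M * K.g0 X)) := by
  have hM0 : 0 < M := by linarith
  have hlin : Tendsto (fun σ : ℝ => M * σ) (𝓝[>] 0) (𝓝[>] 0) := by
    have := (tendsto_lin_pos M 0 0 hM0 0 (by ring)).1
    refine this.congr fun t => by ring
  obtain ⟨t1, t2⟩ := K.trR X h0 h1
  have hpos : ∀ᶠ σ in 𝓝[>] (0:ℝ), 0 < σ := self_mem_nhdsWithin
  constructor
  · refine (t1.comp hlin).congr fun σ => ?_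
    simp only [Function.comp]; ring
  · refine ((t2.comp hlin).const_mul M).congr' ?_
    filter_upwards [hpos] with σ hσ
    rw [(coreP_fderiv K M hM σ _ hσ).1]
    simp only [Function.comp]; ring

end Crest.Agent.R083
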