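import Crest.Agent.R083.TMFace
import Crest.Agent.R083.TMTrace2
import Crest.Agent.R083.Front

/-!
Row 83 (S0111), TM group: the three solutions with their traces.
-/

set_option autoImplicit false

namespace Crest.Agent.R083

open MeasureTheory Set Filter
open scoped Gradient ENNReal NNReal Topology ContDiff

theorem nsol_of_front (C0 c0 : ℝ) (hc0 : 0 < c0) : ∃ ρ0 : ℝ, ∀ ρ lam : ℝ, ρ0 ≤ ρ → 1 ≤ lam →
    ∀ U : ℝ × ℝ → ℝ, FrontHyp C0 c0 ρ lam U →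
      ∃ (δ N : ℝ) (w : E3 → ℝ) (J : E3 → E3), NSol lam U δ N w J := by
  obtain ⟨ρ0, h⟩ := front C0 c0 hc0
  refine ⟨ρ0, fun ρ lam hρ hlam U hU => ?_⟩
  obtain ⟨δ, N, w, J, a1, a2, a3, a4, a5, a6, a7, a8, a9, a10, a11, a12⟩ :=
    h ρ lam hρ hlam U hU.sm hU.pde hU.wall hU.mean hU.up hU.low
  exact ⟨δ, N, w, J, a1, a2, a3, a4, a5, a6, a7, a8, a9, a10, a11, a12⟩

/-- Common trace of the potential at the level `7/10`. -/
noncomputable def tmv (K : CoreData) (x : ℝ) : ℝ :=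
  if 0 < x then K.v0 (25 / 32 * x) else if x < 0 then -K.v0 (-(25 / 32 * x)) else 0

/-- Common trace of the vertical flux at the level `7/10`. -/
noncomputable def tmj (K : CoreData) (Mc x : ℝ) : ℝ :=
  if 0 < x then -(Mc * K.g0 (25 / 32 * x)) else Mc * K.g0 (-(25 / 32 * x))

theorem tmv_pos (K : CoreData) {x : ℝ} (hx : 0 < x) : tmv K x = K.v0 (25 / 32 * x) := by
  simp [tmv, hx]

theorem tmv_neg (K : CoreData) {x : ℝ} (hx : x < 0) : tmv K x = -K.v0 (-(25 / 32 * x)) := by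
  have h1 : ¬ 0 < x := not_lt.2 hx.le
  simp only [tmv, if_neg h1, if_pos hx]

theorem tmv_zero (K : CoreData) : tmv K 0 = 0 := by simp [tmv]

theorem tmj_pos (K : CoreData) (Mc : ℝ) {x : ℝ} (hx : 0 < x) :
    tmj K Mc x = -(Mc * K.g0 (25 / 32 * x)) := by
  simp [tmj, hx]

theorem tmj_neg (K : CoreData) (Mc : ℝ) {x : ℝ} (hx : x < 0) :
    tmj K Mc x = Mc * K.g0 (-(25 / 32 * x)) := by
  have h1 : ¬ 0 < x := not_lt.2 hx.le
  simp only [tmj, if_neg h1]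

theorem trO (K : CoreData) (Mc : ℝ) (hMc : 10 ≤ Mc) {lam δ N : ℝ} {W : E3 → ℝ}
    {Jn : E3 → E3}
    (h : NSol lam (fun q : ℝ × ℝ => K.uL (-((3 / 10 * Mc) * q.1)) (2 * q.2 - 1)) δ N W Jn)
    (x y : ℝ) (hx : x ∈ Icc (-(32 / 25) : ℝ) (32 / 25)) (hx0 : x ≠ 0) :
    Tendsto (fun t => bw 1 0 0 ![25 / 64, 25 / 44, 10 / 3] ![1 / 2, 1 / 2, -(7 / 3)] W (pt x y t))
      (𝓝[>] (7 / 10)) (𝓝 (tmv K x)) ∧
    Tendsto (fun t => bJ 1 0 ![25 / 64, 25 / 44, 10 / 3] ![1 / 2, 1 / 2, -(7 / 3)] Jn (pt x y t) 2)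
      (𝓝[>] (7 / 10)) (𝓝 (tmj K Mc x)) := by
  have hF : Tendsto (fun t : ℝ => (![25 / 64, 25 / 44, 10 / 3] : Fin 3 → ℝ) 2 * t +
      (![1 / 2, 1 / 2, -(7 / 3)] : Fin 3 → ℝ) 2) (𝓝[>] (7 / 10)) (𝓝[>] 0) := by
    have := (tendsto_lin_pos (10 / 3) (-(7 / 3)) (7 / 10) (by norm_num) 0 (by norm_num)).1
    simpa using this
  have e : (![25 / 64, 25 / 44, 10 / 3] : Fin 3 → ℝ) 0 * x +
      (![1 / 2, 1 / 2, -(7 / 3)] : Fin 3 → ℝ) 0 = (25 / 32 * x + 1) / 2 := by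
    simp; ring
  have e2 : (![25 / 64, 25 / 44, 10 / 3] : Fin 3 → ℝ) 2 = 10 / 3 := by simp
  rcases lt_or_gt_of_ne hx0 with hneg | hpos
  · obtain ⟨-, T1, T2⟩ := coreO_lim K (3 / 10 * Mc) (by linarith) (-(25 / 32 * x)) (by linarith)
      (by linarith [hx.1])
    rw [neg_neg, ← e] at T1 T2
    obtain ⟨S1, S2⟩ := start_traces h 1 0 0 _ _ _ hF x y _ _ T1 T2
    rw [tmv_neg K hneg, tmj_neg K Mc hneg]
    constructor
    · simpa using S1
    · rw [e2] at S2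
      convert S2 using 2
      ring
  · obtain ⟨⟨T1, T2⟩, -⟩ := coreO_lim K (3 / 10 * Mc) (by linarith) (25 / 32 * x) (by linarith)
      (by linarith [hx.2])
    rw [← e] at T1 T2
    obtain ⟨S1, S2⟩ := start_traces h 1 0 0 _ _ _ hF x y _ _ T1 T2
    rw [tmv_pos K hpos, tmj_pos K Mc hpos]
    constructor
    · simpa using S1
    · rw [e2] at S2
      convert S2 using 2
      ring

theorem trP (K : CoreData) (Mc : ℝ) (hMc : 10 ≤ Mc) {lam δ N : ℝ} {W : E3 → ℝ}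
    {Jn : E3 → E3}
    (h : NSol lam (fun q : ℝ × ℝ => K.uR ((1 / 10 * Mc) * q.1) q.2) δ N W Jn)
    (x y : ℝ) (hx : x ∈ Icc (0 : ℝ) (32 / 25)) (hx0 : x ≠ 0) :
    Tendsto (fun t => bw 1 (Real.log 2) (Real.pi / 2 * (1 / 10 * Mc))
      ![25 / 32, 25 / 44, -10] ![0, 1 / 2, 7] W (pt x y t)) (𝓝[<] (7 / 10)) (𝓝 (tmv K x)) ∧
    Tendsto (fun t => bJ 1 (Real.pi / 2 * (1 / 10 * Mc))
      ![25 / 32, 25 / 44, -10] ![0, 1 / 2, 7] Jn (pt x y t) 2)
      (𝓝[<] (7 / 10)) (𝓝 (tmj K Mc x)) := by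
  have hF : Tendsto (fun t : ℝ => (![25 / 32, 25 / 44, -10] : Fin 3 → ℝ) 2 * t +
      (![0, 1 / 2, 7] : Fin 3 → ℝ) 2) (𝓝[<] (7 / 10)) (𝓝[>] 0) := by
    have := (tendsto_lin_neg (-10) 7 (7 / 10) (by norm_num) 0 (by norm_num)).2
    simpa using this
  have e : (![25 / 32, 25 / 44, -10] : Fin 3 → ℝ) 0 * x +
      (![0, 1 / 2, 7] : Fin 3 → ℝ) 0 = 25 / 32 * x := by
    simp
  have e2 : (![25 / 32, 25 / 44, -10] : Fin 3 → ℝ) 2 = -10 := by simp
  have hpos : 0 < x := lt_of_le_of_ne hx.1 (Ne.symm hx0)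
  obtain ⟨T1, T2⟩ := coreP_lim K (1 / 10 * Mc) (by linarith) (25 / 32 * x) (by linarith)
      (by linarith [hx.2])
  rw [← e] at T1 T2
  obtain ⟨S1, S2⟩ := start_traces h 1 _ _ _ _ _ hF x y _ _ T1 T2
  rw [tmv_pos K hpos, tmj_pos K Mc hpos]
  constructor
  · simpa using S1
  · rw [e2, e] at S2
    convert S2 using 2
    ring

theorem trN (K : CoreData) (Mc : ℝ) (hMc : 10 ≤ Mc) {lam δ N : ℝ} {W : E3 → ℝ}
    {Jn : E3 → E3}
    (h : NSol lam (fun q : ℝ × ℝ => K.uR ((1 / 10 * Mc) * q.1) q.2) δ N W Jn)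
    (x y : ℝ) (hx : x ∈ Icc (-(32 / 25) : ℝ) 0) (hx0 : x ≠ 0) :
    Tendsto (fun t => bw (-1) (Real.log 2) (Real.pi / 2 * (1 / 10 * Mc))
      ![-(25 / 32), 25 / 44, -10] ![0, 1 / 2, 7] W (pt x y t)) (𝓝[<] (7 / 10)) (𝓝 (tmv K x)) ∧
    Tendsto (fun t => bJ (-1) (Real.pi / 2 * (1 / 10 * Mc))
      ![-(25 / 32), 25 / 44, -10] ![0, 1 / 2, 7] Jn (pt x y t) 2)
      (𝓝[<] (7 / 10)) (𝓝 (tmj K Mc x)) := by
  have hF : Tendsto (fun t : ℝ => (![-(25 / 32), 25 / 44, -10] : Fin 3 → ℝ) 2 * t +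
      (![0, 1 / 2, 7] : Fin 3 → ℝ) 2) (𝓝[<] (7 / 10)) (𝓝[>] 0) := by
    have := (tendsto_lin_neg (-10) 7 (7 / 10) (by norm_num) 0 (by norm_num)).2
    simpa using this
  have e : (![-(25 / 32), 25 / 44, -10] : Fin 3 → ℝ) 0 * x +
      (![0, 1 / 2, 7] : Fin 3 → ℝ) 0 = -(25 / 32 * x) := by
    simp
  have e2 : (![-(25 / 32), 25 / 44, -10] : Fin 3 → ℝ) 2 = -10 := by simp
  have hneg : x < 0 := lt_of_le_of_ne hx.2 hx0
  obtain ⟨T1, T2⟩ := coreP_lim K (1 / 10 * Mc) (by linarith) (-(25 / 32 * x)) (by linarith)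
      (by linarith [hx.1])
  rw [← e] at T1 T2
  obtain ⟨S1, S2⟩ := start_traces h (-1) _ _ _ _ _ hF x y _ _ T1 T2
  rw [tmv_neg K hneg, tmj_neg K Mc hneg]
  constructor
  · rw [e] at S1
    simpa using S1
  · rw [e2, e] at S2
    convert S2 using 2
    ring

theorem faceSol_O (K : CoreData) (Mc : ℝ) (hMc : 10 ≤ Mc) {lam δ N : ℝ} {W : E3 → ℝ}
    {Jn : E3 → E3}
    (h : NSol lam (fun q : ℝ × ℝ => K.uL (-((3 / 10 * Mc) * q.1)) (2 * q.2 - 1)) δ N W Jn)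
    (hU : ContDiffOn ℝ ∞ (fun q : ℝ × ℝ => K.uL (-((3 / 10 * Mc) * q.1)) (2 * q.2 - 1))
      {q | 0 < q.1}) :
    ∃ (δ' N0 : ℝ) (w : E3 → ℝ) (J : E3 → E3),
      FaceSol (-(32 / 25)) (32 / 25) (-(22 / 25)) (22 / 25) (7 / 10) 1 δ' N0 w J
        (tmv K) (fun _ => 0) (tmj K Mc) (fun _ => 0) := by
  obtain ⟨C, hC⟩ := coreO_tip K (3 / 10 * Mc) (by linarith)
  have hb := boxSol_of_nsol h hU 1 0 0 ![25 / 64, 25 / 44, 10 / 3] ![1 / 2, 1 / 2, -(7 / 3)]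
    (by norm_num) (by intro i; fin_cases i <;> simp) (by simp; norm_num)
    (-(32 / 25)) (32 / 25) (-(22 / 25)) (22 / 25) (7 / 10) 1
    (by intro t h1 h2; simp; constructor <;> linarith)
    (by intro t ht; simp at ht ⊢; constructor <;> linarith [ht.1, ht.2])
    (by intro t ht; simp at ht ⊢; constructor <;> linarith [ht.1, ht.2])
    (by left; simp; norm_num) (by right; simp; norm_num)
    (by left; simp; norm_num) (by right; simp; norm_num)
    C (by intro σ x h1 h2 h3 h4; simpa using hC σ x h1 h2 h3 h4)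
  obtain ⟨δ', N0, hb⟩ := hb
  have hend : ∀ x ∈ Icc (-(32 / 25) : ℝ) (32 / 25), ∀ y ∈ Icc (-(22 / 25) : ℝ) (22 / 25), _ :=
    fun x hx y hy => end_traces h 1 0 0 ![25 / 64, 25 / 44, 10 / 3] ![1 / 2, 1 / 2, -(7 / 3)]
      (𝓝[<] 1)
      (by
        have := (tendsto_lin_pos (10 / 3) (-(7 / 3)) 1 (by norm_num) 1 (by norm_num)).2
        simpa using this) x y
      (by simp; constructor <;> linarith [hx.1, hx.2])
      (by simp; constructor <;> linarith [hy.1, hy.2])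
  refine ⟨δ', N0, _, _, ⟨hb, ?_, ?_, ?_, ?_, ?_, ?_⟩⟩
  · intro x hx y hy hor
    exact (trO K Mc hMc h x y hx (by rcases hor with h | h; exacts [h, absurd rfl h])).1
  · intro x hx y hy _
    simpa using (hend x hx y hy).1
  · intro x hx y hy hor
    exact (trO K Mc hMc h x y hx (by rcases hor with h | h; exacts [h, absurd rfl h])).2
  · intro x hx y hy _
    simpa using (hend x hx y hy).2
  · intro _; exact tmv_zero K
  · intro _; rfl

theorem faceSol_P (K : CoreData) (Mc : ℝ) (hMc : 10 ≤ Mc) {lam δ N : ℝ} {W : E3 → ℝ}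
    {Jn : E3 → E3}
    (h : NSol lam (fun q : ℝ × ℝ => K.uR ((1 / 10 * Mc) * q.1) q.2) δ N W Jn)
    (hU : ContDiffOn ℝ ∞ (fun q : ℝ × ℝ => K.uR ((1 / 10 * Mc) * q.1) q.2)
      {q | 0 < q.1}) :
    ∃ (δ' N0 : ℝ) (w : E3 → ℝ) (J : E3 → E3),
      FaceSol 0 (32 / 25) (-(22 / 25)) (22 / 25) (3 / 5) (7 / 10) δ' N0 w J
        (fun _ => Real.log 2 + Real.pi / 2 * (1 / 10 * Mc)) (tmv K)
        (fun _ => -(Real.pi / 2 * Mc)) (tmj K Mc) := by
  obtain ⟨C, hC⟩ := coreP_tip K (1 / 10 * Mc) (by linarith)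
  have hb := boxSol_of_nsol h hU 1 (Real.log 2) (Real.pi / 2 * (1 / 10 * Mc))
    ![25 / 32, 25 / 44, -10] ![0, 1 / 2, 7]
    (by norm_num) (by intro i; fin_cases i <;> simp) (by simp)
    0 (32 / 25) (-(22 / 25)) (22 / 25) (3 / 5) (7 / 10)
    (by intro t h1 h2; simp; constructor <;> linarith)
    (by intro t ht; simp at ht ⊢; constructor <;> linarith [ht.1, ht.2])
    (by intro t ht; simp at ht ⊢; constructor <;> linarith [ht.1, ht.2])
    (by left; simp) (by right; simp)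
    (by left; simp; norm_num) (by right; simp; norm_num)
    C (by intro σ x h1 h2 h3 h4; simpa using hC σ x h1 h2 h3 h4)
  obtain ⟨δ', N0, hb⟩ := hb
  have hend : ∀ x ∈ Icc (0 : ℝ) (32 / 25), ∀ y ∈ Icc (-(22 / 25) : ℝ) (22 / 25), _ :=
    fun x hx y hy => end_traces h 1 (Real.log 2) (Real.pi / 2 * (1 / 10 * Mc))
      ![25 / 32, 25 / 44, -10] ![0, 1 / 2, 7]
      (𝓝[>] (3 / 5))
      (by
        have := (tendsto_lin_neg (-10) 7 (3 / 5) (by norm_num) 1 (by norm_num)).1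
        simpa using this) x y
      (by simp; constructor <;> linarith [hx.1, hx.2])
      (by simp; constructor <;> linarith [hy.1, hy.2])
  refine ⟨δ', N0, _, _, ⟨hb, ?_, ?_, ?_, ?_, ?_, ?_⟩⟩
  · intro x hx y hy _
    simpa using (hend x hx y hy).1
  · intro x hx y hy hor
    exact (trP K Mc hMc h x y hx (by rcases hor with h | h; exacts [h, absurd rfl h])).1
  · intro x hx y hy _
    have e2 : (![25 / 32, 25 / 44, -10] : Fin 3 → ℝ) 2 = -10 := by simp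
    have := (hend x hx y hy).2
    rw [e2] at this
    convert this using 2
    ring
  · intro x hx y hy hor
    exact (trP K Mc hMc h x y hx (by rcases hor with h | h; exacts [h, absurd rfl h])).2
  · intro h; norm_num at h
  · intro _; exact tmv_zero K

theorem faceSol_N (K : CoreData) (Mc : ℝ) (hMc : 10 ≤ Mc) {lam δ N : ℝ} {W : E3 → ℝ}
    {Jn : E3 → E3}
    (h : NSol lam (fun q : ℝ × ℝ => K.uR ((1 / 10 * Mc) * q.1) q.2) δ N W Jn)
    (hU : ContDiffOn ℝ ∞ (fun q : ℝ × ℝ => K.uR ((1 / 10 * Mc) * q.1) q.2)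
      {q | 0 < q.1}) :
    ∃ (δ' N0 : ℝ) (w : E3 → ℝ) (J : E3 → E3),
      FaceSol (-(32 / 25)) 0 (-(22 / 25)) (22 / 25) (3 / 5) (7 / 10) δ' N0 w J
        (fun _ => -(Real.log 2 + Real.pi / 2 * (1 / 10 * Mc))) (tmv K)
        (fun _ => Real.pi / 2 * Mc) (tmj K Mc) := by
  obtain ⟨C, hC⟩ := coreP_tip K (1 / 10 * Mc) (by linarith)
  have hb := boxSol_of_nsol h hU (-1) (Real.log 2) (Real.pi / 2 * (1 / 10 * Mc))
    ![-(25 / 32), 25 / 44, -10] ![0, 1 / 2, 7]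
    (by norm_num) (by intro i; fin_cases i <;> simp) (by simp)
    (-(32 / 25)) 0 (-(22 / 25)) (22 / 25) (3 / 5) (7 / 10)
    (by intro t h1 h2; simp; constructor <;> linarith)
    (by intro t ht; simp at ht ⊢; constructor <;> linarith [ht.1, ht.2])
    (by intro t ht; simp at ht ⊢; constructor <;> linarith [ht.1, ht.2])
    (by right; simp) (by left; simp)
    (by left; simp; norm_num) (by right; simp; norm_num)
    C (by intro σ x h1 h2 h3 h4; simpa using hC σ x h1 h2 h3 h4)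
  obtain ⟨δ', N0, hb⟩ := hb
  have hend : ∀ x ∈ Icc (-(32 / 25) : ℝ) 0, ∀ y ∈ Icc (-(22 / 25) : ℝ) (22 / 25), _ :=
    fun x hx y hy => end_traces h (-1) (Real.log 2) (Real.pi / 2 * (1 / 10 * Mc))
      ![-(25 / 32), 25 / 44, -10] ![0, 1 / 2, 7]
      (𝓝[>] (3 / 5))
      (by
        have := (tendsto_lin_neg (-10) 7 (3 / 5) (by norm_num) 1 (by norm_num)).1
        simpa using this) x y
      (by simp; constructor <;> linarith [hx.1, hx.2])
      (by simp; constructor <;> linarith [hy.1, hy.2])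
  refine ⟨δ', N0, _, _, ⟨hb, ?_, ?_, ?_, ?_, ?_, ?_⟩⟩
  · intro x hx y hy _
    have := (hend x hx y hy).1
    rw [neg_one_mul] at this
    exact this
  · intro x hx y hy hor
    exact (trN K Mc hMc h x y hx (by rcases hor with h | h; exacts [h, absurd rfl h])).1
  · intro x hx y hy _
    have e2 : (![-(25 / 32), 25 / 44, -10] : Fin 3 → ℝ) 2 = -10 := by simp
    have := (hend x hx y hy).2
    rw [e2] at this
    convert this using 2
    ring
  · intro x hx y hy hor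
    exact (trN K Mc hMc h x y hx (by rcases hor with h | h; exacts [h, absurd rfl h])).2
  · intro h; norm_num at h
  · intro _; exact tmv_zero K

end Crest.Agent.R083
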