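import Crest.Agent.R083.TMNorm

/-!
Row 83 (S0111), TM group: traces of the transported solutions at the two horizontal faces.
-/

set_option autoImplicit false

namespace Crest.Agent.R083

open MeasureTheory Set Filter
open scoped Gradient ENNReal NNReal Topology ContDiff

/-- partial derivatives of the left core in normalised coordinates -/
theorem coreO_fderiv (K : CoreData) (M : ℝ) (hM : 1 ≤ M) (σ x : ℝ) (hσ : 0 < σ) :
    fderiv ℝ (fun q : ℝ × ℝ => K.uL (-(M * q.1)) (2 * q.2 - 1)) (σ, x) (1, 0) =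
      -M * K.uLs (-(M * σ)) (2 * x - 1) ∧
    fderiv ℝ (fun q : ℝ × ℝ => K.uL (-(M * q.1)) (2 * q.2 - 1)) (σ, x) (0, 1) =
      2 * K.uLX (-(M * σ)) (2 * x - 1) := by
  have hopen : IsOpen {q : ℝ × ℝ | 0 < q.1} := isOpen_lt continuous_const continuous_fst
  have hd : DifferentiableAt ℝ (fun q : ℝ × ℝ => K.uL (-(M * q.1)) (2 * q.2 - 1)) (σ, x) :=
    ((K.frontO M hM).sm.contDiffAt (hopen.mem_nhds hσ)).differentiableAt (by simp)
  have hM0 : 0 < M := by linarith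
  have hneg : -(M * σ) < 0 := by have := mul_pos hM0 hσ; linarith
  constructor
  · have h1 : HasDerivAt (fun t : ℝ => ((σ, x) : ℝ × ℝ) + t • ((1, 0) : ℝ × ℝ)) (1, 0) 0 := by
      have := ((hasDerivAt_id (0:ℝ)).smul_const ((1, 0) : ℝ × ℝ)).const_add ((σ, x) : ℝ × ℝ)
      simpa using this
    have h2 := (HasFDerivAt.comp_hasDerivAt (0:ℝ) (f := fun t : ℝ => ((σ, x) : ℝ × ℝ) + t • ((1, 0) : ℝ × ℝ))
      (by simpa using hd.hasFDerivAt) h1)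
    have h3 : HasDerivAt (fun t : ℝ => K.uL (-(M * (σ + t))) (2 * x - 1))
        (-M * K.uLs (-(M * σ)) (2 * x - 1)) 0 := by
      have e1 : HasDerivAt (fun t : ℝ => -(M * (σ + t))) (-M) 0 := by
        have e0 : HasDerivAt (fun t : ℝ => M * (σ + t)) M 0 := by
          have := (((hasDerivAt_id (0:ℝ)).const_add σ).const_mul M)
          simpa using this
        exact e0.neg
      have e2 := (K.dLs (-(M * (σ + 0))) (2 * x - 1) (by simpa using hneg))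
      have e3 := HasDerivAt.comp (0:ℝ) e2 e1
      have : (K.uLs (-(M * (σ + 0))) (2 * x - 1)) * -M = -M * K.uLs (-(M * σ)) (2 * x - 1) := by
        rw [add_zero]; ring
      rw [← this]; exact e3
    have h4 : ((fun q : ℝ × ℝ => K.uL (-(M * q.1)) (2 * q.2 - 1)) ∘
        fun t : ℝ => ((σ, x) : ℝ × ℝ) + t • ((1, 0) : ℝ × ℝ)) =
        fun t : ℝ => K.uL (-(M * (σ + t))) (2 * x - 1) := by
      funext t; simp
    rw [h4] at h2
    exact h2.unique h3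
  · have h1 : HasDerivAt (fun t : ℝ => ((σ, x) : ℝ × ℝ) + t • ((0, 1) : ℝ × ℝ)) (0, 1) 0 := by
      have := ((hasDerivAt_id (0:ℝ)).smul_const ((0, 1) : ℝ × ℝ)).const_add ((σ, x) : ℝ × ℝ)
      simpa using this
    have h2 := (HasFDerivAt.comp_hasDerivAt (0:ℝ) (f := fun t : ℝ => ((σ, x) : ℝ × ℝ) + t • ((0, 1) : ℝ × ℝ))
      (by simpa using hd.hasFDerivAt) h1)
    have h3 : HasDerivAt (fun t : ℝ => K.uL (-(M * σ)) (2 * (x + t) - 1))
        (2 * K.uLX (-(M * σ)) (2 * x - 1)) 0 := by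
      have e1 : HasDerivAt (fun t : ℝ => 2 * (x + t) - 1) 2 0 := by
        have := (((hasDerivAt_id (0:ℝ)).const_add x).const_mul 2).sub_const 1
        simpa using this
      have e2 := (K.dLX (-(M * σ)) (2 * (x + 0) - 1) hneg)
      have e3 := HasDerivAt.comp (0:ℝ) e2 e1
      have : (K.uLX (-(M * σ)) (2 * (x + 0) - 1)) * 2 = 2 * K.uLX (-(M * σ)) (2 * x - 1) := by
        rw [add_zero]; ring
      rw [← this]; exact e3
    have h4 : ((fun q : ℝ × ℝ => K.uL (-(M * q.1)) (2 * q.2 - 1)) ∘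
        fun t : ℝ => ((σ, x) : ℝ × ℝ) + t • ((0, 1) : ℝ × ℝ)) =
        fun t : ℝ => K.uL (-(M * σ)) (2 * (x + t) - 1) := by
      funext t; simp
    rw [h4] at h2
    exact h2.unique h3

/-- partial derivatives of the right core in normalised coordinates -/
theorem coreP_fderiv (K : CoreData) (M : ℝ) (hM : 1 ≤ M) (σ x : ℝ) (hσ : 0 < σ) :
    fderiv ℝ (fun q : ℝ × ℝ => K.uR (M * q.1) q.2) (σ, x) (1, 0) = M * K.uRs (M * σ) x ∧
    fderiv ℝ (fun q : ℝ × ℝ => K.uR (M * q.1) q.2) (σ, x) (0, 1) = K.uRX (M * σ) x := by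
  have hopen : IsOpen {q : ℝ × ℝ | 0 < q.1} := isOpen_lt continuous_const continuous_fst
  have hd : DifferentiableAt ℝ (fun q : ℝ × ℝ => K.uR (M * q.1) q.2) (σ, x) :=
    ((K.frontP M hM).sm.contDiffAt (hopen.mem_nhds hσ)).differentiableAt (by simp)
  have hM0 : 0 < M := by linarith
  have hpos : 0 < M * σ := mul_pos hM0 hσ
  constructor
  · have h1 : HasDerivAt (fun t : ℝ => ((σ, x) : ℝ × ℝ) + t • ((1, 0) : ℝ × ℝ)) (1, 0) 0 := by
      have := ((hasDerivAt_id (0:ℝ)).smul_const ((1, 0) : ℝ × ℝ)).const_add ((σ, x) : ℝ × ℝ)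
      simpa using this
    have h2 := (HasFDerivAt.comp_hasDerivAt (0:ℝ) (f := fun t : ℝ => ((σ, x) : ℝ × ℝ) + t • ((1, 0) : ℝ × ℝ))
      (by simpa using hd.hasFDerivAt) h1)
    have h3 : HasDerivAt (fun t : ℝ => K.uR (M * (σ + t)) x) (M * K.uRs (M * σ) x) 0 := by
      have e1 : HasDerivAt (fun t : ℝ => M * (σ + t)) M 0 := by
        have := (((hasDerivAt_id (0:ℝ)).const_add σ).const_mul M)
        simpa using this
      have e2 := (K.dRs (M * (σ + 0)) x (by simpa using hpos))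
      have e3 := HasDerivAt.comp (0:ℝ) e2 e1
      have : (K.uRs (M * (σ + 0)) x) * M = M * K.uRs (M * σ) x := by
        rw [add_zero]; ring
      rw [← this]; exact e3
    have h4 : ((fun q : ℝ × ℝ => K.uR (M * q.1) q.2) ∘
        fun t : ℝ => ((σ, x) : ℝ × ℝ) + t • ((1, 0) : ℝ × ℝ)) =
        fun t : ℝ => K.uR (M * (σ + t)) x := by
      funext t; simp
    rw [h4] at h2
    exact h2.unique h3
  · have h1 : HasDerivAt (fun t : ℝ => ((σ, x) : ℝ × ℝ) + t • ((0, 1) : ℝ × ℝ)) (0, 1) 0 := by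
      have := ((hasDerivAt_id (0:ℝ)).smul_const ((0, 1) : ℝ × ℝ)).const_add ((σ, x) : ℝ × ℝ)
      simpa using this
    have h2 := (HasFDerivAt.comp_hasDerivAt (0:ℝ) (f := fun t : ℝ => ((σ, x) : ℝ × ℝ) + t • ((0, 1) : ℝ × ℝ))
      (by simpa using hd.hasFDerivAt) h1)
    have h3 : HasDerivAt (fun t : ℝ => K.uR (M * σ) (x + t)) (K.uRX (M * σ) x) 0 := by
      have e1 : HasDerivAt (fun t : ℝ => x + t) 1 0 := by
        have := ((hasDerivAt_id (0:ℝ)).const_add x)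
        simpa using this
      have e2 := (K.dRX (M * σ) (x + 0) hpos)
      have e3 := HasDerivAt.comp (0:ℝ) e2 e1
      have : (K.uRX (M * σ) (x + 0)) * 1 = K.uRX (M * σ) x := by
        rw [add_zero]; ring
      rw [← this]; exact e3
    have h4 : ((fun q : ℝ × ℝ => K.uR (M * q.1) q.2) ∘
        fun t : ℝ => ((σ, x) : ℝ × ℝ) + t • ((0, 1) : ℝ × ℝ)) =
        fun t : ℝ => K.uR (M * σ) (x + t) := by
      funext t; simp
    rw [h4] at h2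
    exact h2.unique h3

/-- the tip bounds in normalised coordinates, left core -/
theorem coreO_tip (K : CoreData) (M : ℝ) (hM : 1 ≤ M) : ∃ C : ℝ, ∀ σ x : ℝ, 0 < σ → σ ≤ 1 / 4 →
    0 ≤ x → x ≤ 1 →
      (0 + 0 * σ + (fun q : ℝ × ℝ => K.uL (-(M * q.1)) (2 * q.2 - 1)) (σ, x)) ^ 2 ≤
        C * √(σ ^ 2 + (x - 1 / 2) ^ 2) ∧
      ((fderiv ℝ (fun q : ℝ × ℝ => K.uL (-(M * q.1)) (2 * q.2 - 1)) (σ, x) (0, 1)) ^ 2 +
        (0 + fderiv ℝ (fun q : ℝ × ℝ => K.uL (-(M * q.1)) (2 * q.2 - 1)) (σ, x) (1, 0)) ^ 2) *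
        √(σ ^ 2 + (x - 1 / 2) ^ 2) ≤ C := by
  obtain ⟨C, hC⟩ := K.tipL M (by linarith)
  have hC0 : 0 ≤ C := le_trans (by positivity) (hC (-(1/2)) 0 (by linarith) (by norm_num) (by norm_num)).2
  refine ⟨C * (M + 2) + (4 + M ^ 2) * C, fun σ x h0 h1 hx0 hx1 => ?_⟩
  obtain ⟨f1, f2⟩ := coreO_fderiv K M hM σ x h0
  rw [f1, f2]
  have hX : |2 * x - 1| ≤ 1 := by rw [abs_le]; constructor <;> linarith
  have hMσ : 0 < M * σ := by positivity
  obtain ⟨c1, c2⟩ := hC (-(M * σ)) (2 * x - 1) (by nlinarith) (by linarith) hX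
  have hs1 : √(σ ^ 2 + (x - 1 / 2) ^ 2) ≤ √((-(M * σ)) ^ 2 + (2 * x - 1) ^ 2) := by
    apply Real.sqrt_le_sqrt
    have : σ ^ 2 ≤ M ^ 2 * σ ^ 2 := by
      have : 1 ≤ M ^ 2 := by nlinarith
      nlinarith [sq_nonneg σ]
    nlinarith [sq_nonneg (x - 1 / 2)]
  have hs2 : √((-(M * σ)) ^ 2 + (2 * x - 1) ^ 2) ≤ (M + 2) * √(σ ^ 2 + (x - 1 / 2) ^ 2) := by
    apply Real.sqrt_le_left (by positivity) |>.2
    rw [mul_pow, Real.sq_sqrt (by positivity)]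
    have h4 : (4:ℝ) ≤ (M + 2) ^ 2 := by nlinarith
    have h5 : M ^ 2 ≤ (M + 2) ^ 2 := by nlinarith
    have h6 := mul_le_mul_of_nonneg_right h4 (sq_nonneg (x - 1 / 2))
    have h7 := mul_le_mul_of_nonneg_right h5 (sq_nonneg σ)
    nlinarith
  constructor
  · have e1 : (0 + 0 * σ + (fun q : ℝ × ℝ => K.uL (-(M * q.1)) (2 * q.2 - 1)) (σ, x)) ^ 2 =
        (K.uL (-(M * σ)) (2 * x - 1)) ^ 2 := by simp
    rw [e1]
    calc (K.uL (-(M * σ)) (2 * x - 1)) ^ 2 ≤ C * √((-(M * σ)) ^ 2 + (2 * x - 1) ^ 2) := c1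
      _ ≤ C * ((M + 2) * √(σ ^ 2 + (x - 1 / 2) ^ 2)) := mul_le_mul_of_nonneg_left hs2 hC0
      _ ≤ (C * (M + 2) + (4 + M ^ 2) * C) * √(σ ^ 2 + (x - 1 / 2) ^ 2) := by
        have : 0 ≤ (4 + M ^ 2) * C * √(σ ^ 2 + (x - 1 / 2) ^ 2) := by positivity
        nlinarith
  · have e2 : (2 * K.uLX (-(M * σ)) (2 * x - 1)) ^ 2 +
        (0 + -M * K.uLs (-(M * σ)) (2 * x - 1)) ^ 2 ≤
        (4 + M ^ 2) * ((K.uLs (-(M * σ)) (2 * x - 1)) ^ 2 + (K.uLX (-(M * σ)) (2 * x - 1)) ^ 2) := by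
      nlinarith [sq_nonneg (K.uLs (-(M * σ)) (2 * x - 1)), mul_nonneg (sq_nonneg M) (sq_nonneg (K.uLX (-(M * σ)) (2 * x - 1)))]
    calc _ ≤ ((4 + M ^ 2) * ((K.uLs (-(M * σ)) (2 * x - 1)) ^ 2 +
          (K.uLX (-(M * σ)) (2 * x - 1)) ^ 2)) * √((-(M * σ)) ^ 2 + (2 * x - 1) ^ 2) :=
        mul_le_mul e2 hs1 (Real.sqrt_nonneg _) (by positivity)
      _ = (4 + M ^ 2) * (((K.uLs (-(M * σ)) (2 * x - 1)) ^ 2 +
          (K.uLX (-(M * σ)) (2 * x - 1)) ^ 2) * √((-(M * σ)) ^ 2 + (2 * x - 1) ^ 2)) := by ring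
      _ ≤ (4 + M ^ 2) * C := mul_le_mul_of_nonneg_left c2 (by positivity)
      _ ≤ C * (M + 2) + (4 + M ^ 2) * C := by nlinarith

/-- the tip bounds in normalised coordinates, right core -/
theorem coreP_tip (K : CoreData) (M : ℝ) (hM : 1 ≤ M) : ∃ C : ℝ, ∀ σ x : ℝ, 0 < σ → σ ≤ 1 / 4 →
    0 ≤ x → x ≤ 1 →
      (Real.log 2 + (Real.pi / 2 * M) * σ + (fun q : ℝ × ℝ => K.uR (M * q.1) q.2) (σ, x)) ^ 2 ≤
        C * √(σ ^ 2 + (x - 0) ^ 2) ∧
      ((fderiv ℝ (fun q : ℝ × ℝ => K.uR (M * q.1) q.2) (σ, x) (0, 1)) ^ 2 +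
        (Real.pi / 2 * M + fderiv ℝ (fun q : ℝ × ℝ => K.uR (M * q.1) q.2) (σ, x) (1, 0)) ^ 2) *
        √(σ ^ 2 + (x - 0) ^ 2) ≤ C := by
  obtain ⟨C, hC⟩ := K.tipR M (by linarith)
  have hC0 : 0 ≤ C := le_trans (by positivity) (hC (1/2) 0 (by norm_num) (by linarith) (by norm_num)).2
  refine ⟨C * (M + 2) + (4 + M ^ 2) * C, fun σ x h0 h1 hx0 hx1 => ?_⟩
  obtain ⟨f1, f2⟩ := coreP_fderiv K M hM σ x h0
  rw [f1, f2]
  have hX : |x| ≤ 1 := by rw [abs_le]; constructor <;> linarith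
  have hMσ : 0 < M * σ := by positivity
  obtain ⟨c1, c2⟩ := hC (M * σ) x hMσ (by nlinarith) hX
  have hs1 : √(σ ^ 2 + (x - 0) ^ 2) ≤ √((M * σ) ^ 2 + x ^ 2) := by
    apply Real.sqrt_le_sqrt
    have : σ ^ 2 ≤ M ^ 2 * σ ^ 2 := by
      have : 1 ≤ M ^ 2 := by nlinarith
      nlinarith [sq_nonneg σ]
    nlinarith [sq_nonneg x]
  have hs2 : √((M * σ) ^ 2 + x ^ 2) ≤ (M + 2) * √(σ ^ 2 + (x - 0) ^ 2) := by
    apply Real.sqrt_le_left (by positivity) |>.2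
    rw [mul_pow (M + 2), Real.sq_sqrt (by positivity)]
    have h4 : (1:ℝ) ≤ (M + 2) ^ 2 := by nlinarith
    have h5 : M ^ 2 ≤ (M + 2) ^ 2 := by nlinarith
    have h6 := mul_le_mul_of_nonneg_right h4 (sq_nonneg x)
    have h7 := mul_le_mul_of_nonneg_right h5 (sq_nonneg σ)
    nlinarith
  constructor
  · have e1 : (Real.log 2 + (Real.pi / 2 * M) * σ +
        (fun q : ℝ × ℝ => K.uR (M * q.1) q.2) (σ, x)) ^ 2 =
        (Real.pi / 2 * (M * σ) + Real.log 2 + K.uR (M * σ) x) ^ 2 := by simp only; ring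
    rw [e1]
    calc _ ≤ C * √((M * σ) ^ 2 + x ^ 2) := c1
      _ ≤ C * ((M + 2) * √(σ ^ 2 + (x - 0) ^ 2)) := mul_le_mul_of_nonneg_left hs2 hC0
      _ ≤ (C * (M + 2) + (4 + M ^ 2) * C) * √(σ ^ 2 + (x - 0) ^ 2) := by
        have : 0 ≤ (4 + M ^ 2) * C * √(σ ^ 2 + (x - 0) ^ 2) := by positivity
        nlinarith
  · have e2 : (K.uRX (M * σ) x) ^ 2 + (Real.pi / 2 * M + M * K.uRs (M * σ) x) ^ 2 ≤
        (4 + M ^ 2) * ((Real.pi / 2 + K.uRs (M * σ) x) ^ 2 + (K.uRX (M * σ) x) ^ 2) := by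
      have : Real.pi / 2 * M + M * K.uRs (M * σ) x = M * (Real.pi / 2 + K.uRs (M * σ) x) := by ring
      rw [this, mul_pow]
      nlinarith [sq_nonneg (Real.pi / 2 + K.uRs (M * σ) x), mul_nonneg (sq_nonneg M) (sq_nonneg (K.uRX (M * σ) x)), sq_nonneg (K.uRX (M * σ) x)]
    calc _ ≤ ((4 + M ^ 2) * ((Real.pi / 2 + K.uRs (M * σ) x) ^ 2 + (K.uRX (M * σ) x) ^ 2)) *
          √((M * σ) ^ 2 + x ^ 2) :=
        mul_le_mul e2 hs1 (Real.sqrt_nonneg _) (by positivity)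
      _ = (4 + M ^ 2) * (((Real.pi / 2 + K.uRs (M * σ) x) ^ 2 + (K.uRX (M * σ) x) ^ 2) *
          √((M * σ) ^ 2 + x ^ 2)) := by ring
      _ ≤ (4 + M ^ 2) * C := mul_le_mul_of_nonneg_left c2 (by positivity)
      _ ≤ C * (M + 2) + (4 + M ^ 2) * C := by nlinarith

end Crest.Agent.R083
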