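import Crest.Agent.R083.Defs

/-!
Row 83 (S0111): the tree of cells, the medium, and the level functions built from a module.
-/

set_option autoImplicit false

namespace Crest.Agent.R083

open MeasureTheory Set Filter
open scoped Gradient ENNReal NNReal Topology

/-- The physical module. -/
structure ModData where
  c : ℝ
  C : ℝ
  d : ℝ
  e : ℝ
  γ : E3 → ℝ
  F : E3 → ℝ
  W : E3 → ℝ
  G : E3 → E3
  Wj : ℕ → E3 → ℝ
  hc : 0 < c
  he : 0 < e
  γm : Measurable γ
  γb : ∀ x, c ≤ γ x ∧ γ x ≤ C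
  FL : ∃ K : ℝ≥0, LipschitzWith K F
  F0 : ∀ x, x ∉ cellB → F x = 0
  Fd : ∀ b, ∀ x ∈ sim b '' cellBc, F x = d
  FE : ∀ (ψ : E3 → ℝ) (K : ℝ≥0), LipschitzWith K ψ →
    ∫ x in modQ, γ x * inner ℝ (∇ F x) (∇ ψ x) =
      (pavg (ψ ∘ sim true) + pavg (ψ ∘ sim false)) / 2 - pavg ψ
  WjL : ∀ j, ∃ K : ℝ≥0, LipschitzWith K (Wj j)
  Wj0 : ∀ j x, x ∉ cellB → Wj j x = 0
  Wje : ∀ j b, ∀ x ∈ sim b '' cellBc, Wj j x = sg b * e
  Wju : TendstoUniformly Wj W atTop
  Gmem : MemLp G 2 volume
  WjG : Tendsto (fun j => eLpNorm (fun x => ∇ (Wj j) x - G x) 2 volume) atTop (𝓝 0)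
  WE : ∀ (ψ : E3 → ℝ) (K : ℝ≥0), LipschitzWith K ψ →
    ∫ x in modQ, γ x * inner ℝ (G x) (∇ ψ x) =
      (pavg (ψ ∘ sim true) - pavg (ψ ∘ sim false)) / 2

/-- Words act on space. -/
noncomputable def simw : List Bool → E3 → E3
  | [] => id
  | b :: w => sim b ∘ simw w

/-- Inverse action. -/
noncomputable def simwInv : List Bool → E3 → E3
  | [] => id
  | b :: w => simwInv w ∘ simInv b

/-- The union of the closed cells of level `n`. -/
noncomputable def Kc : ℕ → Set E3
  | 0 => cellBc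
  | n + 1 => (sim true '' Kc n) ∪ (sim false '' Kc n)

/-- Level `n` average of the cell boundary averages. -/
noncomputable def avgn : ℕ → (E3 → ℝ) → ℝ
  | 0, ψ => pavg ψ
  | n + 1, ψ => (avgn n (ψ ∘ sim true) + avgn n (ψ ∘ sim false)) / 2

namespace ModData

variable (D : ModData)

/-- Level `n` part of `gam0 - 1`; vanishes off `cellB`. -/
noncomputable def q : ℕ → E3 → ℝ
  | 0 => modQ.indicator (fun x => D.γ x - 1)
  | n + 1 => fun x => q n (simInv true x) + q n (simInv false x)

/-- The self-similar medium. -/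
noncomputable def gam0 (x : E3) : ℝ := 1 + ∑' n, D.q n x

/-- The charge potential truncated at level `n`: zero off `cellB`, constant on level `n` cells. -/
noncomputable def P : ℕ → E3 → ℝ
  | 0 => fun _ => 0
  | n + 1 => fun x => D.F x + 5/6 * (P n (simInv true x) + P n (simInv false x))

/-- Value of `P n` on the level `n` cells. -/
noncomputable def pv : ℕ → ℝ
  | 0 => 0
  | n + 1 => D.d + 5/6 * pv n

/-- Neutral potential with charges at level `n + 1`. -/
noncomputable def Psi (n : ℕ) (x : E3) : ℝ :=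
  D.W x + 5/6 * (D.P n (simInv true x) - D.P n (simInv false x))

/-- Lipschitz approximants of `Psi n`. -/
noncomputable def PsiJ (n j : ℕ) (x : E3) : ℝ :=
  D.Wj j x + 5/6 * (D.P n (simInv true x) - D.P n (simInv false x))

/-- The `L²` gradient of `Psi n`. -/
noncomputable def PsiG (n : ℕ) (x : E3) : E3 :=
  D.G x + ∇ (fun y => 5/6 * (D.P n (simInv true y) - D.P n (simInv false y))) x

/-- Value of `Psi n` on the level `n + 1` cells inside `sim true '' cellBc`. -/
noncomputable def tv (n : ℕ) : ℝ := D.e + 5/6 * D.pv n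

end ModData

end Crest.Agent.R083

namespace Crest.Agent.R083

open MeasureTheory Set Filter
open scoped Gradient ENNReal NNReal Topology

/-- Swap of the first two coordinates. -/
noncomputable def swp (p : E3) : E3 := pt (p 1) (p 0) (p 2)

/-- `G` is the `L²` limit of gradients of Lipschitz functions vanishing off `closedBall 0 r`. -/
def SobZ (r : ℝ) (G : E3 → E3) : Prop :=
  MemLp G 2 volume ∧ ∃ zj : ℕ → E3 → ℝ, (∀ j, ∃ K : ℝ≥0, LipschitzWith K (zj j)) ∧
    (∀ j x, r < ‖x‖ → zj j x = 0) ∧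
    Tendsto (fun j => eLpNorm (fun x => ∇ (zj j) x - G x) 2 volume) atTop (𝓝 0)

/-- A box slightly larger than the basic cell; its level `n` copies are pairwise disjoint. -/
def Dbox : Set E3 := {p | |p 0| < 71/50 ∧ |p 1| < 51/50 ∧ |p 2| < 51/50}

end Crest.Agent.R083
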